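import Claimed.Agent.R291.Pin.Cont

/-!
# Row 292 (S0540), unit SCREEN (AT paper Sec. 5), Screen/Place232 : GEOMETRY OF THE SIX MOVES      (OWNER helper232; head of SCREEN: helper229)      0 sorry

TEX[lem:screen-gapped-identity] (the geometric half of the proof), TEX[lem:screen-analytic-translation] (rows, backoff, rounding).   Port of `R291/Pin/Place` (helper72) to the square lattice.
Prefix `scr232_`, defs `scr232*` / `Scr232*`.   MODEL FREE.   Fits `pin_cont_moves` (R291/Pin/Cont) with `K = 6`, `b n = δ n`, `thr = scr232Thr M`.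

Embedding = the one of `Def_0468`: the corner `v : ℤ × ℤ` sits at `(δ v.1, δ v.2)`.  In this embedding the four positive normal transfers of TEX[lem:positive-transfer] (two row spacings) are the
translations by `(0,1)`, `(1,0)`, `(1,1)`, `(-1,1)`: ONE lattice vector each, so all the moves have the same step parameter `b n = δ n` (`a i` = coefficient of the lattice vector, NOT the Euclidean length).
* sec. 1  families `Scr232Kind = T | D | L | R | K` (`K` = the core: the insertion disk, never moves), steps `scr232Step`, functionals `scr232Fn j p = ⟨p, step j⟩`, physical displacement `scr232Tau a f`,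
          lattice displacement `scr232Disp k f`, `scr232_disp : P δ (Disp k f) = Tau (k · δ) f`, `scr232_tau_update`, `scr232_disp_update`.
* sec. 2  `Scr232Sc M κ ρ U0 lm lp obj` THE SCENE, thresholds `scr232Thr M i a` (`scr232_thr_dep` = hypothesis `hthr`), `Scr232Adm M μ a j`.
* sec. 3  margin `scr232Mg κ ρ μ`, level `scr232Lev`, **`scr232_gap`** (stage `j`: still families `≤ lev`, moving families `≥ lev + margin`), **`scr232_final`** (all moves done: core below, all the rest above).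
* sec. 4  **`scr232_pair`**: two different families are separated by the margin in one of the four functionals, hence at sup-distance `≥ margin / 2`, at EVERY admissible placement of EVERY stage.
* sec. 5  lattice frames `scr232Lr j` (rotation: the step becomes `(0,1)` resp. `(1,1)`), row index `scr232Row j`, `scr232_fn_P`, `scr232_row_step`.
* sec. 6  **`scr232_stage`**, **`scr232_stage_fin`**: a site row in the gap with margins `m / 4` on both sides after the backward steps; lattice forms `scr232_row_ge/le`; mirror images `scr232_mirror`.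
* sec. 7  **`scr232_adm_ev`** (hypotheses of `PinMv` ⟹ `Scr232Adm` with a margin, eventually), `scr232_steps`.
* sec. 8  **`scr232_moves`**: `pin_cont_moves` specialised to this geometry: what the model has to supply at each stage, in the vocabulary of this file.
-/

set_option autoImplicit false
set_option linter.unusedVariables false
set_option linter.unusedSimpArgs false
set_option linter.unusedTactic false
set_option linter.unreachableTactic false
set_option linter.unnecessarySeqFocus false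

namespace Claimed.Agent.R292

open Set Metric Filter Topology Claimed.Agent.R291

/-! ## 1. the families, the steps, the displacement table -/

/-- the families: top, bottom (`D`), left, right, and the core `K` (the insertion disk, which never moves) -/
inductive Scr232Kind
  | T | D | L | R | K
  deriving DecidableEq

/-- the lattice vectors of the six moves      TEX[lem:screen-gapped-identity]: `T ↑`, `D ↓`, `T ∪ R ↗`, `D ∪ L ↙`, `D ∪ L ←`, `D ∪ L ↖` -/
def scr232Step (j : Fin 6) : ℤ × ℤ := ![(0, 1), (0, -1), (1, 1), (-1, -1), (-1, 0), (-1, 1)] j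

/-- the direction of the move `j` in the plane -/
def scr232Dir (j : Fin 6) : ℝ × ℝ := ![(0, 1), (0, -1), (1, 1), (-1, -1), (-1, 0), (-1, 1)] j

/-- the functional `p ↦ ⟨p, dir j⟩` (NOT normalised) -/
def scr232Fn (j : Fin 6) (p : ℝ × ℝ) : ℝ := ![p.2, -p.2, p.1 + p.2, -p.1 - p.2, -p.1, p.2 - p.1] j

/-- `|dir j|²` -/
def scr232Nsq (j : Fin 6) : ℕ := ![1, 1, 2, 2, 1, 2] j

theorem scr232_fn_add (j : Fin 6) (p q : ℝ × ℝ) : scr232Fn j (p + q) = scr232Fn j p + scr232Fn j q := by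
  fin_cases j <;> simp [scr232Fn] <;> ring

theorem scr232_fn_smul (j : Fin 6) (s : ℝ) (p : ℝ × ℝ) : scr232Fn j (s • p) = s * scr232Fn j p := by
  fin_cases j <;> simp [scr232Fn] <;> ring

theorem scr232_fn_dir (j : Fin 6) : scr232Fn j (scr232Dir j) = scr232Nsq j := by
  fin_cases j <;> simp [scr232Fn, scr232Dir, scr232Nsq] <;> norm_num

theorem scr232_nsq_pos (j : Fin 6) : 0 < scr232Nsq j := by
  fin_cases j <;> simp [scr232Nsq]

theorem scr232_nsq_le (j : Fin 6) : scr232Nsq j ≤ 2 := by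
  fin_cases j <;> simp [scr232Nsq]

/-- a functional is `2`-Lipschitz for the sup distance of `ℝ × ℝ` -/
theorem scr232_fn_dist (j : Fin 6) (p q : ℝ × ℝ) : scr232Fn j p - scr232Fn j q ≤ 2 * dist p q := by
  have h1 : |p.1 - q.1| ≤ dist p q := by
    rw [Prod.dist_eq, ← Real.dist_eq]; exact le_max_left _ _
  have h2 : |p.2 - q.2| ≤ dist p q := by
    rw [Prod.dist_eq, ← Real.dist_eq]; exact le_max_right _ _
  obtain ⟨a1, a2⟩ := abs_le.1 h1
  obtain ⟨b1, b2⟩ := abs_le.1 h2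
  have h0 : 0 ≤ dist p q := dist_nonneg
  fin_cases j <;> simp only [scr232Fn] <;> simp <;> linarith

/-- physical displacement of a family under the six moves      TEX[lem:screen-gapped-identity] -/
def scr232Tau (a : Fin 6 → ℝ) : Scr232Kind → ℝ × ℝ
  | .T => (a 2, a 0 + a 2)
  | .R => (a 2, a 2)
  | .D => (-a 3 - a 4 - a 5, -a 1 - a 3 + a 5)
  | .L => (-a 3 - a 4 - a 5, -a 3 + a 5)
  | .K => (0, 0)

/-- lattice displacement of a family under the numbers of steps `k` -/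
def scr232Disp (k : Fin 6 → ℕ) : Scr232Kind → ℤ × ℤ
  | .T => ((k 2 : ℤ), (k 0 : ℤ) + (k 2 : ℤ))
  | .R => ((k 2 : ℤ), (k 2 : ℤ))
  | .D => (-(k 3 : ℤ) - (k 4 : ℤ) - (k 5 : ℤ), -(k 1 : ℤ) - (k 3 : ℤ) + (k 5 : ℤ))
  | .L => (-(k 3 : ℤ) - (k 4 : ℤ) - (k 5 : ℤ), -(k 3 : ℤ) + (k 5 : ℤ))
  | .K => (0, 0)

/-- the embedding of `Def_0468` -/
def scr232P (δ : ℝ) (v : ℤ × ℤ) : ℝ × ℝ := (δ * v.1, δ * v.2)

theorem scr232_P_add (δ : ℝ) (u v : ℤ × ℤ) : scr232P δ (u + v) = scr232P δ u + scr232P δ v := by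
  ext <;> simp [scr232P] <;> ring

/-- the lattice displacement realises the physical one, with `a i = k i * δ` -/
theorem scr232_disp (δ : ℝ) (k : Fin 6 → ℕ) (f : Scr232Kind) :
    scr232P δ (scr232Disp k f) = scr232Tau (fun i => (k i : ℝ) * δ) f := by
  cases f <;> ext <;> simp [scr232P, scr232Disp, scr232Tau] <;> ring

/-- the family moved by the move `j` -/
def scr232Mov (j : Fin 6) (f : Scr232Kind) : Prop :=
  ![f = .T, f = .D, f = .T ∨ f = .R, f = .D ∨ f = .L, f = .D ∨ f = .L, f = .D ∨ f = .L] j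

open Classical in
/-- the move `j` translates the moving family by `s` times the direction `scr232Dir j` -/
theorem scr232_tau_update (a : Fin 6 → ℝ) (j : Fin 6) (s : ℝ) (f : Scr232Kind) :
    scr232Tau (Function.update a j (a j + s)) f = scr232Tau a f + if scr232Mov j f then s • scr232Dir j else 0 := by
  fin_cases j <;> cases f <;> ext <;> simp [scr232Tau, scr232Mov, scr232Dir, Function.update] <;> ring

open Classical in
/-- the move `j` translates the moving families by lattice steps -/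
theorem scr232_disp_update (k : Fin 6 → ℕ) (j : Fin 6) (m : ℕ) (f : Scr232Kind) :
    scr232Disp (Function.update k j (k j + m)) f = scr232Disp k f + if scr232Mov j f then (m : ℤ) • scr232Step j else 0 := by
  fin_cases j <;> cases f <;> ext <;> simp [scr232Disp, scr232Mov, scr232Step, Function.update] <;> ring

/-! ## 2. the scene, the thresholds -/

/-- **the scene** = the strict geometry of the arrangement of TEX[lem:screen-gapped-identity] in projections: `obj f` = union of the (enlarged) supports / isolating neighbourhoods of the family `f`;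
`M` bounds both coordinates; `T` above, `D` below the middle band `[lm, lp]`; in the projection on `(1,1)` the order is `L < K < R` -/
structure Scr232Sc (M κ ρ U0 lm lp : ℝ) (obj : Scr232Kind → Set (ℝ × ℝ)) : Prop where
  κ0 : 0 < κ
  ρ0 : 0 < ρ
  lml : lm ≤ lp
  U0M : |U0| + ρ ≤ 2 * M
  lpM : |lp| + κ ≤ M
  lmM : |lm| + κ ≤ M
  bdX : ∀ f, ∀ p ∈ obj f, |p.1| ≤ M
  bdY : ∀ f, ∀ p ∈ obj f, |p.2| ≤ M
  T : ∀ p ∈ obj .T, lp + κ ≤ p.2
  D : ∀ p ∈ obj .D, p.2 ≤ lm - κ
  mid : ∀ f, f ≠ .T → f ≠ .D → ∀ p ∈ obj f, lm + κ ≤ p.2 ∧ p.2 ≤ lp - κ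
  R : ∀ p ∈ obj .R, U0 + ρ / 2 ≤ p.1 + p.2
  L : ∀ p ∈ obj .L, p.1 + p.2 ≤ U0 - ρ / 2
  K : ∀ p ∈ obj .K, |p.1 + p.2 - U0| ≤ ρ / 4

/-- the thresholds of the six moves (each depends on the earlier moves only) -/
def scr232Thr (M : ℝ) (i : Fin 6) (a : Fin 6 → ℝ) : ℝ :=
  ![4 * M, 4 * M, 2 * M, 2 * M, 4 * M + a 0 + a 1, 2 * M + a 1 + a 3] i

theorem scr232_thr0 (M : ℝ) (a : Fin 6 → ℝ) : scr232Thr M 0 a = 4 * M := rfl
theorem scr232_thr1 (M : ℝ) (a : Fin 6 → ℝ) : scr232Thr M 1 a = 4 * M := rfl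
theorem scr232_thr2 (M : ℝ) (a : Fin 6 → ℝ) : scr232Thr M 2 a = 2 * M := rfl
theorem scr232_thr3 (M : ℝ) (a : Fin 6 → ℝ) : scr232Thr M 3 a = 2 * M := rfl
theorem scr232_thr4 (M : ℝ) (a : Fin 6 → ℝ) : scr232Thr M 4 a = 4 * M + a 0 + a 1 := rfl
theorem scr232_thr5 (M : ℝ) (a : Fin 6 → ℝ) : scr232Thr M 5 a = 2 * M + a 1 + a 3 := rfl

/-- hypothesis `hthr` of `pin_cont_moves` -/
theorem scr232_thr_dep (M : ℝ) (i : Fin 6) (a a' : Fin 6 → ℝ) (h : ∀ l : Fin 6, l < i → a l = a' l) : scr232Thr M i a = scr232Thr M i a' := by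
  fin_cases i
  · rfl
  · rfl
  · rfl
  · rfl
  · show 4 * M + a 0 + a 1 = 4 * M + a' 0 + a' 1
    rw [h 0 (by decide), h 1 (by decide)]
  · show 2 * M + a 1 + a 3 = 2 * M + a' 1 + a' 3
    rw [h 1 (by decide), h 3 (by decide)]

/-- the placement `a` is admissible at the stage `j` with the margin `μ`: the first `j` moves are beyond their thresholds, the others are absent -/
structure Scr232Adm (M μ : ℝ) (a : Fin 6 → ℝ) (j : ℕ) : Prop where
  nn : ∀ i, 0 ≤ a i
  big : ∀ i : Fin 6, i.val < j → scr232Thr M i a + 2 * μ ≤ a i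
  zero : ∀ i : Fin 6, j ≤ i.val → a i = 0

/-! ## 3. the levels and the gaps -/

/-- family dependent bounds of the projections on `(0,1)` and `(1,1)` -/
def scr232LoE (M κ lm lp : ℝ) : Scr232Kind → ℝ
  | .T => lp + κ
  | .D => -M
  | _ => lm + κ
def scr232HiE (M κ lm lp : ℝ) : Scr232Kind → ℝ
  | .T => M
  | .D => lm - κ
  | _ => lp - κ
noncomputable def scr232LoU (M ρ U0 : ℝ) : Scr232Kind → ℝ
  | .R => U0 + ρ / 2
  | .K => U0 - ρ / 4
  | _ => -(2 * M)
noncomputable def scr232HiU (M ρ U0 : ℝ) : Scr232Kind → ℝ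
  | .L => U0 - ρ / 2
  | .K => U0 + ρ / 4
  | _ => 2 * M

/-- all the information of the scene on a point of the family `f`, in a uniform shape -/
theorem Scr232Sc.info {M κ ρ U0 lm lp : ℝ} {obj : Scr232Kind → Set (ℝ × ℝ)} (hS : Scr232Sc M κ ρ U0 lm lp obj) (f : Scr232Kind) {p : ℝ × ℝ} (hp : p ∈ obj f) :
    (-M ≤ p.1 ∧ p.1 ≤ M) ∧ (-M ≤ p.2 ∧ p.2 ≤ M) ∧
    (scr232LoE M κ lm lp f ≤ p.2 ∧ p.2 ≤ scr232HiE M κ lm lp f) ∧
    (scr232LoU M ρ U0 f ≤ p.1 + p.2 ∧ p.1 + p.2 ≤ scr232HiU M ρ U0 f) := by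
  have hX := abs_le.1 (hS.bdX f p hp)
  have hY := abs_le.1 (hS.bdY f p hp)
  refine ⟨hX, hY, ?_, ?_⟩
  · cases f
    · exact ⟨hS.T p hp, hY.2⟩
    · exact ⟨hY.1, hS.D p hp⟩
    · exact hS.mid _ (by simp) (by simp) p hp
    · exact hS.mid _ (by simp) (by simp) p hp
    · exact hS.mid _ (by simp) (by simp) p hp
  · cases f
    · exact ⟨by simp only [scr232LoU]; linarith [hX.1, hY.1], by simp only [scr232HiU]; linarith [hX.2, hY.2]⟩
    · exact ⟨by simp only [scr232LoU]; linarith [hX.1, hY.1], by simp only [scr232HiU]; linarith [hX.2, hY.2]⟩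
    · exact ⟨by simp only [scr232LoU]; linarith [hX.1, hY.1], hS.L p hp⟩
    · exact ⟨hS.R p hp, by simp only [scr232HiU]; linarith [hX.2, hY.2]⟩
    · have := abs_le.1 (hS.K p hp)
      exact ⟨by simp only [scr232LoU]; linarith [this.1], by simp only [scr232HiU]; linarith [this.2]⟩

/-- the margin of all the gaps -/
noncomputable def scr232Mg (κ ρ μ : ℝ) : ℝ := min (min (2 * κ) (ρ / 4)) μ

theorem scr232_mg_pos {κ ρ μ : ℝ} (hκ : 0 < κ) (hρ : 0 < ρ) (hμ : 0 < μ) : 0 < scr232Mg κ ρ μ :=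
  lt_min (lt_min (by positivity) (by positivity)) hμ

/-- the level of the gap of the move `j` in the functional `scr232Fn j` (only the last one depends on the placement, through the FIRST move) -/
noncomputable def scr232Lev (M κ ρ U0 lm lp : ℝ) (a : Fin 6 → ℝ) (j : Fin 6) : ℝ :=
  ![lp - κ, -lm - κ, U0 + ρ / 4, -U0 + ρ / 4, M, 2 * M + a 0] j

/-- the level does not change during the move `j` itself (nor during a later one) -/
theorem scr232_lev_update (M κ ρ U0 lm lp : ℝ) (a : Fin 6 → ℝ) (j i : Fin 6) (hi : i ≠ 0) (s : ℝ) :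
    scr232Lev M κ ρ U0 lm lp (Function.update a i s) j = scr232Lev M κ ρ U0 lm lp a j := by
  unfold scr232Lev
  rw [Function.update_of_ne (Ne.symm hi)]

/-- **the gap of the move `j`**: at every placement admissible at the stage `j` the families which do not move (and the core) are below the level, the moving families are above the level plus the margin -/
theorem scr232_gap {M κ ρ U0 lm lp μ : ℝ} {obj : Scr232Kind → Set (ℝ × ℝ)} (hS : Scr232Sc M κ ρ U0 lm lp obj) (hμ : 0 ≤ μ) {a : Fin 6 → ℝ} {j : Fin 6}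
    (ha : Scr232Adm M μ a j.val) (f : Scr232Kind) {p : ℝ × ℝ} (hp : p ∈ obj f) :
    (¬ scr232Mov j f → scr232Fn j (p + scr232Tau a f) ≤ scr232Lev M κ ρ U0 lm lp a j) ∧
    (scr232Mov j f → scr232Lev M κ ρ U0 lm lp a j + scr232Mg κ ρ μ ≤ scr232Fn j (p + scr232Tau a f)) := by
  obtain ⟨m, hm⟩ : ∃ m, m = scr232Mg κ ρ μ := ⟨_, rfl⟩
  rw [← hm]
  have m1 : m ≤ 2 * κ := by rw [hm]; exact (min_le_left _ _).trans (min_le_left _ _)
  have m2 : m ≤ ρ / 4 := by rw [hm]; exact (min_le_left _ _).trans (min_le_right _ _)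
  have m3 : m ≤ μ := by rw [hm]; exact min_le_right _ _
  obtain ⟨⟨px1, px2⟩, ⟨py1, py2⟩, ⟨pe3, pe4⟩, ⟨pu3, pu4⟩⟩ := hS.info f hp
  have hκ := hS.κ0
  have hρ := hS.ρ0
  have hl := hS.lml
  obtain ⟨hU1, hU2⟩ := abs_le.1 (show |U0| ≤ 2 * M - ρ by linarith [hS.U0M])
  obtain ⟨hp1, hp2⟩ := abs_le.1 (show |lp| ≤ M - κ by linarith [hS.lpM])
  obtain ⟨hm1, hm2⟩ := abs_le.1 (show |lm| ≤ M - κ by linarith [hS.lmM])
  have n0 := ha.nn 0
  have n1 := ha.nn 1
  have n2 := ha.nn 2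
  have n3 := ha.nn 3
  have n4 := ha.nn 4
  have n5 := ha.nn 5
  fin_cases j
  · have z0 := ha.zero 0 (by simp)
    have z1 := ha.zero 1 (by simp)
    have z2 := ha.zero 2 (by simp)
    have z3 := ha.zero 3 (by simp)
    have z4 := ha.zero 4 (by simp)
    have z5 := ha.zero 5 (by simp)
    show (_ → (p + scr232Tau a f).2 ≤ lp - κ) ∧ (_ → lp - κ + m ≤ (p + scr232Tau a f).2)
    constructor <;> intro hf <;> cases f <;> first
      | (exfalso; simp [scr232Mov] at hf; done)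
      | (simp only [scr232Tau, Prod.fst_add, Prod.snd_add, scr232LoE, scr232HiE, scr232LoU, scr232HiU] at *; linarith)
  · have b0 := ha.big 0 (by simp)
    have z1 := ha.zero 1 (by simp)
    have z2 := ha.zero 2 (by simp)
    have z3 := ha.zero 3 (by simp)
    have z4 := ha.zero 4 (by simp)
    have z5 := ha.zero 5 (by simp)
    show (_ → -(p + scr232Tau a f).2 ≤ -lm - κ) ∧ (_ → -lm - κ + m ≤ -(p + scr232Tau a f).2)
    constructor <;> intro hf <;> cases f <;> first
      | (exfalso; simp [scr232Mov] at hf; done)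
      | (simp only [scr232Tau, Prod.fst_add, Prod.snd_add, scr232LoE, scr232HiE, scr232LoU, scr232HiU] at *; linarith)
  · have b0 := ha.big 0 (by simp)
    have b1 := ha.big 1 (by simp)
    have z2 := ha.zero 2 (by simp)
    have z3 := ha.zero 3 (by simp)
    have z4 := ha.zero 4 (by simp)
    have z5 := ha.zero 5 (by simp)
    rw [scr232_thr0] at b0
    rw [scr232_thr1] at b1
    show (_ → (p + scr232Tau a f).1 + (p + scr232Tau a f).2 ≤ U0 + ρ / 4) ∧ (_ → U0 + ρ / 4 + m ≤ (p + scr232Tau a f).1 + (p + scr232Tau a f).2)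
    constructor <;> intro hf <;> cases f <;> first
      | (exfalso; simp [scr232Mov] at hf; done)
      | (simp only [scr232Tau, Prod.fst_add, Prod.snd_add, scr232LoE, scr232HiE, scr232LoU, scr232HiU] at *; linarith)
  · have b0 := ha.big 0 (by simp)
    have b1 := ha.big 1 (by simp)
    have b2 := ha.big 2 (by simp)
    have z3 := ha.zero 3 (by simp)
    have z4 := ha.zero 4 (by simp)
    have z5 := ha.zero 5 (by simp)
    rw [scr232_thr0] at b0
    rw [scr232_thr1] at b1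
    rw [scr232_thr2] at b2
    show (_ → -(p + scr232Tau a f).1 - (p + scr232Tau a f).2 ≤ -U0 + ρ / 4) ∧ (_ → -U0 + ρ / 4 + m ≤ -(p + scr232Tau a f).1 - (p + scr232Tau a f).2)
    constructor <;> intro hf <;> cases f <;> first
      | (exfalso; simp [scr232Mov] at hf; done)
      | (simp only [scr232Tau, Prod.fst_add, Prod.snd_add, scr232LoE, scr232HiE, scr232LoU, scr232HiU] at *; linarith)
  · have b0 := ha.big 0 (by simp)
    have b1 := ha.big 1 (by simp)
    have b2 := ha.big 2 (by simp)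
    have b3 := ha.big 3 (by simp)
    have z4 := ha.zero 4 (by simp)
    have z5 := ha.zero 5 (by simp)
    rw [scr232_thr0] at b0
    rw [scr232_thr1] at b1
    rw [scr232_thr2] at b2
    rw [scr232_thr3] at b3
    show (_ → -(p + scr232Tau a f).1 ≤ M) ∧ (_ → M + m ≤ -(p + scr232Tau a f).1)
    constructor <;> intro hf <;> cases f <;> first
      | (exfalso; simp [scr232Mov] at hf; done)
      | (simp only [scr232Tau, Prod.fst_add, Prod.snd_add, scr232LoE, scr232HiE, scr232LoU, scr232HiU] at *; linarith)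
  · have b0 := ha.big 0 (by simp)
    have b1 := ha.big 1 (by simp)
    have b2 := ha.big 2 (by simp)
    have b3 := ha.big 3 (by simp)
    have b4 := ha.big 4 (by simp)
    have z5 := ha.zero 5 (by simp)
    rw [scr232_thr0] at b0
    rw [scr232_thr1] at b1
    rw [scr232_thr2] at b2
    rw [scr232_thr3] at b3
    rw [scr232_thr4] at b4
    show (_ → (p + scr232Tau a f).2 - (p + scr232Tau a f).1 ≤ 2 * M + a 0) ∧ (_ → 2 * M + a 0 + m ≤ (p + scr232Tau a f).2 - (p + scr232Tau a f).1)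
    constructor <;> intro hf <;> cases f <;> first
      | (exfalso; simp [scr232Mov] at hf; done)
      | (simp only [scr232Tau, Prod.fst_add, Prod.snd_add, scr232LoE, scr232HiE, scr232LoU, scr232HiU] at *; linarith)

/-- **the final placement**: the core is below the level `lp - κ`, every other family is above it by the margin, in the vertical projection -/
theorem scr232_final {M κ ρ U0 lm lp μ : ℝ} {obj : Scr232Kind → Set (ℝ × ℝ)} (hS : Scr232Sc M κ ρ U0 lm lp obj) (hμ : 0 ≤ μ) {a : Fin 6 → ℝ}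
    (ha : Scr232Adm M μ a 6) (f : Scr232Kind) {p : ℝ × ℝ} (hp : p ∈ obj f) :
    (f = .K → (p + scr232Tau a f).2 ≤ lp - κ) ∧ (f ≠ .K → lp - κ + scr232Mg κ ρ μ ≤ (p + scr232Tau a f).2) := by
  obtain ⟨m, hm⟩ : ∃ m, m = scr232Mg κ ρ μ := ⟨_, rfl⟩
  rw [← hm]
  have m1 : m ≤ 2 * κ := by rw [hm]; exact (min_le_left _ _).trans (min_le_left _ _)
  have m3 : m ≤ μ := by rw [hm]; exact min_le_right _ _
  obtain ⟨⟨px1, px2⟩, ⟨py1, py2⟩, ⟨pe3, pe4⟩, ⟨pu3, pu4⟩⟩ := hS.info f hp
  have hκ := hS.κ0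
  have hl := hS.lml
  obtain ⟨hp1, hp2⟩ := abs_le.1 (show |lp| ≤ M - κ by linarith [hS.lpM])
  obtain ⟨hm1, hm2⟩ := abs_le.1 (show |lm| ≤ M - κ by linarith [hS.lmM])
  have n0 := ha.nn 0
  have n1 := ha.nn 1
  have n2 := ha.nn 2
  have n3 := ha.nn 3
  have n4 := ha.nn 4
  have n5 := ha.nn 5
  have b0 := ha.big 0 (by simp)
  have b1 := ha.big 1 (by simp)
  have b2 := ha.big 2 (by simp)
  have b3 := ha.big 3 (by simp)
  have b4 := ha.big 4 (by simp)
  have b5 := ha.big 5 (by simp)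
  rw [scr232_thr0] at b0
  rw [scr232_thr1] at b1
  rw [scr232_thr2] at b2
  rw [scr232_thr3] at b3
  rw [scr232_thr4] at b4
  rw [scr232_thr5] at b5
  constructor <;> intro hf <;> cases f <;> first
    | (exfalso; simp at hf; done)
    | (simp only [scr232Tau, Prod.fst_add, Prod.snd_add, scr232LoE, scr232HiE, scr232LoU, scr232HiU] at *; linarith)

/-! ## 4. every pair of families is separated at every admissible placement -/

/-- separation of two points in the functional `j` -/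
theorem scr232_sep (j : Fin 6) {x y : ℝ × ℝ} {c : ℝ} (h : c ≤ scr232Fn j x - scr232Fn j y) : c / 2 ≤ dist x y := by
  have := scr232_fn_dist j x y
  linarith

/-- **two different families are separated by the margin in one of the functionals at every admissible placement, at every stage** -/
theorem scr232_pair_fn {M κ ρ U0 lm lp μ : ℝ} {obj : Scr232Kind → Set (ℝ × ℝ)} (hS : Scr232Sc M κ ρ U0 lm lp obj) (hμ : 0 ≤ μ) {a : Fin 6 → ℝ} {j : ℕ}
    (ha : Scr232Adm M μ a j) {f g : Scr232Kind} (hfg : f ≠ g) {p q : ℝ × ℝ} (hp : p ∈ obj f) (hq : q ∈ obj g) :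
    ∃ i : Fin 6, scr232Mg κ ρ μ ≤ scr232Fn i (p + scr232Tau a f) - scr232Fn i (q + scr232Tau a g) := by
  obtain ⟨m, hm⟩ : ∃ m, m = scr232Mg κ ρ μ := ⟨_, rfl⟩
  rw [← hm]
  have m1 : m ≤ 2 * κ := by rw [hm]; exact (min_le_left _ _).trans (min_le_left _ _)
  have m2 : m ≤ ρ / 4 := by rw [hm]; exact (min_le_left _ _).trans (min_le_right _ _)
  have m3 : m ≤ μ := by rw [hm]; exact min_le_right _ _
  obtain ⟨⟨px1, px2⟩, ⟨py1, py2⟩, ⟨pe3, pe4⟩, ⟨pu3, pu4⟩⟩ := hS.info f hp
  obtain ⟨⟨qx1, qx2⟩, ⟨qy1, qy2⟩, ⟨qe3, qe4⟩, ⟨qu3, qu4⟩⟩ := hS.info g hq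
  have hκ := hS.κ0
  have hρ := hS.ρ0
  have hl := hS.lml
  have n0 := ha.nn 0
  have n1 := ha.nn 1
  have n2 := ha.nn 2
  have n3 := ha.nn 3
  have n4 := ha.nn 4
  have n5 := ha.nn 5
  by_cases h4 : j ≤ 3
  · -- the moves 3, 4, 5 are absent: the vertical order `D < L, K, R < T` and the order `L < K < R` in the projection on `(1,1)` survive
    have z3 := ha.zero 3 (by simpa using h4)
    have z4 := ha.zero 4 (by simp; omega)
    have z5 := ha.zero 5 (by simp; omega)
    cases f <;> cases g <;> first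
      | exact absurd rfl hfg
      | (refine ⟨0, ?_⟩; show m ≤ (_ : ℝ × ℝ).2 - (_ : ℝ × ℝ).2
         simp only [scr232Tau, Prod.fst_add, Prod.snd_add, scr232LoE, scr232HiE, scr232LoU, scr232HiU] at *; linarith)
      | (refine ⟨1, ?_⟩; show m ≤ -(_ : ℝ × ℝ).2 - -(_ : ℝ × ℝ).2
         simp only [scr232Tau, Prod.fst_add, Prod.snd_add, scr232LoE, scr232HiE, scr232LoU, scr232HiU] at *; linarith)
      | (refine ⟨2, ?_⟩; show m ≤ ((_ : ℝ × ℝ).1 + (_ : ℝ × ℝ).2) - ((_ : ℝ × ℝ).1 + (_ : ℝ × ℝ).2)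
         simp only [scr232Tau, Prod.fst_add, Prod.snd_add, scr232LoE, scr232HiE, scr232LoU, scr232HiU] at *; linarith)
      | (refine ⟨3, ?_⟩; show m ≤ (-(_ : ℝ × ℝ).1 - (_ : ℝ × ℝ).2) - (-(_ : ℝ × ℝ).1 - (_ : ℝ × ℝ).2)
         simp only [scr232Tau, Prod.fst_add, Prod.snd_add, scr232LoE, scr232HiE, scr232LoU, scr232HiU] at *; linarith)
  · -- the move 3 is beyond its threshold: `D ∪ L` is to the left of everything else
    have b3 := ha.big 3 (by simp; omega)
    rw [scr232_thr3] at b3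
    cases f <;> cases g <;> first
      | exact absurd rfl hfg
      | (refine ⟨4, ?_⟩; show m ≤ -(_ : ℝ × ℝ).1 - -(_ : ℝ × ℝ).1
         simp only [scr232Tau, Prod.fst_add, Prod.snd_add, scr232LoE, scr232HiE, scr232LoU, scr232HiU] at *; linarith)
      | (refine ⟨0, ?_⟩; show m ≤ (_ : ℝ × ℝ).2 - (_ : ℝ × ℝ).2
         simp only [scr232Tau, Prod.fst_add, Prod.snd_add, scr232LoE, scr232HiE, scr232LoU, scr232HiU] at *; linarith)
      | (refine ⟨1, ?_⟩; show m ≤ -(_ : ℝ × ℝ).2 - -(_ : ℝ × ℝ).2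
         simp only [scr232Tau, Prod.fst_add, Prod.snd_add, scr232LoE, scr232HiE, scr232LoU, scr232HiU] at *; linarith)
      | (refine ⟨2, ?_⟩; show m ≤ ((_ : ℝ × ℝ).1 + (_ : ℝ × ℝ).2) - ((_ : ℝ × ℝ).1 + (_ : ℝ × ℝ).2)
         simp only [scr232Tau, Prod.fst_add, Prod.snd_add, scr232LoE, scr232HiE, scr232LoU, scr232HiU] at *; linarith)
      | (refine ⟨3, ?_⟩; show m ≤ (-(_ : ℝ × ℝ).1 - (_ : ℝ × ℝ).2) - (-(_ : ℝ × ℝ).1 - (_ : ℝ × ℝ).2)
         simp only [scr232Tau, Prod.fst_add, Prod.snd_add, scr232LoE, scr232HiE, scr232LoU, scr232HiU] at *; linarith)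

/-- **two different families are at the sup distance `≥ margin / 2` at every admissible placement, at every stage** -/
theorem scr232_pair {M κ ρ U0 lm lp μ : ℝ} {obj : Scr232Kind → Set (ℝ × ℝ)} (hS : Scr232Sc M κ ρ U0 lm lp obj) (hμ : 0 ≤ μ) {a : Fin 6 → ℝ} {j : ℕ}
    (ha : Scr232Adm M μ a j) {f g : Scr232Kind} (hfg : f ≠ g) {p q : ℝ × ℝ} (hp : p ∈ obj f) (hq : q ∈ obj g) :
    scr232Mg κ ρ μ / 2 ≤ dist (p + scr232Tau a f) (q + scr232Tau a g) := by
  obtain ⟨i, hi⟩ := scr232_pair_fn hS hμ ha hfg hp hq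
  exact scr232_sep i hi

/-! ## 5. dictionary: lattice rows, frames, mirrors  <->  the functionals of the plane -/

/-- the row index of a corner for the move `j`: `⟨u, step j⟩`.  Rows of corner-grid sites (TEX[lem:positive-transfer]): axial moves `0 1 4`: corners on the integer rows, faces on the half-integer rows;
diagonal moves `2 3 5`: corners and faces on the integer rows.  One step of the move `j` = `scr232Nsq j` units = two row spacings. -/
def scr232Row (j : Fin 6) (u : ℤ × ℤ) : ℤ := ![u.2, -u.2, u.1 + u.2, -u.1 - u.2, -u.1, u.2 - u.1] j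

theorem scr232_fn_P (δ : ℝ) (j : Fin 6) (u : ℤ × ℤ) : scr232Fn j (scr232P δ u) = δ * scr232Row j u := by
  fin_cases j <;> simp [scr232Fn, scr232P, scr232Row] <;> ring

theorem scr232_row_add (j : Fin 6) (u v : ℤ × ℤ) : scr232Row j (u + v) = scr232Row j u + scr232Row j v := by
  fin_cases j <;> simp [scr232Row] <;> ring

theorem scr232_row_zsmul (j : Fin 6) (m : ℤ) (u : ℤ × ℤ) : scr232Row j (m • u) = m * scr232Row j u := by
  fin_cases j <;> simp [scr232Row] <;> ring

theorem scr232_row_step (j : Fin 6) : scr232Row j (scr232Step j) = scr232Nsq j := by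
  fin_cases j <;> simp [scr232Row, scr232Step, scr232Nsq]

/-- the centre of the face `f` (bottom-left corner `f`) -/
noncomputable def scr232Pf (δ : ℝ) (f : ℤ × ℤ) : ℝ × ℝ := (δ * (f.1 + 1 / 2), δ * (f.2 + 1 / 2))

/-- twice the row index of a face -/
def scr232Row2f (j : Fin 6) (f : ℤ × ℤ) : ℤ := 2 * scr232Row j f + ![1, -1, 2, -2, -1, 0] j

theorem scr232_fn_Pf (δ : ℝ) (j : Fin 6) (f : ℤ × ℤ) : scr232Fn j (scr232Pf δ f) = δ / 2 * scr232Row2f j f := by
  fin_cases j <;> simp [scr232Fn, scr232Pf, scr232Row2f, scr232Row] <;> ring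

/-- the move `j` is axial (`true`) or diagonal (`false`) -/
def scr232Ax (j : Fin 6) : Bool := ![true, true, false, false, true, false] j

/-- the lattice rotation which sends the step of the move `j` to `(0,1)` (axial) resp. `(1,1)` (diagonal) -/
def scr232Lr (j : Fin 6) (u : ℤ × ℤ) : ℤ × ℤ := ![u, -u, u, -u, (u.2, -u.1), (u.2, -u.1)] j

/-- its inverse -/
def scr232LrI (j : Fin 6) (u : ℤ × ℤ) : ℤ × ℤ := ![u, -u, u, -u, (-u.2, u.1), (-u.2, u.1)] j

theorem scr232_lr_lrI (j : Fin 6) (u : ℤ × ℤ) : scr232Lr j (scr232LrI j u) = u := by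
  fin_cases j <;> simp [scr232Lr, scr232LrI]

theorem scr232_lrI_lr (j : Fin 6) (u : ℤ × ℤ) : scr232LrI j (scr232Lr j u) = u := by
  fin_cases j <;> simp [scr232Lr, scr232LrI]

theorem scr232_lr_add (j : Fin 6) (u v : ℤ × ℤ) : scr232Lr j (u + v) = scr232Lr j u + scr232Lr j v := by
  fin_cases j <;> ext <;> simp [scr232Lr] <;> ring

theorem scr232_lr_step (j : Fin 6) : scr232Lr j (scr232Step j) = if scr232Ax j then (0, 1) else (1, 1) := by
  fin_cases j <;> simp [scr232Lr, scr232Step, scr232Ax]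

/-- the row index in the frame -/
theorem scr232_row_lr (j : Fin 6) (u : ℤ × ℤ) :
    scr232Row j u = if scr232Ax j then (scr232Lr j u).2 else (scr232Lr j u).1 + (scr232Lr j u).2 := by
  fin_cases j <;> simp [scr232Row, scr232Lr, scr232Ax] <;> ring

/-- `2 / |step j|²` -/
def scr232Fac (j : Fin 6) : ℤ := ![2, 2, 1, 1, 2, 1] j

theorem scr232_fac_nsq (j : Fin 6) : scr232Fac j * scr232Nsq j = 2 := by
  fin_cases j <;> simp [scr232Fac, scr232Nsq]

/-- the reflection of the lattice in the row `r0` of the move `j` -/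
def scr232Mir (j : Fin 6) (r0 : ℤ) (u : ℤ × ℤ) : ℤ × ℤ := u - (scr232Fac j * (scr232Row j u - r0)) • scr232Step j

theorem scr232_row_mir (j : Fin 6) (r0 : ℤ) (u : ℤ × ℤ) : scr232Row j (scr232Mir j r0 u) = 2 * r0 - scr232Row j u := by
  unfold scr232Mir
  rw [sub_eq_add_neg, scr232_row_add, ← neg_smul, scr232_row_zsmul, scr232_row_step]
  have := scr232_fac_nsq j
  linear_combination (-(scr232Row j u - r0)) * this

theorem scr232_mir_mir (j : Fin 6) (r0 : ℤ) (u : ℤ × ℤ) : scr232Mir j r0 (scr232Mir j r0 u) = u := by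
  have h := scr232_row_mir j r0 u
  have e : scr232Fac j * (2 * r0 - scr232Row j u - r0) = -(scr232Fac j * (scr232Row j u - r0)) := by ring
  have h2 : scr232Mir j r0 (scr232Mir j r0 u)
      = scr232Mir j r0 u - (scr232Fac j * (scr232Row j (scr232Mir j r0 u) - r0)) • scr232Step j := rfl
  rw [h2, h, e, neg_smul]
  unfold scr232Mir
  abel

/-- the reflection of the plane in the line `scr232Fn j = c` -/
def scr232MirP (j : Fin 6) (c : ℝ) (p : ℝ × ℝ) : ℝ × ℝ := p - (((scr232Fac j : ℤ) : ℝ) * (scr232Fn j p - c)) • scr232Dir j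

theorem scr232_fn_mirP (j : Fin 6) (c : ℝ) (p : ℝ × ℝ) : scr232Fn j (scr232MirP j c p) = 2 * c - scr232Fn j p := by
  fin_cases j <;> simp [scr232MirP, scr232Fn, scr232Dir, scr232Fac] <;> ring

theorem scr232_P_mir (δ : ℝ) (j : Fin 6) (r0 : ℤ) (u : ℤ × ℤ) : scr232P δ (scr232Mir j r0 u) = scr232MirP j (δ * r0) (scr232P δ u) := by
  fin_cases j <;> ext <;> simp [scr232P, scr232Mir, scr232MirP, scr232Fn, scr232Dir, scr232Fac, scr232Row, scr232Step] <;> ring

/-- the reflections are isometries of the sup distance -/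
theorem scr232_mirP_dist (j : Fin 6) (c : ℝ) (p q : ℝ × ℝ) : dist (scr232MirP j c p) (scr232MirP j c q) = dist p q := by
  have hneg : ∀ x y : ℝ, |-x + y| = |x - y| := fun x y => by rw [← abs_neg]; congr 1; ring
  fin_cases j <;> simp only [Prod.dist_eq, Real.dist_eq] <;> simp [scr232MirP, scr232Fn, scr232Dir, scr232Fac]
  · congr 1
    rw [← abs_neg]; congr 1; ring
  · congr 1
    rw [← abs_neg]; congr 1; ring
  · rw [max_comm]
    congr 1
    · rw [← abs_neg]; congr 1; ring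
    · rw [← abs_neg]; congr 1; ring
  · rw [max_comm]
    congr 1
    · rw [← abs_neg]; congr 1; ring
    · rw [← abs_neg]; congr 1; ring
  · congr 1
    rw [← abs_neg]; congr 1; ring
  · rw [max_comm]
    congr 1 <;> congr 1 <;> ring

/-- a point and the mirror image of a point on the same side of the row -/
theorem scr232_mirror (j : Fin 6) {x y : ℝ × ℝ} {c d : ℝ} (hx : d ≤ scr232Fn j x - c) (hy : d ≤ scr232Fn j y - c) :
    d ≤ dist x (scr232MirP j c y) := by
  have h := scr232_sep j (x := x) (y := scr232MirP j c y) (c := 2 * d) (by rw [scr232_fn_mirP]; linarith)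
  linarith

theorem scr232_mirror' (j : Fin 6) {x y : ℝ × ℝ} {c d : ℝ} (hx : scr232Fn j x - c ≤ -d) (hy : scr232Fn j y - c ≤ -d) :
    d ≤ dist x (scr232MirP j c y) := by
  have h := scr232_sep j (x := scr232MirP j c y) (y := x) (c := 2 * d) (by rw [scr232_fn_mirP]; linarith)
  rw [dist_comm]
  linarith

/-! ## 6. a site row in every gap -/

/-- a row at the level `≈ c`: the integer rows have the spacing `δ` in the functional -/
theorem scr232_row {δ : ℝ} (hδ : 0 < δ) (c : ℝ) : ∃ r0 : ℤ, c ≤ δ * r0 ∧ δ * r0 ≤ c + δ := by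
  refine ⟨⌈c / δ⌉, ?_, ?_⟩
  · have := Int.le_ceil (c / δ)
    rw [div_le_iff₀ hδ] at this
    linarith
  · have := (Int.ceil_lt_add_one (c / δ)).le
    have h := mul_le_mul_of_nonneg_left this hδ.le
    rw [mul_add, mul_div_cancel₀ _ hδ.ne', mul_one] at h
    exact h

/-- **the row of the move `j`** (`j < 6`).  At a mesh `δ ≤ m / 4`, `m = scr232Mg κ ρ μ`: there is an integer row `r0` (it depends on the scene, the margin, the mesh and the FIRST move only) such that at every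
placement admissible at the stage `j` the families which do not move are below `δ r0 - m / 4` and the moving families above `δ r0 + m / 4 + s` for every backoff `s ≤ m / 4`. -/
theorem scr232_stage {M κ ρ U0 lm lp μ : ℝ} {obj : Scr232Kind → Set (ℝ × ℝ)} (hS : Scr232Sc M κ ρ U0 lm lp obj) (hμ : 0 ≤ μ) {δ : ℝ} (hδ : 0 < δ)
    (hδm : δ ≤ scr232Mg κ ρ μ / 4) (j : Fin 6) (a0 : ℝ) :
    ∃ r0 : ℤ, ∀ a : Fin 6 → ℝ, a 0 = a0 → Scr232Adm M μ a j.val → ∀ (f : Scr232Kind), ∀ p ∈ obj f,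
      (¬ scr232Mov j f → scr232Fn j (p + scr232Tau a f) - δ * r0 ≤ -(scr232Mg κ ρ μ / 4)) ∧
      (scr232Mov j f → ∀ s : ℝ, s ≤ scr232Mg κ ρ μ / 4 → scr232Mg κ ρ μ / 4 + s ≤ scr232Fn j (p + scr232Tau a f) - δ * r0) := by
  obtain ⟨r0, h1, h2⟩ := scr232_row hδ (scr232Lev M κ ρ U0 lm lp (fun _ => a0) j + scr232Mg κ ρ μ / 4)
  refine ⟨r0, fun a ha0 ha f p hp => ?_⟩
  obtain ⟨g1, g2⟩ := scr232_gap hS hμ ha f hp
  have e : scr232Lev M κ ρ U0 lm lp a j = scr232Lev M κ ρ U0 lm lp (fun _ => a0) j := by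
    unfold scr232Lev
    rw [ha0]
  rw [e] at g1 g2
  refine ⟨fun hf => by linarith [g1 hf], fun hf s hs => by linarith [g2 hf]⟩

/-- **the row of the final placement**: horizontal row, the core below `δ r0 - m / 4`, all the other families above `δ r0 + m / 4` -/
theorem scr232_stage_fin {M κ ρ U0 lm lp μ : ℝ} {obj : Scr232Kind → Set (ℝ × ℝ)} (hS : Scr232Sc M κ ρ U0 lm lp obj) (hμ : 0 ≤ μ) {δ : ℝ} (hδ : 0 < δ)
    (hδm : δ ≤ scr232Mg κ ρ μ / 4) :
    ∃ r0 : ℤ, ∀ a : Fin 6 → ℝ, Scr232Adm M μ a 6 → ∀ (f : Scr232Kind), ∀ p ∈ obj f,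
      (f = .K → scr232Fn 0 (p + scr232Tau a f) - δ * r0 ≤ -(scr232Mg κ ρ μ / 4)) ∧
      (f ≠ .K → scr232Mg κ ρ μ / 4 ≤ scr232Fn 0 (p + scr232Tau a f) - δ * r0) := by
  obtain ⟨r0, h1, h2⟩ := scr232_row hδ (lp - κ + scr232Mg κ ρ μ / 4)
  refine ⟨r0, fun a ha f p hp => ?_⟩
  obtain ⟨g1, g2⟩ := scr232_final hS hμ ha f hp
  have e : scr232Fn 0 (p + scr232Tau a f) = (p + scr232Tau a f).2 := rfl
  rw [e]
  refine ⟨fun hf => by linarith [g1 hf], fun hf => by linarith [g2 hf]⟩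

/-- lattice form of a bound in the functional (upper side): the corner stays above the row `r0` after `N` backward steps -/
theorem scr232_row_ge {δ : ℝ} (hδ : 0 < δ) {j : Fin 6} {r0 : ℤ} {u : ℤ × ℤ} {N : ℕ}
    (h : (N : ℝ) * ((scr232Nsq j : ℝ) * δ) ≤ scr232Fn j (scr232P δ u) - δ * r0) :
    (N : ℤ) * (scr232Nsq j : ℤ) ≤ scr232Row j u - r0 := by
  rw [scr232_fn_P] at h
  have h' : δ * (((N : ℤ) * (scr232Nsq j : ℤ) : ℤ) : ℝ) ≤ δ * ((scr232Row j u - r0 : ℤ) : ℝ) := by
    push_cast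
    linarith
  exact_mod_cast le_of_mul_le_mul_left h' hδ

/-- strict version: margin `> 0` gives a corner strictly above the row -/
theorem scr232_row_gt {δ : ℝ} (hδ : 0 < δ) {j : Fin 6} {r0 : ℤ} {u : ℤ × ℤ} {N : ℕ}
    (h : (N : ℝ) * ((scr232Nsq j : ℝ) * δ) < scr232Fn j (scr232P δ u) - δ * r0) :
    (N : ℤ) * (scr232Nsq j : ℤ) < scr232Row j u - r0 := by
  rw [scr232_fn_P] at h
  have h' : δ * (((N : ℤ) * (scr232Nsq j : ℤ) : ℤ) : ℝ) < δ * ((scr232Row j u - r0 : ℤ) : ℝ) := by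
    push_cast
    linarith
  exact_mod_cast lt_of_mul_lt_mul_left h' hδ.le

/-- lattice form of a bound in the functional (lower side) -/
theorem scr232_row_le {δ : ℝ} (hδ : 0 < δ) {j : Fin 6} {r0 : ℤ} {u : ℤ × ℤ} (h : scr232Fn j (scr232P δ u) - δ * r0 ≤ 0) :
    scr232Row j u ≤ r0 := by
  rw [scr232_fn_P] at h
  have h' : δ * ((scr232Row j u : ℤ) : ℝ) ≤ δ * ((r0 : ℤ) : ℝ) := by linarith
  exact_mod_cast le_of_mul_le_mul_left h' hδ

theorem scr232_row_lt {δ : ℝ} (hδ : 0 < δ) {j : Fin 6} {r0 : ℤ} {u : ℤ × ℤ} (h : scr232Fn j (scr232P δ u) - δ * r0 < 0) :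
    scr232Row j u < r0 := by
  rw [scr232_fn_P] at h
  have h' : δ * ((scr232Row j u : ℤ) : ℝ) < δ * ((r0 : ℤ) : ℝ) := by linarith
  exact_mod_cast lt_of_mul_lt_mul_left h' hδ.le

/-- the same for the faces (doubled row index) -/
theorem scr232_row2f_ge {δ : ℝ} (hδ : 0 < δ) {j : Fin 6} {r0 : ℤ} {f : ℤ × ℤ} {N : ℕ}
    (h : (N : ℝ) * ((scr232Nsq j : ℝ) * δ) ≤ scr232Fn j (scr232Pf δ f) - δ * r0) :
    2 * ((N : ℤ) * (scr232Nsq j : ℤ)) ≤ scr232Row2f j f - 2 * r0 := by
  rw [scr232_fn_Pf] at h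
  have h' : δ * ((2 * ((N : ℤ) * (scr232Nsq j : ℤ)) : ℤ) : ℝ) ≤ δ * ((scr232Row2f j f - 2 * r0 : ℤ) : ℝ) := by
    push_cast
    linarith
  exact_mod_cast le_of_mul_le_mul_left h' hδ

theorem scr232_row2f_le {δ : ℝ} (hδ : 0 < δ) {j : Fin 6} {r0 : ℤ} {f : ℤ × ℤ} (h : scr232Fn j (scr232Pf δ f) - δ * r0 ≤ 0) :
    scr232Row2f j f ≤ 2 * r0 := by
  rw [scr232_fn_Pf] at h
  have h' : δ * ((scr232Row2f j f : ℤ) : ℝ) ≤ δ * ((2 * r0 : ℤ) : ℝ) := by
    push_cast
    linarith
  exact_mod_cast le_of_mul_le_mul_left h' hδ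

/-! ## 7. sequences of placements: the hypotheses of `pin_cont_moves` give uniform margins -/

theorem scr232_thr_tendsto (M : ℝ) (i : Fin 6) {a : Fin 6 → ℝ} {A : ℕ → Fin 6 → ℝ} (hA : ∀ i, Tendsto (fun n => A n i) atTop (𝓝 (a i))) :
    Tendsto (fun n => scr232Thr M i (A n)) atTop (𝓝 (scr232Thr M i a)) := by
  fin_cases i
  · exact tendsto_const_nhds
  · exact tendsto_const_nhds
  · exact tendsto_const_nhds
  · exact tendsto_const_nhds
  · exact (tendsto_const_nhds.add (hA 0)).add (hA 1)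
  · exact (tendsto_const_nhds.add (hA 1)).add (hA 3)

/-- the hypotheses on `(a, k)` in `PinMv` / `pin_cont_moves` give the admissibility with a margin, eventually -/
theorem scr232_adm_ev {M : ℝ} {b : ℕ → ℝ} (hb : ∀ n, 0 ≤ b n) {a : Fin 6 → ℝ} {j : ℕ} (h1 : ∀ i : Fin 6, i.val < j → scr232Thr M i a < a i)
    {k : ℕ → Fin 6 → ℕ} (hk : ∀ i, Tendsto (fun n => (k n i : ℝ) * b n) atTop (𝓝 (a i))) (hk0 : ∀ n (i : Fin 6), j ≤ i.val → k n i = 0) :
    ∃ μ : ℝ, 0 < μ ∧ ∀ᶠ n in atTop, Scr232Adm M μ (fun i => (k n i : ℝ) * b n) j := by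
  have key : ∀ i : Fin 6, ∃ μ : ℝ, 0 < μ ∧ ∀ᶠ n in atTop, i.val < j → scr232Thr M i (fun i => (k n i : ℝ) * b n) + 2 * μ ≤ (k n i : ℝ) * b n := by
    intro i
    by_cases hi : i.val < j
    · refine ⟨(a i - scr232Thr M i a) / 4, by linarith [h1 i hi], ?_⟩
      have ht := (hk i).sub (scr232_thr_tendsto M i (A := fun n i => (k n i : ℝ) * b n) hk)
      have hlt : 2 * ((a i - scr232Thr M i a) / 4) < a i - scr232Thr M i a := by linarith [h1 i hi]
      filter_upwards [ht.eventually (lt_mem_nhds hlt)] with n hn _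
      linarith
    · exact ⟨1, one_pos, Eventually.of_forall fun n h => absurd h hi⟩
  choose μ hμ0 hμ using key
  have hne : (Finset.univ : Finset (Fin 6)).Nonempty := Finset.univ_nonempty
  refine ⟨Finset.univ.inf' hne μ, ?_, ?_⟩
  · exact (Finset.lt_inf'_iff hne).2 fun i _ => hμ0 i
  · filter_upwards [eventually_all.2 hμ] with n hn
    refine ⟨fun i => mul_nonneg (Nat.cast_nonneg _) (hb n), fun i hi => ?_, fun i hi => ?_⟩
    · have := hn i hi
      have h2 : Finset.univ.inf' hne μ ≤ μ i := Finset.inf'_le _ (Finset.mem_univ i)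
      linarith
    · show (k n i : ℝ) * b n = 0
      rw [hk0 n i hi]; simp

/-- the numbers of backward steps: `N n * b n → η`, `N n * b n ≤ η` -/
theorem scr232_steps {b : ℕ → ℝ} (hb : ∀ n, 0 < b n) (hb0 : Tendsto b atTop (𝓝 0)) {η : ℝ} (hη : 0 ≤ η) :
    Tendsto (fun n => (⌊η / b n⌋₊ : ℝ) * b n) atTop (𝓝 η) ∧ ∀ n, (⌊η / b n⌋₊ : ℝ) * b n ≤ η := by
  refine ⟨?_, fun n => ?_⟩
  · have hlo : ∀ n, η - b n ≤ (⌊η / b n⌋₊ : ℝ) * b n := by
      intro n
      have := (Nat.lt_floor_add_one (η / b n)).le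
      rw [div_le_iff₀ (hb n)] at this
      linarith
    have hhi : ∀ n, (⌊η / b n⌋₊ : ℝ) * b n ≤ η := by
      intro n
      have := Nat.floor_le (div_nonneg hη (hb n).le)
      rwa [le_div_iff₀ (hb n)] at this
    have h0 : Tendsto (fun n => η - b n) atTop (𝓝 η) := by
      have := (tendsto_const_nhds (x := η)).sub hb0
      rwa [sub_zero] at this
    exact tendsto_of_tendsto_of_tendsto_of_le_of_le h0 tendsto_const_nhds hlo hhi
  · have := Nat.floor_le (div_nonneg hη (hb n).le)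
    rwa [le_div_iff₀ (hb n)] at this

/-- the backoff of the stage: `η = m / 8`, so that `N` steps cost at most `m / 4` in every functional -/
theorem scr232_backoff {b : ℕ → ℝ} (hb : ∀ n, 0 < b n) {m : ℝ} (hm : 0 ≤ m) (j : Fin 6) (n : ℕ) :
    (⌊m / 8 / b n⌋₊ : ℝ) * ((scr232Nsq j : ℝ) * b n) ≤ m / 4 := by
  have h1 : (⌊m / 8 / b n⌋₊ : ℝ) * b n ≤ m / 8 := by
    have := Nat.floor_le (div_nonneg (by positivity : (0:ℝ) ≤ m / 8) (hb n).le)
    rwa [le_div_iff₀ (hb n)] at this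
  have h2 : (scr232Nsq j : ℝ) ≤ 2 := by exact_mod_cast scr232_nsq_le j
  have h3 : 0 ≤ (⌊m / 8 / b n⌋₊ : ℝ) * b n := mul_nonneg (Nat.cast_nonneg _) (hb n).le
  nlinarith

/-! ## 8. `pin_cont_moves` in the vocabulary of this file -/

/-- **THE SIX MOVES ARE REMOVED.**  `E n k` = the normalised expectation of TEX (screen-gapped-identity) at the mesh `δ n`, the families being displaced by `scr232Disp k`.  The model supplies
* `hfin`: at placements admissible at the stage `6` (everything above the core) the expectations tend to `0`      (reflection Cauchy-Schwarz + TEX[cor:reflection-null]);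
* `hTr`: at placements admissible at a stage `j < 6`, with the backoff `N n = ⌊(m / 8) / δ n⌋`, the transfer inequality `PinTr` in the variable `k j`      (TEX[lem:positive-transfer] + TEX[lem:screen-reflection-bound]).
Then the expectations tend to `0` at the original placement. -/
theorem scr232_moves {M κ ρ : ℝ} (hκ : 0 < κ) (hρ : 0 < ρ) {δ : ℕ → ℝ} (hδ : ∀ n, 0 < δ n) (hδ0 : Tendsto δ atTop (𝓝 0))
    {E : ℕ → (Fin 6 → ℕ) → ℂ}
    (hfin : ∀ μ : ℝ, 0 < μ → ∀ k : ℕ → Fin 6 → ℕ, (∀ᶠ n in atTop, Scr232Adm M μ (fun i => (k n i : ℝ) * δ n) 6) →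
      (∀ i, ∃ a : ℝ, Tendsto (fun n => (k n i : ℝ) * δ n) atTop (𝓝 a)) → Tendsto (fun n => E n (k n)) atTop (𝓝 0))
    (hTr : ∀ (j : Fin 6) (μ : ℝ), 0 < μ → ∀ k : ℕ → Fin 6 → ℕ, (∀ᶠ n in atTop, Scr232Adm M μ (fun i => (k n i : ℝ) * δ n) j.val) →
      (∀ i, ∃ a : ℝ, Tendsto (fun n => (k n i : ℝ) * δ n) atTop (𝓝 a)) →
      ∃ C : ℝ, 0 ≤ C ∧ ∀ᶠ n in atTop, PinTr C ⌊scr232Mg κ ρ μ / 8 / δ n⌋₊ (fun m => E n (Function.update (k n) j m))) :
    Tendsto (fun n => E n 0) atTop (𝓝 0) := by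
  refine pin_cont_moves (K := 6) (b := δ) (thr := scr232Thr M) (M := E) (scr232_thr_dep M) ?_ ?_
  · intro a ha1 ha2 k hk1 hk2
    obtain ⟨μ, hμ, hadm⟩ := scr232_adm_ev (M := M) (fun n => (hδ n).le) (j := 6) (a := a) (fun i hi => ha1 i hi) hk1
      (fun n i hi => hk2 n i hi)
    exact hfin μ hμ k hadm fun i => ⟨a i, hk1 i⟩
  · intro j a ha1 ha2 k hk1 hk2
    obtain ⟨μ, hμ, hadm⟩ := scr232_adm_ev (M := M) (fun n => (hδ n).le) (j := j.val) (a := a) (fun i hi => ha1 i hi) hk1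
      (fun n i hi => hk2 n i hi)
    obtain ⟨C, hC, hT⟩ := hTr j μ hμ k hadm fun i => ⟨a i, hk1 i⟩
    have hm : 0 < scr232Mg κ ρ μ := scr232_mg_pos hκ hρ hμ
    exact ⟨C, scr232Mg κ ρ μ / 8, fun n => ⌊scr232Mg κ ρ μ / 8 / δ n⌋₊, hC, by positivity,
      (scr232_steps hδ hδ0 (by positivity)).1, hT⟩

/-! ## 9. the scene exists: the arrangement of the figure of TEX[sec:screening] -/

theorem Scr232Sc.mono {M κ ρ U0 lm lp : ℝ} {obj obj' : Scr232Kind → Set (ℝ × ℝ)} (hS : Scr232Sc M κ ρ U0 lm lp obj) (h : ∀ f, obj' f ⊆ obj f) :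
    Scr232Sc M κ ρ U0 lm lp obj' where
  κ0 := hS.κ0
  ρ0 := hS.ρ0
  lml := hS.lml
  U0M := hS.U0M
  lpM := hS.lpM
  lmM := hS.lmM
  bdX f p hp := hS.bdX f p (h f hp)
  bdY f p hp := hS.bdY f p (h f hp)
  T p hp := hS.T p (h _ hp)
  D p hp := hS.D p (h _ hp)
  mid f h1 h2 p hp := hS.mid f h1 h2 p (h f hp)
  R p hp := hS.R p (h _ hp)
  L p hp := hS.L p (h _ hp)
  K p hp := hS.K p (h _ hp)

/-- the hulls of the four blocks and of the core: square annulus of centre `(x0, y0)`, outer half side `s`, inner half side `w`, middle band `|y - y0| ≤ h`, half gap `g`, core of half side `r` -/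
def scr232Obj (x0 y0 s w h g r : ℝ) : Scr232Kind → Set (ℝ × ℝ)
  | .T => {p | |p.1 - x0| ≤ s ∧ h + g ≤ p.2 - y0 ∧ p.2 - y0 ≤ s}
  | .D => {p | |p.1 - x0| ≤ s ∧ -s ≤ p.2 - y0 ∧ p.2 - y0 ≤ -(h + g)}
  | .L => {p | -s ≤ p.1 - x0 ∧ p.1 - x0 ≤ -w ∧ |p.2 - y0| ≤ h - g}
  | .R => {p | w ≤ p.1 - x0 ∧ p.1 - x0 ≤ s ∧ |p.2 - y0| ≤ h - g}
  | .K => {p | |p.1 - x0| ≤ r ∧ |p.2 - y0| ≤ r}

/-- **the arrangement of the paper is a scene** -/
theorem scr232_scene {x0 y0 s w h g r : ℝ} (hg : 0 < g) (hhs : h + g ≤ s) (hw : h < w) (hws : w ≤ s) (hr0 : 0 ≤ r) (hr : r ≤ h - g) (hr8 : 8 * r ≤ w - h) :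
    Scr232Sc (|x0| + |y0| + s) g (w - h) (x0 + y0) (y0 - h) (y0 + h) (scr232Obj x0 y0 s w h g r) := by
  have ax := abs_nonneg x0
  have ay := abs_nonneg y0
  have hx1 := le_abs_self x0
  have hx2 := neg_abs_le x0
  have hy1 := le_abs_self y0
  have hy2 := neg_abs_le y0
  have hh : 0 ≤ h := by linarith
  have hs : 0 ≤ s := by linarith
  refine ⟨hg, by linarith, by linarith, ?_, ?_, ?_, ?_, ?_, ?_, ?_, ?_, ?_, ?_, ?_⟩
  · have := abs_add_le x0 y0; linarith
  · have := abs_add_le y0 h; rw [abs_of_nonneg hh] at this; linarith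
  · have := abs_sub y0 h; rw [abs_of_nonneg hh] at this; linarith
  · intro f p hp
    rw [abs_le]
    cases f
    · obtain ⟨h1, h2, h3⟩ := hp; obtain ⟨h4, h5⟩ := abs_le.1 h1; constructor <;> linarith
    · obtain ⟨h1, h2, h3⟩ := hp; obtain ⟨h4, h5⟩ := abs_le.1 h1; constructor <;> linarith
    · obtain ⟨h1, h2, h3⟩ := hp; constructor <;> linarith
    · obtain ⟨h1, h2, h3⟩ := hp; constructor <;> linarith
    · obtain ⟨h1, h2⟩ := hp; obtain ⟨h4, h5⟩ := abs_le.1 h1; constructor <;> linarith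
  · intro f p hp
    rw [abs_le]
    cases f
    · obtain ⟨h1, h2, h3⟩ := hp; constructor <;> linarith
    · obtain ⟨h1, h2, h3⟩ := hp; constructor <;> linarith
    · obtain ⟨h1, h2, h3⟩ := hp; obtain ⟨h4, h5⟩ := abs_le.1 h3; constructor <;> linarith
    · obtain ⟨h1, h2, h3⟩ := hp; obtain ⟨h4, h5⟩ := abs_le.1 h3; constructor <;> linarith
    · obtain ⟨h1, h2⟩ := hp; obtain ⟨h4, h5⟩ := abs_le.1 h2; constructor <;> linarith
  · intro p hp
    obtain ⟨h1, h2, h3⟩ := hp; linarith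
  · intro p hp
    obtain ⟨h1, h2, h3⟩ := hp; linarith
  · intro f hT hD p hp
    cases f
    · exact absurd rfl hT
    · exact absurd rfl hD
    · obtain ⟨h1, h2, h3⟩ := hp; obtain ⟨h4, h5⟩ := abs_le.1 h3; constructor <;> linarith
    · obtain ⟨h1, h2, h3⟩ := hp; obtain ⟨h4, h5⟩ := abs_le.1 h3; constructor <;> linarith
    · obtain ⟨h1, h2⟩ := hp; obtain ⟨h4, h5⟩ := abs_le.1 h2; constructor <;> linarith
  · intro p hp
    obtain ⟨h1, h2, h3⟩ := hp; obtain ⟨h4, h5⟩ := abs_le.1 h3; linarith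
  · intro p hp
    obtain ⟨h1, h2, h3⟩ := hp; obtain ⟨h4, h5⟩ := abs_le.1 h3; linarith
  · intro p hp
    obtain ⟨h1, h2⟩ := hp
    obtain ⟨h4, h5⟩ := abs_le.1 h1
    obtain ⟨h6, h7⟩ := abs_le.1 h2
    rw [abs_le]; constructor <;> linarith

end Claimed.Agent.R292
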