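import Claimed.Agent.R292.Defs.ScreenSep
import Claimed.Agent.R292.Rsw.Base31

/-!
# Row 292 (S0540), Screen/Asm129 : (ASM) = THE ASSEMBLY OF (SEP)      (helper129; prefix `scs129_` / `Scs129`)

`scr_cut_sep` (Screen/Cut229b, VERBATIM) from the typed leaves of Screen/Cut229c, taken here as HYPOTHESES (verbatim copies `Scs129CI`, `Scs129TV`, `Scs129SH`):
(CI) exact separation, (TV) the bridge pins are not felt off the shielding squares, (SHIELD) Lemma 5.7.   (POS) is not needed by the assembly.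
Design: `origin/helper229:notes/R292_SEP_DESIGN_229.md`; text: AT paper Sec 5.3, chain (5.13) in dual form:
`|μ(XG)| ≤ |ℚ(XG)| + tv ≤ |ℚ(X G'(Y))| + μ(no success) + tv ≤ |μ(X G'(Y))| + μ(no success) + 2 tv`.
* §1 `scs129_fiber`, `scs129_chain`   pure probability: on every successful value of `Y` the factor `G` is replaced by its conditional mean `G'(Y)`
* §2 geometry of the layout `ScrLay` (centres of the trials are in no hull; cores, core `K` and exterior avoid the shielding squares)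
* §3 measurability: success, bridges and density are functions of the block patterns
* §4 `scs129_mesh`   the inequality at a fixed mesh;  §5 `scs129_cut_sep` the numbers `q, M, s, w, h, g, c0`
* §6 (SQ) `scs129_sq_ctr`, `scs129_sq_adapter`: possibly empty sup-squares, separated pointwise  ⟹  non-empty squares, separated in the centre form (for `pat176_main`)
-/

set_option autoImplicit false

namespace Claimed.Agent.R292

open Claims Claims.C0468 Filter Topology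

/-! ## 1. pure probability -/

/-- decomposition along the values of a statistic. -/
theorem scs129_fiber {β : Type*} [DecidableEq β] (t : ℝ) (F : Finset (ℤ × ℤ)) (b : Bool) (Y : RswCfg → β) (f : RswCfg → ℝ) :
    rswE t F b f = ∑ y ∈ (rsbAll F).image (fun p => Y (rsbMk p)), rswE t F b (fun ω => if Y ω = y then f ω else 0) := by
  rw [← rsb_E_finset_sum]
  refine rsb_E_congr fun ω hω _ => ?_
  rw [Finset.sum_ite_eq, if_pos]
  exact Finset.mem_image.2 ⟨(ω.S, ω.D, ω.O), rsb_mem_all.2 hω, rfl⟩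

/-- an indicator times a variable bounded by one. -/
theorem scs129_abs_ind_le {t : ℝ} (h0 : 0 < t) (h1 : t ≤ 1) (F : Finset (ℤ × ℤ)) (b : Bool) (L : RswCfg → Prop) [DecidablePred L]
    (A : RswCfg → ℝ) (hA : ∀ ω, |A ω| ≤ 1) :
    |rswE t F b (fun ω => if L ω then A ω else 0)| ≤ rswE t F b (fun ω => if L ω then 1 else 0) := by
  refine (rsb_abs_E_le h0 h1 F b _).trans (rsb_E_mono h0 h1 fun ω _ _ => ?_)
  by_cases h : L ω
  · simp only [if_pos h]; exact hA ω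
  · simp only [if_neg h, abs_zero]; exact le_rfl

/-- **the chain (5.13), middle step**: under the tilted law (density `ρ`), on the successful values of `Y` the exterior factor is replaced by a function of `Y`. -/
theorem scs129_chain {β : Type*} {dβ : DecidableEq β} {t : ℝ} (h0 : 0 < t) (h1 : t ≤ 1) (F : Finset (ℤ × ℤ)) (b : Bool)
    (Y : RswCfg → β) (Su : RswCfg → Prop) [DecidablePred Su] (Br : RswCfg → RswCfg → Prop) [∀ a c, Decidable (Br a c)] (κ : RswCfg → ℝ)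
    (hSu : ∀ ω ω', Y ω = Y ω' → (Su ω ↔ Su ω'))
    (hBr : ∀ ω ω' ω'', Y ω = Y ω' → (Br ω ω'' ↔ Br ω' ω''))
    (hκ : ∀ ω ω', Y ω = Y ω' → κ ω = κ ω')
    (X G : RswCfg → ℝ) (hX : ∀ ω, |X ω| ≤ 1) (hG : ∀ ω, |G ω| ≤ 1)
    (hCI : ∀ ω₀, Su ω₀ →
      rswE t F b (fun ω => if Y ω = Y ω₀ ∧ Br ω₀ ω then X ω * G ω else 0) *
          rswE t F b (fun ω => if Y ω = Y ω₀ ∧ Br ω₀ ω then 1 else 0)
        = rswE t F b (fun ω => if Y ω = Y ω₀ ∧ Br ω₀ ω then X ω else 0) *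
          rswE t F b (fun ω => if Y ω = Y ω₀ ∧ Br ω₀ ω then G ω else 0)) :
    ∃ G' : β → ℝ, (∀ y, |G' y| ≤ 1) ∧
      rswE t F b (fun ω => X ω * G ω * (if Su ω then (if Br ω ω then κ ω else 0) else 1))
        = rswE t F b (fun ω => if Su ω then 0 else X ω * G ω)
          + rswE t F b (fun ω => X ω * G' (Y ω) * (if Su ω then (if Br ω ω then κ ω else 0) else 1)) := by
  -- the conditional mean of `G`
  set g : RswCfg → ℝ := fun ω₀ =>
    rswE t F b (fun ω => if Y ω = Y ω₀ ∧ Br ω₀ ω then G ω else 0) /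
      rswE t F b (fun ω => if Y ω = Y ω₀ ∧ Br ω₀ ω then 1 else 0) with hg
  have hg1 : ∀ ω₀, |g ω₀| ≤ 1 := by
    intro ω₀
    have h := scs129_abs_ind_le h0 h1 F b (fun ω => Y ω = Y ω₀ ∧ Br ω₀ ω) G hG
    have hn : 0 ≤ rswE t F b (fun ω => if Y ω = Y ω₀ ∧ Br ω₀ ω then (1 : ℝ) else 0) := (abs_nonneg _).trans h
    simp only [hg, abs_div, abs_of_nonneg hn]
    exact div_le_one_of_le₀ h hn
  have hgY : ∀ ω₀ ω₁, Y ω₀ = Y ω₁ → g ω₀ = g ω₁ := by
    intro ω₀ ω₁ h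
    have hev : ∀ ω, (Y ω = Y ω₀ ∧ Br ω₀ ω) ↔ (Y ω = Y ω₁ ∧ Br ω₁ ω) := fun ω => by rw [h, hBr ω₀ ω₁ ω h]
    simp only [hg, hev]
  have hgCI : ∀ ω₀, Su ω₀ → rswE t F b (fun ω => if Y ω = Y ω₀ ∧ Br ω₀ ω then X ω * G ω else 0)
      = rswE t F b (fun ω => if Y ω = Y ω₀ ∧ Br ω₀ ω then X ω else 0) * g ω₀ := by
    intro ω₀ hs
    have hci := hCI ω₀ hs
    by_cases hn : rswE t F b (fun ω => if Y ω = Y ω₀ ∧ Br ω₀ ω then (1 : ℝ) else 0) = 0
    · have h := scs129_abs_ind_le h0 h1 F b (fun ω => Y ω = Y ω₀ ∧ Br ω₀ ω) (fun ω => X ω * G ω) (fun ω => by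
        rw [abs_mul]; exact mul_le_one₀ (hX ω) (abs_nonneg _) (hG ω))
      rw [hn] at h
      have h' := abs_eq_zero.1 (le_antisymm h (abs_nonneg _))
      simp only [hg, hn, div_zero, mul_zero]
      exact h'
    · simp only [hg]
      field_simp
      exact hci
  classical
  refine ⟨fun y => if h : ∃ ω₀, Y ω₀ = y ∧ Su ω₀ then g (Classical.choose h) else 0, fun y => ?_, ?_⟩
  · by_cases h : ∃ ω₀, Y ω₀ = y ∧ Su ω₀
    · simp only [dif_pos h]; exact hg1 _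
    · simp only [dif_neg h, abs_zero]; exact zero_le_one
  set G' : β → ℝ := fun y => if h : ∃ ω₀, Y ω₀ = y ∧ Su ω₀ then g (Classical.choose h) else 0 with hG'
  have hG's : ∀ ω₀, Su ω₀ → G' (Y ω₀) = g ω₀ := by
    intro ω₀ hs
    have h : ∃ ω₁, Y ω₁ = Y ω₀ ∧ Su ω₁ := ⟨ω₀, rfl, hs⟩
    simp only [hG', dif_pos h]
    exact hgY _ _ (Classical.choose_spec h).1
  have hG'n : ∀ ω₀, ¬ Su ω₀ → G' (Y ω₀) = 0 := by
    intro ω₀ hs
    have h : ¬ ∃ ω₁, Y ω₁ = Y ω₀ ∧ Su ω₁ := fun ⟨ω₁, e, s⟩ => hs ((hSu _ _ e).1 s)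
    simp only [hG', dif_neg h]
  -- split off the unsuccessful part
  have hsplit : rswE t F b (fun ω => X ω * G ω * (if Su ω then (if Br ω ω then κ ω else 0) else 1))
      = rswE t F b (fun ω => if Su ω then 0 else X ω * G ω)
        + rswE t F b (fun ω => if Su ω then X ω * G ω * (if Br ω ω then κ ω else 0) else 0) := by
    rw [← rsb_E_add]
    congr 1
    funext ω
    by_cases h : Su ω <;> simp [h]
  rw [hsplit]
  congr 1
  rw [scs129_fiber t F b Y, scs129_fiber t F b Y (fun ω => X ω * G' (Y ω) * _)]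
  refine Finset.sum_congr rfl fun y hy => ?_
  obtain ⟨p, -, rfl⟩ := Finset.mem_image.1 hy
  set ω₀ := rsbMk p
  by_cases hs : Su ω₀
  · have e1 : (fun ω => if Y ω = Y ω₀ then (if Su ω then X ω * G ω * (if Br ω ω then κ ω else 0) else 0) else 0)
        = fun ω => κ ω₀ * (if Y ω = Y ω₀ ∧ Br ω₀ ω then X ω * G ω else 0) := by
      funext ω
      by_cases hy : Y ω = Y ω₀
      · have hsω : Su ω := (hSu _ _ hy).2 hs
        by_cases hb : Br ω₀ ω
        · have hb' : Br ω ω := (hBr _ _ _ hy).2 hb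
          simp only [hy, hsω, hb, hb', if_true, and_self, hκ _ _ hy]; ring
        · have hb' : ¬ Br ω ω := fun h => hb ((hBr _ _ _ hy).1 h)
          simp [hy, hsω, hb, hb']
      · simp [hy]
    have e2 : (fun ω => if Y ω = Y ω₀ then X ω * G' (Y ω) * (if Su ω then (if Br ω ω then κ ω else 0) else 1) else 0)
        = fun ω => (κ ω₀ * g ω₀) * (if Y ω = Y ω₀ ∧ Br ω₀ ω then X ω else 0) := by
      funext ω
      by_cases hy : Y ω = Y ω₀
      · have hsω : Su ω := (hSu _ _ hy).2 hs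
        by_cases hb : Br ω₀ ω
        · have hb' : Br ω ω := (hBr _ _ _ hy).2 hb
          simp only [hy, hsω, hb, hb', if_true, and_self, hκ _ _ hy, hG's ω₀ hs]; ring
        · have hb' : ¬ Br ω ω := fun h => hb ((hBr _ _ _ hy).1 h)
          simp [hy, hsω, hb, hb']
      · simp [hy]
    rw [e1, e2, rsb_E_const_mul, rsb_E_const_mul, hgCI ω₀ hs]
    ring
  · refine rsb_E_congr fun ω _ _ => ?_
    by_cases hy : Y ω = Y ω₀
    · have hsω : ¬ Su ω := fun h => hs ((hSu _ _ hy).1 h)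
      simp [hy, hsω, hG'n ω₀ hs]
    · simp [hy]

/-! ## 2. geometry of the layout -/

theorem scs129_Rt_pos {Λ : ScrLay} (hΛ : Λ.Ok) : 0 < Λ.Rt := by
  have h1 : (0 : ℝ) < Λ.M := Nat.cast_pos.2 hΛ.hM
  have h2 := hΛ.hws
  unfold ScrLay.Rt
  apply div_pos <;> linarith

theorem scs129_Rt_mul {Λ : ScrLay} (hΛ : Λ.Ok) : Λ.Rt * (2 * Λ.M) = Λ.s - Λ.w := by
  have h1 : (0 : ℝ) < Λ.M := Nat.cast_pos.2 hΛ.hM
  unfold ScrLay.Rt
  field_simp

theorem scs129_wh_le {Λ : ScrLay} (hΛ : Λ.Ok) : Λ.wh ≤ Λ.Rt / 40 := by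
  have h1 := scs129_Rt_pos hΛ
  have h2 := hΛ.hq'
  unfold ScrLay.wh
  nlinarith

theorem scs129_h_pos {Λ : ScrLay} (hΛ : Λ.Ok) : 0 < Λ.h := by
  have h1 := hΛ.sc.hg
  have h2 := hΛ.sc.hr0
  have h3 := hΛ.sc.hr
  linarith

/-- the second coordinate of a centre. -/
theorem scs129_cen_y {Λ : ScrLay} (hΛ : Λ.Ok) (k : Fin 4) (j : ℕ) : |(Λ.cen k j).2 - Λ.y0| = Λ.h := by
  have h := scs129_h_pos hΛ
  fin_cases k <;> simp [ScrLay.cen, abs_of_pos h]

/-- the first coordinate of a centre. -/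
theorem scs129_cen_x {Λ : ScrLay} (hΛ : Λ.Ok) (k : Fin 4) (j : ℕ) : |(Λ.cen k j).1 - Λ.x0| = Λ.w + (2 * j + 1) * Λ.Rt := by
  have h := scs129_h_pos hΛ
  have h2 := hΛ.sc.hw
  have h3 := scs129_Rt_pos hΛ
  have h4 : (0 : ℝ) ≤ j := Nat.cast_nonneg j
  have h6 : 0 ≤ (2 * (j : ℝ) + 1) * Λ.Rt := by positivity
  have h5 : 0 < Λ.w + (2 * j + 1) * Λ.Rt := by linarith
  fin_cases k <;> simp [ScrLay.cen, abs_of_pos h5]
  all_goals (rw [← neg_add, abs_neg, abs_of_pos (by linarith)]; ring)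

/-- the hulls stay away from the two lines of the gaps. -/
theorem scs129_hull_y {Λ : ScrLay} {i : Fin 4} {p : ℝ × ℝ} (hp : p ∈ Λ.hull i) :
    Λ.h + Λ.g ≤ |p.2 - Λ.y0| ∨ |p.2 - Λ.y0| ≤ Λ.h - Λ.g := by
  fin_cases i
  · left; exact hp.2.1.trans (le_abs_self _)
  · left
    have := hp.2.2
    have h2 := neg_abs_le (p.2 - Λ.y0)
    linarith
  · right; exact hp.2.2
  · right; exact hp.2.2

/-- the centres of the trials are in no hull. -/
theorem scs129_cen_not_hull {Λ : ScrLay} (hΛ : Λ.Ok) (k : Fin 4) (j : ℕ) (i : Fin 4) : Λ.cen k j ∉ Λ.hull i := by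
  intro h
  have h1 := scs129_hull_y h
  rw [scs129_cen_y hΛ] at h1
  have h2 := hΛ.sc.hg
  rcases h1 with h1 | h1 <;> linarith

/-- the larger cores avoid the shielding squares. -/
theorem scs129_coreP_shield {Λ : ScrLay} (hΛ : Λ.Ok) {i : Fin 4} {p : ℝ × ℝ} (hp : p ∈ Λ.coreP i) : p ∉ Λ.shield := by
  intro h
  simp only [ScrLay.shield, Set.mem_iUnion] at h
  obtain ⟨k, j, -, h⟩ := h
  refine scs129_cen_not_hull hΛ k j i (hp ?_)
  rw [Metric.mem_closedBall] at h ⊢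
  rw [dist_comm]
  have : Λ.c1 / 2 = Λ.Rt / 10 := by unfold ScrLay.c1; ring
  rw [this]; exact h

/-- the larger cores are deep inside the blocks. -/
theorem scs129_coreP_blk {Λ : ScrLay} (hΛ : Λ.Ok) {i : Fin 4} {p : ℝ × ℝ} (hp : p ∈ Λ.coreP i) :
    Metric.closedBall p (Λ.Rt / 20) ⊆ Λ.blk i := by
  have hR := scs129_Rt_pos hΛ
  have hc : Λ.c1 / 2 = Λ.Rt / 10 := by unfold ScrLay.c1; ring
  intro p' hp'
  refine ⟨hp (Metric.closedBall_subset_closedBall (by rw [hc]; linarith) hp'), fun h => ?_⟩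
  simp only [Set.mem_iUnion] at h
  obtain ⟨k, j, -, h⟩ := h
  refine scs129_cen_not_hull hΛ k j i (hp ?_)
  rw [ScrLay.hole, Metric.mem_ball] at h
  rw [Metric.mem_closedBall] at hp' ⊢
  have h1 := dist_triangle (Λ.cen k j) p' p
  rw [dist_comm (Λ.cen k j) p'] at h1
  have h2 := scs129_wh_le hΛ
  rw [hc]; linarith

/-- the core `K` avoids the shielding squares. -/
theorem scs129_K_shield {Λ : ScrLay} (hΛ : Λ.Ok) {p : ℝ × ℝ} (hp : p ∈ Metric.closedBall Λ.z Λ.r) : p ∉ Λ.shield := by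
  intro h
  simp only [ScrLay.shield, Set.mem_iUnion] at h
  obtain ⟨k, j, -, h⟩ := h
  rw [Metric.mem_closedBall, Prod.dist_eq, max_le_iff, Real.dist_eq, Real.dist_eq] at h hp
  have h1 := scs129_cen_y hΛ k j
  have h2 := hΛ.hK
  have h3 := hΛ.sc.hg
  have h4 := scs129_Rt_pos hΛ
  have h5 : |(Λ.cen k j).2 - Λ.y0| ≤ |p.2 - (Λ.cen k j).2| + |p.2 - Λ.y0| := by
    have := abs_sub_le (Λ.cen k j).2 p.2 Λ.y0
    rw [abs_sub_comm (Λ.cen k j).2 p.2] at this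
    exact this
  have h6 : |p.2 - Λ.y0| ≤ Λ.r := hp.2
  have h7 := h.2
  linarith

/-- the shielding squares are inside the outer square. -/
theorem scs129_shield_sub {Λ : ScrLay} (hΛ : Λ.Ok) {p : ℝ × ℝ} (hp : p ∈ Λ.shield) : p ∈ Metric.closedBall Λ.z Λ.s := by
  simp only [ScrLay.shield, Set.mem_iUnion] at hp
  obtain ⟨k, j, hj, h⟩ := hp
  rw [Metric.mem_closedBall, Prod.dist_eq, max_le_iff, Real.dist_eq, Real.dist_eq] at h ⊢
  have h1 := scs129_cen_y hΛ k j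
  have h1' := scs129_cen_x hΛ k j
  have h3 := hΛ.sc.hg
  have h4 := scs129_Rt_pos hΛ
  have h5 := scs129_Rt_mul hΛ
  have h6 := hΛ.hT
  have hj' : (j : ℝ) + 1 ≤ Λ.M := by exact_mod_cast hj
  constructor
  · have := abs_sub_le p.1 (Λ.cen k j).1 Λ.x0
    have h7 := h.1
    show |p.1 - Λ.x0| ≤ Λ.s
    nlinarith
  · have := abs_sub_le p.2 (Λ.cen k j).2 Λ.y0
    have h7 := h.2
    show |p.2 - Λ.y0| ≤ Λ.s
    linarith

/-! ### observables off the shielding squares -/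

theorem scs129_in_mono {δ : ℝ} {U U' : Set (ℝ × ℝ)} (h : U ⊆ U') {X : RswCfg → ℝ} (hX : ScrIn δ U X) : ScrIn δ U' X :=
  fun ω ω' hS hD hO => hX ω ω' (fun v hv => hS v (h hv)) (fun f hf => hD f (h hf)) (fun e h1 h2 => hO e (h h1) (h h2))

theorem scs129_off_of_in {Λ : ScrLay} {δ : ℝ} {U : Set (ℝ × ℝ)} (hU : ∀ p ∈ U, p ∉ Λ.shield) {X : RswCfg → ℝ} (hX : ScrIn δ U X) :
    ScrOff Λ δ X :=
  fun ω ω' _ hS hD hO => hX ω ω' (fun v hv => hS v (hU _ hv)) (fun f hf => hD f (hU _ hf)) (fun e h1 h2 => hO e (hU _ h1) (hU _ h2))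

theorem scs129_off_mul {Λ : ScrLay} {δ : ℝ} {A B : RswCfg → ℝ} (hA : ScrOff Λ δ A) (hB : ScrOff Λ δ B) :
    ScrOff Λ δ (fun ω => A ω * B ω) :=
  fun ω ω' h hS hD hO => by simp only [hA ω ω' h hS hD hO, hB ω ω' h hS hD hO]

/-- the sites of `scrCoreSel` are in the larger cores. -/
theorem scs129_mem_sel {Λ : ScrLay} {δ : ℝ} {f : ℤ × ℤ} (hf : f ∈ scrCoreSel Λ δ) : ∃ i, scr232P δ f ∈ Λ.coreP i := by
  classical
  unfold scrCoreSel at hf
  exact (Finset.mem_filter.1 hf).2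

/-- functions of the data `Y` are observables off the shielding squares. -/
theorem scs129_off_Y {Λ : ScrLay} (hΛ : Λ.Ok) (δ : ℝ) (G' : (Fin 4 → ScrPatT) × Finset (ℤ × ℤ) → ℝ) :
    ScrOff Λ δ (fun ω => G' (scrYL Λ δ ω)) := by
  intro ω ω' h _ hD _
  have : scrYL Λ δ ω = scrYL Λ δ ω' := by
    unfold scrYL scrY
    rw [h]
    congr 1
    ext f
    simp only [Finset.mem_inter]
    constructor
    · rintro ⟨h1, h2⟩
      obtain ⟨i, hi⟩ := scs129_mem_sel h2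
      exact ⟨(hD f (scs129_coreP_shield hΛ hi)).1 h1, h2⟩
    · rintro ⟨h1, h2⟩
      obtain ⟨i, hi⟩ := scs129_mem_sel h2
      exact ⟨(hD f (scs129_coreP_shield hΛ hi)).2 h1, h2⟩
  simp only [this]

/-- the selection is in the cores. -/
theorem scs129_core {Λ : ScrLay} (hΛ : Λ.Ok) (δ : ℝ) : ScrCore δ (Λ.Rt / 20) Λ.blk (fun _ => scrCoreSel Λ δ) := by
  intro _ f hf
  obtain ⟨i, hi⟩ := scs129_mem_sel hf
  exact ⟨i, scs129_coreP_blk hΛ hi⟩

/-! ## 3. success, bridges and density are functions of the block patterns -/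

theorem scs129_pc_congr {Λ : ScrLay} {δ : ℝ} {ω ω' : RswCfg} (h : scrPats δ Λ.blk ω = scrPats δ Λ.blk ω') : scrPc Λ δ ω = scrPc Λ δ ω' := by
  unfold scrPc; rw [h]

theorem scs129_gap_congr {Λ : ScrLay} {δ : ℝ} {ω ω' : RswCfg} (h : scrPats δ Λ.blk ω = scrPats δ Λ.blk ω') (k : Fin 4) :
    ScrGapOk Λ δ k ω ↔ ScrGapOk Λ δ k ω' := by
  unfold ScrGapOk; rw [scs129_pc_congr h]

theorem scs129_succ_congr {Λ : ScrLay} {δ : ℝ} {ω ω' : RswCfg} (h : scrPats δ Λ.blk ω = scrPats δ Λ.blk ω') :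
    ScrSucc Λ δ ω ↔ ScrSucc Λ δ ω' := by
  unfold ScrSucc; simp only [scs129_gap_congr h]

theorem scs129_find_congr {P P' : ℕ → Prop} (hPP : P = P') {i1 : DecidablePred P} {i2 : DecidablePred P'}
    {j1 : Decidable (∃ j, P j)} {j2 : Decidable (∃ j, P' j)} :
    (if h : ∃ j, P j then Nat.find h else 0) = (if h : ∃ j, P' j then Nat.find h else 0) := by
  subst hPP
  have e1 : i1 = i2 := Subsingleton.elim _ _
  have e2 : j1 = j2 := Subsingleton.elim _ _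
  subst e1 e2
  rfl

theorem scs129_choose_congr {α : Type*} [Zero α] {P P' : α → Prop} (hPP : P = P')
    {j1 : Decidable (∃ a, P a)} {j2 : Decidable (∃ a, P' a)} :
    (if h : ∃ a, P a then Classical.choose h else 0) = (if h : ∃ a, P' a then Classical.choose h else 0) := by
  subst hPP
  have e2 : j1 = j2 := Subsingleton.elim _ _
  subst e2
  rfl

theorem scs129_selJ_congr {Λ : ScrLay} {δ : ℝ} {ω ω' : RswCfg} (h : scrPats δ Λ.blk ω = scrPats δ Λ.blk ω') (k : Fin 4) :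
    scrSelJ Λ δ k ω = scrSelJ Λ δ k ω' := by
  unfold scrSelJ
  exact scs129_find_congr (by rw [scs129_pc_congr h])

theorem scs129_selA_congr {Λ : ScrLay} {δ : ℝ} {ω ω' : RswCfg} (h : scrPats δ Λ.blk ω = scrPats δ Λ.blk ω') (k : Fin 4) (b : Bool) :
    scrSelA Λ δ k b ω = scrSelA Λ δ k b ω' := by
  unfold scrSelA
  exact scs129_choose_congr (by rw [scs129_pc_congr h, scs129_selJ_congr h])

theorem scs129_bridge_congr {Λ : ScrLay} {δ : ℝ} {ω ω' : RswCfg} (h : scrPats δ Λ.blk ω = scrPats δ Λ.blk ω') (k : Fin 4) :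
    scrBridge Λ δ k ω = scrBridge Λ δ k ω' := by
  unfold scrBridge
  simp only [scs129_selA_congr h]

theorem scs129_br_congr {Λ : ScrLay} {δ : ℝ} {ω ω' : RswCfg} (h : scrPats δ Λ.blk ω = scrPats δ Λ.blk ω') (ω'' : RswCfg) :
    ScrBr Λ δ ω ω'' ↔ ScrBr Λ δ ω' ω'' := by
  unfold ScrBr
  simp only [scs129_bridge_congr h]

theorem scs129_Y_pats {Λ : ScrLay} {δ : ℝ} {ω ω' : RswCfg} (h : scrYL Λ δ ω = scrYL Λ δ ω') : scrPats δ Λ.blk ω = scrPats δ Λ.blk ω' :=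
  congrArg Prod.fst h

/-! ## 4. the inequality at a fixed mesh -/

open Classical in
/-- **the chain (5.13) in dual form, fixed mesh and domain.** -/
theorem scs129_mesh {t : ℝ} (h0 : 0 < t) (h1 : t ≤ 1) {Λ : ScrLay} (hΛ : Λ.Ok) (δ : ℝ) (F : Finset (ℤ × ℤ)) (tv : ℝ)
    (hCI : ∀ ω₀ : RswCfg, ScrSucc Λ δ ω₀ →
      ∀ X G : RswCfg → ℝ, ScrIn δ (Metric.closedBall Λ.z Λ.r) X → ScrIn δ (Metric.closedBall Λ.z Λ.s)ᶜ G →
      rswE t F true (fun ω => if scrYL Λ δ ω = scrYL Λ δ ω₀ ∧ ScrBr Λ δ ω₀ ω then X ω * G ω else 0) *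
          rswE t F true (fun ω => if scrYL Λ δ ω = scrYL Λ δ ω₀ ∧ ScrBr Λ δ ω₀ ω then 1 else 0)
        = rswE t F true (fun ω => if scrYL Λ δ ω = scrYL Λ δ ω₀ ∧ ScrBr Λ δ ω₀ ω then X ω else 0) *
          rswE t F true (fun ω => if scrYL Λ δ ω = scrYL Λ δ ω₀ ∧ ScrBr Λ δ ω₀ ω then G ω else 0))
    (hTV : ∀ A : RswCfg → ℝ, (∀ ω, |A ω| ≤ 1) → ScrOff Λ δ A → |rswE t F true A - scrQ t F Λ δ A| ≤ tv)
    (X G : RswCfg → ℝ) (hX : ∀ ω, |X ω| ≤ 1) (hG : ∀ ω, |G ω| ≤ 1)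
    (hXin : ScrIn δ (Metric.closedBall Λ.z Λ.r) X) (hGin : ScrIn δ (Metric.closedBall Λ.z Λ.s)ᶜ G) :
    ∃ G' : (Fin 4 → ScrPatT) × Finset (ℤ × ℤ) → ℝ, (∀ y, |G' y| ≤ 1) ∧
      |rswE t F true fun ω => X ω * G ω| ≤
        |rswE t F true fun ω => X ω * G' (scrYL Λ δ ω)| + 2 * tv + rswP t F true (fun ω => ¬ ScrSucc Λ δ ω) := by
  obtain ⟨G', hG', hid⟩ := scs129_chain h0 h1 F true (scrYL Λ δ) (ScrSucc Λ δ) (ScrBr Λ δ)
    (fun ω => rswP t F true (fun ω' => scrPats δ Λ.blk ω' = scrPats δ Λ.blk ω) /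
        rswP t F true (fun ω' => scrPats δ Λ.blk ω' = scrPats δ Λ.blk ω ∧ ScrBr Λ δ ω ω'))
    (fun ω ω' h => scs129_succ_congr (scs129_Y_pats h))
    (fun ω ω' ω'' h => scs129_br_congr (scs129_Y_pats h) ω'')
    (fun ω ω' h => by simp only [scs129_Y_pats h, scs129_br_congr (scs129_Y_pats h)])
    X G hX hG (fun ω₀ hs => hCI ω₀ hs X G hXin hGin)
  refine ⟨G', hG', ?_⟩
  have hXoff : ScrOff Λ δ X := scs129_off_of_in (fun p hp => scs129_K_shield hΛ hp) hXin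
  have hGoff : ScrOff Λ δ G := scs129_off_of_in (U := (Metric.closedBall Λ.z Λ.s)ᶜ) (fun p hp hs => hp (scs129_shield_sub hΛ hs)) hGin
  have tv1 := hTV (fun ω => X ω * G ω) (fun ω => by rw [abs_mul]; exact mul_le_one₀ (hX ω) (abs_nonneg _) (hG ω))
    (scs129_off_mul hXoff hGoff)
  have tv2 := hTV (fun ω => X ω * G' (scrYL Λ δ ω)) (fun ω => by rw [abs_mul]; exact mul_le_one₀ (hX ω) (abs_nonneg _) (hG' _))
    (scs129_off_mul hXoff (scs129_off_Y hΛ δ G'))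
  have hq1 : scrQ t F Λ δ (fun ω => X ω * G ω) = rswE t F true (fun ω => if ScrSucc Λ δ ω then 0 else X ω * G ω)
      + scrQ t F Λ δ (fun ω => X ω * G' (scrYL Λ δ ω)) := hid
  have hns : |rswE t F true (fun ω => if ScrSucc Λ δ ω then 0 else X ω * G ω)| ≤ rswP t F true (fun ω => ¬ ScrSucc Λ δ ω) := by
    have := scs129_abs_ind_le h0 h1 F true (fun ω => ¬ ScrSucc Λ δ ω) (fun ω => X ω * G ω)
      (fun ω => by rw [abs_mul]; exact mul_le_one₀ (hX ω) (abs_nonneg _) (hG ω))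
    simp only [ite_not] at this
    have e : rswP t F true (fun ω => ¬ ScrSucc Λ δ ω) = rswE t F true (fun ω => if ScrSucc Λ δ ω then 0 else 1) := by
      unfold rswP
      congr 1
      funext ω
      by_cases h : ScrSucc Λ δ ω <;> simp [h]
    rw [e]
    exact this
  rw [hq1] at tv1
  have a1 := abs_le.1 tv1
  have a2 := abs_le.1 tv2
  have a3 := abs_le.1 hns
  rw [abs_le]
  have a4 := le_abs_self (rswE t F true fun ω => X ω * G' (scrYL Λ δ ω))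
  have a5 := neg_abs_le (rswE t F true fun ω => X ω * G' (scrYL Λ δ ω))
  constructor <;> linarith [a1.1, a1.2, a2.1, a2.2, a3.1, a3.2]

/-! ## 5. the numbers -/

/-- the layout of the assembly: `s = r/2`, `w = 7r/16`, `h = r/8`, `g = wh / 2`. -/
noncomputable def scs129Lay (z : ℝ × ℝ) (r q : ℝ) (M : ℕ) : ScrLay :=
  ⟨z.1, z.2, r / 2, 7 * r / 16, r / 8, q * ((r / 2 - 7 * r / 16) / (2 * M)) / 2, r / 400, M, q⟩

theorem scs129_lay_ok (z : ℝ × ℝ) {r q : ℝ} {M : ℕ} (hr : 0 < r) (hq : 0 < q) (hq' : q ≤ 1 / 40) (hM : 0 < M) : (scs129Lay z r q M).Ok := by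
  have hM0 : (0 : ℝ) < M := Nat.cast_pos.2 hM
  have hM1 : (1 : ℝ) ≤ M := by exact_mod_cast hM
  set R : ℝ := (r / 2 - 7 * r / 16) / (2 * M) with hR
  have hR0 : 0 < R := by
    rw [hR]; apply div_pos <;> linarith
  have hRm : R * (2 * M) = r / 16 := by
    rw [hR]; field_simp; ring
  have hR1 : R ≤ r / 32 := by nlinarith
  have hqR0 : 0 < q * R := mul_pos hq hR0
  have hqR : q * R ≤ r / 1280 := by nlinarith
  have eRt : (scs129Lay z r q M).Rt = R := rfl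
  have eg : (scs129Lay z r q M).g = q * R / 2 := rfl
  have ewh : (scs129Lay z r q M).wh = q * R := rfl
  have es : (scs129Lay z r q M).s = r / 2 := rfl
  have ew : (scs129Lay z r q M).w = 7 * r / 16 := rfl
  have eh : (scs129Lay z r q M).h = r / 8 := rfl
  have er : (scs129Lay z r q M).r = r / 400 := rfl
  -- robust to further linear fields of `ScrScene`
  have hsc : ScrScene (scs129Lay z r q M).s (scs129Lay z r q M).w (scs129Lay z r q M).h (scs129Lay z r q M).g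
      (scs129Lay z r q M).r := by
    rw [eg, es, ew, eh, er]
    constructor <;> linarith
  refine ⟨hsc, hM, hq, hq', ?_, ?_, ?_, ?_⟩
  · rw [eg, ewh]; linarith
  · rw [es, ew]; linarith
  · rw [eg, eRt, er, eh]; linarith
  · rw [eg, eRt, es, eh]; linarith

/-- a huge box contains the window of the layout. -/
theorem scs129_fits (Λ : ScrLay) {δ : ℝ} (hδ : 0 < δ) {F : Finset (ℤ × ℤ)}
    (hF : rswBox 0 (⌈(|Λ.x0| + |Λ.y0| + |Λ.s| + 1) / δ⌉₊ + 1) ⊆ F) : ScrFits Λ δ F := by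
  intro f hf
  apply hF
  rw [Metric.mem_closedBall, Prod.dist_eq, max_le_iff, Real.dist_eq, Real.dist_eq] at hf
  set B : ℝ := |Λ.x0| + |Λ.y0| + |Λ.s| + 1 with hB
  have hc : B / δ ≤ (⌈B / δ⌉₊ : ℝ) := Nat.le_ceil _
  have key : ∀ (a : ℤ) (c : ℝ), |c| ≤ |Λ.x0| + |Λ.y0| → |δ * a - c| ≤ Λ.s + 1 →
      -((⌈B / δ⌉₊ + 1 : ℕ) : ℤ) ≤ a ∧ a < ((⌈B / δ⌉₊ + 1 : ℕ) : ℤ) := by
    intro a c hc1 hc2
    have h1 : |δ * (a : ℝ)| ≤ B := by
      have := abs_sub_abs_le_abs_sub (δ * (a : ℝ)) c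
      have h2 := le_abs_self Λ.s
      rw [hB]; linarith
    rw [abs_mul, abs_of_pos hδ] at h1
    have h2 : |(a : ℝ)| ≤ B / δ := by rw [le_div_iff₀ hδ]; linarith
    have h3 := abs_le.1 (h2.trans hc)
    constructor
    · have : -(((⌈B / δ⌉₊ + 1 : ℕ) : ℤ) : ℝ) ≤ (a : ℝ) := by push_cast; linarith [h3.1]
      exact_mod_cast this
    · have : (a : ℝ) < (((⌈B / δ⌉₊ + 1 : ℕ) : ℤ) : ℝ) := by push_cast; linarith [h3.2]
      exact_mod_cast this
  have k1 := key f.1 Λ.x0 (by have := abs_nonneg Λ.y0; linarith) hf.1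
  have k2 := key f.2 Λ.y0 (by have := abs_nonneg Λ.x0; linarith) hf.2
  simp only [rswBox, Finset.mem_product, Finset.mem_Ico, Prod.fst_zero, Prod.snd_zero, zero_sub, zero_add]
  exact ⟨k1, k2⟩

open Classical in
/-- **(ASM) `scr_cut_sep` VERBATIM from (CI), (TV), (SHIELD)** (statements of Screen/Cut229c after the binders `t ht1 ht2`). -/
theorem scs129_cut_sep (t : ℝ) (ht1 : 1 / 2 ≤ t) (ht2 : t < 1)
    (hCI : ∀ (Λ : ScrLay) (_ : Λ.Ok),
      ∃ δ₀ : ℝ, 0 < δ₀ ∧ ∀ δ : ℝ, 0 < δ → δ < δ₀ → ∀ F : Finset (ℤ × ℤ), ScrFits Λ δ F → ∀ ω₀ : RswCfg, ScrSucc Λ δ ω₀ →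
      ∀ X G : RswCfg → ℝ, ScrIn δ (Metric.closedBall Λ.z Λ.r) X → ScrIn δ (Metric.closedBall Λ.z Λ.s)ᶜ G →
      rswE t F true (fun ω => if scrYL Λ δ ω = scrYL Λ δ ω₀ ∧ ScrBr Λ δ ω₀ ω then X ω * G ω else 0) *
          rswE t F true (fun ω => if scrYL Λ δ ω = scrYL Λ δ ω₀ ∧ ScrBr Λ δ ω₀ ω then 1 else 0)
        = rswE t F true (fun ω => if scrYL Λ δ ω = scrYL Λ δ ω₀ ∧ ScrBr Λ δ ω₀ ω then X ω else 0) *
          rswE t F true (fun ω => if scrYL Λ δ ω = scrYL Λ δ ω₀ ∧ ScrBr Λ δ ω₀ ω then G ω else 0))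
    (hTV : ∀ (Λ : ScrLay) (_ : Λ.Ok),
      ∃ δ₀ : ℝ, 0 < δ₀ ∧ ∀ δ : ℝ, 0 < δ → δ < δ₀ → ∀ F : Finset (ℤ × ℤ), RswJordan F → ScrFits Λ δ F →
      ∀ A : RswCfg → ℝ, (∀ ω, |A ω| ≤ 1) → ScrOff Λ δ A →
      |rswE t F true A - scrQ t F Λ δ A| ≤ 2 * ∑ k : Fin 4, rswP t F true (fun ω => ScrSucc Λ δ ω ∧ ¬ ScrCirc F Λ δ k ω))
    (hSH : ∃ p η : ℝ → ℝ, (∀ q, 0 < q → 0 < p q ∧ p q ≤ 1) ∧ Tendsto η (𝓝[>] 0) (𝓝 0) ∧ ∀ Λ : ScrLay, Λ.Ok →
      ∃ δ₀ : ℝ, 0 < δ₀ ∧ ∀ δ : ℝ, 0 < δ → δ < δ₀ → ∀ F : Finset (ℤ × ℤ), RswJordan F → ScrFits Λ δ F → ∀ k : Fin 4,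
        rswP t F true (fun ω => ¬ ScrGapOk Λ δ k ω) ≤ (1 - p Λ.q) ^ Λ.M ∧
        rswP t F true (fun ω => ScrGapOk Λ δ k ω ∧ ¬ ScrCirc F Λ δ k ω) ≤ η Λ.q)
    (z : ℝ × ℝ) (r : ℝ) (hr : 0 < r) (η : ℝ) (hη : 0 < η) :
    ∃ (s w h g c0 : ℝ) (blk : Fin 4 → Set (ℝ × ℝ)), ScrScene s w h g (r / 400) ∧ s < r ∧ 0 < c0 ∧
      (∀ i, blk i ⊆ scrHull z.1 z.2 s w h g (r / 400) i) ∧
      ∀ δ : ℕ → ℝ, (∀ n, 0 < δ n) → Tendsto δ atTop (𝓝 0) → ∀ᶠ n in atTop, ∃ n0 : ℕ, ∀ F : Finset (ℤ × ℤ), RswJordan F →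
        rswBox 0 n0 ⊆ F → ∀ X G : RswCfg → ℝ, (∀ ω, |X ω| ≤ 1) → (∀ ω, |G ω| ≤ 1) →
        ScrIn (δ n) (Metric.closedBall z (r / 400)) X → ScrIn (δ n) (scrSq z r)ᶜ G →
        ∃ (sel : (Fin 4 → ScrPatT) → Finset (ℤ × ℤ)) (G' : (Fin 4 → ScrPatT) × Finset (ℤ × ℤ) → ℝ),
          ScrCore (δ n) c0 blk sel ∧ (∀ y, |G' y| ≤ 1) ∧
          |rswE t F true fun ω => X ω * G ω| ≤ |rswE t F true fun ω => X ω * G' (scrY (δ n) blk sel ω)| + η := by
  have h0 : 0 < t := by linarith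
  have h1 : t ≤ 1 := ht2.le
  obtain ⟨p, e, hp, he, hSH⟩ := hSH
  -- the ratio `q`
  obtain ⟨q, hqe, hq0, hq40⟩ : ∃ q : ℝ, e q < η / 32 ∧ 0 < q ∧ q ≤ 1 / 40 := by
    have a1 : ∀ᶠ q in 𝓝[>] (0 : ℝ), e q < η / 32 := he.eventually (Iio_mem_nhds (by positivity))
    have a2 : ∀ᶠ q in 𝓝[>] (0 : ℝ), q ∈ Set.Ioc (0 : ℝ) (1 / 40) := Ioc_mem_nhdsGT (by norm_num)
    obtain ⟨q, b1, b2⟩ := (a1.and a2).exists
    exact ⟨q, b1, b2.1, b2.2⟩
  -- the number of trials `M`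
  obtain ⟨M, hMe, hM⟩ : ∃ M : ℕ, (1 - p q) ^ M < η / 8 ∧ 0 < M := by
    have hpq := hp q hq0
    have a1 : Tendsto (fun n : ℕ => (1 - p q) ^ n) atTop (𝓝 0) :=
      tendsto_pow_atTop_nhds_zero_of_lt_one (by linarith [hpq.2]) (by linarith [hpq.1])
    have a2 : ∀ᶠ n : ℕ in atTop, (1 - p q) ^ n < η / 8 := a1.eventually (Iio_mem_nhds (by positivity))
    obtain ⟨M, b1, b2⟩ := (a2.and (eventually_gt_atTop 0)).exists
    exact ⟨M, b1, b2⟩
  set Λ : ScrLay := scs129Lay z r q M with hΛdef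
  have hΛ : Λ.Ok := scs129_lay_ok z hr hq0 hq40 hM
  have hRt := scs129_Rt_pos hΛ
  refine ⟨Λ.s, Λ.w, Λ.h, Λ.g, Λ.Rt / 20, Λ.blk, hΛ.sc, ?_, by linarith, fun i => Set.sdiff_subset, ?_⟩
  · show r / 2 < r; linarith
  intro δ hδ hδ0
  obtain ⟨d1, hd1, hCI⟩ := hCI Λ hΛ
  obtain ⟨d2, hd2, hTV⟩ := hTV Λ hΛ
  obtain ⟨d3, hd3, hSH⟩ := hSH Λ hΛ
  have hev : ∀ᶠ n in atTop, δ n < min d1 (min d2 d3) := hδ0.eventually (Iio_mem_nhds (lt_min hd1 (lt_min hd2 hd3)))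
  filter_upwards [hev] with n hn
  have hn1 : δ n < d1 := hn.trans_le (min_le_left _ _)
  have hn2 : δ n < d2 := hn.trans_le ((min_le_right _ _).trans (min_le_left _ _))
  have hn3 : δ n < d3 := hn.trans_le ((min_le_right _ _).trans (min_le_right _ _))
  refine ⟨⌈(|Λ.x0| + |Λ.y0| + |Λ.s| + 1) / δ n⌉₊ + 1, fun F hJ hF X G hX hG hXin hGin => ?_⟩
  have hfit : ScrFits Λ (δ n) F := scs129_fits Λ (hδ n) hF
  have hGin' : ScrIn (δ n) (Metric.closedBall Λ.z Λ.s)ᶜ G := by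
    refine scs129_in_mono (U := (scrSq z r)ᶜ) (U' := (Metric.closedBall Λ.z Λ.s)ᶜ) (fun p hp hp' => hp ?_) hGin
    rw [Metric.mem_closedBall, Prod.dist_eq, max_le_iff, Real.dist_eq, Real.dist_eq] at hp'
    have b1 := abs_le.1 hp'.1
    have b2 := abs_le.1 hp'.2
    have es : Λ.s = r / 2 := rfl
    have ex : Λ.z.1 = z.1 := rfl
    have ey : Λ.z.2 = z.2 := rfl
    rw [es, ex] at b1
    rw [es, ey] at b2
    exact ⟨⟨by linarith [b1.1], by linarith [b1.2]⟩, ⟨by linarith [b2.1], by linarith [b2.2]⟩⟩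
  obtain ⟨G', hG', hmain⟩ := scs129_mesh h0 h1 hΛ (δ n) F _ (hCI (δ n) (hδ n) hn1 F hfit) (hTV (δ n) (hδ n) hn2 F hJ hfit)
    X G hX hG hXin hGin'
  refine ⟨fun _ => scrCoreSel Λ (δ n), G', scs129_core hΛ (δ n), hG', hmain.trans ?_⟩
  have hsh := hSH (δ n) (hδ n) hn3 F hJ hfit
  -- the shielding term
  have c1 : ∀ k : Fin 4, rswP t F true (fun ω => ScrSucc Λ (δ n) ω ∧ ¬ ScrCirc F Λ (δ n) k ω) ≤ η / 32 := fun k =>
    ((rsb_P_mono h0 h1 fun ω _ _ hω => ⟨hω.1 k, hω.2⟩).trans (hsh k).2).trans hqe.le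
  -- no success
  have c2 : rswP t F true (fun ω => ¬ ScrSucc Λ (δ n) ω) ≤ ∑ k : Fin 4, rswP t F true (fun ω => ¬ ScrGapOk Λ (δ n) k ω) := by
    refine le_trans (rsb_P_mono h0 h1 fun ω _ _ hω => ?_) (rsb_P_finset_union h0 h1 F true Finset.univ _)
    obtain ⟨k, hk⟩ := not_forall.1 hω
    exact ⟨k, Finset.mem_univ k, hk⟩
  have c3 : ∀ k : Fin 4, rswP t F true (fun ω => ¬ ScrGapOk Λ (δ n) k ω) ≤ η / 8 := fun k => ((hsh k).1).trans hMe.le
  rw [Fin.sum_univ_four] at c2 ⊢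
  have e1 : (fun ω => X ω * G' (scrYL Λ (δ n) ω)) = fun ω => X ω * G' (scrY (δ n) Λ.blk (fun _ => scrCoreSel Λ (δ n)) ω) := rfl
  rw [e1]
  linarith [c1 0, c1 1, c1 2, c1 3, c3 0, c3 1, c3 2, c3 3]

/-! ## 6. (SQ) the adapter of the SQUARE road of (GAP) (order of 229, 22:19Z DB): Mathlib only, no model -/

/-- centre form of the separation of two non-empty sup-squares (any normed space). -/
theorem scs129_sq_ctr {a b : ℝ × ℝ} {r1 r2 c0 : ℝ} (h1 : 0 ≤ r1) (h2 : 0 ≤ r2) (hc0 : 0 < c0)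
    (H : ∀ p ∈ Metric.closedBall a r1, ∀ q ∈ Metric.closedBall b r2, c0 ≤ dist p q) :
    r1 + r2 + c0 ≤ dist a b := by
  by_contra hlt
  rw [not_le] at hlt
  have hS : 0 < r1 + r2 + c0 := by positivity
  obtain ⟨S, hSdef⟩ : ∃ S, S = r1 + r2 + c0 := ⟨_, rfl⟩
  rw [← hSdef] at hlt hS
  have e : ‖b - a‖ = dist a b := by rw [dist_comm, dist_eq_norm]
  have hp : a + (r1 / S) • (b - a) ∈ Metric.closedBall a r1 := by
    rw [Metric.mem_closedBall, dist_eq_norm, add_sub_cancel_left, norm_smul, Real.norm_of_nonneg (by positivity), e]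
    calc r1 / S * dist a b ≤ r1 / S * S := mul_le_mul_of_nonneg_left hlt.le (by positivity)
      _ = r1 := by field_simp
  have hq : b - (r2 / S) • (b - a) ∈ Metric.closedBall b r2 := by
    rw [Metric.mem_closedBall, dist_eq_norm, sub_sub_cancel_left, norm_neg, norm_smul, Real.norm_of_nonneg (by positivity), e]
    calc r2 / S * dist a b ≤ r2 / S * S := mul_le_mul_of_nonneg_left hlt.le (by positivity)
      _ = r2 := by field_simp
  have h := H _ hp _ hq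
  have e3 : c0 / S = 1 - r1 / S - r2 / S := by
    rw [hSdef]; field_simp; ring
  have e2 : a + (r1 / S) • (b - a) - (b - (r2 / S) • (b - a)) = (c0 / S) • (a - b) := by
    rw [e3]; module
  rw [dist_eq_norm, e2, norm_smul, Real.norm_of_nonneg (by positivity), ← dist_eq_norm] at h
  have h3 : c0 / S * dist a b < c0 / S * S := mul_lt_mul_of_pos_left hlt (by positivity)
  have h4 : c0 / S * S = c0 := by field_simp
  linarith

/-- **(SQ) the adapter of the SQUARE road** (order of 229): a property of windows that holds for NON-EMPTY squares in the CENTRE form of the separation holds for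
possibly empty squares (`ρ i < 0`) in the POINTWISE form.  Empty squares are replaced by points far away (chosen after the data). -/
theorem scs129_sq_adapter {ι : Type} [Fintype ι] {c0 M : ℝ} (hc0 : 0 < c0) (P : (ι → Set (ℝ × ℝ)) → Prop)
    (H : ∀ (U : ι → Set (ℝ × ℝ)) (c : ι → ℝ × ℝ) (ρ : ι → ℝ), (∀ i, U i ⊆ Metric.closedBall (c i) (ρ i)) →
      (∀ i, 0 ≤ ρ i ∧ ρ i ≤ max M 0) → (∀ i j, i ≠ j → ρ i + ρ j + c0 ≤ dist (c i) (c j)) → P U)
    (U : ι → Set (ℝ × ℝ)) (c : ι → ℝ × ℝ) (ρ : ι → ℝ) (hU : ∀ i, U i ⊆ Metric.closedBall (c i) (ρ i)) (hρ : ∀ i, ρ i ≤ M)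
    (hsep : ∀ i j, i ≠ j → ∀ p ∈ Metric.closedBall (c i) (ρ i), ∀ q ∈ Metric.closedBall (c j) (ρ j), c0 ≤ dist p q) : P U := by
  classical
  obtain ⟨A, hA⟩ : ∃ A : ℝ, A = ∑ j, |(c j).1| := ⟨_, rfl⟩
  obtain ⟨L, hL⟩ : ∃ L : ℝ, L = c0 + 2 * max M 0 + 1 := ⟨_, rfl⟩
  obtain ⟨k, hk⟩ : ∃ k : ι → ℕ, Function.Injective k :=
    ⟨fun i => (Fintype.equivFin ι i : ℕ), fun i j h => (Fintype.equivFin ι).injective (Fin.ext h)⟩
  have hM0 : 0 ≤ max M 0 := le_max_right _ _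
  have hLpos : 0 < L := by rw [hL]; linarith
  have hAj : ∀ j, |(c j).1| ≤ A := fun j => by
    rw [hA]; exact Finset.single_le_sum (f := fun j => |(c j).1|) (fun _ _ => abs_nonneg _) (Finset.mem_univ j)
  have hfar : ∀ i j, 0 ≤ ρ i → ρ i + 0 + c0 ≤ dist (c i) (A + (1 + (k j : ℝ)) * L, (0 : ℝ)) := by
    intro i j hi
    have h1 : |(c i).1 - (A + (1 + (k j : ℝ)) * L)| ≤ dist (c i) (A + (1 + (k j : ℝ)) * L, (0 : ℝ)) := by
      rw [Prod.dist_eq, Real.dist_eq]; exact le_max_left _ _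
    have h2 : ρ i ≤ max M 0 := (hρ i).trans (le_max_left _ _)
    have h3 : (0 : ℝ) ≤ (k j : ℝ) * L := by positivity
    have h4 := hAj i
    have h5 : A + (1 + (k j : ℝ)) * L - (c i).1 ≤ |(c i).1 - (A + (1 + (k j : ℝ)) * L)| := by
      rw [abs_sub_comm]; exact le_abs_self _
    have h6 : (c i).1 ≤ |(c i).1| := le_abs_self _
    linarith
  refine H U (fun i => if 0 ≤ ρ i then c i else (A + (1 + (k i : ℝ)) * L, 0)) (fun i => max (ρ i) 0) ?_ ?_ ?_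
  · intro i
    by_cases hi : 0 ≤ ρ i
    · simp only [if_pos hi, max_eq_left hi]; exact hU i
    · have h0 := hU i
      rw [Metric.closedBall_eq_empty.2 (not_le.1 hi)] at h0
      exact fun x hx => (h0 hx).elim
  · intro i
    exact ⟨le_max_right _ _, max_le_max (hρ i) le_rfl⟩
  · intro i j hij
    by_cases hi : 0 ≤ ρ i <;> by_cases hj : 0 ≤ ρ j
    · simp only [if_pos hi, if_pos hj, max_eq_left hi, max_eq_left hj]
      exact scs129_sq_ctr hi hj hc0 (hsep i j hij)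
    · simp only [if_pos hi, if_neg hj, max_eq_left hi, max_eq_right (not_le.1 hj).le]
      exact hfar i j hi
    · simp only [if_neg hi, if_pos hj, max_eq_left hj, max_eq_right (not_le.1 hi).le]
      have := hfar j i hj
      rw [dist_comm]; linarith
    · simp only [if_neg hi, if_neg hj, max_eq_right (not_le.1 hi).le, max_eq_right (not_le.1 hj).le]
      have hkk : k i ≠ k j := fun h => hij (hk h)
      have h1 : |(A + (1 + (k i : ℝ)) * L) - (A + (1 + (k j : ℝ)) * L)|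
          ≤ dist ((A + (1 + (k i : ℝ)) * L, (0 : ℝ)) : ℝ × ℝ) (A + (1 + (k j : ℝ)) * L, (0 : ℝ)) := by
        rw [Prod.dist_eq, Real.dist_eq]; exact le_max_left _ _
      have h2 : (1 : ℝ) ≤ |(k i : ℝ) - (k j : ℝ)| := by
        have : (1 : ℤ) ≤ |(k i : ℤ) - (k j : ℤ)| := Int.one_le_abs (sub_ne_zero.2 (by exact_mod_cast hkk))
        exact_mod_cast this
      have h3 : |(A + (1 + (k i : ℝ)) * L) - (A + (1 + (k j : ℝ)) * L)| = |(k i : ℝ) - (k j : ℝ)| * L := by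
        rw [show (A + (1 + (k i : ℝ)) * L) - (A + (1 + (k j : ℝ)) * L) = ((k i : ℝ) - (k j : ℝ)) * L by ring, abs_mul,
          abs_of_pos hLpos]
      have h4 : L ≤ |(k i : ℝ) - (k j : ℝ)| * L := by nlinarith
      rw [h3] at h1
      linarith

end Claimed.Agent.R292
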