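import Claimed.Agent.R292.Api
import Claimed.Agent.R292.Defs.Screen
import Claimed.Agent.R292.Gauss.Dict292
import Claimed.Agent.R292.Defs.ScreenPl

/-!
# Row 292 (S0540), Screen/Ring32 : MARKOV PROPERTY ACROSS A RING ON THE FROZEN Def_0468      (owner helper32; prefix `scr32_`)

AT paper, Section 5, "Transfer to flat domains": the finite product weights give the same conditional interior kernel in
every flat domain.  0 sorry.  Sites = corners + faces; a set of sites is a pair `(Sc, Sf)` of sets of `ℤ × ℤ`.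

1. abstract
   * `scr32_prod`            product space `A × R × E`, weight `w1 (a, r) * w2 (r, e)`, `X (a, r)` replaced by `g r = Σ w1 X / Σ w1`
   * `scr32_fibre`           fibre form (`w2`, `G` functions of `π`; kernel `scr32_cond π w1 X`)
2. the frozen weight
   * `scr32G`, `scr32_ext`, `scr32_res`   pairs of spins of the whole lattice, extension by `+`, restriction
   * `scr32_bd`, `scr32_hq`, `scr32_vq`   wall factor of a corner, factors of the two quads based at `v`, in a domain `S`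
   * `scr32_weight`          `1[adm] t ^ dis = ∏ v ∈ cornersOf F, bd * hq * vq`
3. factorisation
   * `scr32_HM`, `scr32_VM`, `scr32_Sep`  a quad meets a set of sites; no quad meets both `In` and `Out`
   * `scr32_NRg`, `scr32_NR`              an observable (whole lattice / of `F`) does not read a set of sites; `scr32_ext_iff` = `ScrExt`
   * `scr32_weight_factor`   `1[adm] t ^ dis = w1 * w2`; `scr32_w2_NR` (`w2` does not read `In`), `scr32_w1_NR` (`w1` does not read `Out`)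
4. the kernel in `F`
   * `scr32_kerS`, `scr32_markovS` (ANY `In ⊆ F`, also near the wall), `scr32_kerS_ring`
5. the same kernel in every domain
   * `scr32_Deep F In`       both faces of every quad that meets `In` are in `F`
   * `scr32_ker t Ic If X`   THE kernel: no domain in the formula
   * **`scr32_markov`**      `scrE t F (X ∘ ext * G) = scrE t F (ker X ∘ ext * G)`, `G` not reading `In`, ANY `X`
   * **`scr32_ker_ring`**    `ker X` reads neither `In` nor `Out` (if `X` does not read `Out`, no quad meets both)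
   * **`scr32_markov_F`**    the same for an observable `X` of `F`
6. the kernel is a (sub)probability kernel: `scr32_ker_add / sub / smul / mono`, `scr32_ker_abs_le` (Jensen), `scr32_ker_bound`,
   `scr32_ker_NR_in`, `scr32_ker_pull` (a factor that does not read `In` comes out)      (all also for `scr32_kerS`)
7. `scrE`: `scr32_E_mono`, `scr32_E_abs_le`, `scr32_markov_one` (tower), **`scr32_markov_bound`** (`|E[X G]| ≤ E|ker X|`, `|G| ≤ 1`),
   `scr32_ker_L1` (`E|ker X| ≤ E|X|`), `scr32_ker_L2` (`E (ker X)² ≤ E X²`, from `scr32_ker_sq_le`), `scr32_NR_mono`, `scr32_NRg_mono`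
8. squares: `scr32_Qc δ Q`, `scr32_Qf δ Q` (sites in `Q`; `scr32_ext_iff'` = `ScrExt`), `scr32_sqc`, `scr32_sqf` (the finite sets of the sites of `scrSq z r`),
   `scr32_face_mem` (centre in the region of `F` ⟹ face of `F`), `scr32_deep_of_sq`, `scr32_sep_of_sq` (`r1 + δ ≤ r2`),
   **`scr32_markov_sq`**, **`scr32_markov_bound_sq`**, **`scr32_ker_ring_sq`**
9. the flat laws `rswE` of `Defs/RSW` and the plane law `scrPl` (prefix `scr32p_`): "the identity also passes from flat exhaustions to the plane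
   on cylinder events; thus `g_δ(R_δ)` is a version of the conditional mean of `X_δ` under each of these laws"
   * `scr32p_of ω`            the pair of spins of the whole lattice of a configuration `ω = (S, D, O)`
   * `scr32p_rswE`            `rswE t F true (A ∘ of) = scrE t F (A ∘ ext)` for `A` reading only sites of `F` (dictionary of 292)
   * `scr32p_sep_of_deep`     `In` deep in `F` ⟹ no quad meets both `In` and the sites outside `F`
   * **`scr32p_markov_rsw`**  `rswE t F true (X * G) = rswE t F true (ker X * G)`, the SAME kernel `scr32_ker t Ic If X`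
   * `scr32p_ev_box`, `scr32p_ev_deep`   every finite window is in `rswBox 0 n`, every finite `In` is deep in `rswBox 0 n`, for large `n`
   * **`scr32p_markov_pl`**   `scrPl t (X * G) = scrPl t (ker X * G)` (no existence of the limit is used: the two sequences are eventually equal)
   * **`scr32p_pl_abs`**, `scr32p_flat_abs`   `E |ker X| = E (X * sgn (ker X))`, and `sgn (ker X)` is a test function of the ring, `|sgn| ≤ 1`
   * `scr32p_loc`             a spin observable with window `R` is `RswLoc R R'`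
-/

set_option autoImplicit false

namespace Claimed.Agent.R292

open Claims Claims.C0468

/-! ## 1. the abstract Markov property -/

/-- `D * (N / D) = N` for a weighted sum with nonnegative weights (also when `D = 0`). -/
theorem scr32_mul_div {ι : Type*} (s : Finset ι) (w X : ι → ℝ) (hw : ∀ i ∈ s, 0 ≤ w i) :
    (∑ i ∈ s, w i) * ((∑ i ∈ s, w i * X i) / ∑ i ∈ s, w i) = ∑ i ∈ s, w i * X i := by
  by_cases hD : ∑ i ∈ s, w i = 0
  · have h0 : ∀ i ∈ s, w i = 0 := (Finset.sum_eq_zero_iff_of_nonneg hw).1 hD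
    rw [hD, zero_mul]
    exact (Finset.sum_eq_zero fun i hi => by rw [h0 i hi, zero_mul]).symm
  · rw [mul_div_cancel₀ _ hD]

/-- **abstract Markov property on a product space** `A × R × E` with weight `w1 (a, r) * w2 (r, e)`. -/
theorem scr32_prod {A R E : Type*} [Fintype A] [Fintype R] [Fintype E]
    (w1 : A → R → ℝ) (w2 : R → E → ℝ) (h1 : ∀ a r, 0 ≤ w1 a r) (X : A → R → ℝ) (G : R → E → ℝ) :
    ∑ a, ∑ r, ∑ e, w1 a r * w2 r e * (X a r * G r e) =
      ∑ a, ∑ r, ∑ e, w1 a r * w2 r e * ((∑ a', w1 a' r * X a' r) / (∑ a', w1 a' r) * G r e) := by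
  rw [Finset.sum_comm]
  conv_rhs => rw [Finset.sum_comm]
  refine Finset.sum_congr rfl fun r _ => ?_
  have hL : ∑ a, ∑ e, w1 a r * w2 r e * (X a r * G r e) =
      (∑ a, w1 a r * X a r) * ∑ e, w2 r e * G r e := by
    rw [Finset.sum_mul_sum]
    exact Finset.sum_congr rfl fun a _ => Finset.sum_congr rfl fun e _ => by ring
  have hR : ∑ a, ∑ e, w1 a r * w2 r e * ((∑ a', w1 a' r * X a' r) / (∑ a', w1 a' r) * G r e) =
      ((∑ a, w1 a r) * ((∑ a', w1 a' r * X a' r) / (∑ a', w1 a' r))) * ∑ e, w2 r e * G r e := by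
    rw [Finset.sum_mul, Finset.sum_mul_sum]
    exact Finset.sum_congr rfl fun a _ => Finset.sum_congr rfl fun e _ => by ring
  rw [hL, hR, scr32_mul_div _ _ _ fun a _ => h1 a r]

/-- conditional mean of `X` given the fibre of `π`, for the weight `w1`. -/
noncomputable def scr32_cond {Ω K : Type*} [Fintype Ω] [DecidableEq K] (π : Ω → K) (w1 X : Ω → ℝ) (p : Ω) : ℝ :=
  (∑ q with π q = π p, w1 q * X q) / ∑ q with π q = π p, w1 q

/-- **abstract Markov property, fibre form**: `w2` and `G` are functions of `π`; the kernel only sees `w1`. -/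
theorem scr32_fibre {Ω K : Type*} [Fintype Ω] [Fintype K] [DecidableEq K] (π : Ω → K) (w1 w2 X G : Ω → ℝ)
    (h1 : ∀ p, 0 ≤ w1 p) (h2 : ∀ p q, π p = π q → w2 p = w2 q) (hG : ∀ p q, π p = π q → G p = G q) :
    ∑ p, w1 p * w2 p * (X p * G p) = ∑ p, w1 p * w2 p * (scr32_cond π w1 X p * G p) := by
  rw [← Finset.sum_fiberwise Finset.univ π, ← Finset.sum_fiberwise Finset.univ π
    (fun p => w1 p * w2 p * (scr32_cond π w1 X p * G p))]
  refine Finset.sum_congr rfl fun k _ => ?_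
  rcases (Finset.univ.filter fun p => π p = k).eq_empty_or_nonempty with he | ⟨p0, hp0⟩
  · rw [he, Finset.sum_empty, Finset.sum_empty]
  · have hk : π p0 = k := (Finset.mem_filter.1 hp0).2
    have hL : ∑ p with π p = k, w1 p * w2 p * (X p * G p) =
        (∑ p with π p = k, w1 p * X p) * (w2 p0 * G p0) := by
      rw [Finset.sum_mul]
      refine Finset.sum_congr rfl fun p hp => ?_
      have hpk : π p = π p0 := (Finset.mem_filter.1 hp).2.trans hk.symm
      rw [h2 p p0 hpk, hG p p0 hpk]; ring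
    have hR : ∑ p with π p = k, w1 p * w2 p * (scr32_cond π w1 X p * G p) =
        ((∑ p with π p = k, w1 p) * ((∑ p with π p = k, w1 p * X p) / ∑ p with π p = k, w1 p)) *
          (w2 p0 * G p0) := by
      rw [Finset.sum_mul, Finset.sum_mul]
      refine Finset.sum_congr rfl fun p hp => ?_
      have hpk' : π p = k := (Finset.mem_filter.1 hp).2
      have hpk : π p = π p0 := hpk'.trans hk.symm
      rw [h2 p p0 hpk, hG p p0 hpk]
      unfold scr32_cond
      rw [hpk']; ring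
    rw [hL, hR, scr32_mul_div _ _ _ fun p _ => h1 p]

/-! ## 2. the frozen weight is a product of local factors -/

/-- a pair of spins on the whole lattice: corners, faces. -/
abbrev scr32G : Type := (ℤ × ℤ → Bool) × (ℤ × ℤ → Bool)

/-- the sign of a Boolean spin. -/
def scr32_sg (b : Bool) : ℤ := if b then 1 else -1

/-- extension by `+` of a pair of spins of `F`. -/
def scr32_ext {F : Finset (ℤ × ℤ)} (p : at92Cfg F) : scr32G :=
  (fun v => if hv : v ∈ cornersOf F then p.1 ⟨v, hv⟩ else true,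
   fun f => if hf : f ∈ F then p.2 ⟨f, hf⟩ else true)

/-- restriction to `F` of a pair of spins of the whole lattice. -/
def scr32_res (F : Finset (ℤ × ℤ)) (c : scr32G) : at92Cfg F := (fun v => c.1 v.1, fun f => c.2 f.1)

theorem scr32_res_ext {F : Finset (ℤ × ℤ)} (p : at92Cfg F) : scr32_res F (scr32_ext p) = p := by
  refine Prod.ext ?_ ?_
  · funext v; simp [scr32_res, scr32_ext]
  · funext f; simp [scr32_res, scr32_ext]

theorem scr32_spin {F : Finset (ℤ × ℤ)} (p : at92Cfg F) (v : ℤ × ℤ) :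
    atSpin p.1 v = scr32_sg ((scr32_ext p).1 v) := by
  unfold atSpin scr32_sg scr32_ext
  by_cases hv : v ∈ cornersOf F <;> simp [hv]

theorem scr32_dual {F : Finset (ℤ × ℤ)} (p : at92Cfg F) (f : ℤ × ℤ) :
    atDual p.2 f = scr32_sg ((scr32_ext p).2 f) := by
  unfold atDual scr32_sg scr32_ext
  by_cases hf : f ∈ F <;> simp [hf]

open Classical in
/-- the factor of one quad; `a` : the primal edge is counted, `b` : the dual edge is present. -/
noncomputable def scr32_q (t : ℝ) (a b : Prop) (s s' d d' : ℤ) : ℝ :=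
  (if b → (s - s') * (d - d') = 0 then 1 else 0) *
    t ^ ((if a ∧ s ≠ s' then 1 else 0) + (if b ∧ d ≠ d' then 1 else 0))

/-- the factor of the horizontal quad `{corner v, corner v + e1, face v, face v - e2}` in the domain `S`. -/
noncomputable def scr32_hq (t : ℝ) (S : Set (ℤ × ℤ)) (c : scr32G) (v : ℤ × ℤ) : ℝ :=
  scr32_q t (v ∈ S ∨ (v.1, v.2 - 1) ∈ S) (v ∈ S ∧ (v.1, v.2 - 1) ∈ S)
    (scr32_sg (c.1 v)) (scr32_sg (c.1 (v.1 + 1, v.2))) (scr32_sg (c.2 v)) (scr32_sg (c.2 (v.1, v.2 - 1)))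

/-- the factor of the vertical quad `{corner v, corner v + e2, face v, face v - e1}` in the domain `S`. -/
noncomputable def scr32_vq (t : ℝ) (S : Set (ℤ × ℤ)) (c : scr32G) (v : ℤ × ℤ) : ℝ :=
  scr32_q t (v ∈ S ∨ (v.1 - 1, v.2) ∈ S) (v ∈ S ∧ (v.1 - 1, v.2) ∈ S)
    (scr32_sg (c.1 v)) (scr32_sg (c.1 (v.1, v.2 + 1))) (scr32_sg (c.2 v)) (scr32_sg (c.2 (v.1 - 1, v.2)))

open Classical in
/-- the wall factor at the corner `v` in the domain `S`. -/
noncomputable def scr32_bd (S : Set (ℤ × ℤ)) (c : scr32G) (v : ℤ × ℤ) : ℝ :=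
  if ¬ (v ∈ S ∧ (v.1 - 1, v.2) ∈ S ∧ (v.1, v.2 - 1) ∈ S ∧ (v.1 - 1, v.2 - 1) ∈ S) → scr32_sg (c.1 v) = 1
  then 1 else 0

theorem scr32_ite3 (A B C : Prop) [Decidable A] [Decidable B] [Decidable C] [Decidable (A ∧ B ∧ C)]
    (t : ℝ) (n1 n2 n3 n4 : ℕ) :
    (if A then (1 : ℝ) else 0) * ((if B then 1 else 0) * t ^ (n1 + n3)) * ((if C then 1 else 0) * t ^ (n2 + n4)) =
      if A ∧ B ∧ C then t ^ (n1 + n2 + n3 + n4) else 0 := by
  by_cases hA : A <;> by_cases hB : B <;> by_cases hC : C <;> simp [hA, hB, hC, pow_add]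
  ring

open Classical in
/-- **the frozen weight `1[adm] t ^ dis` is the product of the local factors.** -/
theorem scr32_weight (t : ℝ) {F : Finset (ℤ × ℤ)} (p : at92Cfg F) :
    (if IsAdmissibleSpins p.1 p.2 then at92W t p else 0) =
      ∏ v ∈ cornersOf F, scr32_bd (↑F) (scr32_ext p) v * scr32_hq t (↑F) (scr32_ext p) v *
        scr32_vq t (↑F) (scr32_ext p) v := by
  have key : ∀ v : ℤ × ℤ, scr32_bd (↑F) (scr32_ext p) v * scr32_hq t (↑F) (scr32_ext p) v *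
        scr32_vq t (↑F) (scr32_ext p) v =
      if ((OnPolygon F v → atSpin p.1 v = 1) ∧
        (((v ∈ F ∧ (v.1, v.2 - 1) ∈ F) →
          (atSpin p.1 v - atSpin p.1 (v.1 + 1, v.2)) * (atDual p.2 v - atDual p.2 (v.1, v.2 - 1)) = 0) ∧
        ((v ∈ F ∧ (v.1 - 1, v.2) ∈ F) →
          (atSpin p.1 v - atSpin p.1 (v.1, v.2 + 1)) * (atDual p.2 v - atDual p.2 (v.1 - 1, v.2)) = 0)))
      then t ^ ((if (v ∈ F ∨ (v.1, v.2 - 1) ∈ F) ∧ atSpin p.1 v ≠ atSpin p.1 (v.1 + 1, v.2) then 1 else 0) +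
         (if (v ∈ F ∨ (v.1 - 1, v.2) ∈ F) ∧ atSpin p.1 v ≠ atSpin p.1 (v.1, v.2 + 1) then 1 else 0) +
         (if (v ∈ F ∧ (v.1, v.2 - 1) ∈ F) ∧ atDual p.2 v ≠ atDual p.2 (v.1, v.2 - 1) then 1 else 0) +
         (if (v ∈ F ∧ (v.1 - 1, v.2) ∈ F) ∧ atDual p.2 v ≠ atDual p.2 (v.1 - 1, v.2) then 1 else 0))
      else 0 := by
    intro v
    unfold scr32_bd scr32_hq scr32_vq scr32_q OnPolygon
    simp only [← scr32_spin, ← scr32_dual, Finset.mem_coe]
    exact scr32_ite3 _ _ _ t _ _ _ _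
  rw [Finset.prod_congr rfl fun v _ => key v, Finset.prod_ite_zero, Finset.prod_pow_eq_pow_sum]
  have hadm : IsAdmissibleSpins p.1 p.2 ↔ ∀ v ∈ cornersOf F, ((OnPolygon F v → atSpin p.1 v = 1) ∧
        (((v ∈ F ∧ (v.1, v.2 - 1) ∈ F) →
          (atSpin p.1 v - atSpin p.1 (v.1 + 1, v.2)) * (atDual p.2 v - atDual p.2 (v.1, v.2 - 1)) = 0) ∧
        ((v ∈ F ∧ (v.1 - 1, v.2) ∈ F) →
          (atSpin p.1 v - atSpin p.1 (v.1, v.2 + 1)) * (atDual p.2 v - atDual p.2 (v.1 - 1, v.2)) = 0))) := by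
    unfold IsAdmissibleSpins
    exact ⟨fun h v hv => ⟨h.1 v hv, h.2 v hv⟩, fun h => ⟨fun v hv => (h v hv).1, fun v hv => (h v hv).2⟩⟩
  by_cases h : IsAdmissibleSpins p.1 p.2
  · rw [if_pos h, if_pos (hadm.1 h)]
    unfold at92W atDisagreements
    congr!
  · rw [if_neg h, if_neg fun h' => h (hadm.2 h')]

/-! ## 3. reading, quads, factorisation of the weight -/

/-- two pairs of spins of the whole lattice agree off the sites `(Sc, Sf)` (corners, faces). -/
def scr32_Off (Sc Sf : Set (ℤ × ℤ)) (c c' : scr32G) : Prop :=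
  (∀ v, v ∉ Sc → c.1 v = c'.1 v) ∧ ∀ f, f ∉ Sf → c.2 f = c'.2 f

/-- an observable of the whole lattice that does not read the sites `(Sc, Sf)`. -/
def scr32_NRg (Sc Sf : Set (ℤ × ℤ)) (A : scr32G → ℝ) : Prop :=
  ∀ c c' : scr32G, scr32_Off Sc Sf c c' → A c = A c'

/-- an observable of `F` that does not read the sites `(Sc, Sf)`. -/
def scr32_NR {F : Finset (ℤ × ℤ)} (Sc Sf : Set (ℤ × ℤ)) (A : at92Cfg F → ℝ) : Prop :=
  ∀ p p' : at92Cfg F, (∀ v : cornersOf F, v.1 ∉ Sc → p.1 v = p'.1 v) →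
    (∀ f : F, f.1 ∉ Sf → p.2 f = p'.2 f) → A p = A p'

/-- the horizontal quad at `v` meets the sites `(Sc, Sf)`. -/
def scr32_HM (Sc Sf : Set (ℤ × ℤ)) (v : ℤ × ℤ) : Prop :=
  v ∈ Sc ∨ (v.1 + 1, v.2) ∈ Sc ∨ v ∈ Sf ∨ (v.1, v.2 - 1) ∈ Sf

/-- the vertical quad at `v` meets the sites `(Sc, Sf)`. -/
def scr32_VM (Sc Sf : Set (ℤ × ℤ)) (v : ℤ × ℤ) : Prop :=
  v ∈ Sc ∨ (v.1, v.2 + 1) ∈ Sc ∨ v ∈ Sf ∨ (v.1 - 1, v.2) ∈ Sf

/-- no quad meets both `In = (Ic, If)` and `Out = (Oc, Of)`. -/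
def scr32_Sep (Ic If Oc Of : Set (ℤ × ℤ)) : Prop :=
  (∀ v, scr32_HM Ic If v → ¬ scr32_HM Oc Of v) ∧ ∀ v, scr32_VM Ic If v → ¬ scr32_VM Oc Of v

theorem scr32_hq_congr (t : ℝ) (S : Set (ℤ × ℤ)) {Sc Sf : Set (ℤ × ℤ)} {c c' : scr32G}
    (h : scr32_Off Sc Sf c c') {v : ℤ × ℤ} (hv : ¬ scr32_HM Sc Sf v) :
    scr32_hq t S c v = scr32_hq t S c' v := by
  unfold scr32_HM at hv
  simp only [not_or] at hv
  unfold scr32_hq
  rw [h.1 _ hv.1, h.1 _ hv.2.1, h.2 _ hv.2.2.1, h.2 _ hv.2.2.2]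

theorem scr32_vq_congr (t : ℝ) (S : Set (ℤ × ℤ)) {Sc Sf : Set (ℤ × ℤ)} {c c' : scr32G}
    (h : scr32_Off Sc Sf c c') {v : ℤ × ℤ} (hv : ¬ scr32_VM Sc Sf v) :
    scr32_vq t S c v = scr32_vq t S c' v := by
  unfold scr32_VM at hv
  simp only [not_or] at hv
  unfold scr32_vq
  rw [h.1 _ hv.1, h.1 _ hv.2.1, h.2 _ hv.2.2.1, h.2 _ hv.2.2.2]

theorem scr32_bd_congr (S : Set (ℤ × ℤ)) {Sc Sf : Set (ℤ × ℤ)} {c c' : scr32G}
    (h : scr32_Off Sc Sf c c') {v : ℤ × ℤ} (hv : v ∉ Sc) :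
    scr32_bd S c v = scr32_bd S c' v := by
  unfold scr32_bd
  rw [h.1 _ hv]

theorem scr32_q_nonneg {t : ℝ} (ht : 0 ≤ t) (a b : Prop) (s s' d d' : ℤ) : 0 ≤ scr32_q t a b s s' d d' := by
  unfold scr32_q
  refine mul_nonneg ?_ (pow_nonneg ht _)
  split_ifs <;> norm_num

theorem scr32_bd_nonneg (S : Set (ℤ × ℤ)) (c : scr32G) (v : ℤ × ℤ) : 0 ≤ scr32_bd S c v := by
  unfold scr32_bd
  split_ifs <;> norm_num

open Classical in
/-- the product of the local factors (base points in `C`, domain `S`) whose quad / site meets `In = (Ic, If)`. -/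
noncomputable def scr32_w1 (t : ℝ) (S : Set (ℤ × ℤ)) (C : Finset (ℤ × ℤ)) (Ic If : Set (ℤ × ℤ)) (c : scr32G) : ℝ :=
  ∏ v ∈ C, (if v ∈ Ic then scr32_bd S c v else 1) * (if scr32_HM Ic If v then scr32_hq t S c v else 1) *
    (if scr32_VM Ic If v then scr32_vq t S c v else 1)

open Classical in
/-- the product of the other local factors. -/
noncomputable def scr32_w2 (t : ℝ) (S : Set (ℤ × ℤ)) (C : Finset (ℤ × ℤ)) (Ic If : Set (ℤ × ℤ)) (c : scr32G) : ℝ :=
  ∏ v ∈ C, (if v ∈ Ic then 1 else scr32_bd S c v) * (if scr32_HM Ic If v then 1 else scr32_hq t S c v) *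
    (if scr32_VM Ic If v then 1 else scr32_vq t S c v)

theorem scr32_w1_mul_w2 (t : ℝ) (S : Set (ℤ × ℤ)) (C : Finset (ℤ × ℤ)) (Ic If : Set (ℤ × ℤ)) (c : scr32G) :
    scr32_w1 t S C Ic If c * scr32_w2 t S C Ic If c =
      ∏ v ∈ C, scr32_bd S c v * scr32_hq t S c v * scr32_vq t S c v := by
  unfold scr32_w1 scr32_w2
  rw [← Finset.prod_mul_distrib]
  refine Finset.prod_congr rfl fun v _ => ?_
  split_ifs <;> ring

theorem scr32_w1_nonneg {t : ℝ} (ht : 0 ≤ t) (S : Set (ℤ × ℤ)) (C : Finset (ℤ × ℤ)) (Ic If : Set (ℤ × ℤ))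
    (c : scr32G) : 0 ≤ scr32_w1 t S C Ic If c := by
  unfold scr32_w1
  refine Finset.prod_nonneg fun v _ => mul_nonneg (mul_nonneg ?_ ?_) ?_
  · split_ifs
    · exact scr32_bd_nonneg _ _ _
    · norm_num
  · split_ifs
    · exact scr32_q_nonneg ht _ _ _ _ _ _
    · norm_num
  · split_ifs
    · exact scr32_q_nonneg ht _ _ _ _ _ _
    · norm_num

/-- `w2` does not read `In`. -/
theorem scr32_w2_NR (t : ℝ) (S : Set (ℤ × ℤ)) (C : Finset (ℤ × ℤ)) (Ic If : Set (ℤ × ℤ)) :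
    scr32_NRg Ic If (scr32_w2 t S C Ic If) := by
  intro c c' h
  unfold scr32_w2
  refine Finset.prod_congr rfl fun v _ => ?_
  congr 1
  · congr 1
    · split_ifs with hv
      · rfl
      · exact scr32_bd_congr S h hv
    · split_ifs with hv
      · rfl
      · exact scr32_hq_congr t S h hv
  · split_ifs with hv
    · rfl
    · exact scr32_vq_congr t S h hv

/-- `w1` does not read `Out`, as soon as no quad meets both `In` and `Out`. -/
theorem scr32_w1_NR (t : ℝ) (S : Set (ℤ × ℤ)) (C : Finset (ℤ × ℤ)) {Ic If Oc Of : Set (ℤ × ℤ)}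
    (hsep : scr32_Sep Ic If Oc Of) : scr32_NRg Oc Of (scr32_w1 t S C Ic If) := by
  intro c c' h
  unfold scr32_w1
  refine Finset.prod_congr rfl fun v _ => ?_
  congr 1
  · congr 1
    · split_ifs with hv
      · exact scr32_bd_congr S h fun hO => hsep.1 v (Or.inl hv) (Or.inl hO)
      · rfl
    · split_ifs with hv
      · exact scr32_hq_congr t S h (hsep.1 v hv)
      · rfl
  · split_ifs with hv
    · exact scr32_vq_congr t S h (hsep.2 v hv)
    · rfl

open Classical in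
/-- **factorisation of the frozen weight**: `1[adm] t ^ dis = w1 * w2`. -/
theorem scr32_weight_factor (t : ℝ) {F : Finset (ℤ × ℤ)} (Ic If : Set (ℤ × ℤ)) (p : at92Cfg F) :
    (if IsAdmissibleSpins p.1 p.2 then at92W t p else 0) =
      scr32_w1 t (↑F) (cornersOf F) Ic If (scr32_ext p) * scr32_w2 t (↑F) (cornersOf F) Ic If (scr32_ext p) := by
  rw [scr32_w1_mul_w2, scr32_weight]

theorem scr32_ext_off {F : Finset (ℤ × ℤ)} {Sc Sf : Set (ℤ × ℤ)} {p p' : at92Cfg F}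
    (h1 : ∀ v : cornersOf F, v.1 ∉ Sc → p.1 v = p'.1 v) (h2 : ∀ f : F, f.1 ∉ Sf → p.2 f = p'.2 f) :
    scr32_Off Sc Sf (scr32_ext p) (scr32_ext p') := by
  refine ⟨fun v hv => ?_, fun f hf => ?_⟩
  · unfold scr32_ext
    by_cases h : v ∈ cornersOf F
    · simp only [h, dite_true]; exact h1 ⟨v, h⟩ hv
    · simp only [h, dite_false]
  · unfold scr32_ext
    by_cases h : f ∈ F
    · simp only [h, dite_true]; exact h2 ⟨f, h⟩ hf
    · simp only [h, dite_false]

/-- an observable of the whole lattice that does not read `S`, read in `F`. -/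
theorem scr32_NR_of_NRg {F : Finset (ℤ × ℤ)} {Sc Sf : Set (ℤ × ℤ)} {A : scr32G → ℝ} (hA : scr32_NRg Sc Sf A) :
    scr32_NR Sc Sf (fun p : at92Cfg F => A (scr32_ext p)) :=
  fun _ _ h1 h2 => hA _ _ (scr32_ext_off h1 h2)

/-- an observable of `F` that does not read `S`, as an observable of the whole lattice. -/
theorem scr32_NRg_of_NR {F : Finset (ℤ × ℤ)} {Sc Sf : Set (ℤ × ℤ)} {A : at92Cfg F → ℝ} (hA : scr32_NR Sc Sf A) :
    scr32_NRg Sc Sf (fun c => A (scr32_res F c)) :=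
  fun _ _ h => hA _ _ (fun v hv => h.1 v.1 hv) (fun f hf => h.2 f.1 hf)

/-- the vocabulary of `Defs/Screen`: an exterior observable of `Q` does not read the sites in `Q`. -/
theorem scr32_ext_iff (δ : ℝ) (F : Finset (ℤ × ℤ)) (Q : Set (ℝ × ℝ)) (A : at92Cfg F → ℝ) :
    ScrExt δ F Q A ↔ scr32_NR {v : ℤ × ℤ | ((δ * (v.1 : ℝ), δ * (v.2 : ℝ)) : ℝ × ℝ) ∈ Q}
      {f : ℤ × ℤ | ((δ * ((f.1 : ℝ) + 1 / 2), δ * ((f.2 : ℝ) + 1 / 2)) : ℝ × ℝ) ∈ Q} A :=
  Iff.rfl

/-! ## 4. the interior kernel and the Markov property in `F` -/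

/-- fill the sites `In = (Ic, If)` with `a`, keep `c` elsewhere. -/
def scr32_fill (Ic If : Finset (ℤ × ℤ)) (a : (Ic → Bool) × (If → Bool)) (c : scr32G) : scr32G :=
  (fun v => if h : v ∈ Ic then a.1 ⟨v, h⟩ else c.1 v, fun f => if h : f ∈ If then a.2 ⟨f, h⟩ else c.2 f)

/-- the spins on `In`. -/
def scr32_in (Ic If : Finset (ℤ × ℤ)) (c : scr32G) : (Ic → Bool) × (If → Bool) :=
  (fun v => c.1 v.1, fun f => c.2 f.1)

/-- **the interior Gibbs kernel** (domain `S`, base points `C`): mean of `X` over the fillings of `In`, the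
other spins being those of `c`; `0` when no filling has a positive weight. -/
noncomputable def scr32_kerS (t : ℝ) (S : Set (ℤ × ℤ)) (C : Finset (ℤ × ℤ)) (Ic If : Finset (ℤ × ℤ))
    (X : scr32G → ℝ) (c : scr32G) : ℝ :=
  (∑ a : (Ic → Bool) × (If → Bool),
      scr32_w1 t S C (↑Ic) (↑If) (scr32_fill Ic If a c) * X (scr32_fill Ic If a c)) /
    ∑ a : (Ic → Bool) × (If → Bool), scr32_w1 t S C (↑Ic) (↑If) (scr32_fill Ic If a c)

/-- forget the spins on `In` (put `+` there). -/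
def scr32_pi {F : Finset (ℤ × ℤ)} (Ic If : Finset (ℤ × ℤ)) (p : at92Cfg F) : at92Cfg F :=
  (fun v => if v.1 ∈ Ic then true else p.1 v, fun f => if f.1 ∈ If then true else p.2 f)

theorem scr32_pi_eq {F : Finset (ℤ × ℤ)} {Ic If : Finset (ℤ × ℤ)} {p q : at92Cfg F} :
    scr32_pi Ic If p = scr32_pi Ic If q ↔
      (∀ v : cornersOf F, v.1 ∉ (↑Ic : Set (ℤ × ℤ)) → p.1 v = q.1 v) ∧
        ∀ f : F, f.1 ∉ (↑If : Set (ℤ × ℤ)) → p.2 f = q.2 f := by
  unfold scr32_pi
  rw [Prod.ext_iff]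
  simp only [funext_iff, Finset.mem_coe]
  refine and_congr (forall_congr' fun v => ?_) (forall_congr' fun f => ?_)
  · by_cases h : v.1 ∈ Ic <;> simp [h]
  · by_cases h : f.1 ∈ If <;> simp [h]

theorem scr32_fill_in {Ic If : Finset (ℤ × ℤ)} {c c' : scr32G} (h : scr32_Off (↑Ic) (↑If) c c') :
    scr32_fill Ic If (scr32_in Ic If c) c' = c := by
  unfold scr32_fill scr32_in
  refine Prod.ext ?_ ?_
  · funext v
    by_cases hv : v ∈ Ic
    · simp only [hv, dite_true]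
    · simp only [hv, dite_false]; exact (h.1 v (by simpa using hv)).symm
  · funext f
    by_cases hf : f ∈ If
    · simp only [hf, dite_true]
    · simp only [hf, dite_false]; exact (h.2 f (by simpa using hf)).symm

theorem scr32_in_fill (Ic If : Finset (ℤ × ℤ)) (a : (Ic → Bool) × (If → Bool)) (c : scr32G) :
    scr32_in Ic If (scr32_fill Ic If a c) = a := by
  unfold scr32_fill scr32_in
  refine Prod.ext ?_ ?_
  · funext v; simp only [v.2, dite_true]
  · funext f; simp only [f.2, dite_true]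

theorem scr32_fill_off (Ic If : Finset (ℤ × ℤ)) (a : (Ic → Bool) × (If → Bool)) (c : scr32G) :
    scr32_Off (↑Ic) (↑If) (scr32_fill Ic If a c) c := by
  unfold scr32_fill
  refine ⟨fun v hv => ?_, fun f hf => ?_⟩
  · have hv' : v ∉ Ic := by simpa using hv
    simp only [hv', dite_false]
  · have hf' : f ∉ If := by simpa using hf
    simp only [hf', dite_false]

theorem scr32_ext_res_fill {F : Finset (ℤ × ℤ)} {Ic If : Finset (ℤ × ℤ)} (hc : Ic ⊆ cornersOf F) (hf : If ⊆ F)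
    (a : (Ic → Bool) × (If → Bool)) (p : at92Cfg F) :
    scr32_ext (scr32_res F (scr32_fill Ic If a (scr32_ext p))) = scr32_fill Ic If a (scr32_ext p) := by
  refine Prod.ext ?_ ?_
  · funext v
    by_cases hv : v ∈ cornersOf F
    · simp only [scr32_ext, scr32_res, hv, dite_true]
    · have hv' : v ∉ Ic := fun h => hv (hc h)
      simp only [scr32_ext, scr32_fill, hv, hv', dite_false]
  · funext f
    by_cases hv : f ∈ F
    · simp only [scr32_ext, scr32_res, hv, dite_true]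
    · have hv' : f ∉ If := fun h => hv (hf h)
      simp only [scr32_ext, scr32_fill, hv, hv', dite_false]

/-- the fibre of `scr32_pi` through `p` is the set of the fillings of `In`. -/
theorem scr32_sum_fibre {F : Finset (ℤ × ℤ)} {Ic If : Finset (ℤ × ℤ)} (hc : Ic ⊆ cornersOf F) (hf : If ⊆ F)
    (p : at92Cfg F) (f : scr32G → ℝ) :
    ∑ q with scr32_pi Ic If q = scr32_pi Ic If p, f (scr32_ext q) =
      ∑ a : (Ic → Bool) × (If → Bool), f (scr32_fill Ic If a (scr32_ext p)) := by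
  have hoff : ∀ q ∈ Finset.univ.filter (fun q : at92Cfg F => scr32_pi Ic If q = scr32_pi Ic If p),
      scr32_Off (↑Ic) (↑If) (scr32_ext q) (scr32_ext p) := by
    intro q hq
    have h := scr32_pi_eq.1 (Finset.mem_filter.1 hq).2
    exact scr32_ext_off h.1 h.2
  refine Finset.sum_nbij' (fun q => scr32_in Ic If (scr32_ext q))
    (fun a => scr32_res F (scr32_fill Ic If a (scr32_ext p))) ?_ ?_ ?_ ?_ ?_
  · intro q _; exact Finset.mem_univ _
  · intro a _
    refine Finset.mem_filter.2 ⟨Finset.mem_univ _, scr32_pi_eq.2 ⟨fun v hv => ?_, fun g hg => ?_⟩⟩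
    · have := (scr32_fill_off Ic If a (scr32_ext p)).1 v.1 hv
      have e : (scr32_ext p).1 v.1 = p.1 v := by simp [scr32_ext]
      simpa [scr32_res, e] using this
    · have := (scr32_fill_off Ic If a (scr32_ext p)).2 g.1 hg
      have e : (scr32_ext p).2 g.1 = p.2 g := by simp [scr32_ext]
      simpa [scr32_res, e] using this
  · intro q hq
    rw [scr32_fill_in (hoff q hq), scr32_res_ext]
  · intro a _
    rw [scr32_ext_res_fill hc hf, scr32_in_fill]
  · intro q hq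
    rw [scr32_fill_in (hoff q hq)]

/-- sums over the admissible pairs, with the factorised weight. -/
theorem scr32_sum_adm (t : ℝ) {F : Finset (ℤ × ℤ)} (Ic If : Set (ℤ × ℤ)) (A : at92Cfg F → ℝ) :
    ∑ p ∈ at92Adm F, at92W t p * A p =
      ∑ p, scr32_w1 t (↑F) (cornersOf F) Ic If (scr32_ext p) *
        scr32_w2 t (↑F) (cornersOf F) Ic If (scr32_ext p) * A p := by
  classical
  unfold at92Adm
  rw [Finset.sum_filter]
  refine Finset.sum_congr rfl fun p _ => ?_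
  rw [← scr32_weight_factor]
  split_ifs <;> simp

/-- **Markov property in `F`**, any `In ⊆ F` (also near the wall): for every `X` and every `G` that does not read `In`,
`X` can be replaced by its mean under the interior kernel of `F`. -/
theorem scr32_markovS {t : ℝ} (ht : 0 ≤ t) {F : Finset (ℤ × ℤ)} {Ic If : Finset (ℤ × ℤ)}
    (hc : Ic ⊆ cornersOf F) (hf : If ⊆ F) (X : scr32G → ℝ) (G : at92Cfg F → ℝ) (hG : scr32_NR (↑Ic) (↑If) G) :
    scrE t F (fun p => X (scr32_ext p) * G p) =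
      scrE t F (fun p => scr32_kerS t (↑F) (cornersOf F) Ic If X (scr32_ext p) * G p) := by
  unfold scrE
  congr 1
  rw [scr32_sum_adm t (↑Ic) (↑If), scr32_sum_adm t (↑Ic) (↑If)]
  rw [scr32_fibre (scr32_pi Ic If) (fun p => scr32_w1 t (↑F) (cornersOf F) (↑Ic) (↑If) (scr32_ext p))
    (fun p => scr32_w2 t (↑F) (cornersOf F) (↑Ic) (↑If) (scr32_ext p)) (fun p => X (scr32_ext p)) G
    (fun p => scr32_w1_nonneg ht _ _ _ _ _)
    (fun p q h => scr32_w2_NR t _ _ _ _ _ _ (scr32_ext_off (scr32_pi_eq.1 h).1 (scr32_pi_eq.1 h).2))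
    (fun p q h => hG p q (scr32_pi_eq.1 h).1 (scr32_pi_eq.1 h).2)]
  refine Finset.sum_congr rfl fun p _ => ?_
  congr 2
  unfold scr32_cond scr32_kerS
  rw [scr32_sum_fibre hc hf p (fun c => scr32_w1 t (↑F) (cornersOf F) (↑Ic) (↑If) c * X c),
    scr32_sum_fibre hc hf p (fun c => scr32_w1 t (↑F) (cornersOf F) (↑Ic) (↑If) c)]

/-- **the kernel reads the ring only**: if no quad meets both `In` and `Out` and `X` does not read `Out`, the
kernel reads neither `In` nor `Out`. -/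
theorem scr32_kerS_ring (t : ℝ) (S : Set (ℤ × ℤ)) (C : Finset (ℤ × ℤ)) {Ic If : Finset (ℤ × ℤ)}
    {Oc Of : Set (ℤ × ℤ)} (hsep : scr32_Sep (↑Ic) (↑If) Oc Of) {X : scr32G → ℝ} (hX : scr32_NRg Oc Of X) :
    scr32_NRg (↑Ic ∪ Oc) (↑If ∪ Of) (scr32_kerS t S C Ic If X) := by
  intro c c' h
  have hoff : ∀ a, scr32_Off Oc Of (scr32_fill Ic If a c) (scr32_fill Ic If a c') := by
    intro a
    unfold scr32_fill
    refine ⟨fun v hv => ?_, fun f hf => ?_⟩
    · by_cases hI : v ∈ Ic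
      · simp only [hI, dite_true]
      · simp only [hI, dite_false]
        exact h.1 v fun hh => hh.elim (fun h1 => hI (by simpa using h1)) hv
    · by_cases hI : f ∈ If
      · simp only [hI, dite_true]
      · simp only [hI, dite_false]
        exact h.2 f fun hh => hh.elim (fun h1 => hI (by simpa using h1)) hf
  unfold scr32_kerS
  congr 1
  · refine Finset.sum_congr rfl fun a _ => ?_
    rw [scr32_w1_NR t S C hsep _ _ (hoff a), hX _ _ (hoff a)]
  · refine Finset.sum_congr rfl fun a _ => ?_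
    rw [scr32_w1_NR t S C hsep _ _ (hoff a)]

/-! ## 5. the same kernel in every domain -/

/-- the base points of the quads that meet `In`. -/
def scr32_nb (Ic If : Finset (ℤ × ℤ)) : Finset (ℤ × ℤ) :=
  Ic ∪ Ic.image (fun v => (v.1 - 1, v.2)) ∪ Ic.image (fun v => (v.1, v.2 - 1)) ∪
    If ∪ If.image (fun f => (f.1, f.2 + 1)) ∪ If.image (fun f => (f.1 + 1, f.2))

theorem scr32_mem_nb {Ic If : Finset (ℤ × ℤ)} {v : ℤ × ℤ} :
    v ∈ scr32_nb Ic If ↔ scr32_HM (↑Ic) (↑If) v ∨ scr32_VM (↑Ic) (↑If) v := by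
  have e1 : (∃ a ∈ Ic, (a.1 - 1, a.2) = v) ↔ (v.1 + 1, v.2) ∈ Ic := by
    constructor
    · rintro ⟨a, ha, rfl⟩; simpa using ha
    · intro h; exact ⟨_, h, by simp⟩
  have e2 : (∃ a ∈ Ic, (a.1, a.2 - 1) = v) ↔ (v.1, v.2 + 1) ∈ Ic := by
    constructor
    · rintro ⟨a, ha, rfl⟩; simpa using ha
    · intro h; exact ⟨_, h, by simp⟩
  have e3 : (∃ a ∈ If, (a.1, a.2 + 1) = v) ↔ (v.1, v.2 - 1) ∈ If := by
    constructor
    · rintro ⟨a, ha, rfl⟩; simpa using ha
    · intro h; exact ⟨_, h, by simp⟩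
  have e4 : (∃ a ∈ If, (a.1 + 1, a.2) = v) ↔ (v.1 - 1, v.2) ∈ If := by
    constructor
    · rintro ⟨a, ha, rfl⟩; simpa using ha
    · intro h; exact ⟨_, h, by simp⟩
  unfold scr32_nb scr32_HM scr32_VM
  simp only [Finset.mem_union, Finset.mem_image, Finset.mem_coe, e1, e2, e3, e4]
  tauto

/-- `In` is deep in `F`: both faces of every quad that meets `In` are faces of `F`. -/
def scr32_Deep (F : Finset (ℤ × ℤ)) (Ic If : Set (ℤ × ℤ)) : Prop :=
  (∀ v, scr32_HM Ic If v → v ∈ F ∧ (v.1, v.2 - 1) ∈ F) ∧ ∀ v, scr32_VM Ic If v → v ∈ F ∧ (v.1 - 1, v.2) ∈ F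

theorem scr32_face_corner {F : Finset (ℤ × ℤ)} {v : ℤ × ℤ} (hv : v ∈ F) : v ∈ cornersOf F := by
  unfold cornersOf
  exact Finset.mem_biUnion.2 ⟨v, hv, by simp⟩

theorem scr32_deep_corners {F : Finset (ℤ × ℤ)} {Ic If : Finset (ℤ × ℤ)} (hd : scr32_Deep F (↑Ic) (↑If)) :
    Ic ⊆ cornersOf F :=
  fun v hv => scr32_face_corner (hd.1 v (Or.inl (by simpa using hv))).1

theorem scr32_deep_faces {F : Finset (ℤ × ℤ)} {Ic If : Finset (ℤ × ℤ)} (hd : scr32_Deep F (↑Ic) (↑If)) :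
    If ⊆ F :=
  fun f hf => (hd.1 f (Or.inr (Or.inr (Or.inl (by simpa using hf))))).1

/-- the interior weight of a deep `In` is the interior weight of the full plane. -/
theorem scr32_w1_univ (t : ℝ) {F : Finset (ℤ × ℤ)} {Ic If : Finset (ℤ × ℤ)} (hd : scr32_Deep F (↑Ic) (↑If))
    (c : scr32G) :
    scr32_w1 t (↑F) (cornersOf F) (↑Ic) (↑If) c = scr32_w1 t Set.univ (scr32_nb Ic If) (↑Ic) (↑If) c := by
  classical
  have hsub : scr32_nb Ic If ⊆ cornersOf F := by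
    intro v hv
    rcases scr32_mem_nb.1 hv with h | h
    · exact scr32_face_corner (hd.1 v h).1
    · exact scr32_face_corner (hd.2 v h).1
  unfold scr32_w1
  rw [← Finset.prod_subset hsub]
  · refine Finset.prod_congr rfl fun v _ => ?_
    congr 1
    · congr 1
      · split_ifs with h
        · have h1 := hd.1 v (Or.inl h)
          have h2 := hd.2 v (Or.inl h)
          have h3 := hd.1 (v.1 - 1, v.2) (Or.inr (Or.inl (by simpa using h)))
          unfold scr32_bd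
          rw [if_pos, if_pos]
          · intro hh; exact absurd ⟨trivial, trivial, trivial, trivial⟩ hh
          · intro hh
            exact absurd ⟨by simpa using h1.1, by simpa using h2.2, by simpa using h1.2, by simpa using h3.2⟩ hh
        · rfl
      · split_ifs with h
        · have h1 := hd.1 v h
          simp only [scr32_hq, Finset.mem_coe, Set.mem_univ, h1.1, h1.2]
        · rfl
    · split_ifs with h
      · have h1 := hd.2 v h
        simp only [scr32_vq, Finset.mem_coe, Set.mem_univ, h1.1, h1.2]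
      · rfl
  · intro v _ hv
    have hv' := fun h => hv (scr32_mem_nb.2 h)
    have hH : ¬ scr32_HM (↑Ic) (↑If) v := fun h => hv' (Or.inl h)
    have hV : ¬ scr32_VM (↑Ic) (↑If) v := fun h => hv' (Or.inr h)
    have hI : v ∉ (↑Ic : Set (ℤ × ℤ)) := fun h => hH (Or.inl h)
    rw [if_neg hI, if_neg hH, if_neg hV]
    norm_num

/-- **THE interior Gibbs kernel** of `In = (Ic, If)` : a formula in `t`, `In`, `X` and the spins only; no domain. -/
noncomputable def scr32_ker (t : ℝ) (Ic If : Finset (ℤ × ℤ)) (X : scr32G → ℝ) (c : scr32G) : ℝ :=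
  scr32_kerS t Set.univ (scr32_nb Ic If) Ic If X c

theorem scr32_kerS_univ (t : ℝ) {F : Finset (ℤ × ℤ)} {Ic If : Finset (ℤ × ℤ)} (hd : scr32_Deep F (↑Ic) (↑If))
    (X : scr32G → ℝ) (c : scr32G) :
    scr32_kerS t (↑F) (cornersOf F) Ic If X c = scr32_ker t Ic If X c := by
  unfold scr32_ker scr32_kerS
  simp only [scr32_w1_univ t hd]

/-- **MARKOV PROPERTY ACROSS A RING, universal kernel**: `In` deep in `F`, `G` does not read `In`. -/
theorem scr32_markov {t : ℝ} (ht : 0 ≤ t) {F : Finset (ℤ × ℤ)} {Ic If : Finset (ℤ × ℤ)}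
    (hd : scr32_Deep F (↑Ic) (↑If)) (X : scr32G → ℝ) (G : at92Cfg F → ℝ) (hG : scr32_NR (↑Ic) (↑If) G) :
    scrE t F (fun p => X (scr32_ext p) * G p) = scrE t F (fun p => scr32_ker t Ic If X (scr32_ext p) * G p) := by
  rw [scr32_markovS ht (scr32_deep_corners hd) (scr32_deep_faces hd) X G hG]
  simp only [scr32_kerS_univ t hd]

/-- the universal kernel reads the ring only. -/
theorem scr32_ker_ring (t : ℝ) {Ic If : Finset (ℤ × ℤ)} {Oc Of : Set (ℤ × ℤ)}
    (hsep : scr32_Sep (↑Ic) (↑If) Oc Of) {X : scr32G → ℝ} (hX : scr32_NRg Oc Of X) :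
    scr32_NRg (↑Ic ∪ Oc) (↑If ∪ Of) (scr32_ker t Ic If X) :=
  scr32_kerS_ring t _ _ hsep hX

/-- **MARKOV PROPERTY ACROSS A RING, for observables of `F`**: `X` reads only spins off `Out`, `G` only spins off `In`,
no quad meets both: `X` can be replaced by `g`, which reads the ring only (neither `In` nor `Out`). -/
theorem scr32_markov_F {t : ℝ} (ht : 0 ≤ t) {F : Finset (ℤ × ℤ)} {Ic If : Finset (ℤ × ℤ)} {Oc Of : Set (ℤ × ℤ)}
    (hd : scr32_Deep F (↑Ic) (↑If)) (hsep : scr32_Sep (↑Ic) (↑If) Oc Of)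
    (X G : at92Cfg F → ℝ) (hX : scr32_NR Oc Of X) (hG : scr32_NR (↑Ic) (↑If) G) :
    scrE t F (fun p => X p * G p) =
        scrE t F (fun p => scr32_ker t Ic If (fun c => X (scr32_res F c)) (scr32_ext p) * G p) ∧
      scr32_NR (↑Ic ∪ Oc) (↑If ∪ Of)
        (fun p : at92Cfg F => scr32_ker t Ic If (fun c => X (scr32_res F c)) (scr32_ext p)) := by
  refine ⟨?_, scr32_NR_of_NRg (scr32_ker_ring t hsep (scr32_NRg_of_NR hX))⟩
  rw [← scr32_markov ht hd (fun c => X (scr32_res F c)) G hG]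
  simp only [scr32_res_ext]

/-! ## 6. the kernel is a (sub)probability kernel -/

section kernel

variable {t : ℝ} (S : Set (ℤ × ℤ)) (C : Finset (ℤ × ℤ)) (Ic If : Finset (ℤ × ℤ))

theorem scr32_den_nonneg (ht : 0 ≤ t) (c : scr32G) :
    0 ≤ ∑ a : (Ic → Bool) × (If → Bool), scr32_w1 t S C (↑Ic) (↑If) (scr32_fill Ic If a c) :=
  Finset.sum_nonneg fun _ _ => scr32_w1_nonneg ht _ _ _ _ _

theorem scr32_kerS_add (X Y : scr32G → ℝ) (c : scr32G) :
    scr32_kerS t S C Ic If (fun c => X c + Y c) c =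
      scr32_kerS t S C Ic If X c + scr32_kerS t S C Ic If Y c := by
  unfold scr32_kerS
  rw [← add_div, ← Finset.sum_add_distrib]
  congr 1
  exact Finset.sum_congr rfl fun a _ => by ring

theorem scr32_kerS_smul (r : ℝ) (X : scr32G → ℝ) (c : scr32G) :
    scr32_kerS t S C Ic If (fun c => r * X c) c = r * scr32_kerS t S C Ic If X c := by
  unfold scr32_kerS
  rw [← mul_div_assoc, Finset.mul_sum]
  congr 1
  exact Finset.sum_congr rfl fun a _ => by ring

theorem scr32_kerS_sub (X Y : scr32G → ℝ) (c : scr32G) :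
    scr32_kerS t S C Ic If (fun c => X c - Y c) c =
      scr32_kerS t S C Ic If X c - scr32_kerS t S C Ic If Y c := by
  unfold scr32_kerS
  rw [← sub_div, ← Finset.sum_sub_distrib]
  congr 1
  exact Finset.sum_congr rfl fun a _ => by ring

theorem scr32_kerS_mono (ht : 0 ≤ t) {X Y : scr32G → ℝ} (h : ∀ c, X c ≤ Y c) (c : scr32G) :
    scr32_kerS t S C Ic If X c ≤ scr32_kerS t S C Ic If Y c := by
  unfold scr32_kerS
  exact div_le_div_of_nonneg_right
    (Finset.sum_le_sum fun a _ => mul_le_mul_of_nonneg_left (h _) (scr32_w1_nonneg ht _ _ _ _ _))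
    (scr32_den_nonneg S C Ic If ht c)

/-- conditional Jensen for `|·|`. -/
theorem scr32_kerS_abs_le (ht : 0 ≤ t) (X : scr32G → ℝ) (c : scr32G) :
    |scr32_kerS t S C Ic If X c| ≤ scr32_kerS t S C Ic If (fun c => |X c|) c := by
  unfold scr32_kerS
  rw [abs_div, abs_of_nonneg (scr32_den_nonneg S C Ic If ht c)]
  refine div_le_div_of_nonneg_right ?_ (scr32_den_nonneg S C Ic If ht c)
  refine (Finset.abs_sum_le_sum_abs _ _).trans (le_of_eq ?_)
  exact Finset.sum_congr rfl fun a _ => by rw [abs_mul, abs_of_nonneg (scr32_w1_nonneg ht _ _ _ _ _)]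

theorem scr32_kerS_const_le {T : ℝ} (hT : 0 ≤ T) (c : scr32G) :
    scr32_kerS t S C Ic If (fun _ => T) c ≤ T := by
  unfold scr32_kerS
  rw [← Finset.sum_mul]
  by_cases hD : ∑ a : (Ic → Bool) × (If → Bool), scr32_w1 t S C (↑Ic) (↑If) (scr32_fill Ic If a c) = 0
  · rw [hD]; simpa using hT
  · rw [mul_div_assoc, mul_comm, div_mul_cancel₀ _ hD]

theorem scr32_kerS_bound (ht : 0 ≤ t) {X : scr32G → ℝ} {T : ℝ} (h : ∀ c, |X c| ≤ T) (c : scr32G) :
    |scr32_kerS t S C Ic If X c| ≤ T :=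
  (scr32_kerS_abs_le S C Ic If ht X c).trans
    ((scr32_kerS_mono S C Ic If ht h c).trans
      (scr32_kerS_const_le S C Ic If ((abs_nonneg _).trans (h c)) c))

/-- conditional Jensen for the square. -/
theorem scr32_kerS_sq_le (ht : 0 ≤ t) (X : scr32G → ℝ) (c : scr32G) :
    scr32_kerS t S C Ic If X c ^ 2 ≤ scr32_kerS t S C Ic If (fun c => X c ^ 2) c := by
  unfold scr32_kerS
  have hD := scr32_den_nonneg S C Ic If ht c
  rcases hD.eq_or_lt with h0 | hpos
  · rw [← h0]; simp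
  · have hcs := Finset.sum_sq_le_sum_mul_sum_of_sq_le_mul (Finset.univ : Finset ((Ic → Bool) × (If → Bool)))
      (r := fun a => scr32_w1 t S C (↑Ic) (↑If) (scr32_fill Ic If a c) * X (scr32_fill Ic If a c))
      (f := fun a => scr32_w1 t S C (↑Ic) (↑If) (scr32_fill Ic If a c))
      (g := fun a => scr32_w1 t S C (↑Ic) (↑If) (scr32_fill Ic If a c) * X (scr32_fill Ic If a c) ^ 2)
      (fun a _ => scr32_w1_nonneg ht _ _ _ _ _)
      (fun a _ => mul_nonneg (scr32_w1_nonneg ht _ _ _ _ _) (sq_nonneg _)) (fun a _ => le_of_eq (by ring))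
    rw [div_pow, div_le_div_iff₀ (pow_pos hpos 2) hpos]
    calc _ ≤ ((∑ a : (Ic → Bool) × (If → Bool), scr32_w1 t S C (↑Ic) (↑If) (scr32_fill Ic If a c)) *
          ∑ a : (Ic → Bool) × (If → Bool),
            scr32_w1 t S C (↑Ic) (↑If) (scr32_fill Ic If a c) * X (scr32_fill Ic If a c) ^ 2) *
          ∑ a : (Ic → Bool) × (If → Bool), scr32_w1 t S C (↑Ic) (↑If) (scr32_fill Ic If a c) :=
        mul_le_mul_of_nonneg_right hcs hD
      _ = _ := by ring

/-- the kernel does not read `In`. -/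
theorem scr32_kerS_NR_in (X : scr32G → ℝ) : scr32_NRg (↑Ic) (↑If) (scr32_kerS t S C Ic If X) := by
  intro c c' h
  have e : ∀ a, scr32_fill Ic If a c = scr32_fill Ic If a c' := by
    intro a
    unfold scr32_fill
    refine Prod.ext ?_ ?_
    · funext v
      by_cases hv : v ∈ Ic
      · simp only [hv, dite_true]
      · simp only [hv, dite_false]; exact h.1 v (by simpa using hv)
    · funext f
      by_cases hf : f ∈ If
      · simp only [hf, dite_true]
      · simp only [hf, dite_false]; exact h.2 f (by simpa using hf)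
  unfold scr32_kerS
  simp only [e]

/-- taking out what is known: a factor that does not read `In` comes out of the kernel. -/
theorem scr32_kerS_pull (X : scr32G → ℝ) {Y : scr32G → ℝ} (hY : scr32_NRg (↑Ic) (↑If) Y) (c : scr32G) :
    scr32_kerS t S C Ic If (fun c => X c * Y c) c = scr32_kerS t S C Ic If X c * Y c := by
  unfold scr32_kerS
  rw [div_mul_eq_mul_div, Finset.sum_mul]
  congr 1
  refine Finset.sum_congr rfl fun a _ => ?_
  show _ * (X _ * Y (scr32_fill Ic If a c)) = _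
  rw [hY _ _ (scr32_fill_off Ic If a c)]; ring

end kernel

theorem scr32_ker_add (t : ℝ) (Ic If : Finset (ℤ × ℤ)) (X Y : scr32G → ℝ) (c : scr32G) :
    scr32_ker t Ic If (fun c => X c + Y c) c = scr32_ker t Ic If X c + scr32_ker t Ic If Y c :=
  scr32_kerS_add _ _ _ _ _ _ _

theorem scr32_ker_sub (t : ℝ) (Ic If : Finset (ℤ × ℤ)) (X Y : scr32G → ℝ) (c : scr32G) :
    scr32_ker t Ic If (fun c => X c - Y c) c = scr32_ker t Ic If X c - scr32_ker t Ic If Y c :=
  scr32_kerS_sub _ _ _ _ _ _ _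

theorem scr32_ker_smul (t : ℝ) (Ic If : Finset (ℤ × ℤ)) (r : ℝ) (X : scr32G → ℝ) (c : scr32G) :
    scr32_ker t Ic If (fun c => r * X c) c = r * scr32_ker t Ic If X c :=
  scr32_kerS_smul _ _ _ _ _ _ _

theorem scr32_ker_mono {t : ℝ} (ht : 0 ≤ t) (Ic If : Finset (ℤ × ℤ)) {X Y : scr32G → ℝ} (h : ∀ c, X c ≤ Y c)
    (c : scr32G) : scr32_ker t Ic If X c ≤ scr32_ker t Ic If Y c :=
  scr32_kerS_mono _ _ _ _ ht h c

theorem scr32_ker_abs_le {t : ℝ} (ht : 0 ≤ t) (Ic If : Finset (ℤ × ℤ)) (X : scr32G → ℝ) (c : scr32G) :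
    |scr32_ker t Ic If X c| ≤ scr32_ker t Ic If (fun c => |X c|) c :=
  scr32_kerS_abs_le _ _ _ _ ht X c

theorem scr32_ker_sq_le {t : ℝ} (ht : 0 ≤ t) (Ic If : Finset (ℤ × ℤ)) (X : scr32G → ℝ) (c : scr32G) :
    scr32_ker t Ic If X c ^ 2 ≤ scr32_ker t Ic If (fun c => X c ^ 2) c :=
  scr32_kerS_sq_le _ _ _ _ ht X c

theorem scr32_ker_bound {t : ℝ} (ht : 0 ≤ t) (Ic If : Finset (ℤ × ℤ)) {X : scr32G → ℝ} {T : ℝ}
    (h : ∀ c, |X c| ≤ T) (c : scr32G) : |scr32_ker t Ic If X c| ≤ T :=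
  scr32_kerS_bound _ _ _ _ ht h c

theorem scr32_ker_NR_in (t : ℝ) (Ic If : Finset (ℤ × ℤ)) (X : scr32G → ℝ) :
    scr32_NRg (↑Ic) (↑If) (scr32_ker t Ic If X) :=
  scr32_kerS_NR_in _ _ _ _ X

theorem scr32_ker_pull (t : ℝ) (Ic If : Finset (ℤ × ℤ)) (X : scr32G → ℝ) {Y : scr32G → ℝ}
    (hY : scr32_NRg (↑Ic) (↑If) Y) (c : scr32G) :
    scr32_ker t Ic If (fun c => X c * Y c) c = scr32_ker t Ic If X c * Y c :=
  scr32_kerS_pull _ _ _ _ X hY c

/-! ## 7. consequences for `scrE` -/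

theorem scr32_Z_nonneg {t : ℝ} (ht : 0 ≤ t) (F : Finset (ℤ × ℤ)) : 0 ≤ ∑ p ∈ at92Adm F, at92W t p :=
  Finset.sum_nonneg fun _ _ => pow_nonneg ht _

theorem scr32_E_mono {t : ℝ} (ht : 0 ≤ t) (F : Finset (ℤ × ℤ)) {A B : at92Cfg F → ℝ} (h : ∀ p, A p ≤ B p) :
    scrE t F A ≤ scrE t F B := by
  unfold scrE
  exact div_le_div_of_nonneg_right
    (Finset.sum_le_sum fun p _ => mul_le_mul_of_nonneg_left (h p) (pow_nonneg ht _)) (scr32_Z_nonneg ht F)

theorem scr32_E_abs_le {t : ℝ} (ht : 0 ≤ t) (F : Finset (ℤ × ℤ)) (A : at92Cfg F → ℝ) :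
    |scrE t F A| ≤ scrE t F (fun p => |A p|) := by
  unfold scrE
  rw [abs_div, abs_of_nonneg (scr32_Z_nonneg ht F)]
  refine div_le_div_of_nonneg_right ?_ (scr32_Z_nonneg ht F)
  refine (Finset.abs_sum_le_sum_abs _ _).trans (le_of_eq ?_)
  have hW : ∀ p : at92Cfg F, 0 ≤ at92W t p := fun p => pow_nonneg ht _
  exact Finset.sum_congr rfl fun p _ => by rw [abs_mul, abs_of_nonneg (hW p)]

/-- tower property. -/
theorem scr32_markov_one {t : ℝ} (ht : 0 ≤ t) {F : Finset (ℤ × ℤ)} {Ic If : Finset (ℤ × ℤ)}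
    (hd : scr32_Deep F (↑Ic) (↑If)) (X : scr32G → ℝ) :
    scrE t F (fun p => X (scr32_ext p)) = scrE t F (fun p => scr32_ker t Ic If X (scr32_ext p)) := by
  have h := scr32_markov ht hd X (fun _ : at92Cfg F => (1 : ℝ)) (fun _ _ _ _ => rfl)
  simpa only [mul_one] using h

/-- **duality bound**: against a test function `|G| ≤ 1` that does not read `In`, `X` weighs at most `E |ker X|`. -/
theorem scr32_markov_bound {t : ℝ} (ht : 0 ≤ t) {F : Finset (ℤ × ℤ)} {Ic If : Finset (ℤ × ℤ)}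
    (hd : scr32_Deep F (↑Ic) (↑If)) (X : scr32G → ℝ) (G : at92Cfg F → ℝ) (hG : scr32_NR (↑Ic) (↑If) G)
    (hG1 : ∀ p, |G p| ≤ 1) :
    |scrE t F (fun p => X (scr32_ext p) * G p)| ≤ scrE t F (fun p => |scr32_ker t Ic If X (scr32_ext p)|) := by
  rw [scr32_markov ht hd X G hG]
  refine (scr32_E_abs_le ht F _).trans (scr32_E_mono ht F fun p => ?_)
  rw [abs_mul]
  exact mul_le_of_le_one_right (abs_nonneg _) (hG1 p)

/-- the kernel contracts `L¹`. -/
theorem scr32_ker_L1 {t : ℝ} (ht : 0 ≤ t) {F : Finset (ℤ × ℤ)} {Ic If : Finset (ℤ × ℤ)}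
    (hd : scr32_Deep F (↑Ic) (↑If)) (X : scr32G → ℝ) :
    scrE t F (fun p => |scr32_ker t Ic If X (scr32_ext p)|) ≤ scrE t F (fun p => |X (scr32_ext p)|) := by
  rw [scr32_markov_one ht hd fun c => |X c|]
  exact scr32_E_mono ht F fun p => scr32_ker_abs_le ht Ic If X _

/-- the kernel contracts `L²`. -/
theorem scr32_ker_L2 {t : ℝ} (ht : 0 ≤ t) {F : Finset (ℤ × ℤ)} {Ic If : Finset (ℤ × ℤ)}
    (hd : scr32_Deep F (↑Ic) (↑If)) (X : scr32G → ℝ) :
    scrE t F (fun p => scr32_ker t Ic If X (scr32_ext p) ^ 2) ≤ scrE t F (fun p => X (scr32_ext p) ^ 2) := by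
  rw [scr32_markov_one ht hd fun c => X c ^ 2]
  exact scr32_E_mono ht F fun p => scr32_ker_sq_le ht Ic If X _

theorem scr32_NR_mono {F : Finset (ℤ × ℤ)} {Sc Sf Sc' Sf' : Set (ℤ × ℤ)} (hc : Sc' ⊆ Sc) (hf : Sf' ⊆ Sf)
    {A : at92Cfg F → ℝ} (hA : scr32_NR Sc Sf A) : scr32_NR Sc' Sf' A :=
  fun p p' h1 h2 => hA p p' (fun v hv => h1 v fun h => hv (hc h)) (fun f hv => h2 f fun h => hv (hf h))

theorem scr32_NRg_mono {Sc Sf Sc' Sf' : Set (ℤ × ℤ)} (hc : Sc' ⊆ Sc) (hf : Sf' ⊆ Sf)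
    {A : scr32G → ℝ} (hA : scr32_NRg Sc Sf A) : scr32_NRg Sc' Sf' A :=
  fun c c' h => hA c c' ⟨fun v hv => h.1 v fun h' => hv (hc h'), fun f hv => h.2 f fun h' => hv (hf h')⟩

/-! ## 8. squares: `Deep` and `Sep` from the geometry -/

/-- position of a corner at mesh `δ`. -/
def scr32_pc (δ : ℝ) (v : ℤ × ℤ) : ℝ × ℝ := (δ * (v.1 : ℝ), δ * (v.2 : ℝ))

/-- centre of a face at mesh `δ`. -/
noncomputable def scr32_pf (δ : ℝ) (f : ℤ × ℤ) : ℝ × ℝ := (δ * ((f.1 : ℝ) + 1 / 2), δ * ((f.2 : ℝ) + 1 / 2))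

/-- the corners in `Q`. -/
def scr32_Qc (δ : ℝ) (Q : Set (ℝ × ℝ)) : Set (ℤ × ℤ) := {v | scr32_pc δ v ∈ Q}

/-- the faces with centre in `Q`. -/
def scr32_Qf (δ : ℝ) (Q : Set (ℝ × ℝ)) : Set (ℤ × ℤ) := {f | scr32_pf δ f ∈ Q}

theorem scr32_ext_iff' (δ : ℝ) (F : Finset (ℤ × ℤ)) (Q : Set (ℝ × ℝ)) (A : at92Cfg F → ℝ) :
    ScrExt δ F Q A ↔ scr32_NR (scr32_Qc δ Q) (scr32_Qf δ Q) A :=
  Iff.rfl

theorem scr32_mem_sq {z x : ℝ × ℝ} {r : ℝ} :
    x ∈ scrSq z r ↔ (z.1 - r ≤ x.1 ∧ x.1 ≤ z.1 + r) ∧ (z.2 - r ≤ x.2 ∧ x.2 ≤ z.2 + r) := by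
  unfold scrSq
  simp only [Set.mem_prod, Set.mem_Icc]

theorem scr32_sq_mono (z : ℝ × ℝ) {r r' : ℝ} (h : r ≤ r') : scrSq z r ⊆ scrSq z r' := by
  intro x hx
  rw [scr32_mem_sq] at hx ⊢
  obtain ⟨⟨h1, h2⟩, h3, h4⟩ := hx
  exact ⟨⟨by linarith, by linarith⟩, by linarith, by linarith⟩

/-- a face whose centre lies in the region of `F` is a face of `F`. -/
theorem scr32_face_mem {δ : ℝ} (hδ : 0 < δ) {F : Finset (ℤ × ℤ)} {f : ℤ × ℤ}
    (h : scr32_pf δ f ∈ faceRegionSq δ F) : f ∈ F := by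
  unfold faceRegionSq at h
  have h' := interior_subset h
  simp only [Set.mem_iUnion, Set.mem_prod, Set.mem_Icc, scr32_pf] at h'
  obtain ⟨g, hg, ⟨h1, h2⟩, h3, h4⟩ := h'
  have a1 : (g.1 : ℝ) ≤ (f.1 : ℝ) + 1 / 2 := le_of_mul_le_mul_left h1 hδ
  have a2 : (f.1 : ℝ) + 1 / 2 ≤ (g.1 : ℝ) + 1 := le_of_mul_le_mul_left h2 hδ
  have a3 : (g.2 : ℝ) ≤ (f.2 : ℝ) + 1 / 2 := le_of_mul_le_mul_left h3 hδ
  have a4 : (f.2 : ℝ) + 1 / 2 ≤ (g.2 : ℝ) + 1 := le_of_mul_le_mul_left h4 hδ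
  have e1 : g.1 = f.1 := by
    have b1 : (g.1 : ℝ) < (f.1 : ℝ) + 1 := by linarith
    have b2 : (f.1 : ℝ) < (g.1 : ℝ) + 1 := by linarith
    have c1 : g.1 < f.1 + 1 := by exact_mod_cast b1
    have c2 : f.1 < g.1 + 1 := by exact_mod_cast b2
    omega
  have e2 : g.2 = f.2 := by
    have b1 : (g.2 : ℝ) < (f.2 : ℝ) + 1 := by linarith
    have b2 : (f.2 : ℝ) < (g.2 : ℝ) + 1 := by linarith
    have c1 : g.2 < f.2 + 1 := by exact_mod_cast b1
    have c2 : f.2 < g.2 + 1 := by exact_mod_cast b2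
    omega
  have e : g = f := Prod.ext e1 e2
  rwa [← e]

/-- the four sites of a horizontal quad that meets the square of half side `r` lie in the square of half side `r + δ`. -/
theorem scr32_H_sites {δ : ℝ} (hδ : 0 ≤ δ) {z : ℝ × ℝ} {r : ℝ} {v : ℤ × ℤ}
    (h : scr32_HM (scr32_Qc δ (scrSq z r)) (scr32_Qf δ (scrSq z r)) v) :
    scr32_pc δ v ∈ scrSq z (r + δ) ∧ scr32_pc δ (v.1 + 1, v.2) ∈ scrSq z (r + δ) ∧
      scr32_pf δ v ∈ scrSq z (r + δ) ∧ scr32_pf δ (v.1, v.2 - 1) ∈ scrSq z (r + δ) := by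
  unfold scr32_HM scr32_Qc scr32_Qf at h
  simp only [Set.mem_ofPred_eq, scr32_mem_sq, scr32_pc, scr32_pf] at h ⊢
  push_cast at h ⊢
  rcases h with ⟨⟨h1, h2⟩, h3, h4⟩ | ⟨⟨h1, h2⟩, h3, h4⟩ | ⟨⟨h1, h2⟩, h3, h4⟩ | ⟨⟨h1, h2⟩, h3, h4⟩ <;>
  refine ⟨⟨⟨?_, ?_⟩, ?_, ?_⟩, ⟨⟨?_, ?_⟩, ?_, ?_⟩, ⟨⟨?_, ?_⟩, ?_, ?_⟩, ⟨?_, ?_⟩, ?_, ?_⟩ <;> linarith

/-- the same for a vertical quad. -/
theorem scr32_V_sites {δ : ℝ} (hδ : 0 ≤ δ) {z : ℝ × ℝ} {r : ℝ} {v : ℤ × ℤ}
    (h : scr32_VM (scr32_Qc δ (scrSq z r)) (scr32_Qf δ (scrSq z r)) v) :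
    scr32_pc δ v ∈ scrSq z (r + δ) ∧ scr32_pc δ (v.1, v.2 + 1) ∈ scrSq z (r + δ) ∧
      scr32_pf δ v ∈ scrSq z (r + δ) ∧ scr32_pf δ (v.1 - 1, v.2) ∈ scrSq z (r + δ) := by
  unfold scr32_VM scr32_Qc scr32_Qf at h
  simp only [Set.mem_ofPred_eq, scr32_mem_sq, scr32_pc, scr32_pf] at h ⊢
  push_cast at h ⊢
  rcases h with ⟨⟨h1, h2⟩, h3, h4⟩ | ⟨⟨h1, h2⟩, h3, h4⟩ | ⟨⟨h1, h2⟩, h3, h4⟩ | ⟨⟨h1, h2⟩, h3, h4⟩ <;>
  refine ⟨⟨⟨?_, ?_⟩, ?_, ?_⟩, ⟨⟨?_, ?_⟩, ?_, ?_⟩, ⟨⟨?_, ?_⟩, ?_, ?_⟩, ⟨?_, ?_⟩, ?_, ?_⟩ <;> linarith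

/-- the sites of a square are deep in `F` as soon as the region of `F` contains the square enlarged by one mesh. -/
theorem scr32_deep_of_sq {δ : ℝ} (hδ : 0 < δ) {F : Finset (ℤ × ℤ)} {z : ℝ × ℝ} {r1 r2 : ℝ} (h12 : r1 + δ ≤ r2)
    (hF : scrSq z r2 ⊆ faceRegionSq δ F) :
    scr32_Deep F (scr32_Qc δ (scrSq z r1)) (scr32_Qf δ (scrSq z r1)) := by
  refine ⟨fun v hv => ?_, fun v hv => ?_⟩
  · obtain ⟨-, -, h3, h4⟩ := scr32_H_sites hδ.le hv
    exact ⟨scr32_face_mem hδ (hF (scr32_sq_mono z h12 h3)), scr32_face_mem hδ (hF (scr32_sq_mono z h12 h4))⟩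
  · obtain ⟨-, -, h3, h4⟩ := scr32_V_sites hδ.le hv
    exact ⟨scr32_face_mem hδ (hF (scr32_sq_mono z h12 h3)), scr32_face_mem hδ (hF (scr32_sq_mono z h12 h4))⟩

/-- no quad meets both a square and the complement of the square enlarged by one mesh. -/
theorem scr32_sep_of_sq {δ : ℝ} (hδ : 0 ≤ δ) (z : ℝ × ℝ) {r1 r2 : ℝ} (h12 : r1 + δ ≤ r2) :
    scr32_Sep (scr32_Qc δ (scrSq z r1)) (scr32_Qf δ (scrSq z r1))
      (scr32_Qc δ (scrSq z r2)ᶜ) (scr32_Qf δ (scrSq z r2)ᶜ) := by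
  refine ⟨fun v hv hO => ?_, fun v hv hO => ?_⟩
  · obtain ⟨h1, h2, h3, h4⟩ := scr32_H_sites hδ hv
    rcases hO with h | h | h | h
    · exact h (scr32_sq_mono z h12 h1)
    · exact h (scr32_sq_mono z h12 h2)
    · exact h (scr32_sq_mono z h12 h3)
    · exact h (scr32_sq_mono z h12 h4)
  · obtain ⟨h1, h2, h3, h4⟩ := scr32_V_sites hδ hv
    rcases hO with h | h | h | h
    · exact h (scr32_sq_mono z h12 h1)
    · exact h (scr32_sq_mono z h12 h2)
    · exact h (scr32_sq_mono z h12 h3)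
    · exact h (scr32_sq_mono z h12 h4)

/-- the finite set of the corners in the square. -/
noncomputable def scr32_sqc (δ : ℝ) (z : ℝ × ℝ) (r : ℝ) : Finset (ℤ × ℤ) :=
  Finset.Icc ⌈(z.1 - r) / δ⌉ ⌊(z.1 + r) / δ⌋ ×ˢ Finset.Icc ⌈(z.2 - r) / δ⌉ ⌊(z.2 + r) / δ⌋

/-- the finite set of the faces with centre in the square. -/
noncomputable def scr32_sqf (δ : ℝ) (z : ℝ × ℝ) (r : ℝ) : Finset (ℤ × ℤ) :=
  Finset.Icc ⌈(z.1 - r) / δ - 1 / 2⌉ ⌊(z.1 + r) / δ - 1 / 2⌋ ×ˢ
    Finset.Icc ⌈(z.2 - r) / δ - 1 / 2⌉ ⌊(z.2 + r) / δ - 1 / 2⌋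

theorem scr32_coe_sqc {δ : ℝ} (hδ : 0 < δ) (z : ℝ × ℝ) (r : ℝ) :
    (↑(scr32_sqc δ z r) : Set (ℤ × ℤ)) = scr32_Qc δ (scrSq z r) := by
  ext v
  unfold scr32_sqc scr32_Qc scr32_pc
  simp only [Finset.coe_product, Finset.coe_Icc, Set.mem_prod, Set.mem_Icc, Set.mem_ofPred_eq, scr32_mem_sq,
    Int.ceil_le, Int.le_floor, div_le_iff₀ hδ, le_div_iff₀ hδ, mul_comm δ]

theorem scr32_coe_sqf {δ : ℝ} (hδ : 0 < δ) (z : ℝ × ℝ) (r : ℝ) :
    (↑(scr32_sqf δ z r) : Set (ℤ × ℤ)) = scr32_Qf δ (scrSq z r) := by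
  ext v
  unfold scr32_sqf scr32_Qf scr32_pf
  simp only [Finset.coe_product, Finset.coe_Icc, Set.mem_prod, Set.mem_Icc, Set.mem_ofPred_eq, scr32_mem_sq,
    Int.ceil_le, Int.le_floor, sub_le_iff_le_add, le_sub_iff_add_le, div_le_iff₀ hδ, le_div_iff₀ hδ, mul_comm δ]

/-- **MARKOV PROPERTY ACROSS A RING, squares**: `In` = the sites of `scrSq z r1`; the region of `F` contains `scrSq z r2`,
`r1 + δ ≤ r2`; `G` exterior observable of `scrSq z r1`. The kernel does not depend on `F`. -/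
theorem scr32_markov_sq {t : ℝ} (ht : 0 ≤ t) {δ : ℝ} (hδ : 0 < δ) {F : Finset (ℤ × ℤ)} {z : ℝ × ℝ} {r1 r2 : ℝ}
    (h12 : r1 + δ ≤ r2) (hF : scrSq z r2 ⊆ faceRegionSq δ F) (X : scr32G → ℝ) (G : at92Cfg F → ℝ)
    (hG : ScrExt δ F (scrSq z r1) G) :
    scrE t F (fun p => X (scr32_ext p) * G p) =
      scrE t F (fun p => scr32_ker t (scr32_sqc δ z r1) (scr32_sqf δ z r1) X (scr32_ext p) * G p) := by
  refine scr32_markov ht ?_ X G ?_
  · rw [scr32_coe_sqc hδ, scr32_coe_sqf hδ]; exact scr32_deep_of_sq hδ h12 hF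
  · rw [scr32_coe_sqc hδ, scr32_coe_sqf hδ]; exact hG

/-- the duality bound, squares. -/
theorem scr32_markov_bound_sq {t : ℝ} (ht : 0 ≤ t) {δ : ℝ} (hδ : 0 < δ) {F : Finset (ℤ × ℤ)} {z : ℝ × ℝ} {r1 r2 : ℝ}
    (h12 : r1 + δ ≤ r2) (hF : scrSq z r2 ⊆ faceRegionSq δ F) (X : scr32G → ℝ) (G : at92Cfg F → ℝ)
    (hG : ScrExt δ F (scrSq z r1) G) (hG1 : ∀ p, |G p| ≤ 1) :
    |scrE t F (fun p => X (scr32_ext p) * G p)| ≤
      scrE t F (fun p => |scr32_ker t (scr32_sqc δ z r1) (scr32_sqf δ z r1) X (scr32_ext p)|) := by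
  refine scr32_markov_bound ht ?_ X G ?_ hG1
  · rw [scr32_coe_sqc hδ, scr32_coe_sqf hδ]; exact scr32_deep_of_sq hδ h12 hF
  · rw [scr32_coe_sqc hδ, scr32_coe_sqf hδ]; exact hG

/-- the kernel of a square reads the ring `scrSq z r2 \ scrSq z r1` only, if `X` reads only the sites of `scrSq z r2`. -/
theorem scr32_ker_ring_sq (t : ℝ) {δ : ℝ} (hδ : 0 < δ) (z : ℝ × ℝ) {r1 r2 : ℝ} (h12 : r1 + δ ≤ r2)
    {X : scr32G → ℝ} (hX : scr32_NRg (scr32_Qc δ (scrSq z r2)ᶜ) (scr32_Qf δ (scrSq z r2)ᶜ) X) :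
    scr32_NRg (scr32_Qc δ (scrSq z r1 ∪ (scrSq z r2)ᶜ)) (scr32_Qf δ (scrSq z r1 ∪ (scrSq z r2)ᶜ))
      (scr32_ker t (scr32_sqc δ z r1) (scr32_sqf δ z r1) X) := by
  have hsep := scr32_sep_of_sq hδ.le z h12
  rw [← scr32_coe_sqc hδ, ← scr32_coe_sqf hδ] at hsep
  have h := scr32_ker_ring t hsep hX
  rw [scr32_coe_sqc hδ, scr32_coe_sqf hδ] at h
  exact h

/-! ## 9. the flat laws of `Defs/RSW` and the plane law -/

section plane

open Filter Topology

/-- the pair of spins of the whole lattice of a configuration `(S, D, O)`. -/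
def scr32p_of (ω : RswCfg) : scr32G := (fun v => decide (v ∈ ω.S), fun f => decide (f ∈ ω.D))

/-- on the sites of `F`, the two readings of a configuration agree. -/
theorem scr32p_of_off (F : Finset (ℤ × ℤ)) (ω : RswCfg) :
    scr32_Off (↑(cornersOf F))ᶜ (↑F)ᶜ (scr32p_of ω) (scr32_ext (at92dP F ω)) := by
  refine ⟨fun v hv => ?_, fun f hf => ?_⟩
  · have hv' : v ∈ cornersOf F := by simpa using hv
    simp only [scr32p_of, scr32_ext, at92dP, rswTau, hv', dite_true]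
  · have hf' : f ∈ F := by simpa using hf
    simp only [scr32p_of, scr32_ext, at92dP, rswTauD, hf', dite_true]

/-- **dictionary**: a spin observable that reads only sites of `F`. -/
theorem scr32p_rswE (t : ℝ) (F : Finset (ℤ × ℤ)) {A : scr32G → ℝ}
    (hA : scr32_NRg (↑(cornersOf F))ᶜ (↑F)ᶜ A) :
    rswE t F true (fun ω => A (scr32p_of ω)) = scrE t F (fun p => A (scr32_ext p)) := by
  have h := at92d_E t F (fun p : at92Cfg F => A (scr32_ext p))
  unfold Claimed.Agent.R291.lmE at h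
  unfold scrE
  rw [← h]
  congr 1
  funext ω
  exact hA _ _ (scr32p_of_off F ω)

theorem scr32p_corner_e1 {F : Finset (ℤ × ℤ)} {f : ℤ × ℤ} (hf : f ∈ F) : (f.1 + 1, f.2) ∈ cornersOf F := by
  unfold cornersOf
  exact Finset.mem_biUnion.2 ⟨f, hf, by simp⟩

theorem scr32p_corner_e2 {F : Finset (ℤ × ℤ)} {f : ℤ × ℤ} (hf : f ∈ F) : (f.1, f.2 + 1) ∈ cornersOf F := by
  unfold cornersOf
  exact Finset.mem_biUnion.2 ⟨f, hf, by simp⟩

/-- `In` deep in `F`: no quad meets both `In` and the sites outside `F`. -/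
theorem scr32p_sep_of_deep {F : Finset (ℤ × ℤ)} {Ic If : Set (ℤ × ℤ)} (hd : scr32_Deep F Ic If) :
    scr32_Sep Ic If (↑(cornersOf F))ᶜ (↑F)ᶜ := by
  refine ⟨fun v hv hO => ?_, fun v hv hO => ?_⟩
  · obtain ⟨h1, h2⟩ := hd.1 v hv
    rcases hO with h | h | h | h
    · exact h (by simpa using scr32_face_corner h1)
    · exact h (by simpa using scr32p_corner_e1 h1)
    · exact h (by simpa using h1)
    · exact h (by simpa using h2)
  · obtain ⟨h1, h2⟩ := hd.2 v hv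
    rcases hO with h | h | h | h
    · exact h (by simpa using scr32_face_corner h1)
    · exact h (by simpa using scr32p_corner_e2 h1)
    · exact h (by simpa using h1)
    · exact h (by simpa using h2)

theorem scr32p_NRg_mul {Sc Sf : Set (ℤ × ℤ)} {A B : scr32G → ℝ} (hA : scr32_NRg Sc Sf A) (hB : scr32_NRg Sc Sf B) :
    scr32_NRg Sc Sf (fun c => A c * B c) :=
  fun c c' h => by
    show A c * B c = A c' * B c'
    rw [hA c c' h, hB c c' h]

/-- the kernel keeps the window: if no quad meets both `In` and `Out` and `X` does not read `Out`, neither does `ker X`. -/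
theorem scr32p_ker_out (t : ℝ) {Ic If : Finset (ℤ × ℤ)} {Oc Of : Set (ℤ × ℤ)}
    (hsep : scr32_Sep (↑Ic) (↑If) Oc Of) {X : scr32G → ℝ} (hX : scr32_NRg Oc Of X) :
    scr32_NRg Oc Of (scr32_ker t Ic If X) :=
  scr32_NRg_mono Set.subset_union_right Set.subset_union_right (scr32_ker_ring t hsep hX)

/-- **MARKOV PROPERTY ACROSS A RING for the flat laws of `Defs/RSW`** (spin observables), with the universal kernel. -/
theorem scr32p_markov_rsw {t : ℝ} (ht : 0 ≤ t) {F : Finset (ℤ × ℤ)} {Ic If : Finset (ℤ × ℤ)}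
    (hd : scr32_Deep F (↑Ic) (↑If)) {X G : scr32G → ℝ}
    (hX : scr32_NRg (↑(cornersOf F))ᶜ (↑F)ᶜ X) (hG : scr32_NRg (↑(cornersOf F))ᶜ (↑F)ᶜ G)
    (hGI : scr32_NRg (↑Ic) (↑If) G) :
    rswE t F true (fun ω => X (scr32p_of ω) * G (scr32p_of ω)) =
      rswE t F true (fun ω => scr32_ker t Ic If X (scr32p_of ω) * G (scr32p_of ω)) := by
  rw [scr32p_rswE t F (scr32p_NRg_mul hX hG),
    scr32p_rswE t F (scr32p_NRg_mul (scr32p_ker_out t (scr32p_sep_of_deep hd) hX) hG)]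
  exact scr32_markov ht hd X (fun p => G (scr32_ext p)) (scr32_NR_of_NRg hGI)

/-! ### large boxes -/

theorem scr32p_ev_mem (v : ℤ × ℤ) : ∀ᶠ n : ℕ in atTop, v ∈ rswBox 0 n := by
  filter_upwards [eventually_ge_atTop (v.1.natAbs + v.2.natAbs + 1)] with n hn
  unfold rswBox
  simp only [Finset.mem_product, Finset.mem_Ico, Prod.fst_zero, Prod.snd_zero]
  omega

theorem scr32p_ev_box (R : Finset (ℤ × ℤ)) : ∀ᶠ n : ℕ in atTop, R ⊆ rswBox 0 n :=
  (eventually_all_finset R).2 fun v _ => scr32p_ev_mem v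

theorem scr32p_deep_of_nb {F : Finset (ℤ × ℤ)} {Ic If : Finset (ℤ × ℤ)}
    (h : ∀ v ∈ scr32_nb Ic If, v ∈ F ∧ (v.1, v.2 - 1) ∈ F ∧ (v.1 - 1, v.2) ∈ F) : scr32_Deep F (↑Ic) (↑If) :=
  ⟨fun v hv => ⟨(h v (scr32_mem_nb.2 (Or.inl hv))).1, (h v (scr32_mem_nb.2 (Or.inl hv))).2.1⟩,
   fun v hv => ⟨(h v (scr32_mem_nb.2 (Or.inr hv))).1, (h v (scr32_mem_nb.2 (Or.inr hv))).2.2⟩⟩

theorem scr32p_ev_deep (Ic If : Finset (ℤ × ℤ)) : ∀ᶠ n : ℕ in atTop, scr32_Deep (rswBox 0 n) (↑Ic) (↑If) := by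
  have h : ∀ᶠ n : ℕ in atTop, ∀ v ∈ scr32_nb Ic If,
      v ∈ rswBox 0 n ∧ (v.1, v.2 - 1) ∈ rswBox 0 n ∧ (v.1 - 1, v.2) ∈ rswBox 0 n :=
    (eventually_all_finset _).2 fun v _ =>
      (scr32p_ev_mem v).and ((scr32p_ev_mem (v.1, v.2 - 1)).and (scr32p_ev_mem (v.1 - 1, v.2)))
  exact h.mono fun n hn => scr32p_deep_of_nb hn

/-- a window in the faces of `F` is a window in the sites of `F`. -/
theorem scr32p_NRg_window {F R : Finset (ℤ × ℤ)} (hR : R ⊆ F) {A : scr32G → ℝ}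
    (hA : scr32_NRg (↑R)ᶜ (↑R)ᶜ A) : scr32_NRg (↑(cornersOf F))ᶜ (↑F)ᶜ A := by
  refine scr32_NRg_mono ?_ ?_ hA
  · intro v hv hvR
    exact hv (by simpa using scr32_face_corner (hR (by simpa using hvR)))
  · intro v hv hvR
    exact hv (by simpa using hR (by simpa using hvR))

/-- **MARKOV PROPERTY ACROSS A RING for the plane law**: `X`, `G` spin observables with a finite window, `G` does not read `In`. -/
theorem scr32p_markov_pl {t : ℝ} (ht : 0 ≤ t) (Ic If : Finset (ℤ × ℤ)) {R : Finset (ℤ × ℤ)} {X G : scr32G → ℝ}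
    (hX : scr32_NRg (↑R)ᶜ (↑R)ᶜ X) (hG : scr32_NRg (↑R)ᶜ (↑R)ᶜ G) (hGI : scr32_NRg (↑Ic) (↑If) G) :
    scrPl t (fun ω => X (scr32p_of ω) * G (scr32p_of ω)) =
      scrPl t (fun ω => scr32_ker t Ic If X (scr32p_of ω) * G (scr32p_of ω)) := by
  have h : (fun n : ℕ => rswE t (rswBox 0 n) true (fun ω => X (scr32p_of ω) * G (scr32p_of ω))) =ᶠ[atTop]
      fun n : ℕ => rswE t (rswBox 0 n) true (fun ω => scr32_ker t Ic If X (scr32p_of ω) * G (scr32p_of ω)) := by
    filter_upwards [scr32p_ev_box R, scr32p_ev_deep Ic If] with n hn hd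
    exact scr32p_markov_rsw ht hd (scr32p_NRg_window hn hX) (scr32p_NRg_window hn hG) hGI
  unfold scrPl limUnder
  rw [Filter.map_congr h]

/-- the sign, as a test function. -/
noncomputable def scr32p_sgn (x : ℝ) : ℝ := if 0 ≤ x then 1 else -1

theorem scr32p_sgn_abs (x : ℝ) : |scr32p_sgn x| ≤ 1 := by
  unfold scr32p_sgn
  split_ifs <;> simp

theorem scr32p_mul_sgn (x : ℝ) : x * scr32p_sgn x = |x| := by
  unfold scr32p_sgn
  split_ifs with h
  · rw [mul_one, abs_of_nonneg h]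
  · rw [abs_of_neg (not_le.1 h)]; ring

/-- **the `L¹` norm of the kernel in the plane is a pairing of `X` with a test function of the ring.** -/
theorem scr32p_pl_abs {t : ℝ} (ht : 0 ≤ t) (Ic If : Finset (ℤ × ℤ)) {R : Finset (ℤ × ℤ)} {X : scr32G → ℝ}
    (hsep : scr32_Sep (↑Ic) (↑If) (↑R)ᶜ (↑R)ᶜ) (hX : scr32_NRg (↑R)ᶜ (↑R)ᶜ X) :
    scrPl t (fun ω => |scr32_ker t Ic If X (scr32p_of ω)|) =
      scrPl t (fun ω => X (scr32p_of ω) * scr32p_sgn (scr32_ker t Ic If X (scr32p_of ω))) := by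
  have hk := scr32p_ker_out t hsep hX
  rw [scr32p_markov_pl ht Ic If hX (G := fun c => scr32p_sgn (scr32_ker t Ic If X c))
    (fun c c' h => congrArg scr32p_sgn (hk c c' h))
    (fun c c' h => congrArg scr32p_sgn (scr32_ker_NR_in t Ic If X c c' h))]
  simp only [scr32p_mul_sgn]

/-- the same in a flat domain. -/
theorem scr32p_flat_abs {t : ℝ} (ht : 0 ≤ t) {F : Finset (ℤ × ℤ)} {Ic If : Finset (ℤ × ℤ)}
    (hd : scr32_Deep F (↑Ic) (↑If)) (X : scr32G → ℝ) :
    scrE t F (fun p => |scr32_ker t Ic If X (scr32_ext p)|) =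
      scrE t F (fun p => X (scr32_ext p) * scr32p_sgn (scr32_ker t Ic If X (scr32_ext p))) := by
  rw [scr32_markov ht hd X (fun p => scr32p_sgn (scr32_ker t Ic If X (scr32_ext p)))
    (scr32_NR_of_NRg (A := fun c => scr32p_sgn (scr32_ker t Ic If X c))
      fun c c' h => congrArg scr32p_sgn (scr32_ker_NR_in t Ic If X c c' h))]
  simp only [scr32p_mul_sgn]

/-- a spin observable with window `R` is local in the sense of `Defs/RSW`. -/
theorem scr32p_loc {R : Finset (ℤ × ℤ)} (R' : Finset ((ℤ × ℤ) × Bool)) {A : scr32G → ℝ}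
    (hA : scr32_NRg (↑R)ᶜ (↑R)ᶜ A) : RswLoc R R' (fun ω => A (scr32p_of ω)) := by
  intro ω ω' hS hD _
  refine hA _ _ ⟨fun v hv => ?_, fun f hf => ?_⟩
  · have hv' : v ∈ R := by simpa using hv
    have : v ∈ ω.S ↔ v ∈ ω'.S := by
      have h1 : v ∈ ω.S ∩ R ↔ v ∈ ω'.S ∩ R := by rw [hS]
      simpa [hv'] using h1
    simp only [scr32p_of, this]
  · have hf' : f ∈ R := by simpa using hf
    have : f ∈ ω.D ↔ f ∈ ω'.D := by
      have h1 : f ∈ ω.D ∩ R ↔ f ∈ ω'.D ∩ R := by rw [hD]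
      simpa [hf'] using h1
    simp only [scr32p_of, this]

end plane

end Claimed.Agent.R292
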