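import Claimed.Agent.R292.Defs.ScreenIns
import Claimed.Agent.R292.Rsw.Base31
import Claimed.Agent.R292.Bridge.Rect89
import Claimed.Agent.R291.Lim.Kit
import Claimed.Agent.R292.Gauss.Riem262
import Claimed.Agent.R291.Wick.Green
import Claimed.Agent.R292.Rsw.DictHt11
import Claimed.Agent.R292.Screen.Ring32
import Claimed.Agent.R292.Jordan.Scale19

/-!
# Row 292 (S0540), Screen/Plane262 : (PL) = PROP 5.1 IN THE PLANE FROM (SEP) + (COL) + A SECOND MOMENT      (owner helper262; prefix `scp262_`)      0 sorry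

The leaf `scr_cut_plane` of `Screen/Cut229b.lean` from the leaves `scr_cut_sep`, `scr_cut_col`, the exit `exit_rsw_plane` and a second moment of the insertion, all taken as HYPOTHESES
in their literal shapes.
* `scp262_box_jordan`, `scp262_pl`      the boxes are Jordan; `scrPl t X` is the limit of `rswE t F true X` along ALL Jordan exhaustions (`X` local)
* `scp262Pat`, `scp262_decomp`          a local observable is a finite combination of pattern indicators of its window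
* **`scp262_unif`**                     the convergence to the plane law is UNIFORM over the observables of one finite window which are bounded by `B`
* `scp262_in_*`                         calculus of `ScrIn`; `ScrIn` in a bounded set gives `RswLoc`;  the data `Y` reads only the blocks;  the insertion reads only a small ball
* **`scp262_plane`**                    the statement of `scr_cut_plane` from (PLANE LAW) + (SEP) + (COL) + a second moment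
* `scp262_step/_inc/_arr`, **`scp262_E_arr`**   DICTIONARY: in every Jordan domain which contains a box around the array and the base point, `scrArr b z0 ω = rswArr b (rswH F ω)` on the configurations of nonzero weight (`b` neutral)
* `scp262_sm`, `scp262_lap`             `aspW δ (lap2 φ)` is a neutral `RswSm` around `⌊z / δ⌋` with a constant which does not depend on `δ ≤ 1`
* **`scp262_mom`**                      all the moments of the Laplace insertion under the plane law, uniformly in `δ ≤ 1`, from `exit_rsw_mom_plane`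
* **`scp262_cut_plane`**                the statement of `scr_cut_plane` from the FOUR contracts `exit_rsw_plane`, `exit_rsw_mom_plane`, `scr_cut_sep`, `scr_cut_col` (hypotheses `Scp262Pl/Mom/Sep/Col t`)
* `scp262_mom_any`                       a neutral smearing in ANY Jordan domain which contains the box of radius `3 a` (`exit_rsw_mom_plane` if the box of radius `C0 a` fits, `exit_rsw_mom_smear` with `n = C0 a` if not)
* **`scp262_flat_mom_p`**, **`scp262_flat_mom`**   (R2) of (FLAT): the moments of the insertion, uniformly in the mesh and in the flat domains whose region contains `scrSq z r'`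
-/

set_option autoImplicit false

namespace Claimed.Agent.R292

open Claims Claims.C0468 Filter Topology
open Claimed.Agent.R291

/-! ### the plane law as a limit along all Jordan exhaustions -/

theorem scp262_box_jordan (n : ℕ) (hn : 1 ≤ n) : RswJordan (rswBox 0 n) := by
  have hn' : (1 : ℤ) ≤ (n : ℤ) := by exact_mod_cast hn
  have h1 : (0 : ℤ × ℤ).1 - (n : ℤ) < (0 : ℤ × ℤ).1 + (n : ℤ) := by simp only [Prod.fst_zero]; omega
  have h2 : (0 : ℤ × ℤ).2 - (n : ℤ) < (0 : ℤ × ℤ).2 + (n : ℤ) := by simp only [Prod.snd_zero]; omega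
  unfold RswJordan rswBox
  rw [atb89_rect_region one_pos _ _ _ _ h1 h2]
  have c1 : (((0 : ℤ × ℤ).1 - (n : ℤ) : ℤ) : ℝ) < (((0 : ℤ × ℤ).1 + (n : ℤ) : ℤ) : ℝ) := by exact_mod_cast h1
  have c2 : (((0 : ℤ × ℤ).2 - (n : ℤ) : ℤ) : ℝ) < (((0 : ℤ × ℤ).2 + (n : ℤ) : ℤ) : ℝ) := by exact_mod_cast h2
  exact atb89_jordan (atb89_rectG (by linarith) (by linarith)) _

theorem scp262_box_mono {m n : ℕ} (h : m ≤ n) : rswBox 0 m ⊆ rswBox 0 n := by
  intro f hf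
  have h' : (m : ℤ) ≤ (n : ℤ) := by exact_mod_cast h
  simp only [rswBox, Finset.mem_product, Finset.mem_Ico, Prod.fst_zero, Prod.snd_zero] at hf ⊢
  refine ⟨⟨?_, ?_⟩, ?_, ?_⟩ <;> omega

/-- the literal conclusion of `exit_rsw_plane` at the parameter `t` -/
def Scp262Pl (t : ℝ) : Prop :=
  ∀ (R : Finset (ℤ × ℤ)) (R' : Finset ((ℤ × ℤ) × Bool)) (X : RswCfg → ℝ), RswLoc R R' X →
    ∃ ℓ : ℝ, ∀ ε : ℝ, 0 < ε → ∃ n0 : ℕ, ∀ (F : Finset (ℤ × ℤ)) (b : Bool),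
      RswJordan F → rswBox 0 n0 ⊆ F → |rswE t F b X - ℓ| < ε

theorem scp262_tendsto {t : ℝ} (H : Scp262Pl t) {X : RswCfg → ℝ} (hX : ScrLoc X) :
    Tendsto (fun n : ℕ => rswE t (rswBox 0 n) true X) atTop (𝓝 (scrPl t X)) := by
  obtain ⟨R, R', hR⟩ := hX
  obtain ⟨ℓ, hℓ⟩ := H R R' X hR
  have h1 : Tendsto (fun n : ℕ => rswE t (rswBox 0 n) true X) atTop (𝓝 ℓ) := by
    rw [Metric.tendsto_atTop]
    intro ε hε
    obtain ⟨n0, hn0⟩ := hℓ ε hε
    refine ⟨max n0 1, fun n hn => ?_⟩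
    rw [Real.dist_eq]
    exact hn0 _ true (scp262_box_jordan n ((le_max_right _ _).trans hn)) (scp262_box_mono ((le_max_left _ _).trans hn))
  have : scrPl t X = ℓ := h1.limUnder_eq
  rw [this]
  exact h1

theorem scp262_pl {t : ℝ} (H : Scp262Pl t) {X : RswCfg → ℝ} (hX : ScrLoc X) {ε : ℝ} (hε : 0 < ε) :
    ∃ n0 : ℕ, ∀ F : Finset (ℤ × ℤ), RswJordan F → rswBox 0 n0 ⊆ F → |rswE t F true X - scrPl t X| < ε := by
  have h0 := scp262_tendsto H hX
  obtain ⟨R, R', hR⟩ := hX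
  obtain ⟨ℓ, hℓ⟩ := H R R' X hR
  have h1 : Tendsto (fun n : ℕ => rswE t (rswBox 0 n) true X) atTop (𝓝 ℓ) := by
    rw [Metric.tendsto_atTop]
    intro ε hε
    obtain ⟨n0, hn0⟩ := hℓ ε hε
    refine ⟨max n0 1, fun n hn => ?_⟩
    rw [Real.dist_eq]
    exact hn0 _ true (scp262_box_jordan n ((le_max_right _ _).trans hn)) (scp262_box_mono ((le_max_left _ _).trans hn))
  rw [tendsto_nhds_unique h0 h1]
  obtain ⟨n0, hn0⟩ := hℓ ε hε
  exact ⟨n0, fun F hF hb => hn0 F true hF hb⟩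

/-! ### patterns of a finite window -/

/-- the patterns of the window `(R, R')` -/
noncomputable def scp262Pats (R : Finset (ℤ × ℤ)) (R' : Finset ((ℤ × ℤ) × Bool)) :
    Finset (Finset (ℤ × ℤ) × Finset (ℤ × ℤ) × Finset ((ℤ × ℤ) × Bool)) :=
  R.powerset ×ˢ R.powerset ×ˢ R'.powerset

/-- the pattern of a configuration -/
def scp262Pat (R : Finset (ℤ × ℤ)) (R' : Finset ((ℤ × ℤ) × Bool)) (ω : RswCfg) :
    Finset (ℤ × ℤ) × Finset (ℤ × ℤ) × Finset ((ℤ × ℤ) × Bool) := (ω.S ∩ R, ω.D ∩ R, ω.O ∩ R')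

/-- indicator of a pattern -/
noncomputable def scp262Ind (R : Finset (ℤ × ℤ)) (R' : Finset ((ℤ × ℤ) × Bool))
    (π : Finset (ℤ × ℤ) × Finset (ℤ × ℤ) × Finset ((ℤ × ℤ) × Bool)) (ω : RswCfg) : ℝ :=
  if scp262Pat R R' ω = π then 1 else 0

theorem scp262_pat_mem (R : Finset (ℤ × ℤ)) (R' : Finset ((ℤ × ℤ) × Bool)) (ω : RswCfg) : scp262Pat R R' ω ∈ scp262Pats R R' := by
  simp only [scp262Pats, scp262Pat, Finset.mem_product, Finset.mem_powerset]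
  exact ⟨Finset.inter_subset_right, Finset.inter_subset_right, Finset.inter_subset_right⟩

theorem scp262_ind_loc (R : Finset (ℤ × ℤ)) (R' : Finset ((ℤ × ℤ) × Bool))
    (π : Finset (ℤ × ℤ) × Finset (ℤ × ℤ) × Finset ((ℤ × ℤ) × Bool)) : RswLoc R R' (scp262Ind R R' π) := by
  intro ω ω' h1 h2 h3
  unfold scp262Ind scp262Pat
  rw [h1, h2, h3]

/-- a local observable at `ω` is its value at the pattern of `ω` -/
theorem scp262_val {R : Finset (ℤ × ℤ)} {R' : Finset ((ℤ × ℤ) × Bool)} {X : RswCfg → ℝ} (hX : RswLoc R R' X) (ω : RswCfg) :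
    X ω = X (rsbMk (scp262Pat R R' ω)) := by
  apply hX
  · simp [rsbMk, scp262Pat]
  · simp [rsbMk, scp262Pat]
  · simp [rsbMk, scp262Pat]

theorem scp262_decomp {R : Finset (ℤ × ℤ)} {R' : Finset ((ℤ × ℤ) × Bool)} {X : RswCfg → ℝ} (hX : RswLoc R R' X) (ω : RswCfg) :
    X ω = ∑ π ∈ scp262Pats R R', X (rsbMk π) * scp262Ind R R' π ω := by
  classical
  rw [Finset.sum_eq_single (scp262Pat R R' ω)]
  · rw [scp262Ind, if_pos rfl, mul_one]; exact scp262_val hX ω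
  · intro π _ hne
    rw [scp262Ind, if_neg (Ne.symm hne), mul_zero]
  · intro h; exact absurd (scp262_pat_mem R R' ω) h

theorem scp262_E_decomp (t : ℝ) (F : Finset (ℤ × ℤ)) {R : Finset (ℤ × ℤ)} {R' : Finset ((ℤ × ℤ) × Bool)} {X : RswCfg → ℝ}
    (hX : RswLoc R R' X) : rswE t F true X = ∑ π ∈ scp262Pats R R', X (rsbMk π) * rswE t F true (scp262Ind R R' π) := by
  have e : X = fun ω => ∑ π ∈ scp262Pats R R', X (rsbMk π) * scp262Ind R R' π ω := funext (scp262_decomp hX)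
  conv_lhs => rw [e]
  rw [rsb_E_finset_sum]
  exact Finset.sum_congr rfl fun π _ => rsb_E_const_mul t F true _ _

theorem scp262_Pl_decomp {t : ℝ} (H : Scp262Pl t) {R : Finset (ℤ × ℤ)} {R' : Finset ((ℤ × ℤ) × Bool)} {X : RswCfg → ℝ}
    (hX : RswLoc R R' X) : scrPl t X = ∑ π ∈ scp262Pats R R', X (rsbMk π) * scrPl t (scp262Ind R R' π) := by
  refine tendsto_nhds_unique (scp262_tendsto H ⟨R, R', hX⟩) ?_
  have h : Tendsto (fun n : ℕ => ∑ π ∈ scp262Pats R R', X (rsbMk π) * rswE t (rswBox 0 n) true (scp262Ind R R' π)) atTop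
      (𝓝 (∑ π ∈ scp262Pats R R', X (rsbMk π) * scrPl t (scp262Ind R R' π))) :=
    tendsto_finsetSum _ fun π _ => (scp262_tendsto H ⟨R, R', scp262_ind_loc R R' π⟩).const_mul _
  exact h.congr fun n => (scp262_E_decomp t _ hX).symm

/-- **uniform convergence on a finite window** -/
theorem scp262_unif {t : ℝ} (H : Scp262Pl t) (R : Finset (ℤ × ℤ)) (R' : Finset ((ℤ × ℤ) × Bool)) {B ε : ℝ} (hB : 0 ≤ B) (hε : 0 < ε) :
    ∃ n0 : ℕ, ∀ F : Finset (ℤ × ℤ), RswJordan F → rswBox 0 n0 ⊆ F → ∀ X : RswCfg → ℝ, RswLoc R R' X → (∀ ω, |X ω| ≤ B) →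
      |rswE t F true X - scrPl t X| ≤ ε := by
  classical
  set c : ℝ := ((scp262Pats R R').card : ℝ) with hc
  have hε' : 0 < ε / ((B + 1) * (c + 1)) := by positivity
  choose n0 hn0 using fun π => scp262_pl H ⟨R, R', scp262_ind_loc R R' π⟩ hε'
  refine ⟨(scp262Pats R R').sup n0, fun F hF hb X hX hXB => ?_⟩
  rw [scp262_E_decomp t F hX, scp262_Pl_decomp H hX, ← Finset.sum_sub_distrib]
  refine (Finset.abs_sum_le_sum_abs _ _).trans ?_
  have h1 : ∀ π ∈ scp262Pats R R', |X (rsbMk π) * rswE t F true (scp262Ind R R' π) - X (rsbMk π) * scrPl t (scp262Ind R R' π)|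
      ≤ B * (ε / ((B + 1) * (c + 1))) := by
    intro π hπ
    rw [← mul_sub, abs_mul]
    exact mul_le_mul (hXB _) (hn0 π F hF ((scp262_box_mono (Finset.le_sup hπ)).trans hb)).le (abs_nonneg _) hB
  refine (Finset.sum_le_card_nsmul _ _ _ h1).trans ?_
  rw [nsmul_eq_mul, ← hc]
  have e : c * (B * (ε / ((B + 1) * (c + 1)))) = ε * ((c / (c + 1)) * (B / (B + 1))) := by field_simp
  rw [e]
  have hc0 : 0 ≤ c := by positivity
  have a1 : c / (c + 1) ≤ 1 := by rw [div_le_one (by positivity)]; linarith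
  have a2 : B / (B + 1) ≤ 1 := by rw [div_le_one (by positivity)]; linarith
  have a3 : c / (c + 1) * (B / (B + 1)) ≤ 1 := mul_le_one₀ a1 (by positivity) a2
  nlinarith

/-- a local observable is bounded -/
theorem scp262_bdd {R : Finset (ℤ × ℤ)} {R' : Finset ((ℤ × ℤ) × Bool)} {X : RswCfg → ℝ} (hX : RswLoc R R' X) :
    ∃ B : ℝ, 0 ≤ B ∧ ∀ ω, |X ω| ≤ B := by
  refine ⟨∑ π ∈ scp262Pats R R', |X (rsbMk π)|, Finset.sum_nonneg fun _ _ => abs_nonneg _, fun ω => ?_⟩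
  rw [scp262_val hX ω]
  exact Finset.single_le_sum (f := fun π => |X (rsbMk π)|) (fun _ _ => abs_nonneg _) (scp262_pat_mem R R' ω)

/-! ### calculus of `ScrIn` -/

theorem scp262_in_mono {δ : ℝ} {U V : Set (ℝ × ℝ)} (h : U ⊆ V) {X : RswCfg → ℝ} (hX : ScrIn δ U X) : ScrIn δ V X :=
  fun ω ω' h1 h2 h3 => hX ω ω' (fun v hv => h1 v (h hv)) (fun f hf => h2 f (h hf)) fun e he1 he2 => h3 e (h he1) (h he2)

theorem scp262_in_mul {δ : ℝ} {U : Set (ℝ × ℝ)} {X Y : RswCfg → ℝ} (hX : ScrIn δ U X) (hY : ScrIn δ U Y) :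
    ScrIn δ U fun ω => X ω * Y ω := fun ω ω' h1 h2 h3 => by
  show X ω * Y ω = X ω' * Y ω'
  rw [hX ω ω' h1 h2 h3, hY ω ω' h1 h2 h3]

theorem scp262_in_comp {δ : ℝ} {U : Set (ℝ × ℝ)} {X : RswCfg → ℝ} (hX : ScrIn δ U X) (f : ℝ → ℝ) :
    ScrIn δ U fun ω => f (X ω) := fun ω ω' h1 h2 h3 => by
  show f (X ω) = f (X ω')
  rw [hX ω ω' h1 h2 h3]

/-- one finite window for all the observables which read in a bounded set -/
theorem scp262_in_loc {δ : ℝ} (hδ : 0 < δ) {U : Set (ℝ × ℝ)} {ρ : ℝ} (hU : U ⊆ Metric.closedBall 0 ρ) :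
    ∃ (R : Finset (ℤ × ℤ)) (R' : Finset ((ℤ × ℤ) × Bool)), ∀ X : RswCfg → ℝ, ScrIn δ U X → RswLoc R R' X := by
  classical
  obtain ⟨N, hN⟩ := exists_nat_ge (ρ / δ)
  have hmem : ∀ v : ℤ × ℤ, scr232P δ v ∈ U → v ∈ riem262Box N := by
    intro v hv
    have h1 := hU hv
    rw [Metric.mem_closedBall, Prod.dist_eq, max_le_iff, Real.dist_eq, Real.dist_eq] at h1
    simp only [scr232P, Prod.fst_zero, Prod.snd_zero, sub_zero] at h1
    have hρ : ρ ≤ δ * N := by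
      have := mul_le_mul_of_nonneg_left hN hδ.le
      have e : δ * (ρ / δ) = ρ := by field_simp
      linarith
    have c : ∀ a : ℤ, |δ * (a : ℝ)| ≤ ρ → -(N : ℤ) ≤ a ∧ a ≤ N := by
      intro a ha
      rw [abs_le] at ha
      have h1 : δ * (a : ℝ) ≤ δ * (N : ℝ) := by linarith [ha.2]
      have h2 : δ * (-(N : ℝ)) ≤ δ * (a : ℝ) := by linarith [ha.1]
      have h1' : (a : ℝ) ≤ (N : ℝ) := le_of_mul_le_mul_left h1 hδ
      have h2' : -(N : ℝ) ≤ (a : ℝ) := le_of_mul_le_mul_left h2 hδ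
      constructor
      · exact_mod_cast h2'
      · exact_mod_cast h1'
    rw [riem262_mem_box]
    exact ⟨c _ h1.1, c _ h1.2⟩
  refine ⟨riem262Box N, riem262Box N ×ˢ Finset.univ, fun X hX ω ω' h1 h2 h3 => hX ω ω' (fun v hv => ?_) (fun f hf => ?_) fun e he _ => ?_⟩
  · have a := Finset.ext_iff.1 h1 v
    simp only [Finset.mem_inter, hmem v hv, and_true] at a
    exact a
  · have a := Finset.ext_iff.1 h2 f
    simp only [Finset.mem_inter, hmem f hf, and_true] at a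
    exact a
  · have a := Finset.ext_iff.1 h3 e
    have he' : e ∈ riem262Box N ×ˢ (Finset.univ : Finset Bool) := Finset.mem_product.2 ⟨hmem _ he, Finset.mem_univ _⟩
    simp only [Finset.mem_inter, he', and_true] at a
    exact a

/-- the data `Y` reads only the blocks -/
theorem scp262_in_Y {δ c0 : ℝ} (hc0 : 0 ≤ c0) {blk : Fin 4 → Set (ℝ × ℝ)} {sel : (Fin 4 → ScrPatT) → Finset (ℤ × ℤ)}
    (hsel : ScrCore δ c0 blk sel) (G : (Fin 4 → ScrPatT) × Finset (ℤ × ℤ) → ℝ) :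
    ScrIn δ (⋃ i, blk i) fun ω => G (scrY δ blk sel ω) := by
  classical
  intro ω ω' h1 h2 h3
  have e : scrPats δ blk ω = scrPats δ blk ω' := by
    funext i
    unfold scrPats scrPat
    refine Prod.ext ?_ ?_
    · ext v
      simp only [Finset.mem_filter]
      constructor
      · rintro ⟨a, b⟩; exact ⟨(h1 v (Set.mem_iUnion.2 ⟨i, b⟩)).1 a, b⟩
      · rintro ⟨a, b⟩; exact ⟨(h1 v (Set.mem_iUnion.2 ⟨i, b⟩)).2 a, b⟩
    · ext e
      simp only [Finset.mem_filter]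
      constructor
      · rintro ⟨a, b, c⟩; exact ⟨(h3 e (Set.mem_iUnion.2 ⟨i, b⟩) (Set.mem_iUnion.2 ⟨i, c⟩)).1 a, b, c⟩
      · rintro ⟨a, b, c⟩; exact ⟨(h3 e (Set.mem_iUnion.2 ⟨i, b⟩) (Set.mem_iUnion.2 ⟨i, c⟩)).2 a, b, c⟩
  show G (scrY δ blk sel ω) = G (scrY δ blk sel ω')
  congr 1
  unfold scrY
  rw [e]
  refine Prod.ext rfl ?_
  ext f
  simp only [Finset.mem_inter]
  constructor
  · rintro ⟨a, b⟩
    obtain ⟨i, hi⟩ := hsel _ f b
    exact ⟨(h2 f (Set.mem_iUnion.2 ⟨i, hi (Metric.mem_closedBall_self hc0)⟩)).1 a, b⟩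
  · rintro ⟨a, b⟩
    obtain ⟨i, hi⟩ := hsel _ f b
    exact ⟨(h2 f (Set.mem_iUnion.2 ⟨i, hi (Metric.mem_closedBall_self hc0)⟩)).2 a, b⟩

/-- the four hulls lie in the closed square of half side `s` -/
theorem scp262_hull {x0 y0 s w h g r : ℝ} (hsc : ScrScene s w h g r) (i : Fin 4) :
    scrHull x0 y0 s w h g r i ⊆ Metric.closedBall (x0, y0) s := by
  obtain ⟨hg, hhs, hw, hws, hr0, hr, hr8⟩ := hsc
  intro p hp
  rw [Metric.mem_closedBall, Prod.dist_eq, max_le_iff, Real.dist_eq, Real.dist_eq]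
  simp only []
  unfold scrHull at hp
  fin_cases i
  · obtain ⟨a, b, c⟩ : |p.1 - x0| ≤ s ∧ h + g ≤ p.2 - y0 ∧ p.2 - y0 ≤ s := hp
    exact ⟨a, abs_le.2 ⟨by linarith, c⟩⟩
  · obtain ⟨a, b, c⟩ : |p.1 - x0| ≤ s ∧ -s ≤ p.2 - y0 ∧ p.2 - y0 ≤ -(h + g) := hp
    exact ⟨a, abs_le.2 ⟨b, by linarith⟩⟩
  · obtain ⟨a, b, c⟩ : -s ≤ p.1 - x0 ∧ p.1 - x0 ≤ -w ∧ |p.2 - y0| ≤ h - g := hp
    exact ⟨abs_le.2 ⟨a, by linarith⟩, c.trans (by linarith)⟩
  · obtain ⟨a, b, c⟩ : w ≤ p.1 - x0 ∧ p.1 - x0 ≤ s ∧ |p.2 - y0| ≤ h - g := hp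
    exact ⟨abs_le.2 ⟨by linarith, b⟩, c.trans (by linarith)⟩

/-! ### the insertion reads only a small ball -/

theorem scp262_step_congr {ω ω' : RswCfg} {e : (ℤ × ℤ) × Bool} (h1 : e.1 ∈ ω.S ↔ e.1 ∈ ω'.S) (h2 : rswEnd e ∈ ω.S ↔ rswEnd e ∈ ω'.S)
    (h3 : e.1 ∈ ω.D ↔ e.1 ∈ ω'.D) : scrStep ω e = scrStep ω' e := by
  unfold scrStep scrS scrD
  simp only [h1, h2, h3]

theorem scp262_osum_congr {a b : ℤ} {g g' : ℤ → ℝ} (h : ∀ x, min a b ≤ x → x < max a b → g x = g' x) : scrOsum a b g = scrOsum a b g' := by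
  unfold scrOsum
  split_ifs with hab
  · refine Finset.sum_congr rfl fun x hx => ?_
    rw [Finset.mem_Ico] at hx
    exact h x (by rw [min_eq_left hab]; exact hx.1) (by rw [max_eq_right hab]; exact hx.2)
  · have hba : b ≤ a := (not_le.1 hab).le
    congr 1
    refine Finset.sum_congr rfl fun x hx => ?_
    rw [Finset.mem_Ico] at hx
    exact h x (by rw [min_eq_right hba]; exact hx.1) (by rw [max_eq_left hba]; exact hx.2)

/-- the increment reads only the sites of the rectangle spanned by the two ends -/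
theorem scp262_inc_congr {ω ω' : RswCfg} {v₀ v : ℤ × ℤ}
    (hS : ∀ u : ℤ × ℤ, min v₀.1 v.1 ≤ u.1 → u.1 ≤ max v₀.1 v.1 → min v₀.2 v.2 ≤ u.2 → u.2 ≤ max v₀.2 v.2 → (u ∈ ω.S ↔ u ∈ ω'.S))
    (hD : ∀ u : ℤ × ℤ, min v₀.1 v.1 ≤ u.1 → u.1 ≤ max v₀.1 v.1 → min v₀.2 v.2 ≤ u.2 → u.2 ≤ max v₀.2 v.2 → (u ∈ ω.D ↔ u ∈ ω'.D)) :
    scrInc ω v₀ v = scrInc ω' v₀ v := by
  unfold scrInc
  congr 1
  · refine scp262_osum_congr fun x h1 h2 => scp262_step_congr ?_ ?_ ?_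
    · exact hS _ h1 h2.le (min_le_left _ _) (le_max_left _ _)
    · exact hS _ (by simp only [rswEnd]; simp; omega) (by simp only [rswEnd]; simp; omega)
        (by simp only [rswEnd]; simp) (by simp only [rswEnd]; simp)
    · exact hD _ h1 h2.le (min_le_left _ _) (le_max_left _ _)
  · refine scp262_osum_congr fun y h1 h2 => scp262_step_congr ?_ ?_ ?_
    · exact hS _ (min_le_right _ _) (le_max_right _ _) h1 h2.le
    · exact hS _ (by simp only [rswEnd]; simp) (by simp only [rswEnd]; simp)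
        (by simp only [rswEnd]; simp; omega) (by simp only [rswEnd]; simp; omega)
    · exact hD _ (min_le_right _ _) (le_max_right _ _) h1 h2.le

/-- one coordinate: between two integers whose positions are within `ρ` of `x` -/
theorem scp262_between {δ ρ x : ℝ} (hδ : 0 < δ) {a b u : ℤ} (ha : |δ * (a : ℝ) - x| ≤ ρ) (hb : |δ * (b : ℝ) - x| ≤ ρ)
    (h1 : min a b ≤ u) (h2 : u ≤ max a b) : |δ * (u : ℝ) - x| ≤ ρ := by
  rw [abs_le] at ha hb ⊢
  have h1' : ((min a b : ℤ) : ℝ) ≤ (u : ℝ) := by exact_mod_cast h1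
  have h2' : (u : ℝ) ≤ ((max a b : ℤ) : ℝ) := by exact_mod_cast h2
  have k1 : δ * ((min a b : ℤ) : ℝ) ≤ δ * (u : ℝ) := mul_le_mul_of_nonneg_left h1' hδ.le
  have k2 : δ * (u : ℝ) ≤ δ * ((max a b : ℤ) : ℝ) := mul_le_mul_of_nonneg_left h2' hδ.le
  constructor
  · rcases min_choice a b with e | e <;> rw [e] at k1 <;> linarith [ha.1, hb.1]
  · rcases max_choice a b with e | e <;> rw [e] at k2 <;> linarith [ha.2, hb.2]

/-- the support of the cell array of `lap2 φ` -/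
theorem scp262_supp {δ : ℝ} (hδ : 0 < δ) {z : ℝ × ℝ} {ρ : ℝ} {φ : ℝ × ℝ → ℝ} (hφ : tsupport φ ⊆ Metric.ball z ρ) {v : ℤ × ℤ}
    (hv : v ∈ (aspW δ (lap2 φ)).support) : |δ * (v.1 : ℝ) - z.1| ≤ ρ + δ ∧ |δ * (v.2 : ℝ) - z.2| ≤ ρ + δ := by
  have h1 : aspWt δ (lap2 φ) v ≠ 0 := by
    rw [Finsupp.mem_support_iff] at hv
    unfold aspW at hv
    split_ifs at hv with h
    · exact hv
    · exact absurd rfl hv
  have h2 : ∃ y ∈ aspCell δ v, lap2 φ y ≠ 0 := by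
    by_contra hcon
    push Not at hcon
    exact h1 (riem262_Wt_zero hcon)
  obtain ⟨y, hy, hne⟩ := h2
  have h3 : y ∈ tsupport φ := wkg_lap_tsupport φ (subset_tsupport _ hne)
  have h4 := Metric.mem_ball.1 (hφ h3)
  have h5 := riem262_cell_dist hδ hy
  rw [Prod.dist_eq, max_lt_iff, Real.dist_eq, Real.dist_eq] at h4
  rw [Prod.dist_eq, max_le_iff, Real.dist_eq, Real.dist_eq] at h5
  simp only [] at h5
  constructor
  · have e : δ * (v.1 : ℝ) - z.1 = -(y.1 - δ * (v.1 : ℝ)) + (y.1 - z.1) := by ring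
    rw [e]
    refine (abs_add_le _ _).trans ?_
    rw [abs_neg]
    linarith [h4.1, h5.1]
  · have e : δ * (v.2 : ℝ) - z.2 = -(y.2 - δ * (v.2 : ℝ)) + (y.2 - z.2) := by ring
    rw [e]
    refine (abs_add_le _ _).trans ?_
    rw [abs_neg]
    linarith [h4.2, h5.2]

theorem scp262_in_ins {δ : ℝ} (hδ : 0 < δ) {z : ℝ × ℝ} {ρ : ℝ} (hρ : 0 ≤ ρ) {φ : ℝ × ℝ → ℝ} (hφ : tsupport φ ⊆ Metric.ball z ρ) :
    ScrIn δ (Metric.closedBall z (ρ + δ)) (scrIns δ z φ) := by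
  intro ω ω' h1 h2 _
  unfold scrIns scrArr Finsupp.sum
  refine Finset.sum_congr rfl fun v hv => ?_
  show (aspW δ (lap2 φ)) v * scrInc ω (⌊z.1 / δ⌋, ⌊z.2 / δ⌋) v = (aspW δ (lap2 φ)) v * scrInc ω' (⌊z.1 / δ⌋, ⌊z.2 / δ⌋) v
  congr 1
  obtain ⟨a1, a2⟩ := scp262_supp hδ hφ hv
  have b1 : |δ * ((⌊z.1 / δ⌋ : ℤ) : ℝ) - z.1| ≤ ρ + δ := (riem262_floor hδ z.1).trans (by linarith)
  have b2 : |δ * ((⌊z.2 / δ⌋ : ℤ) : ℝ) - z.2| ≤ ρ + δ := (riem262_floor hδ z.2).trans (by linarith)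
  have key : ∀ u : ℤ × ℤ, min ⌊z.1 / δ⌋ v.1 ≤ u.1 → u.1 ≤ max ⌊z.1 / δ⌋ v.1 → min ⌊z.2 / δ⌋ v.2 ≤ u.2 → u.2 ≤ max ⌊z.2 / δ⌋ v.2 →
      scr232P δ u ∈ Metric.closedBall z (ρ + δ) := by
    intro u c1 c2 c3 c4
    rw [Metric.mem_closedBall, Prod.dist_eq, max_le_iff, Real.dist_eq, Real.dist_eq]
    exact ⟨scp262_between hδ b1 a1 c1 c2, scp262_between hδ b2 a2 c3 c4⟩
  exact scp262_inc_congr (v₀ := (⌊z.1 / δ⌋, ⌊z.2 / δ⌋)) (v := v) (fun u c1 c2 c3 c4 => h1 u (key u c1 c2 c3 c4))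
    fun u c1 c2 c3 c4 => h2 u (key u c1 c2 c3 c4)

/-! ### locality -/

theorem scp262_loc_mono {R R2 : Finset (ℤ × ℤ)} {R' R2' : Finset ((ℤ × ℤ) × Bool)} (h : R ⊆ R2) (h' : R' ⊆ R2') {X : RswCfg → ℝ}
    (hX : RswLoc R R' X) : RswLoc R2 R2' X := by
  classical
  have key : ∀ {α : Type} [DecidableEq α] {A B S S2 : Finset α}, S ⊆ S2 → A ∩ S2 = B ∩ S2 → A ∩ S = B ∩ S := by
    intro α _ A B S S2 hs hh
    ext x
    have := Finset.ext_iff.1 hh x
    simp only [Finset.mem_inter] at this ⊢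
    constructor
    · rintro ⟨a, b⟩; exact ⟨(this.1 ⟨a, hs b⟩).1, b⟩
    · rintro ⟨a, b⟩; exact ⟨(this.2 ⟨a, hs b⟩).1, b⟩
  intro ω ω' h1 h2 h3
  exact hX ω ω' (key h h1) (key h h2) (key h' h3)

theorem scp262_scrLoc_mul {X Y : RswCfg → ℝ} (hX : ScrLoc X) (hY : ScrLoc Y) : ScrLoc fun ω => X ω * Y ω := by
  classical
  obtain ⟨R, R', h⟩ := hX
  obtain ⟨S, S', k⟩ := hY
  refine ⟨R ∪ S, R' ∪ S', fun ω ω' h1 h2 h3 => ?_⟩
  show X ω * Y ω = X ω' * Y ω'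
  rw [scp262_loc_mono Finset.subset_union_left Finset.subset_union_left h ω ω' h1 h2 h3,
    scp262_loc_mono Finset.subset_union_right Finset.subset_union_right k ω ω' h1 h2 h3]

/-! ### truncation in finite volume -/

theorem scp262_trunc {t : ℝ} (h0 : 0 < t) (h1 : t ≤ 1) (F : Finset (ℤ × ℤ)) (I K : RswCfg → ℝ) (hK : ∀ ω, |K ω| ≤ 1) {M : ℝ} (hM : 0 < M) :
    |rswE t F true (fun ω => I ω * K ω) - rswE t F true (fun ω => limTr M (I ω) * K ω)| ≤ rswE t F true (fun ω => I ω ^ 2) / M := by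
  rw [← rsb_E_sub]
  refine (rsb_abs_E_le h0 h1 F true _).trans ?_
  have e : rswE t F true (fun ω => I ω ^ 2) / M = rswE t F true (fun ω => M⁻¹ * I ω ^ 2) := by
    rw [rsb_E_const_mul, div_eq_mul_inv, mul_comm]
  rw [e]
  refine rsb_E_mono h0 h1 fun ω _ _ => ?_
  have a1 : |I ω - limTr M (I ω)| ≤ I ω ^ 2 / M := by simpa using lim_tr_err hM (I ω) (m := 1) le_rfl
  have a2 : I ω * K ω - limTr M (I ω) * K ω = (I ω - limTr M (I ω)) * K ω := by ring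
  rw [a2, abs_mul]
  calc |I ω - limTr M (I ω)| * |K ω| ≤ |I ω - limTr M (I ω)| * 1 := mul_le_mul_of_nonneg_left (hK ω) (abs_nonneg _)
    _ ≤ M⁻¹ * I ω ^ 2 := by rw [mul_one, mul_comm, ← div_eq_mul_inv]; exact a1

/-! ### the assembly -/

/-- the literal statement of `scr_cut_sep` at the parameter `t` -/
def Scp262Sep (t : ℝ) : Prop :=
  ∀ (z : ℝ × ℝ) (r : ℝ), 0 < r → ∀ η : ℝ, 0 < η →
    ∃ (s w h g c0 : ℝ) (blk : Fin 4 → Set (ℝ × ℝ)), ScrScene s w h g (r / 400) ∧ s < r ∧ 0 < c0 ∧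
      (∀ i, blk i ⊆ scrHull z.1 z.2 s w h g (r / 400) i) ∧
      ∀ δ : ℕ → ℝ, (∀ n, 0 < δ n) → Tendsto δ atTop (𝓝 0) → ∀ᶠ n in atTop, ∃ n0 : ℕ, ∀ F : Finset (ℤ × ℤ), RswJordan F →
        rswBox 0 n0 ⊆ F → ∀ X G : RswCfg → ℝ, (∀ ω, |X ω| ≤ 1) → (∀ ω, |G ω| ≤ 1) →
        ScrIn (δ n) (Metric.closedBall z (r / 400)) X → ScrIn (δ n) (scrSq z r)ᶜ G →
        ∃ (sel : (Fin 4 → ScrPatT) → Finset (ℤ × ℤ)) (G' : (Fin 4 → ScrPatT) × Finset (ℤ × ℤ) → ℝ),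
          ScrCore (δ n) c0 blk sel ∧ (∀ y, |G' y| ≤ 1) ∧
          |rswE t F true fun ω => X ω * G ω| ≤ |rswE t F true fun ω => X ω * G' (scrY (δ n) blk sel ω)| + η

/-- the literal statement of `scr_cut_col` at the parameter `t` -/
def Scp262Col (t : ℝ) : Prop :=
  ∀ (x0 y0 s w h g r c0 : ℝ), ScrScene s w h g r → 0 < c0 →
    ∀ blk : Fin 4 → Set (ℝ × ℝ), (∀ i, blk i ⊆ scrHull x0 y0 s w h g r i) →
    ∀ φ : ℝ × ℝ → ℝ, ContDiff ℝ ((⊤ : ℕ∞) : WithTop ℕ∞) φ → tsupport φ ⊆ Metric.ball (x0, y0) (r / 2) →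
    ∀ δ : ℕ → ℝ, (∀ n, 0 < δ n) → Tendsto δ atTop (𝓝 0) → ∀ ε : ℝ, 0 < ε →
    ∀ᶠ n in atTop, ∀ (sel : (Fin 4 → ScrPatT) → Finset (ℤ × ℤ)), ScrCore (δ n) c0 blk sel →
      ∀ G : (Fin 4 → ScrPatT) × Finset (ℤ × ℤ) → ℝ, (∀ y, |G y| ≤ 1) →
      |scrPl t fun ω => scrIns (δ n) (x0, y0) φ ω * G (scrY (δ n) blk sel ω)| ≤ ε

/-- **(PL) Prop 5.1 in the plane**: the statement of `scr_cut_plane` from (SEP), (COL), the plane law and a second moment of the insertion -/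
theorem scp262_plane {t : ℝ} (h0 : 0 < t) (h1 : t ≤ 1) (HPl : Scp262Pl t) (HSep : Scp262Sep t) (HCol : Scp262Col t)
    (z : ℝ × ℝ) (r : ℝ) (hr : 0 < r)
    (φ : ℝ × ℝ → ℝ) (hφ : ContDiff ℝ ((⊤ : ℕ∞) : WithTop ℕ∞) φ) (hφs : tsupport φ ⊆ Metric.ball z (r / 900))
    (δ : ℕ → ℝ) (hδ : ∀ n, 0 < δ n) (hδ0 : Tendsto δ atTop (𝓝 0))
    (HMom : ∃ C : ℝ, ∀ᶠ n in atTop, scrPl t (fun ω => scrIns (δ n) z φ ω ^ 2) ≤ C) (ε : ℝ) (hε : 0 < ε) :
    ∀ᶠ n in atTop, ∀ G : RswCfg → ℝ, ScrLoc G → (∀ ω, |G ω| ≤ 1) → ScrIn (δ n) (scrSq z r)ᶜ G →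
      |scrPl t fun ω => scrIns (δ n) z φ ω * G ω| ≤ ε := by
  obtain ⟨C, hC⟩ := HMom
  set C' : ℝ := |C| + 1 with hC'
  have hC'0 : 0 < C' := by positivity
  set M : ℝ := 16 * C' / ε with hMdef
  have hM : 0 < M := by positivity
  set η : ℝ := ε / (4 * M) with hηdef
  have hη : 0 < η := by positivity
  obtain ⟨s, w, h, g, c0, blk, hsc, hsr, hc0, hblk, HS⟩ := HSep z r hr η hη
  have hφs' : tsupport φ ⊆ Metric.ball (z.1, z.2) (r / 400 / 2) :=
    hφs.trans (Metric.ball_subset_ball (by linarith))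
  have hcol := HCol z.1 z.2 s w h g (r / 400) c0 hsc hc0 blk hblk φ hφ hφs' δ hδ hδ0 (ε / 4) (by positivity)
  have hsm : ∀ᶠ n in atTop, δ n < r / 400 - r / 900 := hδ0.eventually (gt_mem_nhds (by linarith))
  filter_upwards [HS δ hδ hδ0, hcol, hC, hsm] with n hS hcoln hCn hsmall G hGloc hG1 hGext
  obtain ⟨n0, hS⟩ := hS
  set Ins : RswCfg → ℝ := scrIns (δ n) z φ with hIns
  -- windows
  have hI1 : ScrIn (δ n) (Metric.closedBall z (r / 400)) Ins :=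
    scp262_in_mono (Metric.closedBall_subset_closedBall (by linarith)) (scp262_in_ins (hδ n) (by positivity) hφs)
  have hU : Metric.closedBall z r ⊆ Metric.closedBall 0 (r + dist z 0) := Metric.closedBall_subset_closedBall' le_rfl
  obtain ⟨R, R', hwin⟩ := scp262_in_loc (hδ n) hU
  have hI2 : ScrIn (δ n) (Metric.closedBall z r) Ins := scp262_in_mono (Metric.closedBall_subset_closedBall (by linarith)) hI1
  have hIloc : RswLoc R R' Ins := hwin _ hI2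
  obtain ⟨B, hB0, hB⟩ := scp262_bdd hIloc
  have hIS : ScrLoc Ins := ⟨R, R', hIloc⟩
  -- accuracy
  set ε₁ : ℝ := min (ε / 16) 1 with hε₁
  have hε₁0 : 0 < ε₁ := lt_min (by positivity) one_pos
  obtain ⟨n1, hn1⟩ := scp262_pl HPl (scp262_scrLoc_mul hIS hGloc) hε₁0
  obtain ⟨n2, hn2⟩ := scp262_pl HPl (X := fun ω => Ins ω ^ 2) (by
    have := scp262_scrLoc_mul hIS hIS
    simpa only [← pow_two] using this) hε₁0
  obtain ⟨n3, hn3⟩ := scp262_unif HPl R R' hB0 hε₁0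
  set N : ℕ := max (max n0 n1) (max (max n2 n3) 1) with hN
  set F : Finset (ℤ × ℤ) := rswBox 0 N with hF
  have hFJ : RswJordan F := scp262_box_jordan N ((le_max_right _ _).trans (le_max_right _ _))
  have b0 : rswBox 0 n0 ⊆ F := scp262_box_mono ((le_max_left _ _).trans (le_max_left _ _))
  have b1 : rswBox 0 n1 ⊆ F := scp262_box_mono ((le_max_right _ _).trans (le_max_left _ _))
  have b2 : rswBox 0 n2 ⊆ F := scp262_box_mono (((le_max_left _ _).trans (le_max_left _ _)).trans (le_max_right _ _))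
  have b3 : rswBox 0 n3 ⊆ F := scp262_box_mono (((le_max_right _ _).trans (le_max_left _ _)).trans (le_max_right _ _))
  -- second moment in `F`
  have m2 : rswE t F true (fun ω => Ins ω ^ 2) ≤ C' := by
    have a1 := (abs_lt.1 (hn2 F hFJ b2)).2
    have a2 : ε₁ ≤ 1 := min_le_right _ _
    have a3 := le_abs_self C
    linarith
  have m2' : rswE t F true (fun ω => Ins ω ^ 2) / M ≤ ε / 16 := by
    have : C' / M = ε / 16 := by rw [hMdef]; field_simp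
    rw [← this]
    exact div_le_div_of_nonneg_right m2 hM.le
  -- the bounded core observable
  set X : RswCfg → ℝ := fun ω => M⁻¹ * limTr M (Ins ω) with hX
  have hX1 : ∀ ω, |X ω| ≤ 1 := fun ω => by
    rw [hX, abs_mul, abs_of_pos (inv_pos.2 hM), inv_mul_le_iff₀ hM, mul_one]
    exact lim_tr_abs_le hM.le _
  have hXin : ScrIn (δ n) (Metric.closedBall z (r / 400)) X := scp262_in_comp hI1 fun x => M⁻¹ * limTr M x
  obtain ⟨sel, G', hcore, hG'1, hineq⟩ := hS F hFJ b0 X G hX1 hG1 hXin hGext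
  set Y : RswCfg → ℝ := fun ω => G' (scrY (δ n) blk sel ω) with hY
  have hY1 : ∀ ω, |Y ω| ≤ 1 := fun ω => hG'1 _
  have hYin : ScrIn (δ n) (Metric.closedBall z r) Y := by
    refine scp262_in_mono (Set.iUnion_subset fun i => ?_) (scp262_in_Y hc0.le hcore G')
    exact ((hblk i).trans (scp262_hull hsc i)).trans (Metric.closedBall_subset_closedBall hsr.le)
  have hWloc : RswLoc R R' fun ω => Ins ω * Y ω := hwin _ (scp262_in_mul hI2 hYin)
  have hWB : ∀ ω, |Ins ω * Y ω| ≤ B := fun ω => by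
    rw [abs_mul]
    calc |Ins ω| * |Y ω| ≤ |Ins ω| * 1 := mul_le_mul_of_nonneg_left (hY1 ω) (abs_nonneg _)
      _ ≤ B := by rw [mul_one]; exact hB ω
  -- the chain
  have s1 := (abs_lt.1 (hn1 F hFJ b1))
  have s2 := scp262_trunc h0 h1 F Ins G hG1 hM
  have s3 := scp262_trunc h0 h1 F Ins Y hY1 hM
  have s4 := hn3 F hFJ b3 _ hWloc hWB
  have s5 : |scrPl t fun ω => Ins ω * Y ω| ≤ ε / 4 := hcoln sel hcore G' hG'1
  have e1 : rswE t F true (fun ω => limTr M (Ins ω) * G ω) = M * rswE t F true (fun ω => X ω * G ω) := by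
    rw [← rsb_E_const_mul]
    congr 1
    funext ω
    rw [hX]
    field_simp
  have e2 : rswE t F true (fun ω => limTr M (Ins ω) * Y ω) = M * rswE t F true (fun ω => X ω * Y ω) := by
    rw [← rsb_E_const_mul]
    congr 1
    funext ω
    rw [hX]
    field_simp
  have s6 : |rswE t F true (fun ω => limTr M (Ins ω) * G ω)| ≤ |rswE t F true (fun ω => limTr M (Ins ω) * Y ω)| + ε / 4 := by
    rw [e1, e2, abs_mul, abs_mul, abs_of_pos hM]
    have : M * η = ε / 4 := by rw [hηdef]; field_simp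
    have h2 := mul_le_mul_of_nonneg_left hineq hM.le
    rw [mul_add, this] at h2
    exact h2
  have hε₁le : ε₁ ≤ ε / 16 := min_le_left _ _
  -- triangle inequalities
  have t1 : |scrPl t fun ω => Ins ω * G ω| ≤ |rswE t F true fun ω => Ins ω * G ω| + ε₁ := by
    have := abs_sub_abs_le_abs_sub (scrPl t fun ω => Ins ω * G ω) (rswE t F true fun ω => Ins ω * G ω)
    rw [abs_sub_comm] at this
    have h3 := (hn1 F hFJ b1).le
    linarith
  have t2 : |rswE t F true fun ω => Ins ω * G ω| ≤ |rswE t F true fun ω => limTr M (Ins ω) * G ω| + ε / 16 := by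
    have := abs_sub_abs_le_abs_sub (rswE t F true fun ω => Ins ω * G ω) (rswE t F true fun ω => limTr M (Ins ω) * G ω)
    linarith
  have t3 : |rswE t F true fun ω => limTr M (Ins ω) * Y ω| ≤ |rswE t F true fun ω => Ins ω * Y ω| + ε / 16 := by
    have := abs_sub_abs_le_abs_sub (rswE t F true fun ω => limTr M (Ins ω) * Y ω) (rswE t F true fun ω => Ins ω * Y ω)
    rw [abs_sub_comm] at this
    linarith
  have t4 : |rswE t F true fun ω => Ins ω * Y ω| ≤ |scrPl t fun ω => Ins ω * Y ω| + ε₁ := by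
    have := abs_sub_abs_le_abs_sub (rswE t F true fun ω => Ins ω * Y ω) (scrPl t fun ω => Ins ω * Y ω)
    linarith
  linarith

/-! ### the dictionary: `scrInc` is the increment of the height of every domain which contains the path -/

theorem scp262_ext {F : Finset (ℤ × ℤ)} (hJ : RswJordan F) : At92hExt F := by
  obtain ⟨γ, hc, _, hr⟩ := hJ
  intro S h1 h2 h3
  refine at92h_ext_conn one_pos F ?_ S h1 h2 h3
  rw [← hr]
  exact isPreconnected_range hc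

theorem scp262_S_spin {F : Finset (ℤ × ℤ)} (ω : RswCfg) {v : ℤ × ℤ} (hv : v ∈ cornersOf F) :
    scrS ω v = (atSpin (rswTau F ω) v : ℝ) := by
  rw [rswd11_spin ω hv]
  unfold scrS
  split_ifs <;> simp

theorem scp262_D_dual {F : Finset (ℤ × ℤ)} (ω : RswCfg) {f : ℤ × ℤ} (hf : f ∈ F) :
    scrD ω f = (atDual (rswTauD F ω) f : ℝ) := by
  rw [rswd11_dual ω hf]
  unfold scrD
  split_ifs <;> simp

theorem scp262_step {F : Finset (ℤ × ℤ)} {ω : RswCfg} {Hf : ℤ × ℤ → ℝ}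
    (h : IsATHeight (rswTau F ω) (rswTauD F ω) (rswH F ω) Hf) {e : (ℤ × ℤ) × Bool} (he : e.1 ∈ F) :
    scrStep ω e = rswH F ω (rswEnd e) - rswH F ω e.1 := by
  rw [at92h_isHeight_iff] at h
  have a1 := h.2 e.1 he e.1 (by simp [at92hCor])
  have a2 := h.2 e.1 he (rswEnd e) (by unfold rswEnd at92hCor; split_ifs <;> simp)
  unfold scrStep
  rw [scp262_S_spin ω (rswd11_face_corner he), scp262_S_spin ω (rswd11_end_corner he), scp262_D_dual ω he]
  rw [sub_mul, sub_div, ← a1, ← a2]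
  ring

theorem scp262_tele (h : ℤ → ℝ) (a b : ℤ) (hab : a ≤ b) : ∑ x ∈ Finset.Ico a b, (h (x + 1) - h x) = h b - h a := by
  induction b, hab using Int.leInduction with
  | base => simp
  | succ b hab ih =>
    have e : Finset.Ico a (b + 1) = insert b (Finset.Ico a b) := by
      ext x
      simp only [Finset.mem_Ico, Finset.mem_insert]
      omega
    rw [e, Finset.sum_insert (by simp), ih]
    ring

theorem scp262_osum_tele (a b : ℤ) (g h : ℤ → ℝ) (H : ∀ x, min a b ≤ x → x < max a b → g x = h (x + 1) - h x) :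
    scrOsum a b g = h b - h a := by
  rw [scp262_osum_congr H]
  unfold scrOsum
  split_ifs with hab
  · exact scp262_tele h a b hab
  · rw [scp262_tele h b a (by omega)]
    ring

theorem scp262_inc {F : Finset (ℤ × ℤ)} {ω : RswCfg} {Hf : ℤ × ℤ → ℝ}
    (h : IsATHeight (rswTau F ω) (rswTauD F ω) (rswH F ω) Hf) {v₀ v : ℤ × ℤ}
    (hF : ∀ u : ℤ × ℤ, min v₀.1 v.1 ≤ u.1 → u.1 ≤ max v₀.1 v.1 → min v₀.2 v.2 ≤ u.2 → u.2 ≤ max v₀.2 v.2 → u ∈ F) :
    scrInc ω v₀ v = rswH F ω v - rswH F ω v₀ := by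
  unfold scrInc
  rw [scp262_osum_tele v₀.1 v.1 _ (fun x => rswH F ω (x, v₀.2)) ?_, scp262_osum_tele v₀.2 v.2 _ (fun y => rswH F ω (v.1, y)) ?_]
  · show rswH F ω (v.1, v₀.2) - rswH F ω (v₀.1, v₀.2) + (rswH F ω (v.1, v.2) - rswH F ω (v.1, v₀.2)) = _
    ring
  · intro y h1 h2
    exact scp262_step h (e := ((v.1, y), true)) (hF _ (min_le_right _ _) (le_max_right _ _) h1 h2.le)
  · intro x h1 h2
    exact scp262_step h (e := ((x, v₀.2), false)) (hF _ h1 h2.le (min_le_left _ _) (le_max_left _ _))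

theorem scp262_arr {F : Finset (ℤ × ℤ)} {ω : RswCfg} {Hf : ℤ × ℤ → ℝ}
    (h : IsATHeight (rswTau F ω) (rswTauD F ω) (rswH F ω) Hf) {b : (ℤ × ℤ) →₀ ℝ} {v₀ : ℤ × ℤ} (hb : b.sum (fun _ x => x) = 0)
    (hF : ∀ v ∈ b.support, ∀ u : ℤ × ℤ, min v₀.1 v.1 ≤ u.1 → u.1 ≤ max v₀.1 v.1 → min v₀.2 v.2 ≤ u.2 → u.2 ≤ max v₀.2 v.2 → u ∈ F) :
    scrArr b v₀ ω = rswArr b (rswH F ω) := by
  have e : ∑ v ∈ b.support, b v = 0 := hb
  have e1 : scrArr b v₀ ω = ∑ v ∈ b.support, (b v * rswH F ω v - b v * rswH F ω v₀) :=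
    Finset.sum_congr rfl fun v hv => by
      show b v * scrInc ω v₀ v = _
      rw [scp262_inc h (hF v hv), mul_sub]
  rw [e1, Finset.sum_sub_distrib, ← Finset.sum_mul, e, zero_mul, sub_zero]
  rfl

/-- in a Jordan domain which contains a box around the array and the base point, the insertion IS the smeared height, almost surely -/
theorem scp262_E_arr (t : ℝ) {F : Finset (ℤ × ℤ)} (hJ : RswJordan F) {b : (ℤ × ℤ) →₀ ℝ} {z0 : ℤ × ℤ} {a : ℕ} (ha : 1 ≤ a)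
    (hb : b.sum (fun _ x => x) = 0) (hs : b.support ⊆ rswBox z0 a) (hF : rswBox z0 a ⊆ F) (f : ℝ → ℝ) :
    rswE t F true (fun ω => f (scrArr b z0 ω)) = rswE t F true fun ω => f (rswArr b (rswH F ω)) := by
  refine rswd11_E_congr t fun ω hω => ?_
  obtain ⟨Hf, hH⟩ := at92h_spec (at92h_exists (scp262_ext hJ) hω)
  have ha' : (1 : ℤ) ≤ (a : ℤ) := by exact_mod_cast ha
  rw [scp262_arr (Hf := Hf) hH hb fun v hv u h1 h2 h3 h4 => hF ?_]
  have hv' := hs hv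
  simp only [rswBox, Finset.mem_product, Finset.mem_Ico] at hv' ⊢
  refine ⟨⟨?_, ?_⟩, ?_, ?_⟩ <;> omega

/-! ### the Laplace array is a neutral smearing, uniformly in the mesh and in the offset of the base point -/

theorem scp262_box_card (z0 : ℤ × ℤ) (a : ℕ) : ((rswBox z0 a).card : ℝ) = 4 * (a : ℝ) ^ 2 := by
  unfold rswBox
  rw [Finset.card_product, Int.card_Ico, Int.card_Ico]
  have e1 : (z0.1 + a - (z0.1 - a)).toNat = 2 * a := by omega
  have e2 : (z0.2 + a - (z0.2 - a)).toNat = 2 * a := by omega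
  rw [e1, e2]
  push_cast
  ring

theorem scp262_box_sub {z0 : ℤ × ℤ} {m n : ℕ} (h : m + z0.1.natAbs + z0.2.natAbs ≤ n) : rswBox z0 m ⊆ rswBox 0 n := by
  intro f hf
  simp only [rswBox, Finset.mem_product, Finset.mem_Ico, Prod.fst_zero, Prod.snd_zero] at hf ⊢
  refine ⟨⟨?_, ?_⟩, ?_, ?_⟩ <;> omega

theorem scp262_box_mono' (z0 : ℤ × ℤ) {m n : ℕ} (h : m ≤ n) : rswBox z0 m ⊆ rswBox z0 n := by
  intro f hf
  simp only [rswBox, Finset.mem_product, Finset.mem_Ico] at hf ⊢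
  refine ⟨⟨?_, ?_⟩, ?_, ?_⟩ <;> omega

theorem scp262_lap {φ : ℝ × ℝ → ℝ} (hφ : ContDiff ℝ ((⊤ : ℕ∞) : WithTop ℕ∞) φ) (hc : HasCompactSupport φ) :
    Continuous (lap2 φ) ∧ HasCompactSupport (lap2 φ) ∧ ∫ z, lap2 φ z = 0 := by
  have h2 : ContDiff ℝ 2 φ := hφ.of_le (WithTop.coe_le_coe.2 le_top)
  refine ⟨wkg_lap_continuous h2, wkg_lap_compact hc, ?_⟩
  have := wkg_green (D := Set.univ) isOpen_univ (u := fun _ => (1 : ℝ)) contDiffOn_const h2 hc (Set.subset_univ _)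
  have e : Claims.C0467.lap2 (fun _ : ℝ × ℝ => (1 : ℝ)) = fun _ => 0 := by
    funext z
    simp [Claims.C0467.lap2]
  have h3 : ∫ z, Claims.C0467.lap2 φ z = 0 := by simpa [e] using this
  exact h3

theorem scp262_coord {δ ρ x : ℝ} (hδ : 0 < δ) {v : ℤ} {a : ℕ} (ha : ρ / δ + 3 ≤ a) (hv : |δ * (v : ℝ) - x| ≤ ρ + δ) :
    ⌊x / δ⌋ - (a : ℤ) ≤ v ∧ v < ⌊x / δ⌋ + (a : ℤ) := by
  have h1 := riem262_floor hδ x
  rw [abs_le] at h1 hv
  have h2 : ρ + 3 * δ ≤ δ * a := by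
    have := mul_le_mul_of_nonneg_left ha hδ.le
    have e : δ * (ρ / δ + 3) = ρ + 3 * δ := by field_simp
    rwa [e] at this
  constructor
  · have : δ * (((⌊x / δ⌋ : ℤ) : ℝ) - (a : ℝ)) < δ * (v : ℝ) := by nlinarith
    have := lt_of_mul_lt_mul_left this hδ.le
    have h3 : ((⌊x / δ⌋ - (a : ℤ) : ℤ) : ℝ) < ((v : ℤ) : ℝ) := by push_cast; exact this
    exact (Int.cast_lt.1 h3).le
  · have : δ * (v : ℝ) < δ * (((⌊x / δ⌋ : ℤ) : ℝ) + (a : ℝ)) := by nlinarith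
    have := lt_of_mul_lt_mul_left this hδ.le
    have h3 : ((v : ℤ) : ℝ) < ((⌊x / δ⌋ + (a : ℤ) : ℤ) : ℝ) := by push_cast; exact this
    exact Int.cast_lt.1 h3

theorem scp262_sm {δ : ℝ} (hδ : 0 < δ) (hδ1 : δ ≤ 1) {z : ℝ × ℝ} {ρ : ℝ} (hρ : 0 ≤ ρ) {φ : ℝ × ℝ → ℝ}
    (hφs : tsupport φ ⊆ Metric.ball z ρ) (hc : HasCompactSupport (lap2 φ)) {M : ℝ} (hM : ∀ y, |lap2 φ y| ≤ M) :
    RswSm (⌊z.1 / δ⌋, ⌊z.2 / δ⌋) (⌈ρ / δ⌉₊ + 3) (4 * M * (ρ + 4) ^ 2) (aspW δ (lap2 φ)) := by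
  set a : ℕ := ⌈ρ / δ⌉₊ + 3 with ha
  have hq : 0 ≤ ρ / δ := div_nonneg hρ hδ.le
  have ha1 : ρ / δ + 3 ≤ (a : ℝ) := by
    rw [ha]; push_cast
    linarith [Nat.le_ceil (ρ / δ)]
  have ha2 : (a : ℝ) ≤ ρ / δ + 4 := by
    rw [ha]; push_cast
    linarith [(Nat.ceil_lt_add_one hq).le]
  have hδa : δ * a ≤ ρ + 4 := by
    have := mul_le_mul_of_nonneg_left ha2 hδ.le
    have e : δ * (ρ / δ + 4) = ρ + 4 * δ := by field_simp
    rw [e] at this
    linarith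
  have hδa0 : 0 ≤ δ * a := by positivity
  have hM0 : 0 ≤ M := (abs_nonneg _).trans (hM 0)
  have hsq : (δ * a) ^ 2 ≤ (ρ + 4) ^ 2 := pow_le_pow_left₀ hδa0 hδa 2
  have hw : ∀ u, |aspW δ (lap2 φ) u| ≤ δ ^ 2 * M := fun u => by
    rw [riem262_W_apply hδ hc]
    exact riem262_Wt_abs_le hδ hM u
  have hsupp : (aspW δ (lap2 φ)).support ⊆ rswBox (⌊z.1 / δ⌋, ⌊z.2 / δ⌋) a := by
    intro v hv
    obtain ⟨h1, h2⟩ := scp262_supp hδ hφs hv
    have c1 := scp262_coord hδ ha1 h1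
    have c2 := scp262_coord hδ ha1 h2
    simp only [rswBox, Finset.mem_product, Finset.mem_Ico]
    exact ⟨c1, c2⟩
  refine ⟨hsupp, ?_, fun u => ?_⟩
  · calc ∑ u ∈ (aspW δ (lap2 φ)).support, |aspW δ (lap2 φ) u|
        ≤ ∑ u ∈ rswBox (⌊z.1 / δ⌋, ⌊z.2 / δ⌋) a, |aspW δ (lap2 φ) u| :=
          Finset.sum_le_sum_of_subset_of_nonneg hsupp fun _ _ _ => abs_nonneg _
      _ ≤ ∑ _u ∈ rswBox (⌊z.1 / δ⌋, ⌊z.2 / δ⌋) a, δ ^ 2 * M := Finset.sum_le_sum fun u _ => hw u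
      _ = 4 * M * (δ * a) ^ 2 := by
          rw [Finset.sum_const, nsmul_eq_mul, scp262_box_card]
          ring
      _ ≤ 4 * M * (ρ + 4) ^ 2 := mul_le_mul_of_nonneg_left hsq (by positivity)
  · calc |aspW δ (lap2 φ) u| * (a : ℝ) ^ 2 ≤ δ ^ 2 * M * (a : ℝ) ^ 2 := mul_le_mul_of_nonneg_right (hw u) (by positivity)
      _ = M * (δ * a) ^ 2 := by ring
      _ ≤ M * (ρ + 4) ^ 2 := mul_le_mul_of_nonneg_left hsq hM0
      _ ≤ 4 * M * (ρ + 4) ^ 2 := by nlinarith [mul_nonneg hM0 (sq_nonneg (ρ + 4))]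

/-- the literal conclusion of `exit_rsw_mom_plane` at the parameter `t` -/
def Scp262Mom (t : ℝ) : Prop :=
  ∃ C0 : ℕ, ∀ p : ℕ, ∃ C : ℝ, 0 < C ∧ ∀ (F : Finset (ℤ × ℤ)) (z0 : ℤ × ℤ) (a : ℕ) (A : ℝ) (w : (ℤ × ℤ) →₀ ℝ),
    RswJordan F → 1 ≤ a → rswBox z0 (C0 * a) ⊆ F → RswSm z0 a A w → w.sum (fun _ x => x) = 0 →
    rswE t F true (fun ω => |rswArr w (rswH F ω)| ^ p) ≤ (C * A) ^ p

theorem scp262_ins_loc {δ : ℝ} (hδ : 0 < δ) {z : ℝ × ℝ} {ρ : ℝ} (hρ : 0 ≤ ρ) {φ : ℝ × ℝ → ℝ} (hφ : tsupport φ ⊆ Metric.ball z ρ)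
    (f : ℝ → ℝ) : ScrLoc fun ω => f (scrIns δ z φ ω) := by
  have hU : Metric.closedBall z (ρ + δ) ⊆ Metric.closedBall 0 (ρ + δ + dist z 0) := Metric.closedBall_subset_closedBall' le_rfl
  obtain ⟨R, R', h⟩ := scp262_in_loc hδ hU
  exact ⟨R, R', h _ (scp262_in_comp (scp262_in_ins hδ hρ hφ) f)⟩

/-- **all the moments of the Laplace insertion in the plane**, uniformly in the mesh `δ ≤ 1` -/
theorem scp262_mom {t : ℝ} (HPl : Scp262Pl t) (HM : Scp262Mom t) (z : ℝ × ℝ) {ρ : ℝ} (hρ : 0 ≤ ρ)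
    {φ : ℝ × ℝ → ℝ} (hφ : ContDiff ℝ ((⊤ : ℕ∞) : WithTop ℕ∞) φ) (hφs : tsupport φ ⊆ Metric.ball z ρ) (p : ℕ) :
    ∃ C : ℝ, ∀ δ : ℝ, 0 < δ → δ ≤ 1 → scrPl t (fun ω => |scrIns δ z φ ω| ^ p) ≤ C := by
  have hcφ : HasCompactSupport φ :=
    (isCompact_closedBall z ρ).of_isClosed_subset (isClosed_tsupport φ) (hφs.trans Metric.ball_subset_closedBall)
  obtain ⟨hl1, hl2, hl3⟩ := scp262_lap hφ hcφ
  obtain ⟨M, hM⟩ := hl2.exists_bound_of_continuous hl1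
  obtain ⟨C0, HM⟩ := HM
  obtain ⟨C, _, HC⟩ := HM p
  refine ⟨(C * (4 * M * (ρ + 4) ^ 2)) ^ p, fun δ hδ hδ1 => ?_⟩
  set z0 : ℤ × ℤ := (⌊z.1 / δ⌋, ⌊z.2 / δ⌋) with hz0
  set a : ℕ := ⌈ρ / δ⌉₊ + 3 with ha
  have ha1 : 1 ≤ a := by omega
  have hsm : RswSm z0 a (4 * M * (ρ + 4) ^ 2) (aspW δ (lap2 φ)) := scp262_sm hδ hδ1 hρ hφs hl2 hM
  have htot : (aspW δ (lap2 φ)).sum (fun _ x => x) = 0 := by
    have := riem262_W_tot hδ hl1 hl2
    rw [hl3] at this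
    exact this
  refine le_of_tendsto (scp262_tendsto HPl (scp262_ins_loc hδ hρ hφs fun x => |x| ^ p)) ?_
  filter_upwards [eventually_ge_atTop (max 1 ((C0 + 1) * a + z0.1.natAbs + z0.2.natAbs))] with n hn
  have hn1 : 1 ≤ n := (le_max_left _ _).trans hn
  have hbig : rswBox z0 ((C0 + 1) * a) ⊆ rswBox 0 n := scp262_box_sub ((le_max_right _ _).trans hn)
  have hJ := scp262_box_jordan n hn1
  have e := scp262_E_arr t hJ ha1 htot hsm.supp ((scp262_box_mono' z0 (by nlinarith)).trans hbig) fun x => |x| ^ p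
  have e' : rswE t (rswBox 0 n) true (fun ω => |scrIns δ z φ ω| ^ p) =
      rswE t (rswBox 0 n) true fun ω => |rswArr (aspW δ (lap2 φ)) (rswH (rswBox 0 n) ω)| ^ p := e
  rw [e']
  exact HC _ z0 a _ _ hJ ha1 ((scp262_box_mono' z0 (by nlinarith)).trans hbig) hsm htot

/-- **`scr_cut_plane`** from the four contracts `exit_rsw_plane`, `exit_rsw_mom_plane`, `scr_cut_sep`, `scr_cut_col` in their literal shapes -/
theorem scp262_cut_plane {t : ℝ} (h0 : 0 < t) (h1 : t ≤ 1) (HPl : Scp262Pl t) (HM : Scp262Mom t) (HSep : Scp262Sep t) (HCol : Scp262Col t)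
    (z : ℝ × ℝ) (r : ℝ) (hr : 0 < r)
    (φ : ℝ × ℝ → ℝ) (hφ : ContDiff ℝ ((⊤ : ℕ∞) : WithTop ℕ∞) φ) (hφs : tsupport φ ⊆ Metric.ball z (r / 900))
    (δ : ℕ → ℝ) (hδ : ∀ n, 0 < δ n) (hδ0 : Tendsto δ atTop (𝓝 0)) (ε : ℝ) (hε : 0 < ε) :
    ∀ᶠ n in atTop, ∀ G : RswCfg → ℝ, ScrLoc G → (∀ ω, |G ω| ≤ 1) → ScrIn (δ n) (scrSq z r)ᶜ G →
      |scrPl t fun ω => scrIns (δ n) z φ ω * G ω| ≤ ε := by
  refine scp262_plane h0 h1 HPl HSep HCol z r hr φ hφ hφs δ hδ hδ0 ?_ ε hε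
  obtain ⟨C, hC⟩ := scp262_mom HPl HM z (by positivity : (0 : ℝ) ≤ r / 900) hφ hφs 2
  refine ⟨C, (hδ0.eventually (ge_mem_nhds one_pos)).mono fun n hn => ?_⟩
  have := hC (δ n) (hδ n) hn
  simpa only [sq_abs] using this

/-! ### the moments of the Laplace insertion in ALL flat domains which contain a fixed square -/

/-- the literal conclusion of `exit_rsw_mom_smear` at the parameter `t` -/
def Scp262Smear (t : ℝ) : Prop :=
  ∀ p : ℕ, ∃ C : ℝ, 0 < C ∧ ∀ (F : Finset (ℤ × ℤ)) (z0 : ℤ × ℤ) (a n : ℕ) (A : ℝ) (w : (ℤ × ℤ) →₀ ℝ),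
    RswJordan F → 1 ≤ a → rswBox z0 (3 * a) ⊆ F → ¬ rswBox z0 n ⊆ F → RswSm z0 a A w →
    rswE t F true (fun ω => |rswArr w (rswH F ω)| ^ p) ≤
      (C * A * (1 + Real.sqrt (Real.log ((n : ℝ) / a)))) ^ p

/-- a neutral smearing in ANY Jordan domain which contains the box of radius `3 a`: no room for the box of radius `C0 a` is needed -/
theorem scp262_mom_any {t : ℝ} (HM : Scp262Mom t) (HS : Scp262Smear t) (p : ℕ) :
    ∃ C : ℝ, 0 < C ∧ ∀ (F : Finset (ℤ × ℤ)) (z0 : ℤ × ℤ) (a : ℕ) (A : ℝ) (w : (ℤ × ℤ) →₀ ℝ),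
      RswJordan F → 1 ≤ a → rswBox z0 (3 * a) ⊆ F → RswSm z0 a A w → w.sum (fun _ x => x) = 0 →
      rswE t F true (fun ω => |rswArr w (rswH F ω)| ^ p) ≤ (C * A) ^ p := by
  obtain ⟨C0, HM⟩ := HM
  obtain ⟨C1, hC1, H1⟩ := HM p
  obtain ⟨C2, hC2, H2⟩ := HS p
  set L : ℝ := 1 + Real.sqrt (Real.log (C0 : ℝ)) with hL
  have hL1 : 1 ≤ L := by
    have := Real.sqrt_nonneg (Real.log (C0 : ℝ))
    linarith
  refine ⟨max C1 (C2 * L), lt_max_of_lt_left hC1, fun F z0 a A w hJ ha h3 hsm htot => ?_⟩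
  have hA : 0 ≤ A := (Finset.sum_nonneg fun _ _ => abs_nonneg _).trans hsm.l1
  by_cases hb : rswBox z0 (C0 * a) ⊆ F
  · refine (H1 F z0 a A w hJ ha hb hsm htot).trans ?_
    exact pow_le_pow_left₀ (by positivity) (mul_le_mul_of_nonneg_right (le_max_left _ _) hA) p
  · refine (H2 F z0 a (C0 * a) A w hJ ha h3 hb hsm).trans ?_
    have ha0 : (a : ℝ) ≠ 0 := by
      have : (1 : ℝ) ≤ a := by exact_mod_cast ha
      linarith
    have e : (((C0 * a : ℕ) : ℝ)) / (a : ℝ) = C0 := by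
      push_cast
      field_simp
    rw [e]
    have e2 : C2 * A * (1 + Real.sqrt (Real.log (C0 : ℝ))) = C2 * L * A := by rw [hL]; ring
    rw [e2]
    exact pow_le_pow_left₀ (by positivity) (mul_le_mul_of_nonneg_right (le_max_right _ _) hA) p

/-- the faces of a lattice box around `⌊z / δ⌋` are faces of every `F` whose region contains the square -/
theorem scp262_box_sub_flat {δ : ℝ} (hδ : 0 < δ) {z : ℝ × ℝ} {r' : ℝ} {F : Finset (ℤ × ℤ)} (hF : scrSq z r' ⊆ faceRegionSq δ F) {m : ℕ}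
    (hm : δ * m + 2 * δ ≤ r') : rswBox (⌊z.1 / δ⌋, ⌊z.2 / δ⌋) m ⊆ F := by
  intro f hf
  refine scr32_face_mem hδ (hF ?_)
  simp only [rswBox, Finset.mem_product, Finset.mem_Ico] at hf
  obtain ⟨⟨a1, a2⟩, a3, a4⟩ := hf
  have key : ∀ (x : ℝ) (k : ℤ), ⌊x / δ⌋ - (m : ℤ) ≤ k → k < ⌊x / δ⌋ + (m : ℤ) →
      x - r' ≤ δ * ((k : ℝ) + 1 / 2) ∧ δ * ((k : ℝ) + 1 / 2) ≤ x + r' := by
    intro x k h1 h2
    have hfl := abs_le.1 (riem262_floor hδ x)
    have h1' : ((⌊x / δ⌋ : ℤ) : ℝ) - (m : ℝ) ≤ (k : ℝ) := by exact_mod_cast h1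
    have h2' : (k : ℝ) + 1 ≤ ((⌊x / δ⌋ : ℤ) : ℝ) + (m : ℝ) := by exact_mod_cast h2
    have b1 := mul_le_mul_of_nonneg_left h1' hδ.le
    have b2 := mul_le_mul_of_nonneg_left h2' hδ.le
    constructor <;> nlinarith
  unfold scrSq scr32_pf
  exact ⟨⟨(key z.1 f.1 a1 a2).1, (key z.1 f.1 a1 a2).2⟩, (key z.2 f.2 a3 a4).1, (key z.2 f.2 a3 a4).2⟩

/-- **all the moments of the Laplace insertion, uniformly in the mesh and in the flat domain** -/
theorem scp262_flat_mom_p {t : ℝ} (HM : Scp262Mom t) (HS : Scp262Smear t) (z : ℝ × ℝ) {r r' : ℝ} (hr : 0 < r) (hrr : r ≤ r')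
    {φ : ℝ × ℝ → ℝ} (hφ : ContDiff ℝ ((⊤ : ℕ∞) : WithTop ℕ∞) φ) (hφs : tsupport φ ⊆ Metric.ball z (r / 900)) (p : ℕ) :
    ∃ C : ℝ, ∀ δ : ℝ, 0 < δ → δ ≤ 1 → 15 * δ ≤ r → ∀ F : Finset (ℤ × ℤ), ScrFlat δ F → scrSq z r' ⊆ faceRegionSq δ F →
      rswE t F true (fun ω => |scrIns δ z φ ω| ^ p) ≤ C := by
  have hρ : (0 : ℝ) ≤ r / 900 := by positivity
  have hcφ : HasCompactSupport φ :=
    (isCompact_closedBall z (r / 900)).of_isClosed_subset (isClosed_tsupport φ) (hφs.trans Metric.ball_subset_closedBall)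
  obtain ⟨hl1, hl2, hl3⟩ := scp262_lap hφ hcφ
  obtain ⟨M, hM⟩ := hl2.exists_bound_of_continuous hl1
  obtain ⟨C, _, HC⟩ := scp262_mom_any HM HS p
  refine ⟨(C * (4 * M * (r / 900 + 4) ^ 2)) ^ p, fun δ hδ hδ1 hδr F hFl hF => ?_⟩
  set z0 : ℤ × ℤ := (⌊z.1 / δ⌋, ⌊z.2 / δ⌋) with hz0
  set a : ℕ := ⌈r / 900 / δ⌉₊ + 3 with ha
  have ha1 : 1 ≤ a := by omega
  have hsm : RswSm z0 a (4 * M * (r / 900 + 4) ^ 2) (aspW δ (lap2 φ)) := scp262_sm hδ hδ1 hρ hφs hl2 hM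
  have htot : (aspW δ (lap2 φ)).sum (fun _ x => x) = 0 := by
    have := riem262_W_tot hδ hl1 hl2
    rw [hl3] at this
    exact this
  have hJ : RswJordan F := (jd19_rswJordan_iff hδ F).2 hFl
  have ha2 : δ * (a : ℝ) ≤ r / 900 + 4 * δ := by
    have h1 : (a : ℝ) ≤ r / 900 / δ + 4 := by
      rw [ha]; push_cast
      linarith [(Nat.ceil_lt_add_one (div_nonneg hρ hδ.le)).le]
    have := mul_le_mul_of_nonneg_left h1 hδ.le
    have e : δ * (r / 900 / δ + 4) = r / 900 + 4 * δ := by field_simp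
    rwa [e] at this
  have h3 : rswBox z0 (3 * a) ⊆ F := by
    refine scp262_box_sub_flat hδ hF ?_
    push_cast
    nlinarith
  have e := scp262_E_arr t hJ ha1 htot hsm.supp ((scp262_box_mono' z0 (by omega)).trans h3) fun x => |x| ^ p
  have e' : rswE t F true (fun ω => |scrIns δ z φ ω| ^ p) =
      rswE t F true fun ω => |rswArr (aspW δ (lap2 φ)) (rswH F ω)| ^ p := e
  rw [e']
  exact HC F z0 a _ _ hJ ha1 h3 hsm htot

/-- **(R2) of (FLAT)**: the second moment, sequence form -/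
theorem scp262_flat_mom {t : ℝ} (HM : Scp262Mom t) (HS : Scp262Smear t) (z : ℝ × ℝ) {r r' : ℝ} (hr : 0 < r) (hrr : r ≤ r')
    {φ : ℝ × ℝ → ℝ} (hφ : ContDiff ℝ ((⊤ : ℕ∞) : WithTop ℕ∞) φ) (hφs : tsupport φ ⊆ Metric.ball z (r / 900))
    (δ : ℕ → ℝ) (hδ : ∀ n, 0 < δ n) (hδ0 : Tendsto δ atTop (𝓝 0)) :
    ∃ C : ℝ, ∀ᶠ n in atTop, ∀ F : Finset (ℤ × ℤ), ScrFlat (δ n) F → scrSq z r' ⊆ faceRegionSq (δ n) F →
      rswE t F true (fun ω => scrIns (δ n) z φ ω ^ 2) ≤ C := by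
  obtain ⟨C, hC⟩ := scp262_flat_mom_p HM HS z hr hrr hφ hφs 2
  refine ⟨C, ?_⟩
  filter_upwards [hδ0.eventually (ge_mem_nhds one_pos), hδ0.eventually (ge_mem_nhds (by positivity : (0 : ℝ) < r / 15))] with n h1 h2 F hFl hF
  have := hC (δ n) (hδ n) h1 (by linarith) F hFl hF
  simpa only [sq_abs] using this

end Claimed.Agent.R292
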