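import Claimed.Agent.R292.Screen.Col176
import Claimed.Agent.R292.Screen.Plane262

/-!
# Row 292 (S0540), Screen/Col61 : (COL) FINAL WIRING OF LEMMA 5.6      (helper61; prefix `scr61_`)      no sorry

The assembly `scr32c_col` (helper32, Screen/Col32), its records `Lim`, `Ins`, `Tail` (helper176, Screen/Col176: `col176_col`) and the last record
`Scr32cMom` = second moment of the insertion at a REAL centre, which is `scp262_mom` (helper262, Screen/Plane262) with `p = 2`.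
* `scr61_mom`      `Scr32cMom t z φ δ`      (consumes the contracts `exit_rsw_plane`, `exit_rsw_mom_plane` of unit RSW)
* **`scr61_col`**  the statement of `scr_cut_col` (Cut229b) after `t ht1 ht2`, with the ONLY hypothesis `hgapL` = the statement of `scr_cut_gap` after `t ht1 ht2`
IMPORT RULE of 229: no `Cut229*` file is imported.   Wiring line for Cut229b:   `scr61_col t ht1 ht2 (scr_cut_gap t ht1 ht2) x0 y0 s w h g r c0 hsc hc0 blk hblk φ hφ hφs δ hδ hδ0 ε hε`.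
-/

set_option autoImplicit false

namespace Claimed.Agent.R292

open Claims Claims.C0468 Filter Topology

/-- the record `Scr32cMom`: the second moment of the Laplace insertion at a real centre is bounded along every sequence of meshes `→ 0`. -/
theorem scr61_mom (t : ℝ) (ht1 : 1 / 2 ≤ t) (ht2 : t < 1) (z : ℝ × ℝ) {ρ : ℝ} (hρ : 0 ≤ ρ) {φ : ℝ × ℝ → ℝ}
    (hφ : ContDiff ℝ ((⊤ : ℕ∞) : WithTop ℕ∞) φ) (hφs : tsupport φ ⊆ Metric.ball z ρ)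
    (δ : ℕ → ℝ) (hδ : ∀ n, 0 < δ n) (hδ0 : Tendsto δ atTop (𝓝 0)) : Scr32cMom t z φ δ := by
  obtain ⟨C, hC⟩ := scp262_mom (exit_rsw_plane t ht1 ht2) (exit_rsw_mom_plane t ht1 ht2) z hρ hφ hφs 2
  refine ⟨C, ?_⟩
  filter_upwards [hδ0.eventually (Iic_mem_nhds (zero_lt_one : (0 : ℝ) < 1))] with n hn
  have h := hC (δ n) (hδ n) hn
  simpa only [sq_abs] using h

/-- **(COL) Lemma 5.6**: the statement of `scr_cut_col` from the gapped identity alone. -/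
theorem scr61_col (t : ℝ) (ht1 : 1 / 2 ≤ t) (ht2 : t < 1)
    (hgapL : ∀ (x0 y0 s w h g r : ℝ) (_hsc : ScrScene s w h g r)
      (blk : Fin 4 → Set (ℝ × ℝ)) (_hblk : ∀ i, blk i ⊆ scrHull x0 y0 s w h g r i)
      (φ : ℝ × ℝ → ℝ) (_hφ : ContDiff ℝ ((⊤ : ℕ∞) : WithTop ℕ∞) φ) (_hφs : tsupport φ ⊆ Metric.ball (x0, y0) (r / 2))
      (δ : ℕ → ℝ) (_hδ : ∀ n, 0 < δ n) (_hδ0 : Tendsto δ atTop (𝓝 0)) (ε : ℝ) (_hε : 0 < ε),
      ∀ᶠ n in atTop, ∀ (π : Fin 4 → RswCfg) (Fc : Fin 4 → RswCfg → ℝ), (∀ i ω, |Fc i ω| ≤ 1) →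
        (∀ i, ScrIn (δ n) (blk i) (Fc i)) →
        |scrPl t fun ω => scrIns (δ n) (x0, y0) φ ω * ∏ i, (scrPatI (δ n) (blk i) (π i) ω * Fc i ω)|
          ≤ ε * ∏ i, scrPl t (scrPatI (δ n) (blk i) (π i)))
    (x0 y0 s w h g r c0 : ℝ) (hsc : ScrScene s w h g r) (hc0 : 0 < c0)
    (blk : Fin 4 → Set (ℝ × ℝ)) (hblk : ∀ i, blk i ⊆ scrHull x0 y0 s w h g r i)
    (φ : ℝ × ℝ → ℝ) (hφ : ContDiff ℝ ((⊤ : ℕ∞) : WithTop ℕ∞) φ) (hφs : tsupport φ ⊆ Metric.ball (x0, y0) (r / 2))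
    (δ : ℕ → ℝ) (hδ : ∀ n, 0 < δ n) (hδ0 : Tendsto δ atTop (𝓝 0)) (ε : ℝ) (hε : 0 < ε) :
    ∀ᶠ n in atTop, ∀ (sel : (Fin 4 → ScrPatT) → Finset (ℤ × ℤ)), ScrCore (δ n) c0 blk sel →
      ∀ G : (Fin 4 → ScrPatT) × Finset (ℤ × ℤ) → ℝ, (∀ y, |G y| ≤ 1) →
      |scrPl t fun ω => scrIns (δ n) (x0, y0) φ ω * G (scrY (δ n) blk sel ω)| ≤ ε :=
  col176_col t ht1 ht2 x0 y0 s w h g r c0 hsc hc0 blk hblk φ hφ hφs δ hδ hδ0 ε hε hgapL
    (scr61_mom t ht1 ht2 (x0, y0) (by have := hsc.hr0; linarith) hφ hφs δ hδ hδ0)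

end Claimed.Agent.R292
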