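import Claimed.Agent.R292.Defs.ScreenPl
import Claimed.Agent.R292.Height

/-!
# Row 292 (S0540), Screen/RpDiag62 : REFLECTION POSITIVITY IN THE TWO DIAGONAL FRAMES `j = 1, 3`      (owner helper62; prefix `scr62d_`, `Scr62d`)      0 sorry

Leaf (P2) `scr_cut_rp` of `Screen/Cut229` for the frames whose mirror is a DIAGONAL of the lattice (it passes through corners and through centres of faces).
* `scr62d_abs`         model free reflection positivity: weight `w ≥ 0`, involution `θ`, row map `ρ`, glueing `gl a b` (upper half of `a`, lower half of `b`)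
* `Scr62dFr`           what a frame has to satisfy (levels of corners and faces, every edge quad lies in one closed half plane)
* `scr62d_fin`         finite volume: `0 ≤ rswE t F b (θX * X)` for every `F` symmetric under the mirror, `0 ≤ t ≤ 1`, `X` reading the closed upper half plane
* `scr62dF1`, `scr62dF3`   the two diagonal frames
* `scr62d_rp`          the plane statement, both rows; the ONLY inputs are hypotheses `hlim` (the limit which defines `scrPl` exists) and `hinv` (translation invariance)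
-/

set_option autoImplicit false

namespace Claimed.Agent.R292

open Claims Claims.C0468 Filter Topology

/-! ## 1. model free reflection positivity -/

section abs

variable {α β : Type*} [DecidableEq β]

omit [DecidableEq β] in
/-- one fibre of the row map. -/
theorem scr62d_abs_fibre (P : Finset α) (w A : α → ℝ) (θ : α → α) (gl : α → α → α)
    (hw : ∀ a ∈ P, 0 ≤ w a)
    (hθP : ∀ a ∈ P, θ a ∈ P) (hθθ : ∀ a ∈ P, θ (θ a) = a) (hθw : ∀ a ∈ P, w (θ a) = w a)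
    (hgP : ∀ a ∈ P, ∀ b ∈ P, gl a b ∈ P)
    (hgg : ∀ a ∈ P, ∀ b ∈ P, gl (gl a b) (gl b a) = a)
    (hgw : ∀ a ∈ P, ∀ b ∈ P, w (gl a b) * w (gl b a) = w a * w b)
    (hgA : ∀ a ∈ P, ∀ b ∈ P, A (gl a b) = A a)
    (hgθ : ∀ a ∈ P, ∀ b ∈ P, A (θ (gl b a)) = A (θ a)) :
    0 ≤ ∑ a ∈ P, w a * (A (θ a) * A a) := by
  have hM : ∑ b ∈ P, w b * A (θ b) = ∑ c ∈ P, w c * A c := by
    refine Finset.sum_nbij' θ θ hθP hθP hθθ hθθ ?_
    intro a ha
    rw [hθw a ha]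
  have key : (∑ a ∈ P, w a * (A (θ a) * A a)) * (∑ b ∈ P, w b)
      = (∑ c ∈ P, w c * A c) * (∑ c ∈ P, w c * A c) := by
    have hM' : (∑ c ∈ P, w c * A c) * (∑ c ∈ P, w c * A c)
        = (∑ b ∈ P, w b * A (θ b)) * (∑ c ∈ P, w c * A c) := by rw [hM]
    rw [hM']
    rw [Finset.sum_mul_sum, Finset.sum_mul_sum, ← Finset.sum_product', ← Finset.sum_product']
    refine Finset.sum_nbij' (fun p => (gl p.2 p.1, gl p.1 p.2)) (fun p => (gl p.2 p.1, gl p.1 p.2)) ?_ ?_ ?_ ?_ ?_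
    · intro p hp
      rw [Finset.mem_product] at hp ⊢
      exact ⟨hgP _ hp.2 _ hp.1, hgP _ hp.1 _ hp.2⟩
    · intro p hp
      rw [Finset.mem_product] at hp ⊢
      exact ⟨hgP _ hp.2 _ hp.1, hgP _ hp.1 _ hp.2⟩
    · intro p hp
      rw [Finset.mem_product] at hp
      exact Prod.ext (hgg _ hp.1 _ hp.2) (hgg _ hp.2 _ hp.1)
    · intro p hp
      rw [Finset.mem_product] at hp
      exact Prod.ext (hgg _ hp.1 _ hp.2) (hgg _ hp.2 _ hp.1)
    · intro p hp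
      rw [Finset.mem_product] at hp
      simp only
      rw [hgθ _ hp.1 _ hp.2, hgA _ hp.1 _ hp.2]
      have := hgw _ hp.1 _ hp.2
      calc w p.1 * (A (θ p.1) * A p.1) * w p.2 = (w p.1 * w p.2) * (A (θ p.1) * A p.1) := by ring
        _ = (w (gl p.1 p.2) * w (gl p.2 p.1)) * (A (θ p.1) * A p.1) := by rw [this]
        _ = _ := by ring
  by_cases hZ : ∑ b ∈ P, w b = 0
  · have h0 := (Finset.sum_eq_zero_iff_of_nonneg hw).1 hZ
    refine le_of_eq (Finset.sum_eq_zero ?_).symm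
    intro a ha
    rw [h0 a ha, zero_mul]
  · have hZ' : 0 < ∑ b ∈ P, w b := lt_of_le_of_ne (Finset.sum_nonneg hw) (Ne.symm hZ)
    by_contra hneg
    rw [not_le] at hneg
    have h1 := mul_neg_of_neg_of_pos hneg hZ'
    rw [key] at h1
    exact absurd (mul_self_nonneg _) (not_le.2 h1)

/-- model free reflection positivity. -/
theorem scr62d_abs (P : Finset α) (w A : α → ℝ) (ρ : α → β) (θ : α → α) (gl : α → α → α)
    (hw : ∀ a ∈ P, 0 ≤ w a)
    (hθP : ∀ a ∈ P, θ a ∈ P) (hθθ : ∀ a ∈ P, θ (θ a) = a) (hθw : ∀ a ∈ P, w (θ a) = w a)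
    (hθρ : ∀ a ∈ P, ρ (θ a) = ρ a)
    (hgP : ∀ a ∈ P, ∀ b ∈ P, gl a b ∈ P)
    (hgρ : ∀ a ∈ P, ∀ b ∈ P, ρ (gl a b) = ρ a)
    (hgg : ∀ a ∈ P, ∀ b ∈ P, gl (gl a b) (gl b a) = a)
    (hgw : ∀ a ∈ P, ∀ b ∈ P, ρ a = ρ b → w (gl a b) * w (gl b a) = w a * w b)
    (hgA : ∀ a ∈ P, ∀ b ∈ P, A (gl a b) = A a)
    (hgθ : ∀ a ∈ P, ∀ b ∈ P, ρ a = ρ b → A (θ (gl b a)) = A (θ a)) :
    0 ≤ ∑ a ∈ P, w a * (A (θ a) * A a) := by
  rw [← Finset.sum_fiberwise_of_maps_to (s := P) (t := P.image ρ) (g := ρ)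
    (fun a ha => Finset.mem_image_of_mem ρ ha)]
  refine Finset.sum_nonneg fun r _ => ?_
  refine scr62d_abs_fibre (P.filter fun a => ρ a = r) w A θ gl ?_ ?_ ?_ ?_ ?_ ?_ ?_ ?_ ?_
  · intro a ha
    exact hw a (Finset.mem_filter.1 ha).1
  · intro a ha
    rw [Finset.mem_filter] at ha ⊢
    exact ⟨hθP a ha.1, (hθρ a ha.1).trans ha.2⟩
  · intro a ha
    exact hθθ a (Finset.mem_filter.1 ha).1
  · intro a ha
    exact hθw a (Finset.mem_filter.1 ha).1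
  · intro a ha b hb
    rw [Finset.mem_filter] at ha hb ⊢
    exact ⟨hgP a ha.1 b hb.1, (hgρ a ha.1 b hb.1).trans ha.2⟩
  · intro a ha b hb
    exact hgg a (Finset.mem_filter.1 ha).1 b (Finset.mem_filter.1 hb).1
  · intro a ha b hb
    rw [Finset.mem_filter] at ha hb
    exact hgw a ha.1 b hb.1 (ha.2.trans hb.2.symm)
  · intro a ha b hb
    exact hgA a (Finset.mem_filter.1 ha).1 b (Finset.mem_filter.1 hb).1
  · intro a ha b hb
    rw [Finset.mem_filter] at ha hb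
    exact hgθ a ha.1 b hb.1 (ha.2.trans hb.2.symm)

end abs

/-! ## 2. frames, glueing, the carrier -/

/-- what the finite volume argument uses of a mirror: `g` the mirror map, `lc` / `lf` the levels of corners / of (centres of) faces. -/
structure Scr62dFr where
  g : ScrMapD
  lc : ℤ × ℤ → ℤ
  lf : ℤ × ℤ → ℤ
  cc : ∀ v, g.c (g.c v) = v
  ff : ∀ x, g.f (g.f x) = x
  ee : ∀ e, g.e (g.e e) = e
  lcn : ∀ v, lc (g.c v) = - lc v
  lfn : ∀ x, lf (g.f x) = - lf x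
  cfix : ∀ v, lc v = 0 → g.c v = v
  ffix : ∀ x, lf x = 0 → g.f x = x
  up : ∀ e, (0 ≤ lc e.1 ∧ 0 ≤ lc (rswEnd e)) → 0 ≤ lf e.1 ∧ 0 ≤ lf (rswCo e)
  dn : ∀ e, ¬ (0 ≤ lc e.1 ∧ 0 ≤ lc (rswEnd e)) →
    lc e.1 ≤ 0 ∧ lc (rswEnd e) ≤ 0 ∧ lf e.1 ≤ 0 ∧ lf (rswCo e) ≤ 0
  flip : ∀ e, (0 ≤ lc (g.e e).1 ∧ 0 ≤ lc (rswEnd (g.e e))) ↔ ¬ (0 ≤ lc e.1 ∧ 0 ≤ lc (rswEnd e))
  ends : ∀ e, ((g.e e).1 = g.c e.1 ∧ rswEnd (g.e e) = g.c (rswEnd e)) ∨
    ((g.e e).1 = g.c (rswEnd e) ∧ rswEnd (g.e e) = g.c e.1)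
  faces : ∀ e, ((g.e e).1 = g.f e.1 ∧ rswCo (g.e e) = g.f (rswCo e)) ∨
    ((g.e e).1 = g.f (rswCo e) ∧ rswCo (g.e e) = g.f e.1)
  adj : ∀ x v, at92hCor x v → at92hCor (g.f x) (g.c v)

/-- `A` where `U` holds, `B` elsewhere. -/
def scr62dGl {γ : Type*} [DecidableEq γ] (U : γ → Prop) [DecidablePred U] (A B : Finset γ) : Finset γ :=
  A.filter U ∪ B.filter fun x => ¬ U x

theorem scr62d_mem_gl {γ : Type*} [DecidableEq γ] (U : γ → Prop) [DecidablePred U] (A B : Finset γ) (x : γ) :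
    x ∈ scr62dGl U A B ↔ (U x ∧ x ∈ A) ∨ (¬ U x ∧ x ∈ B) := by
  unfold scr62dGl
  rw [Finset.mem_union, Finset.mem_filter, Finset.mem_filter]
  tauto

theorem scr62d_mem_gl_pos {γ : Type*} [DecidableEq γ] (U : γ → Prop) [DecidablePred U] (A B : Finset γ) {x : γ}
    (h : U x) : x ∈ scr62dGl U A B ↔ x ∈ A := by
  rw [scr62d_mem_gl]; tauto

theorem scr62d_mem_gl_neg {γ : Type*} [DecidableEq γ] (U : γ → Prop) [DecidablePred U] (A B : Finset γ) {x : γ}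
    (h : ¬ U x) : x ∈ scr62dGl U A B ↔ x ∈ B := by
  rw [scr62d_mem_gl]; tauto

theorem scr62d_gl_gl {γ : Type*} [DecidableEq γ] (U : γ → Prop) [DecidablePred U] (A B : Finset γ) :
    scr62dGl U (scr62dGl U A B) (scr62dGl U B A) = A := by
  ext x
  by_cases h : U x
  · rw [scr62d_mem_gl_pos U _ _ h, scr62d_mem_gl_pos U _ _ h]
  · rw [scr62d_mem_gl_neg U _ _ h, scr62d_mem_gl_neg U _ _ h]

theorem scr62d_gl_sub {γ : Type*} [DecidableEq γ] (U : γ → Prop) [DecidablePred U] {A B C : Finset γ}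
    (hA : A ⊆ C) (hB : B ⊆ C) : scr62dGl U A B ⊆ C := by
  intro x hx
  rw [scr62d_mem_gl] at hx
  rcases hx with h | h
  · exact hA h.2
  · exact hB h.2

theorem scr62d_mem_image {γ : Type*} [DecidableEq γ] (f : γ → γ) (hf : ∀ x, f (f x) = x) (S : Finset γ) (x : γ) :
    x ∈ S.image f ↔ f x ∈ S := by
  rw [Finset.mem_image]
  constructor
  · rintro ⟨y, hy, rfl⟩
    rwa [hf]
  · intro h
    exact ⟨f x, h, hf x⟩

theorem scr62d_image_image {γ : Type*} [DecidableEq γ] (f : γ → γ) (hf : ∀ x, f (f x) = x) (S : Finset γ) :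
    (S.image f).image f = S := by
  ext x
  rw [scr62d_mem_image f hf, scr62d_mem_image f hf, hf]

/-- the carrier: triples of finite sets. -/
abbrev Scr62dC : Type := Finset (ℤ × ℤ) × Finset (ℤ × ℤ) × Finset ((ℤ × ℤ) × Bool)

def scr62dMk (p : Scr62dC) : RswCfg := ⟨p.1, p.2.1, p.2.2⟩

def scr62dP (F : Finset (ℤ × ℤ)) : Finset Scr62dC :=
  (cornersOf F).powerset ×ˢ F.powerset ×ˢ (rswInt F).powerset

theorem scr62d_mem_P (F : Finset (ℤ × ℤ)) (p : Scr62dC) :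
    p ∈ scr62dP F ↔ p.1 ⊆ cornersOf F ∧ p.2.1 ⊆ F ∧ p.2.2 ⊆ rswInt F := by
  unfold scr62dP
  rw [Finset.mem_product, Finset.mem_product, Finset.mem_powerset, Finset.mem_powerset, Finset.mem_powerset]

theorem scr62d_sum (t : ℝ) (F : Finset (ℤ × ℤ)) (b : Bool) (X : RswCfg → ℝ) :
    rswSum t F b X = ∑ p ∈ scr62dP F, rswWt t F b (scr62dMk p) * X (scr62dMk p) := by
  unfold rswSum scr62dP
  rw [Finset.sum_product]
  refine Finset.sum_congr rfl fun S _ => ?_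
  rw [Finset.sum_product]
  rfl

namespace Scr62dFr

variable (fr : Scr62dFr)

def th (p : Scr62dC) : Scr62dC := (p.1.image fr.g.c, p.2.1.image fr.g.f, p.2.2.image fr.g.e)

def glue (a b : Scr62dC) : Scr62dC :=
  (scr62dGl (fun v => 0 ≤ fr.lc v) a.1 b.1, scr62dGl (fun x => 0 ≤ fr.lf x) a.2.1 b.2.1,
    scr62dGl (fun e : (ℤ × ℤ) × Bool => 0 ≤ fr.lc e.1 ∧ 0 ≤ fr.lc (rswEnd e)) a.2.2 b.2.2)

def row (p : Scr62dC) : Finset (ℤ × ℤ) × Finset (ℤ × ℤ) :=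
  (p.1.filter fun v => fr.lc v = 0, p.2.1.filter fun x => fr.lf x = 0)

theorem mk_th (p : Scr62dC) : scr62dMk (fr.th p) = scrAct fr.g (scr62dMk p) := rfl

theorem th_th (p : Scr62dC) : fr.th (fr.th p) = p := by
  unfold th
  simp only [scr62d_image_image _ fr.cc, scr62d_image_image _ fr.ff, scr62d_image_image _ fr.ee]

theorem row_th (p : Scr62dC) : fr.row (fr.th p) = fr.row p := by
  unfold row th
  refine Prod.ext ?_ ?_
  · ext v
    simp only [Finset.mem_filter, scr62d_mem_image _ fr.cc]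
    constructor
    · rintro ⟨h1, h2⟩
      rw [fr.cfix v h2] at h1
      exact ⟨h1, h2⟩
    · rintro ⟨h1, h2⟩
      rw [fr.cfix v h2]
      exact ⟨h1, h2⟩
  · ext v
    simp only [Finset.mem_filter, scr62d_mem_image _ fr.ff]
    constructor
    · rintro ⟨h1, h2⟩
      rw [fr.ffix v h2] at h1
      exact ⟨h1, h2⟩
    · rintro ⟨h1, h2⟩
      rw [fr.ffix v h2]
      exact ⟨h1, h2⟩

theorem row_glue (a b : Scr62dC) : fr.row (fr.glue a b) = fr.row a := by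
  unfold row glue
  refine Prod.ext ?_ ?_
  · ext v
    simp only [Finset.mem_filter]
    constructor
    · rintro ⟨h1, h2⟩
      rw [scr62d_mem_gl_pos (fun v => 0 ≤ fr.lc v) _ _ (le_of_eq h2.symm)] at h1
      exact ⟨h1, h2⟩
    · rintro ⟨h1, h2⟩
      rw [scr62d_mem_gl_pos (fun v => 0 ≤ fr.lc v) _ _ (le_of_eq h2.symm)]
      exact ⟨h1, h2⟩
  · ext v
    simp only [Finset.mem_filter]
    constructor
    · rintro ⟨h1, h2⟩
      rw [scr62d_mem_gl_pos (fun v => 0 ≤ fr.lf v) _ _ (le_of_eq h2.symm)] at h1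
      exact ⟨h1, h2⟩
    · rintro ⟨h1, h2⟩
      rw [scr62d_mem_gl_pos (fun v => 0 ≤ fr.lf v) _ _ (le_of_eq h2.symm)]
      exact ⟨h1, h2⟩

theorem glue_glue (a b : Scr62dC) : fr.glue (fr.glue a b) (fr.glue b a) = a := by
  unfold glue
  simp only [scr62d_gl_gl]

theorem rowS {a b : Scr62dC} (h : fr.row a = fr.row b) {v : ℤ × ℤ} (hv : fr.lc v = 0) : v ∈ a.1 ↔ v ∈ b.1 := by
  have h1 := congrArg Prod.fst h
  have h2 := Finset.ext_iff.1 h1 v
  simp only [row, Finset.mem_filter] at h2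
  tauto

theorem rowD {a b : Scr62dC} (h : fr.row a = fr.row b) {v : ℤ × ℤ} (hv : fr.lf v = 0) : v ∈ a.2.1 ↔ v ∈ b.2.1 := by
  have h1 := congrArg Prod.snd h
  have h2 := Finset.ext_iff.1 h1 v
  simp only [row, Finset.mem_filter] at h2
  tauto

theorem glueS_up (a b : Scr62dC) {v : ℤ × ℤ} (hv : 0 ≤ fr.lc v) : v ∈ (fr.glue a b).1 ↔ v ∈ a.1 :=
  scr62d_mem_gl_pos (fun v => 0 ≤ fr.lc v) _ _ hv

theorem glueD_up (a b : Scr62dC) {v : ℤ × ℤ} (hv : 0 ≤ fr.lf v) : v ∈ (fr.glue a b).2.1 ↔ v ∈ a.2.1 :=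
  scr62d_mem_gl_pos (fun v => 0 ≤ fr.lf v) _ _ hv

theorem glueS_dn {a b : Scr62dC} (h : fr.row a = fr.row b) {v : ℤ × ℤ} (hv : fr.lc v ≤ 0) :
    v ∈ (fr.glue a b).1 ↔ v ∈ b.1 := by
  by_cases h0 : 0 ≤ fr.lc v
  · rw [fr.glueS_up a b h0]
    exact fr.rowS h (le_antisymm hv h0)
  · exact scr62d_mem_gl_neg (fun v => 0 ≤ fr.lc v) _ _ h0

theorem glueD_dn {a b : Scr62dC} (h : fr.row a = fr.row b) {v : ℤ × ℤ} (hv : fr.lf v ≤ 0) :
    v ∈ (fr.glue a b).2.1 ↔ v ∈ b.2.1 := by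
  by_cases h0 : 0 ≤ fr.lf v
  · rw [fr.glueD_up a b h0]
    exact fr.rowD h (le_antisymm hv h0)
  · exact scr62d_mem_gl_neg (fun v => 0 ≤ fr.lf v) _ _ h0

theorem glueO_up (a b : Scr62dC) {e : (ℤ × ℤ) × Bool} (he : 0 ≤ fr.lc e.1 ∧ 0 ≤ fr.lc (rswEnd e)) :
    e ∈ (fr.glue a b).2.2 ↔ e ∈ a.2.2 :=
  scr62d_mem_gl_pos (fun e : (ℤ × ℤ) × Bool => 0 ≤ fr.lc e.1 ∧ 0 ≤ fr.lc (rswEnd e)) _ _ he

theorem glueO_dn (a b : Scr62dC) {e : (ℤ × ℤ) × Bool} (he : ¬ (0 ≤ fr.lc e.1 ∧ 0 ≤ fr.lc (rswEnd e))) :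
    e ∈ (fr.glue a b).2.2 ↔ e ∈ b.2.2 :=
  scr62d_mem_gl_neg (fun e : (ℤ × ℤ) × Bool => 0 ≤ fr.lc e.1 ∧ 0 ≤ fr.lc (rswEnd e)) _ _ he

end Scr62dFr

/-! ## 3. the weight -/

theorem scr62d_fac_congr (t : ℝ) {ω ω' : RswCfg} {e e' : (ℤ × ℤ) × Bool} (h1 : e ∈ ω.O ↔ e' ∈ ω'.O)
    (h2 : (e.1 ∈ ω.S ↔ rswEnd e ∈ ω.S) ↔ (e'.1 ∈ ω'.S ↔ rswEnd e' ∈ ω'.S))
    (h3 : (e.1 ∈ ω.D ↔ rswCo e ∈ ω.D) ↔ (e'.1 ∈ ω'.D ↔ rswCo e' ∈ ω'.D)) :
    rswFac t ω e = rswFac t ω' e' := by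
  unfold rswFac
  simp only [h1, h2, h3]

theorem scr62d_fac_nonneg {t : ℝ} (h0 : 0 ≤ t) (h1 : t ≤ 1) (ω : RswCfg) (e : (ℤ × ℤ) × Bool) : 0 ≤ rswFac t ω e := by
  unfold rswFac
  split_ifs <;> linarith

theorem scr62d_wt_nonneg {t : ℝ} (h0 : 0 ≤ t) (h1 : t ≤ 1) (F : Finset (ℤ × ℤ)) (b : Bool) (ω : RswCfg) :
    0 ≤ rswWt t F b ω := by
  unfold rswWt
  split_ifs
  · exact Finset.prod_nonneg fun e _ => scr62d_fac_nonneg h0 h1 ω e
  · exact le_refl _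

theorem scr62d_mem_int (F : Finset (ℤ × ℤ)) (e : (ℤ × ℤ) × Bool) : e ∈ rswInt F ↔ e.1 ∈ F ∧ rswCo e ∈ F := by
  unfold rswInt
  rw [Finset.mem_filter, Finset.mem_product]
  simp

namespace Scr62dFr

variable (fr : Scr62dFr)

theorem corners {F : Finset (ℤ × ℤ)} (hF : ∀ x, fr.g.f x ∈ F ↔ x ∈ F) {v : ℤ × ℤ} (hv : v ∈ cornersOf F) :
    fr.g.c v ∈ cornersOf F := by
  rw [at92h_mem_corners] at hv ⊢
  obtain ⟨x, hx, hc⟩ := hv
  exact ⟨fr.g.f x, (hF x).2 hx, fr.adj x v hc⟩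

theorem polygon {F : Finset (ℤ × ℤ)} (hF : ∀ x, fr.g.f x ∈ F ↔ x ∈ F) {v : ℤ × ℤ} (hv : OnPolygon F v) :
    OnPolygon F (fr.g.c v) := by
  obtain ⟨x, hx, hc⟩ := at92h_exists_ext hv
  exact at92h_onPolygon (fun h => hx ((hF x).1 h)) (fr.adj x v hc)

theorem int {F : Finset (ℤ × ℤ)} (hF : ∀ x, fr.g.f x ∈ F ↔ x ∈ F) {e : (ℤ × ℤ) × Bool} (he : e ∈ rswInt F) :
    fr.g.e e ∈ rswInt F := by
  rw [scr62d_mem_int] at he ⊢
  rcases fr.faces e with ⟨h1, h2⟩ | ⟨h1, h2⟩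
  · rw [h1, h2]
    exact ⟨(hF _).2 he.1, (hF _).2 he.2⟩
  · rw [h1, h2]
    exact ⟨(hF _).2 he.2, (hF _).2 he.1⟩

theorem th_mem {F : Finset (ℤ × ℤ)} (hF : ∀ x, fr.g.f x ∈ F ↔ x ∈ F) {p : Scr62dC} (hp : p ∈ scr62dP F) :
    fr.th p ∈ scr62dP F := by
  rw [scr62d_mem_P] at hp ⊢
  refine ⟨?_, ?_, ?_⟩
  · intro v hv
    obtain ⟨u, hu, rfl⟩ := Finset.mem_image.1 hv
    exact fr.corners hF (hp.1 hu)
  · intro v hv
    obtain ⟨u, hu, rfl⟩ := Finset.mem_image.1 hv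
    exact (hF u).2 (hp.2.1 hu)
  · intro v hv
    obtain ⟨u, hu, rfl⟩ := Finset.mem_image.1 hv
    exact fr.int hF (hp.2.2 hu)

theorem glue_mem {F : Finset (ℤ × ℤ)} {a b : Scr62dC} (ha : a ∈ scr62dP F) (hb : b ∈ scr62dP F) :
    fr.glue a b ∈ scr62dP F := by
  rw [scr62d_mem_P] at ha hb ⊢
  exact ⟨scr62d_gl_sub _ ha.1 hb.1, scr62d_gl_sub _ ha.2.1 hb.2.1, scr62d_gl_sub _ ha.2.2 hb.2.2⟩

theorem bc_act {F : Finset (ℤ × ℤ)} (hF : ∀ x, fr.g.f x ∈ F ↔ x ∈ F) (b : Bool) (ω : RswCfg) :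
    RswBc F b (scrAct fr.g ω) ↔ RswBc F b ω := by
  unfold RswBc
  constructor
  · intro h v hv hp
    have := h (fr.g.c v) (fr.corners hF hv) (fr.polygon hF hp)
    rw [← this]
    show v ∈ ω.S ↔ fr.g.c v ∈ ω.S.image fr.g.c
    rw [scr62d_mem_image _ fr.cc, fr.cc]
  · intro h v hv hp
    have := h (fr.g.c v) (fr.corners hF hv) (fr.polygon hF hp)
    rw [← this]
    show v ∈ ω.S.image fr.g.c ↔ _
    rw [scr62d_mem_image _ fr.cc]

theorem fac_act (t : ℝ) (ω : RswCfg) (e : (ℤ × ℤ) × Bool) :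
    rswFac t (scrAct fr.g ω) e = rswFac t ω (fr.g.e e) := by
  refine scr62d_fac_congr t ?_ ?_ ?_
  · exact scr62d_mem_image _ fr.ee _ _
  · show (e.1 ∈ ω.S.image fr.g.c ↔ rswEnd e ∈ ω.S.image fr.g.c) ↔ _
    rw [scr62d_mem_image _ fr.cc, scr62d_mem_image _ fr.cc]
    rcases fr.ends e with ⟨h1, h2⟩ | ⟨h1, h2⟩
    · rw [h1, h2]
    · rw [h1, h2]
      exact iff_comm
  · show (e.1 ∈ ω.D.image fr.g.f ↔ rswCo e ∈ ω.D.image fr.g.f) ↔ _
    rw [scr62d_mem_image _ fr.ff, scr62d_mem_image _ fr.ff]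
    rcases fr.faces e with ⟨h1, h2⟩ | ⟨h1, h2⟩
    · rw [h1, h2]
    · rw [h1, h2]
      exact iff_comm

theorem wt_act (t : ℝ) {F : Finset (ℤ × ℤ)} (hF : ∀ x, fr.g.f x ∈ F ↔ x ∈ F) (b : Bool) (ω : RswCfg) :
    rswWt t F b (scrAct fr.g ω) = rswWt t F b ω := by
  have hprod : ∏ e ∈ rswInt F, rswFac t (scrAct fr.g ω) e = ∏ e ∈ rswInt F, rswFac t ω e := by
    refine Finset.prod_nbij' fr.g.e fr.g.e (fun e he => fr.int hF he) (fun e he => fr.int hF he)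
      (fun e _ => fr.ee e) (fun e _ => fr.ee e) ?_
    intro e _
    exact fr.fac_act t ω e
  unfold rswWt
  by_cases hb : RswBc F b ω
  · rw [if_pos hb, if_pos ((fr.bc_act hF b ω).2 hb), hprod]
  · rw [if_neg hb, if_neg fun k => hb ((fr.bc_act hF b ω).1 k)]

theorem fac_glue (t : ℝ) {a b : Scr62dC} (h : fr.row a = fr.row b) (e : (ℤ × ℤ) × Bool) :
    rswFac t (scr62dMk (fr.glue a b)) e * rswFac t (scr62dMk (fr.glue b a)) e
      = rswFac t (scr62dMk a) e * rswFac t (scr62dMk b) e := by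
  by_cases he : 0 ≤ fr.lc e.1 ∧ 0 ≤ fr.lc (rswEnd e)
  · have hf := fr.up e he
    have e1 : ∀ a b : Scr62dC, rswFac t (scr62dMk (fr.glue a b)) e = rswFac t (scr62dMk a) e := by
      intro a b
      refine scr62d_fac_congr t (fr.glueO_up a b he) ?_ ?_
      · exact iff_congr (fr.glueS_up a b he.1) (fr.glueS_up a b he.2)
      · exact iff_congr (fr.glueD_up a b hf.1) (fr.glueD_up a b hf.2)
    rw [e1, e1]
  · have hf := fr.dn e he
    have e1 : ∀ a b : Scr62dC, fr.row a = fr.row b →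
        rswFac t (scr62dMk (fr.glue a b)) e = rswFac t (scr62dMk b) e := by
      intro a b h
      refine scr62d_fac_congr t (fr.glueO_dn a b he) ?_ ?_
      · exact iff_congr (fr.glueS_dn h hf.1) (fr.glueS_dn h hf.2.1)
      · exact iff_congr (fr.glueD_dn h hf.2.2.1) (fr.glueD_dn h hf.2.2.2)
    rw [e1 a b h, e1 b a h.symm, mul_comm]

theorem bc_glue (F : Finset (ℤ × ℤ)) (b : Bool) (p q : Scr62dC) :
    (RswBc F b (scr62dMk (fr.glue p q)) ∧ RswBc F b (scr62dMk (fr.glue q p))) ↔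
      (RswBc F b (scr62dMk p) ∧ RswBc F b (scr62dMk q)) := by
  unfold RswBc
  constructor
  · rintro ⟨h1, h2⟩
    constructor
    · intro v hv hp
      by_cases h0 : 0 ≤ fr.lc v
      · rw [← h1 v hv hp]
        exact (fr.glueS_up p q h0).symm
      · rw [← h2 v hv hp]
        exact (scr62d_mem_gl_neg (fun v => 0 ≤ fr.lc v) _ _ h0).symm
    · intro v hv hp
      by_cases h0 : 0 ≤ fr.lc v
      · rw [← h2 v hv hp]
        exact (fr.glueS_up q p h0).symm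
      · rw [← h1 v hv hp]
        exact (scr62d_mem_gl_neg (fun v => 0 ≤ fr.lc v) _ _ h0).symm
  · rintro ⟨h1, h2⟩
    constructor
    · intro v hv hp
      by_cases h0 : 0 ≤ fr.lc v
      · rw [← h1 v hv hp]
        exact fr.glueS_up p q h0
      · rw [← h2 v hv hp]
        exact scr62d_mem_gl_neg (fun v => 0 ≤ fr.lc v) _ _ h0
    · intro v hv hp
      by_cases h0 : 0 ≤ fr.lc v
      · rw [← h2 v hv hp]
        exact fr.glueS_up q p h0
      · rw [← h1 v hv hp]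
        exact scr62d_mem_gl_neg (fun v => 0 ≤ fr.lc v) _ _ h0

theorem wt_glue (t : ℝ) (F : Finset (ℤ × ℤ)) (b : Bool) {p q : Scr62dC} (h : fr.row p = fr.row q) :
    rswWt t F b (scr62dMk (fr.glue p q)) * rswWt t F b (scr62dMk (fr.glue q p))
      = rswWt t F b (scr62dMk p) * rswWt t F b (scr62dMk q) := by
  have hb := fr.bc_glue F b p q
  have hprod : (∏ e ∈ rswInt F, rswFac t (scr62dMk (fr.glue p q)) e) * (∏ e ∈ rswInt F, rswFac t (scr62dMk (fr.glue q p)) e)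
      = (∏ e ∈ rswInt F, rswFac t (scr62dMk p) e) * (∏ e ∈ rswInt F, rswFac t (scr62dMk q) e) := by
    rw [← Finset.prod_mul_distrib, ← Finset.prod_mul_distrib]
    exact Finset.prod_congr rfl fun e _ => fr.fac_glue t h e
  unfold rswWt
  by_cases h1 : RswBc F b (scr62dMk p) ∧ RswBc F b (scr62dMk q)
  · have h2 := hb.2 h1
    rw [if_pos h1.1, if_pos h1.2, if_pos h2.1, if_pos h2.2, hprod]
  · have h2 : ¬ (RswBc F b (scr62dMk (fr.glue p q)) ∧ RswBc F b (scr62dMk (fr.glue q p))) := fun k => h1 (hb.1 k)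
    have l1 : ∀ (P Q : Prop) {dP : Decidable P} {dQ : Decidable Q} (x y : ℝ), ¬ (P ∧ Q) →
        (@ite ℝ P dP x 0) * (@ite ℝ Q dQ y 0) = 0 := by
      intro P Q _ _ x y hPQ
      by_cases hP : P
      · have hQ : ¬ Q := fun k => hPQ ⟨hP, k⟩
        rw [if_neg hQ, mul_zero]
      · rw [if_neg hP, zero_mul]
    rw [l1 _ _ _ _ h1, l1 _ _ _ _ h2]

end Scr62dFr

/-! ## 4. finite volume reflection positivity -/

/-- finite volume RP in a frame, for every symmetric set of faces. -/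
theorem scr62d_fin (fr : Scr62dFr) {t : ℝ} (h0 : 0 ≤ t) (h1 : t ≤ 1) {F : Finset (ℤ × ℤ)}
    (hF : ∀ x, fr.g.f x ∈ F ↔ x ∈ F) (b : Bool) {X : RswCfg → ℝ} {R : Finset (ℤ × ℤ)} {R' : Finset ((ℤ × ℤ) × Bool)}
    (hX : RswLoc R R' X) (hR : ∀ v ∈ R, 0 ≤ fr.lc v ∧ 0 ≤ fr.lf v)
    (hR' : ∀ e ∈ R', 0 ≤ fr.lc e.1 ∧ 0 ≤ fr.lc (rswEnd e)) :
    0 ≤ rswE t F b fun ω => X (scrAct fr.g ω) * X ω := by
  unfold rswE
  refine div_nonneg ?_ ?_
  swap
  · rw [scr62d_sum]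
    exact Finset.sum_nonneg fun p _ => mul_nonneg (scr62d_wt_nonneg h0 h1 F b _) zero_le_one
  rw [scr62d_sum]
  refine scr62d_abs (scr62dP F) (fun p => rswWt t F b (scr62dMk p)) (fun p => X (scr62dMk p)) fr.row fr.th fr.glue
    ?_ ?_ ?_ ?_ ?_ ?_ ?_ ?_ ?_ ?_ ?_
  · exact fun p _ => scr62d_wt_nonneg h0 h1 F b _
  · exact fun p hp => fr.th_mem hF hp
  · exact fun p _ => fr.th_th p
  · exact fun p _ => fr.wt_act t hF b (scr62dMk p)
  · exact fun p _ => fr.row_th p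
  · exact fun p hp q hq => fr.glue_mem hp hq
  · exact fun p _ q _ => fr.row_glue p q
  · exact fun p _ q _ => fr.glue_glue p q
  · exact fun p _ q _ h => fr.wt_glue t F b h
  · intro p _ q _
    refine hX _ _ ?_ ?_ ?_
    · ext v
      simp only [Finset.mem_inter]
      constructor
      · rintro ⟨k1, k2⟩
        exact ⟨(fr.glueS_up p q (hR v k2).1).1 k1, k2⟩
      · rintro ⟨k1, k2⟩
        exact ⟨(fr.glueS_up p q (hR v k2).1).2 k1, k2⟩
    · ext v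
      simp only [Finset.mem_inter]
      constructor
      · rintro ⟨k1, k2⟩
        exact ⟨(fr.glueD_up p q (hR v k2).2).1 k1, k2⟩
      · rintro ⟨k1, k2⟩
        exact ⟨(fr.glueD_up p q (hR v k2).2).2 k1, k2⟩
    · ext v
      simp only [Finset.mem_inter]
      constructor
      · rintro ⟨k1, k2⟩
        exact ⟨(fr.glueO_up p q (hR' v k2)).1 k1, k2⟩
      · rintro ⟨k1, k2⟩
        exact ⟨(fr.glueO_up p q (hR' v k2)).2 k1, k2⟩
  · intro p _ q _ h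
    refine hX _ _ ?_ ?_ ?_
    · ext v
      simp only [Finset.mem_inter]
      have key : v ∈ R → (v ∈ (scr62dMk (fr.th (fr.glue q p))).S ↔ v ∈ (scr62dMk (fr.th p)).S) := by
        intro k2
        show v ∈ (fr.glue q p).1.image fr.g.c ↔ v ∈ p.1.image fr.g.c
        rw [scr62d_mem_image _ fr.cc, scr62d_mem_image _ fr.cc]
        refine fr.glueS_dn h.symm ?_
        rw [fr.lcn]
        have := (hR v k2).1
        omega
      constructor
      · rintro ⟨k1, k2⟩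
        exact ⟨(key k2).1 k1, k2⟩
      · rintro ⟨k1, k2⟩
        exact ⟨(key k2).2 k1, k2⟩
    · ext v
      simp only [Finset.mem_inter]
      have key : v ∈ R → (v ∈ (scr62dMk (fr.th (fr.glue q p))).D ↔ v ∈ (scr62dMk (fr.th p)).D) := by
        intro k2
        show v ∈ (fr.glue q p).2.1.image fr.g.f ↔ v ∈ p.2.1.image fr.g.f
        rw [scr62d_mem_image _ fr.ff, scr62d_mem_image _ fr.ff]
        refine fr.glueD_dn h.symm ?_
        rw [fr.lfn]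
        have := (hR v k2).2
        omega
      constructor
      · rintro ⟨k1, k2⟩
        exact ⟨(key k2).1 k1, k2⟩
      · rintro ⟨k1, k2⟩
        exact ⟨(key k2).2 k1, k2⟩
    · ext v
      simp only [Finset.mem_inter]
      have key : v ∈ R' → (v ∈ (scr62dMk (fr.th (fr.glue q p))).O ↔ v ∈ (scr62dMk (fr.th p)).O) := by
        intro k2
        show v ∈ (fr.glue q p).2.2.image fr.g.e ↔ v ∈ p.2.2.image fr.g.e
        rw [scr62d_mem_image _ fr.ee, scr62d_mem_image _ fr.ee]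
        refine fr.glueO_dn q p ?_
        intro k
        exact (fr.flip v).1 k (hR' v k2)
      constructor
      · rintro ⟨k1, k2⟩
        exact ⟨(key k2).1 k1, k2⟩
      · rintro ⟨k1, k2⟩
        exact ⟨(key k2).2 k1, k2⟩

/-! ## 5. the two diagonal frames -/

theorem scr62d_re1 : scrRe 1 = ⟨fun v => (-v.2, -v.1), fun v => (-v.2 - 1, -v.1 - 1),
      fun e => if e.2 then ((-e.1.2 - 1, -e.1.1), false) else ((-e.1.2, -e.1.1 - 1), true)⟩ := rfl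

theorem scr62d_re3 : scrRe 3 = ⟨fun v => (v.2, v.1), fun v => (v.2, v.1), fun e => ((e.1.2, e.1.1), !e.2)⟩ := rfl

/-- the frame with normal `(1, 1)`. -/
def scr62dF1 : Scr62dFr where
  g := scrRe 1
  lc := fun v => v.1 + v.2
  lf := fun x => x.1 + x.2 + 1
  cc := by rintro ⟨x, y⟩; simp [scr62d_re1]
  ff := by rintro ⟨x, y⟩; simp [scr62d_re1]
  ee := by rintro ⟨⟨x, y⟩, b⟩; cases b <;> simp [scr62d_re1]
  lcn := by rintro ⟨x, y⟩; simp only [scr62d_re1]; omega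
  lfn := by rintro ⟨x, y⟩; simp only [scr62d_re1]; omega
  cfix := by
    rintro ⟨x, y⟩ h
    simp only at h
    simp only [scr62d_re1]
    exact Prod.ext (by simp only; omega) (by simp only; omega)
  ffix := by
    rintro ⟨x, y⟩ h
    simp only at h
    simp only [scr62d_re1]
    exact Prod.ext (by simp only; omega) (by simp only; omega)
  up := by rintro ⟨⟨x, y⟩, b⟩; cases b <;> simp [rswEnd, rswCo] <;> omega
  dn := by rintro ⟨⟨x, y⟩, b⟩; cases b <;> simp [rswEnd, rswCo] <;> omega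
  flip := by rintro ⟨⟨x, y⟩, b⟩; cases b <;> simp [rswEnd, scr62d_re1] <;> omega
  ends := by rintro ⟨⟨x, y⟩, b⟩; cases b <;> simp [rswEnd, scr62d_re1] <;> omega
  faces := by rintro ⟨⟨x, y⟩, b⟩; cases b <;> simp [rswCo, scr62d_re1]
  adj := by
    rintro ⟨x, y⟩ ⟨u, v⟩ h
    simp only [at92hCor, scr62d_re1] at h ⊢
    omega

/-- the frame with normal `(-1, 1)`. -/
def scr62dF3 : Scr62dFr where
  g := scrRe 3
  lc := fun v => -v.1 + v.2
  lf := fun x => -x.1 + x.2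
  cc := by rintro ⟨x, y⟩; simp [scr62d_re3]
  ff := by rintro ⟨x, y⟩; simp [scr62d_re3]
  ee := by rintro ⟨⟨x, y⟩, b⟩; cases b <;> simp [scr62d_re3]
  lcn := by rintro ⟨x, y⟩; simp only [scr62d_re3]; omega
  lfn := by rintro ⟨x, y⟩; simp only [scr62d_re3]; omega
  cfix := by
    rintro ⟨x, y⟩ h
    simp only at h
    simp only [scr62d_re3]
    exact Prod.ext (by simp only; omega) (by simp only; omega)
  ffix := by
    rintro ⟨x, y⟩ h
    simp only at h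
    simp only [scr62d_re3]
    exact Prod.ext (by simp only; omega) (by simp only; omega)
  up := by rintro ⟨⟨x, y⟩, b⟩; cases b <;> simp [rswEnd, rswCo] <;> omega
  dn := by rintro ⟨⟨x, y⟩, b⟩; cases b <;> simp [rswEnd, rswCo] <;> omega
  flip := by rintro ⟨⟨x, y⟩, b⟩; cases b <;> simp [rswEnd, scr62d_re3] <;> omega
  ends := by rintro ⟨⟨x, y⟩, b⟩; cases b <;> simp [rswEnd, scr62d_re3]
  faces := by rintro ⟨⟨x, y⟩, b⟩; cases b <;> simp [rswCo, scr62d_re3]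
  adj := by
    rintro ⟨x, y⟩ ⟨u, v⟩ h
    simp only [at92hCor, scr62d_re3] at h ⊢
    omega

theorem scr62d_mem_box (n : ℕ) (x : ℤ × ℤ) :
    x ∈ rswBox 0 n ↔ (-(n : ℤ) ≤ x.1 ∧ x.1 < n) ∧ (-(n : ℤ) ≤ x.2 ∧ x.2 < n) := by
  unfold rswBox
  rw [Finset.mem_product, Finset.mem_Ico, Finset.mem_Ico]
  simp

theorem scr62d_box1 (n : ℕ) (x : ℤ × ℤ) : scr62dF1.g.f x ∈ rswBox 0 n ↔ x ∈ rswBox 0 n := by
  rw [scr62d_mem_box, scr62d_mem_box]
  show ((-(n : ℤ) ≤ -x.2 - 1 ∧ -x.2 - 1 < n) ∧ (-(n : ℤ) ≤ -x.1 - 1 ∧ -x.1 - 1 < n)) ↔ _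
  omega

theorem scr62d_box3 (n : ℕ) (x : ℤ × ℤ) : scr62dF3.g.f x ∈ rswBox 0 n ↔ x ∈ rswBox 0 n := by
  rw [scr62d_mem_box, scr62d_mem_box]
  show ((-(n : ℤ) ≤ x.2 ∧ x.2 < n) ∧ (-(n : ℤ) ≤ x.1 ∧ x.1 < n)) ↔ _
  omega

/-! ## 6. locality of moved observables -/

theorem scr62d_mem_image' {γ : Type*} [DecidableEq γ] (f f' : γ → γ) (h1 : ∀ x, f (f' x) = x) (h2 : ∀ x, f' (f x) = x)
    (S : Finset γ) (x : γ) : x ∈ S.image f ↔ f' x ∈ S := by
  rw [Finset.mem_image]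
  constructor
  · rintro ⟨y, hy, rfl⟩
    rwa [h2]
  · intro h
    exact ⟨f' x, h, h1 x⟩

theorem scr62d_inter_image {γ : Type*} [DecidableEq γ] (f f' : γ → γ) (h1 : ∀ x, f (f' x) = x) (h2 : ∀ x, f' (f x) = x)
    {S S' R Q : Finset γ} (hQ : R.image f' ⊆ Q) (h : S ∩ Q = S' ∩ Q) : S.image f ∩ R = S'.image f ∩ R := by
  ext x
  simp only [Finset.mem_inter, scr62d_mem_image' f f' h1 h2]
  have hx := Finset.ext_iff.1 h (f' x)
  simp only [Finset.mem_inter] at hx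
  constructor
  · rintro ⟨k1, k2⟩
    exact ⟨(hx.1 ⟨k1, hQ (Finset.mem_image_of_mem f' k2)⟩).1, k2⟩
  · rintro ⟨k1, k2⟩
    exact ⟨(hx.2 ⟨k1, hQ (Finset.mem_image_of_mem f' k2)⟩).1, k2⟩

/-- an observable moved by an invertible map is local. -/
theorem scr62d_loc_act (g g' : ScrMapD) (hc1 : ∀ x, g.c (g'.c x) = x) (hc2 : ∀ x, g'.c (g.c x) = x)
    (hf1 : ∀ x, g.f (g'.f x) = x) (hf2 : ∀ x, g'.f (g.f x) = x)
    (he1 : ∀ x, g.e (g'.e x) = x) (he2 : ∀ x, g'.e (g.e x) = x)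
    {R : Finset (ℤ × ℤ)} {R' : Finset ((ℤ × ℤ) × Bool)} {X : RswCfg → ℝ} (hX : RswLoc R R' X) :
    RswLoc (R.image g'.c ∪ R.image g'.f) (R'.image g'.e) fun ω => X (scrAct g ω) := by
  intro ω ω' hS hD hO
  refine hX _ _ ?_ ?_ ?_
  · exact scr62d_inter_image g.c g'.c hc1 hc2 Finset.subset_union_left hS
  · exact scr62d_inter_image g.f g'.f hf1 hf2 Finset.subset_union_right hD
  · exact scr62d_inter_image g.e g'.e he1 he2 (Finset.Subset.refl _) hO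

theorem scr62d_inter_mono {γ : Type*} [DecidableEq γ] {S S' R Q : Finset γ} (hQ : R ⊆ Q) (h : S ∩ Q = S' ∩ Q) :
    S ∩ R = S' ∩ R := by
  ext x
  have hx := Finset.ext_iff.1 h x
  simp only [Finset.mem_inter] at hx ⊢
  constructor
  · rintro ⟨k1, k2⟩
    exact ⟨(hx.1 ⟨k1, hQ k2⟩).1, k2⟩
  · rintro ⟨k1, k2⟩
    exact ⟨(hx.2 ⟨k1, hQ k2⟩).1, k2⟩

theorem scr62d_loc_mul {R Q : Finset (ℤ × ℤ)} {R' Q' : Finset ((ℤ × ℤ) × Bool)} {X Y : RswCfg → ℝ}
    (hX : RswLoc R R' X) (hY : RswLoc Q Q' Y) : RswLoc (R ∪ Q) (R' ∪ Q') fun ω => X ω * Y ω := by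
  intro ω ω' hS hD hO
  show X ω * Y ω = X ω' * Y ω'
  rw [hX ω ω' (scr62d_inter_mono Finset.subset_union_left hS) (scr62d_inter_mono Finset.subset_union_left hD)
      (scr62d_inter_mono Finset.subset_union_left hO),
    hY ω ω' (scr62d_inter_mono Finset.subset_union_right hS) (scr62d_inter_mono Finset.subset_union_right hD)
      (scr62d_inter_mono Finset.subset_union_right hO)]

theorem scr62d_loc_tr (a : ℤ × ℤ) {R : Finset (ℤ × ℤ)} {R' : Finset ((ℤ × ℤ) × Bool)} {X : RswCfg → ℝ}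
    (hX : RswLoc R R' X) :
    RswLoc (R.image (scrTr (-a)).c ∪ R.image (scrTr (-a)).f) (R'.image (scrTr (-a)).e)
      fun ω => X (scrAct (scrTr a) ω) := by
  refine scr62d_loc_act (scrTr a) (scrTr (-a)) ?_ ?_ ?_ ?_ ?_ ?_ hX
  · intro x; simp [scrTr]
  · intro x; simp [scrTr]
  · intro x; simp [scrTr]
  · intro x; simp [scrTr]
  · intro x; simp [scrTr]
  · intro x; simp [scrTr]

theorem Scr62dFr.loc (fr : Scr62dFr) {R : Finset (ℤ × ℤ)} {R' : Finset ((ℤ × ℤ) × Bool)} {X : RswCfg → ℝ}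
    (hX : RswLoc R R' X) :
    RswLoc (R.image fr.g.c ∪ R.image fr.g.f) (R'.image fr.g.e) fun ω => X (scrAct fr.g ω) :=
  scr62d_loc_act fr.g fr.g fr.cc fr.cc fr.ff fr.ff fr.ee fr.ee hX

theorem scr62d_act_act (g h k l : ScrMapD) (hc : ∀ v, g.c (h.c v) = k.c (l.c v)) (hf : ∀ v, g.f (h.f v) = k.f (l.f v))
    (he : ∀ v, g.e (h.e v) = k.e (l.e v)) (ω : RswCfg) : scrAct g (scrAct h ω) = scrAct k (scrAct l ω) := by
  unfold scrAct
  simp only [Finset.image_image]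
  have e1 : g.c ∘ h.c = k.c ∘ l.c := funext hc
  have e2 : g.f ∘ h.f = k.f ∘ l.f := funext hf
  have e3 : g.e ∘ h.e = k.e ∘ l.e := funext he
  rw [e1, e2, e3]

theorem scr62d_act_act1 (g h k : ScrMapD) (hc : ∀ v, g.c (h.c v) = k.c v) (hf : ∀ v, g.f (h.f v) = k.f v)
    (he : ∀ v, g.e (h.e v) = k.e v) (ω : RswCfg) : scrAct g (scrAct h ω) = scrAct k ω := by
  unfold scrAct
  simp only [Finset.image_image]
  have e1 : g.c ∘ h.c = k.c := funext hc
  have e2 : g.f ∘ h.f = k.f := funext hf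
  have e3 : g.e ∘ h.e = k.e := funext he
  rw [e1, e2, e3]

/-! ## 7. the plane -/

/-- plane RP in the row of level `0`: limit of the finite volume statement along the boxes. -/
theorem scr62d_plane (fr : Scr62dFr) (hbox : ∀ (n : ℕ) (x : ℤ × ℤ), fr.g.f x ∈ rswBox 0 n ↔ x ∈ rswBox 0 n)
    {t : ℝ} (h0 : 0 ≤ t) (h1 : t ≤ 1)
    (hlim : ∀ X : RswCfg → ℝ, ScrLoc X → ∃ ℓ : ℝ, Tendsto (fun n : ℕ => rswE t (rswBox 0 n) true X) atTop (𝓝 ℓ))
    {X : RswCfg → ℝ} {R : Finset (ℤ × ℤ)} {R' : Finset ((ℤ × ℤ) × Bool)}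
    (hX : RswLoc R R' X) (hR : ∀ v ∈ R, 0 ≤ fr.lc v ∧ 0 ≤ fr.lf v)
    (hR' : ∀ e ∈ R', 0 ≤ fr.lc e.1 ∧ 0 ≤ fr.lc (rswEnd e)) :
    0 ≤ scrPl t fun ω => X (scrAct fr.g ω) * X ω := by
  obtain ⟨ℓ, hℓ⟩ := hlim _ ⟨_, _, scr62d_loc_mul (fr.loc hX) hX⟩
  unfold scrPl
  rw [hℓ.limUnder_eq]
  exact ge_of_tendsto' hℓ fun n => scr62d_fin fr h0 h1 (hbox n) true hX hR hR'

/-- plane RP in the next row: `a` = a vector of level one, `s` = its mirror image with the sign changed, `a + s` = the normal step. -/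
theorem scr62d_plane2 (fr : Scr62dFr) (hbox : ∀ (n : ℕ) (x : ℤ × ℤ), fr.g.f x ∈ rswBox 0 n ↔ x ∈ rswBox 0 n)
    {t : ℝ} (h0 : 0 ≤ t) (h1 : t ≤ 1)
    (hlim : ∀ X : RswCfg → ℝ, ScrLoc X → ∃ ℓ : ℝ, Tendsto (fun n : ℕ => rswE t (rswBox 0 n) true X) atTop (𝓝 ℓ))
    (hinv : ∀ X : RswCfg → ℝ, ScrLoc X → ∀ a : ℤ × ℤ, scrPl t (fun ω => X (scrAct (scrTr a) ω)) = scrPl t X)
    (a s : ℤ × ℤ) (hc : ∀ v, fr.g.c (v + a) = fr.g.c v + -s) (hf : ∀ v, fr.g.f (v + a) = fr.g.f v + -s)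
    (he : ∀ e : (ℤ × ℤ) × Bool, fr.g.e (e.1 + a, e.2) = ((fr.g.e e).1 + -s, (fr.g.e e).2))
    (hlc : ∀ v, fr.lc (v + s) = fr.lc v + 1) (hlf : ∀ v, fr.lf (v + s) = fr.lf v + 1)
    {X : RswCfg → ℝ} {R : Finset (ℤ × ℤ)} {R' : Finset ((ℤ × ℤ) × Bool)}
    (hX : RswLoc R R' X) (hR : ∀ v ∈ R, -1 ≤ fr.lc v ∧ -1 ≤ fr.lf v)
    (hR' : ∀ e ∈ R', -1 ≤ fr.lc e.1 ∧ -1 ≤ fr.lc (rswEnd e)) :
    0 ≤ scrPl t fun ω => X (scrAct fr.g ω) * X (scrAct (scrTr (-(a + s))) ω) := by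
  have hG : ScrLoc fun ω => X (scrAct fr.g ω) * X (scrAct (scrTr (-(a + s))) ω) :=
    ⟨_, _, scr62d_loc_mul (fr.loc hX) (scr62d_loc_tr (-(a + s)) hX)⟩
  rw [← hinv _ hG a]
  have hY := scr62d_loc_tr (-s) hX
  have e1 : ∀ ω, scrAct fr.g (scrAct (scrTr a) ω) = scrAct (scrTr (-s)) (scrAct fr.g ω) :=
    scr62d_act_act _ _ _ _ hc hf he
  have e2 : ∀ ω, scrAct (scrTr (-(a + s))) (scrAct (scrTr a) ω) = scrAct (scrTr (-s)) ω := by
    refine scr62d_act_act1 _ _ _ ?_ ?_ ?_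
    · intro v; simp only [scrTr]; abel
    · intro v; simp only [scrTr]; abel
    · intro v; simp only [scrTr]; refine Prod.ext ?_ rfl; simp only; abel
  simp only [e1, e2]
  refine scr62d_plane fr hbox h0 h1 hlim (X := fun ω => X (scrAct (scrTr (-s)) ω)) hY ?_ ?_
  · intro v hv
    have hv' : ∃ u ∈ R, u + s = v := by
      rw [Finset.mem_union, Finset.mem_image, Finset.mem_image] at hv
      rcases hv with ⟨u, hu, h⟩ | ⟨u, hu, h⟩
      · exact ⟨u, hu, by simpa [scrTr] using h⟩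
      · exact ⟨u, hu, by simpa [scrTr] using h⟩
    obtain ⟨u, hu, rfl⟩ := hv'
    rw [hlc, hlf]
    have := hR u hu
    omega
  · intro e he'
    obtain ⟨u, hu, rfl⟩ := Finset.mem_image.1 he'
    have k1 : ((scrTr (- -s)).e u).1 = u.1 + s := by simp [scrTr]
    have k2 : rswEnd ((scrTr (- -s)).e u) = rswEnd u + s := by
      obtain ⟨⟨x, y⟩, b⟩ := u
      obtain ⟨s1, s2⟩ := s
      cases b <;> simp [scrTr, rswEnd] <;> ring
    rw [k1, k2, hlc, hlc]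
    have := hR' u hu
    omega

/-- **(P2) for the diagonal frames**: `scr_cut_rp` of `Screen/Cut229` for `j = 1, 3`, from the existence of the limit along the boxes and from
translation invariance of the plane law. -/
theorem scr62d_rp {t : ℝ} (h0 : 0 ≤ t) (h1 : t ≤ 1)
    (hlim : ∀ X : RswCfg → ℝ, ScrLoc X → ∃ ℓ : ℝ, Tendsto (fun n : ℕ => rswE t (rswBox 0 n) true X) atTop (𝓝 ℓ))
    (hinv : ∀ X : RswCfg → ℝ, ScrLoc X → ∀ a : ℤ × ℤ, scrPl t (fun ω => X (scrAct (scrTr a) ω)) = scrPl t X)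
    (j : Fin 4) (hj : j = 1 ∨ j = 3) (X : RswCfg → ℝ) (hX : ScrUp j X) :
    0 ≤ scrFm t j X X ∧ 0 ≤ scrFm t j X (scrSh (scrNor j) X) := by
  obtain ⟨R, R', hloc, hR, hR'⟩ := hX
  rcases hj with rfl | rfl
  · have lev : ∀ v : ℤ × ℤ, scrLev 1 v = v.1 + v.2 := by intro v; simp [scrLev, scrNor]
    constructor
    · refine scr62d_plane scr62dF1 scr62d_box1 h0 h1 hlim hloc ?_ ?_
      · intro v hv
        have := hR v hv
        rw [lev] at this
        show 0 ≤ v.1 + v.2 ∧ 0 ≤ v.1 + v.2 + 1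
        omega
      · intro e he
        have := hR' e he
        rw [lev, lev] at this
        show 0 ≤ e.1.1 + e.1.2 ∧ 0 ≤ (rswEnd e).1 + (rswEnd e).2
        omega
    · have hn : scrNor 1 = (1, 0) + (0, 1) := by simp [scrNor]
      show 0 ≤ scrPl t fun ω => X (scrAct (scrRe 1) ω) * X (scrAct (scrTr (-(scrNor 1))) ω)
      rw [hn]
      refine scr62d_plane2 scr62dF1 scr62d_box1 h0 h1 hlim hinv (1, 0) (0, 1) ?_ ?_ ?_ ?_ ?_ hloc ?_ ?_
      · rintro ⟨x, y⟩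
        show (-(y + 0), -(x + 1)) = (-y + -0, -x + -1)
        exact Prod.ext (by simp) (by simp only; ring)
      · rintro ⟨x, y⟩
        show (-(y + 0) - 1, -(x + 1) - 1) = (-y - 1 + -0, -x - 1 + -1)
        exact Prod.ext (by simp) (by simp only; ring)
      · rintro ⟨⟨x, y⟩, b⟩
        cases b
        · show ((-(y + 0), -(x + 1) - 1), true) = ((-y + -0, -x - 1 + -1), true)
          refine Prod.ext (Prod.ext (by simp) (by simp only; ring)) rfl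
        · show ((-(y + 0) - 1, -(x + 1)), false) = ((-y - 1 + -0, -x + -1), false)
          refine Prod.ext (Prod.ext (by simp) (by simp only; ring)) rfl
      · rintro ⟨x, y⟩
        show x + 0 + (y + 1) = x + y + 1
        ring
      · rintro ⟨x, y⟩
        show x + 0 + (y + 1) + 1 = x + y + 1 + 1
        ring
      · intro v hv
        have := hR v hv
        rw [lev] at this
        show -1 ≤ v.1 + v.2 ∧ -1 ≤ v.1 + v.2 + 1
        omega
      · intro e he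
        have := hR' e he
        rw [lev, lev] at this
        show -1 ≤ e.1.1 + e.1.2 ∧ -1 ≤ (rswEnd e).1 + (rswEnd e).2
        omega
  · have lev : ∀ v : ℤ × ℤ, scrLev 3 v = -v.1 + v.2 := by intro v; simp [scrLev, scrNor]
    constructor
    · refine scr62d_plane scr62dF3 scr62d_box3 h0 h1 hlim hloc ?_ ?_
      · intro v hv
        have := hR v hv
        rw [lev] at this
        show 0 ≤ -v.1 + v.2 ∧ 0 ≤ -v.1 + v.2
        omega
      · intro e he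
        have := hR' e he
        rw [lev, lev] at this
        show 0 ≤ -e.1.1 + e.1.2 ∧ 0 ≤ -(rswEnd e).1 + (rswEnd e).2
        omega
    · have hn : scrNor 3 = (0, 1) + (-1, 0) := by simp [scrNor]
      show 0 ≤ scrPl t fun ω => X (scrAct (scrRe 3) ω) * X (scrAct (scrTr (-(scrNor 3))) ω)
      rw [hn]
      refine scr62d_plane2 scr62dF3 scr62d_box3 h0 h1 hlim hinv (0, 1) (-1, 0) ?_ ?_ ?_ ?_ ?_ hloc ?_ ?_
      · rintro ⟨x, y⟩
        show (y + 1, x + 0) = (y + - -1, x + -0)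
        exact Prod.ext (by simp) (by simp)
      · rintro ⟨x, y⟩
        show (y + 1, x + 0) = (y + - -1, x + -0)
        exact Prod.ext (by simp) (by simp)
      · rintro ⟨⟨x, y⟩, b⟩
        show ((y + 1, x + 0), !b) = ((y + - -1, x + -0), !b)
        refine Prod.ext (Prod.ext (by simp) (by simp)) rfl
      · rintro ⟨x, y⟩
        show -(x + -1) + (y + 0) = -x + y + 1
        ring
      · rintro ⟨x, y⟩
        show -(x + -1) + (y + 0) = -x + y + 1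
        ring
      · intro v hv
        have := hR v hv
        rw [lev] at this
        show -1 ≤ -v.1 + v.2 ∧ -1 ≤ -v.1 + v.2
        omega
      · intro e he
        have := hR' e he
        rw [lev, lev] at this
        show -1 ≤ -e.1.1 + e.1.2 ∧ -1 ≤ -(rswEnd e).1 + (rswEnd e).2
        omega

end Claimed.Agent.R292
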