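import Claimed.Agent.R292.Defs.ScreenPl
import Claimed.Agent.R292.Exit.RSW
import Claimed.Agent.R292.Rsw.Base31
import Claimed.Agent.R292.Rsw.Sym211
import Claimed.Agent.R292.Bridge.Rect89

/-!
# Row 292 (S0540), unit SCREEN, Screen/Sym99 : (P1) COVARIANCE, (P1') INVARIANCE, API OF THE PLANE LAW `scrPl`      (helper99; prefix `scr99`)

No sorry typed here; `scr99_pl_*` and `scr99_inv` consume the contract `exit_rsw_plane` (Exit/RSW, unit RSW).   Built on `Rsw/Base31` (calculus of `rswE`), `Rsw/Sym211` (`RsySym`, `rsy_E`, `rsy_loc`, `rsy_jordan_of`), `Bridge/Rect89` (rectangles are Jordan).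
* sec. 1  `Scr99Real g G` (the triple of maps `g` of Defs/ScreenPl is the symmetry `G` of Sym211), `scr99_real_tr`, `scr99_real_re`, `scr99_image`, `scr99_act`;
          **`scr99_cov` = `scr_cut_cov` verbatim** (0 sorry below it).
* sec. 2  `scr99_box_jordan : 1 ≤ n → RswJordan (rswBox z n)`, `scr99_box_mono`, `scr99_exhaust`.
* sec. 3  `ScrLoc` is stable: `scr99_loc_const/comp/comp2/add/sub/mul/neg/smul/abs/pow/sum/sym/act/sh/th/of_up`, `scr99_rloc_mono`.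
* sec. 4  `scr99_pl_spec`, `scr99_pl_tendsto`, `scr99_pl_tendsto_of` (ANY flat exhaustion, any colours), `scr99_pl_add/sub/neg/smul/const/sum/mono/mono'/congr'/nonneg/abs_le/bound/cauchy/sq_le`.
* sec. 5  `scr99_pl_sym` (all symmetries of Sym211), **`scr99_inv` = `scr_cut_inv` verbatim**, `scr99_pl_sh`, `scr99_pl_th`.
* sec. 6  algebra: `scr99_tr_tr`, `scr99_tr_zero`, `scr99_re_re`, `scr99_tr_re`, `scr99_re_add/neg/c_c/nor/smul_nor`; `scr99_sh_sh`, `scr99_sh_zero`, `scr99_th_th`, `scr99_th_sh`, `scr99_th_sh_nor`.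
* sec. 7  the form `scrFm`: `scr99_fm_symm`, `scr99_fm_add_left/right`, `scr99_fm_smul_left/right`, `scr99_fm_sh`, **`scr99_fm_sh_nor`** (the normal shift is symmetric), `scr99_fm_sq_le`, `scr99_fm_orbit` (bounded orbit).
* sec. 8  `ScrUp j` is stable: `scr99_up_const/comp/comp2/add/sub/mul/neg/smul/sum`, `scr99_rloc_sh` (window of a shift), `scr99_up_sh`, **`scr99_up_sh_nor`**; `scr99_lev_add`, `scr99_lev_nor`, `scr99_end_add`.
-/

set_option autoImplicit false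

namespace Claimed.Agent.R292

open Claims Claims.C0468 Filter Topology

/-! ## 1. the maps of `Defs/ScreenPl` are the symmetries of `Rsw/Sym211` -/

/-- the symmetry `G` of `Rsw/Sym211` realises the triple of maps `g` -/
def Scr99Real (g : ScrMapD) (G : RsySym) : Prop :=
  (∀ v, G.V v = g.c v) ∧ (∀ f, G.Fc f = g.f f) ∧ ∀ e, G.E e = g.e e

/-- the symmetry under the reflection of the frame `j` -/
def scr99Re (j : Fin 4) : RsySym := ![rsyRy, rsyAsw, rsyRx, rsySw] j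

theorem scr99_real_tr (a : ℤ × ℤ) : Scr99Real (scrTr a) (rsyT a) :=
  ⟨fun _ => rfl, fun _ => rfl, fun _ => rfl⟩

theorem scr99_real_re (j : Fin 4) : Scr99Real (scrRe j) (scr99Re j) := by
  fin_cases j
  · refine ⟨fun _ => rfl, fun _ => rfl, fun e => ?_⟩
    obtain ⟨⟨x, y⟩, d⟩ := e
    cases d <;> rfl
  · refine ⟨fun _ => rfl, fun _ => rfl, fun e => ?_⟩
    obtain ⟨⟨x, y⟩, d⟩ := e
    cases d <;> rfl
  · refine ⟨fun _ => rfl, fun _ => rfl, fun e => ?_⟩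
    obtain ⟨⟨x, y⟩, d⟩ := e
    cases d <;> rfl
  · refine ⟨fun _ => rfl, fun _ => rfl, fun e => ?_⟩
    obtain ⟨⟨x, y⟩, d⟩ := e
    cases d <;> rfl

theorem scr99_real {g : ScrMapD} (hg : (∃ a, g = scrTr a) ∨ ∃ j, g = scrRe j) : ∃ G : RsySym, Scr99Real g G := by
  rcases hg with ⟨a, rfl⟩ | ⟨j, rfl⟩
  · exact ⟨_, scr99_real_tr a⟩
  · exact ⟨_, scr99_real_re j⟩

theorem scr99_image {g : ScrMapD} {G : RsySym} (h : Scr99Real g G) (F : Finset (ℤ × ℤ)) : F.image g.f = G.mF F := by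
  unfold RsySym.mF
  rw [Finset.map_eq_image]
  exact Finset.image_congr fun f _ => (h.2.1 f).symm

theorem scr99_act {g : ScrMapD} {G : RsySym} (h : Scr99Real g G) (ω : RswCfg) : scrAct g ω = G.act ω := by
  unfold scrAct RsySym.act RsySym.mV RsySym.mF RsySym.mE
  rw [Finset.map_eq_image, Finset.map_eq_image, Finset.map_eq_image]
  congr 1
  · exact Finset.image_congr fun f _ => (h.1 f).symm
  · exact Finset.image_congr fun f _ => (h.2.1 f).symm
  · exact Finset.image_congr fun f _ => (h.2.2 f).symm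

/-- **(P1) = `scr_cut_cov`, verbatim.** -/
theorem scr99_cov (t : ℝ) (F : Finset (ℤ × ℤ)) (b : Bool) (X : RswCfg → ℝ) (g : ScrMapD)
    (hg : (∃ a, g = scrTr a) ∨ ∃ j, g = scrRe j) :
    rswE t (F.image g.f) b X = rswE t F b fun ω => X (scrAct g ω) := by
  obtain ⟨G, hG⟩ := scr99_real hg
  rw [scr99_image hG, rsy_E]
  congr 1
  funext ω
  rw [scr99_act hG]

/-! ## 2. boxes -/

theorem scr99_box_jordan (z : ℤ × ℤ) {n : ℕ} (hn : 1 ≤ n) : RswJordan (rswBox z n) := by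
  have h1 : z.1 - (n : ℤ) < z.1 + n := by omega
  have h2 : z.2 - (n : ℤ) < z.2 + n := by omega
  have c1 : ((z.1 - (n : ℤ) : ℤ) : ℝ) < ((z.1 + n : ℤ) : ℝ) := by exact_mod_cast h1
  have c2 : ((z.2 - (n : ℤ) : ℤ) : ℝ) < ((z.2 + n : ℤ) : ℝ) := by exact_mod_cast h2
  unfold RswJordan rswBox
  rw [atb89_rect_region one_pos _ _ _ _ h1 h2]
  exact atb89_jordan (atb89_rectG (by linarith) (by linarith)) _

theorem scr99_box_mono (z : ℤ × ℤ) {m n : ℕ} (h : m ≤ n) : rswBox z m ⊆ rswBox z n := by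
  intro f hf
  rw [rsy_mem_box] at hf ⊢
  omega

/-- the centred boxes exhaust the lattice -/
theorem scr99_exhaust (A : Finset (ℤ × ℤ)) : ∃ N : ℕ, ∀ n : ℕ, N ≤ n → A ⊆ rswBox 0 n := by
  refine ⟨A.sup (fun f => f.1.natAbs + f.2.natAbs) + 1, fun n hn f hf => ?_⟩
  have h1 : f.1.natAbs + f.2.natAbs ≤ A.sup (fun f => f.1.natAbs + f.2.natAbs) :=
    Finset.le_sup (f := fun f : ℤ × ℤ => f.1.natAbs + f.2.natAbs) hf
  rw [rsy_mem_box]
  simp only [Prod.fst_zero, Prod.snd_zero]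
  omega


/-! ## 3. local observables -/

theorem scr99_rloc_mono {R S : Finset (ℤ × ℤ)} {R' S' : Finset ((ℤ × ℤ) × Bool)} {X : RswCfg → ℝ} (h : RswLoc R R' X)
    (hR : R ⊆ S) (hR' : R' ⊆ S') : RswLoc S S' X := by
  intro ω ω' h1 h2 h3
  have key : ∀ {α : Type} [DecidableEq α] {A B U V : Finset α}, U ⊆ V → A ∩ V = B ∩ V → A ∩ U = B ∩ U := by
    intro α _ A B U V hUV hAB
    ext x
    have := Finset.ext_iff.1 hAB x
    simp only [Finset.mem_inter] at this ⊢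
    constructor
    · rintro ⟨a, b⟩; exact ⟨(this.1 ⟨a, hUV b⟩).1, b⟩
    · rintro ⟨a, b⟩; exact ⟨(this.2 ⟨a, hUV b⟩).1, b⟩
  exact h ω ω' (key hR h1) (key hR h2) (key hR' h3)

theorem scr99_loc_const (c : ℝ) : ScrLoc (fun _ => c) := ⟨∅, ∅, fun _ _ _ _ _ => rfl⟩

theorem scr99_loc_comp {X : RswCfg → ℝ} (hX : ScrLoc X) (φ : ℝ → ℝ) : ScrLoc (fun ω => φ (X ω)) := by
  obtain ⟨R, R', h⟩ := hX
  exact ⟨R, R', fun ω ω' h1 h2 h3 => by simp only [h ω ω' h1 h2 h3]⟩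

theorem scr99_loc_comp2 {X Y : RswCfg → ℝ} (hX : ScrLoc X) (hY : ScrLoc Y) (φ : ℝ → ℝ → ℝ) :
    ScrLoc (fun ω => φ (X ω) (Y ω)) := by
  obtain ⟨R, R', h⟩ := hX
  obtain ⟨S, S', k⟩ := hY
  have h' := scr99_rloc_mono h (Finset.subset_union_left (s₂ := S)) (Finset.subset_union_left (s₂ := S'))
  have k' := scr99_rloc_mono k (Finset.subset_union_right (s₁ := R)) (Finset.subset_union_right (s₁ := R'))
  exact ⟨R ∪ S, R' ∪ S', fun ω ω' h1 h2 h3 => by simp only [h' ω ω' h1 h2 h3, k' ω ω' h1 h2 h3]⟩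

theorem scr99_loc_add {X Y : RswCfg → ℝ} (hX : ScrLoc X) (hY : ScrLoc Y) : ScrLoc (fun ω => X ω + Y ω) :=
  scr99_loc_comp2 hX hY (· + ·)

theorem scr99_loc_sub {X Y : RswCfg → ℝ} (hX : ScrLoc X) (hY : ScrLoc Y) : ScrLoc (fun ω => X ω - Y ω) :=
  scr99_loc_comp2 hX hY (· - ·)

theorem scr99_loc_mul {X Y : RswCfg → ℝ} (hX : ScrLoc X) (hY : ScrLoc Y) : ScrLoc (fun ω => X ω * Y ω) :=
  scr99_loc_comp2 hX hY (· * ·)

theorem scr99_loc_neg {X : RswCfg → ℝ} (hX : ScrLoc X) : ScrLoc (fun ω => - X ω) := scr99_loc_comp hX (- ·)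

theorem scr99_loc_smul {X : RswCfg → ℝ} (hX : ScrLoc X) (c : ℝ) : ScrLoc (fun ω => c * X ω) := scr99_loc_comp hX (c * ·)

theorem scr99_loc_abs {X : RswCfg → ℝ} (hX : ScrLoc X) : ScrLoc (fun ω => |X ω|) := scr99_loc_comp hX (|·|)

theorem scr99_loc_pow {X : RswCfg → ℝ} (hX : ScrLoc X) (k : ℕ) : ScrLoc (fun ω => X ω ^ k) := scr99_loc_comp hX (· ^ k)

theorem scr99_loc_sum {ι : Type*} (s : Finset ι) {X : ι → RswCfg → ℝ} (hX : ∀ i ∈ s, ScrLoc (X i)) :
    ScrLoc (fun ω => ∑ i ∈ s, X i ω) := by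
  classical
  induction s using Finset.induction_on with
  | empty => simpa using scr99_loc_const 0
  | insert a s ha ih =>
    have h1 := scr99_loc_add (hX a (Finset.mem_insert_self a s)) (ih fun i hi => hX i (Finset.mem_insert_of_mem hi))
    refine (congrArg ScrLoc ?_).mp h1
    funext ω
    rw [Finset.sum_insert ha]

theorem scr99_loc_sym {X : RswCfg → ℝ} (hX : ScrLoc X) (G : RsySym) : ScrLoc (fun ω => X (G.act ω)) := by
  obtain ⟨R, R', h⟩ := hX
  exact ⟨_, _, rsy_loc G.symm h⟩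

theorem scr99_loc_act {X : RswCfg → ℝ} (hX : ScrLoc X) {g : ScrMapD} (hg : (∃ a, g = scrTr a) ∨ ∃ j, g = scrRe j) :
    ScrLoc (fun ω => X (scrAct g ω)) := by
  obtain ⟨G, hG⟩ := scr99_real hg
  simp only [scr99_act hG]
  exact scr99_loc_sym hX G

theorem scr99_loc_sh {X : RswCfg → ℝ} (hX : ScrLoc X) (a : ℤ × ℤ) : ScrLoc (scrSh a X) :=
  scr99_loc_act hX (Or.inl ⟨-a, rfl⟩)

theorem scr99_loc_th {X : RswCfg → ℝ} (hX : ScrLoc X) (j : Fin 4) : ScrLoc (scrTh j X) :=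
  scr99_loc_act hX (Or.inr ⟨j, rfl⟩)

theorem scr99_loc_of_up {j : Fin 4} {X : RswCfg → ℝ} (hX : ScrUp j X) : ScrLoc X := by
  obtain ⟨R, R', h, _⟩ := hX
  exact ⟨R, R', h⟩

/-! ## 4. the plane law on local observables -/

section plane

variable {t : ℝ} (ht1 : 1 / 2 ≤ t) (ht2 : t < 1)
include ht1 ht2

/-- **the plane law is the limit of ALL flat exhaustions** (`exit_rsw_plane` with `ℓ = scrPl t X`). -/
theorem scr99_pl_spec {X : RswCfg → ℝ} (hX : ScrLoc X) :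
    Tendsto (fun n : ℕ => rswE t (rswBox 0 n) true X) atTop (𝓝 (scrPl t X)) ∧
    ∀ ε : ℝ, 0 < ε → ∃ n0 : ℕ, ∀ (F : Finset (ℤ × ℤ)) (b : Bool),
      RswJordan F → rswBox 0 n0 ⊆ F → |rswE t F b X - scrPl t X| < ε := by
  obtain ⟨R, R', hloc⟩ := hX
  obtain ⟨ℓ, hℓ⟩ := exit_rsw_plane t ht1 ht2 R R' X hloc
  have hlim : Tendsto (fun n : ℕ => rswE t (rswBox 0 n) true X) atTop (𝓝 ℓ) := by
    rw [Metric.tendsto_atTop]
    intro ε hε
    obtain ⟨n0, h0⟩ := hℓ ε hε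
    refine ⟨max n0 1, fun n hn => ?_⟩
    rw [Real.dist_eq]
    exact h0 _ true (scr99_box_jordan 0 (le_trans (le_max_right _ _) hn))
      (scr99_box_mono 0 (le_trans (le_max_left _ _) hn))
  have e : scrPl t X = ℓ := hlim.limUnder_eq
  rw [e]
  exact ⟨hlim, hℓ⟩

theorem scr99_pl_tendsto {X : RswCfg → ℝ} (hX : ScrLoc X) :
    Tendsto (fun n : ℕ => rswE t (rswBox 0 n) true X) atTop (𝓝 (scrPl t X)) := (scr99_pl_spec ht1 ht2 hX).1

/-- the limit along any flat exhaustion, any colours -/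
theorem scr99_pl_tendsto_of {X : RswCfg → ℝ} (hX : ScrLoc X) {ι : Type*} {l : Filter ι} (F : ι → Finset (ℤ × ℤ))
    (b : ι → Bool) (hJ : ∀ᶠ i in l, RswJordan (F i)) (hF : ∀ n0 : ℕ, ∀ᶠ i in l, rswBox 0 n0 ⊆ F i) :
    Tendsto (fun i => rswE t (F i) (b i) X) l (𝓝 (scrPl t X)) := by
  rw [Metric.tendsto_nhds]
  intro ε hε
  obtain ⟨n0, h0⟩ := (scr99_pl_spec ht1 ht2 hX).2 ε hε
  filter_upwards [hJ, hF n0] with i h1 h2
  rw [Real.dist_eq]
  exact h0 _ _ h1 h2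

theorem scr99_pl_add {X Y : RswCfg → ℝ} (hX : ScrLoc X) (hY : ScrLoc Y) :
    scrPl t (fun ω => X ω + Y ω) = scrPl t X + scrPl t Y := by
  refine tendsto_nhds_unique (scr99_pl_tendsto ht1 ht2 (scr99_loc_add hX hY)) ?_
  simp only [rsb_E_add]
  exact (scr99_pl_tendsto ht1 ht2 hX).add (scr99_pl_tendsto ht1 ht2 hY)

theorem scr99_pl_sub {X Y : RswCfg → ℝ} (hX : ScrLoc X) (hY : ScrLoc Y) :
    scrPl t (fun ω => X ω - Y ω) = scrPl t X - scrPl t Y := by
  refine tendsto_nhds_unique (scr99_pl_tendsto ht1 ht2 (scr99_loc_sub hX hY)) ?_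
  simp only [rsb_E_sub]
  exact (scr99_pl_tendsto ht1 ht2 hX).sub (scr99_pl_tendsto ht1 ht2 hY)

theorem scr99_pl_neg {X : RswCfg → ℝ} (hX : ScrLoc X) : scrPl t (fun ω => - X ω) = - scrPl t X := by
  refine tendsto_nhds_unique (scr99_pl_tendsto ht1 ht2 (scr99_loc_neg hX)) ?_
  simp only [rsb_E_neg]
  exact (scr99_pl_tendsto ht1 ht2 hX).neg

theorem scr99_pl_smul {X : RswCfg → ℝ} (hX : ScrLoc X) (c : ℝ) : scrPl t (fun ω => c * X ω) = c * scrPl t X := by
  refine tendsto_nhds_unique (scr99_pl_tendsto ht1 ht2 (scr99_loc_smul hX c)) ?_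
  simp only [rsb_E_const_mul]
  exact (scr99_pl_tendsto ht1 ht2 hX).const_mul c

theorem scr99_pl_const (c : ℝ) : scrPl t (fun _ => c) = c := by
  refine tendsto_nhds_unique (scr99_pl_tendsto ht1 ht2 (scr99_loc_const c)) ?_
  simp only [rsb_E_const (by linarith : (0 : ℝ) < t) ht2.le]
  exact tendsto_const_nhds

theorem scr99_pl_sum {ι : Type*} (s : Finset ι) {X : ι → RswCfg → ℝ} (hX : ∀ i ∈ s, ScrLoc (X i)) :
    scrPl t (fun ω => ∑ i ∈ s, X i ω) = ∑ i ∈ s, scrPl t (X i) := by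
  refine tendsto_nhds_unique (scr99_pl_tendsto ht1 ht2 (scr99_loc_sum s hX)) ?_
  simp only [rsb_E_finset_sum]
  exact tendsto_finsetSum s fun i hi => scr99_pl_tendsto ht1 ht2 (hX i hi)

/-- monotonicity; it is enough to compare on the configurations of non zero weight of the large boxes -/
theorem scr99_pl_mono' {X Y : RswCfg → ℝ} (hX : ScrLoc X) (hY : ScrLoc Y)
    (h : ∀ᶠ n : ℕ in atTop, ∀ ω, RsbIn (rswBox 0 n) ω → rswWt t (rswBox 0 n) true ω ≠ 0 → X ω ≤ Y ω) :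
    scrPl t X ≤ scrPl t Y := by
  refine le_of_tendsto_of_tendsto (scr99_pl_tendsto ht1 ht2 hX) (scr99_pl_tendsto ht1 ht2 hY) ?_
  filter_upwards [h] with n hn
  exact rsb_E_mono (by linarith) ht2.le hn

theorem scr99_pl_mono {X Y : RswCfg → ℝ} (hX : ScrLoc X) (hY : ScrLoc Y) (h : ∀ ω, X ω ≤ Y ω) :
    scrPl t X ≤ scrPl t Y :=
  scr99_pl_mono' ht1 ht2 hX hY (Eventually.of_forall fun _ ω _ _ => h ω)

theorem scr99_pl_congr' {X Y : RswCfg → ℝ} (hX : ScrLoc X) (hY : ScrLoc Y)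
    (h : ∀ᶠ n : ℕ in atTop, ∀ ω, RsbIn (rswBox 0 n) ω → rswWt t (rswBox 0 n) true ω ≠ 0 → X ω = Y ω) :
    scrPl t X = scrPl t Y :=
  le_antisymm (scr99_pl_mono' ht1 ht2 hX hY (h.mono fun _ hn ω h1 h2 => (hn ω h1 h2).le))
    (scr99_pl_mono' ht1 ht2 hY hX (h.mono fun _ hn ω h1 h2 => (hn ω h1 h2).ge))

theorem scr99_pl_nonneg {X : RswCfg → ℝ} (hX : ScrLoc X) (h : ∀ ω, 0 ≤ X ω) : 0 ≤ scrPl t X := by
  have := scr99_pl_mono ht1 ht2 (scr99_loc_const 0) hX h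
  rwa [scr99_pl_const ht1 ht2] at this

theorem scr99_pl_abs_le {X : RswCfg → ℝ} (hX : ScrLoc X) : |scrPl t X| ≤ scrPl t (fun ω => |X ω|) := by
  rw [abs_le]
  constructor
  · rw [← scr99_pl_neg ht1 ht2 (scr99_loc_abs hX)]
    exact scr99_pl_mono ht1 ht2 (scr99_loc_neg (scr99_loc_abs hX)) hX fun ω => neg_abs_le _
  · exact scr99_pl_mono ht1 ht2 hX (scr99_loc_abs hX) fun ω => le_abs_self _

theorem scr99_pl_bound {X : RswCfg → ℝ} (hX : ScrLoc X) {M : ℝ} (h : ∀ ω, |X ω| ≤ M) : |scrPl t X| ≤ M := by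
  have := scr99_pl_mono ht1 ht2 (scr99_loc_abs hX) (scr99_loc_const M) h
  rw [scr99_pl_const ht1 ht2] at this
  exact (scr99_pl_abs_le ht1 ht2 hX).trans this

/-- Cauchy-Schwarz in the plane -/
theorem scr99_pl_cauchy {X Y : RswCfg → ℝ} (hX : ScrLoc X) (hY : ScrLoc Y) :
    scrPl t (fun ω => X ω * Y ω) ^ 2 ≤ scrPl t (fun ω => X ω ^ 2) * scrPl t (fun ω => Y ω ^ 2) := by
  refine le_of_tendsto_of_tendsto ((scr99_pl_tendsto ht1 ht2 (scr99_loc_mul hX hY)).pow 2)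
    ((scr99_pl_tendsto ht1 ht2 (scr99_loc_pow hX 2)).mul (scr99_pl_tendsto ht1 ht2 (scr99_loc_pow hY 2))) ?_
  exact Eventually.of_forall fun n => rsb_E_cauchy (by linarith) ht2.le _ _ X Y

theorem scr99_pl_sq_le {X : RswCfg → ℝ} (hX : ScrLoc X) : scrPl t X ^ 2 ≤ scrPl t (fun ω => X ω ^ 2) := by
  have := scr99_pl_cauchy ht1 ht2 hX (scr99_loc_const 1)
  simp only [mul_one, one_pow] at this
  rwa [scr99_pl_const ht1 ht2, mul_one] at this

/-! ## 5. invariance of the plane law -/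

/-- invariance under every symmetry of `Rsw/Sym211` -/
theorem scr99_pl_sym {X : RswCfg → ℝ} (hX : ScrLoc X) (G : RsySym) : scrPl t (fun ω => X (G.act ω)) = scrPl t X := by
  refine tendsto_nhds_unique (scr99_pl_tendsto ht1 ht2 (scr99_loc_sym hX G)) ?_
  simp only [← rsy_E]
  refine scr99_pl_tendsto_of ht1 ht2 hX (fun n => G.mF (rswBox 0 n)) (fun _ => true) ?_ ?_
  · filter_upwards [eventually_ge_atTop 1] with n hn
    exact rsy_jordan_of G (scr99_box_jordan 0 hn)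
  · intro n0
    obtain ⟨N, hN⟩ := scr99_exhaust (G.symm.mF (rswBox 0 n0))
    filter_upwards [eventually_ge_atTop N] with n hn
    have := (rsy_mF_subset G).2 (hN n hn)
    rwa [rsy_mF_symm] at this

end plane

/-- **(P1') = `scr_cut_inv`, verbatim.** -/
theorem scr99_inv (t : ℝ) (ht1 : 1 / 2 ≤ t) (ht2 : t < 1) (X : RswCfg → ℝ) (hX : ScrLoc X) (g : ScrMapD)
    (hg : (∃ a, g = scrTr a) ∨ ∃ j, g = scrRe j) :
    scrPl t (fun ω => X (scrAct g ω)) = scrPl t X := by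
  obtain ⟨G, hG⟩ := scr99_real hg
  simp only [scr99_act hG]
  exact scr99_pl_sym ht1 ht2 hX G

section plane2

variable {t : ℝ} (ht1 : 1 / 2 ≤ t) (ht2 : t < 1)
include ht1 ht2

theorem scr99_pl_sh {X : RswCfg → ℝ} (hX : ScrLoc X) (a : ℤ × ℤ) : scrPl t (scrSh a X) = scrPl t X :=
  scr99_inv t ht1 ht2 X hX _ (Or.inl ⟨-a, rfl⟩)

theorem scr99_pl_th {X : RswCfg → ℝ} (hX : ScrLoc X) (j : Fin 4) : scrPl t (scrTh j X) = scrPl t X :=
  scr99_inv t ht1 ht2 X hX _ (Or.inr ⟨j, rfl⟩)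

end plane2


/-! ## 6. algebra of the shifts and of the reflections -/

theorem scr99_act_comp {g h k : ScrMapD} (hc : ∀ v, g.c (h.c v) = k.c v) (hf : ∀ v, g.f (h.f v) = k.f v)
    (he : ∀ e, g.e (h.e e) = k.e e) (ω : RswCfg) : scrAct g (scrAct h ω) = scrAct k ω := by
  unfold scrAct
  simp only [Finset.image_image]
  congr 1
  · exact Finset.image_congr fun x _ => hc x
  · exact Finset.image_congr fun x _ => hf x
  · exact Finset.image_congr fun x _ => he x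

theorem scr99_act_comm {g h g' h' : ScrMapD} (hc : ∀ v, g.c (h.c v) = g'.c (h'.c v)) (hf : ∀ v, g.f (h.f v) = g'.f (h'.f v))
    (he : ∀ e, g.e (h.e e) = g'.e (h'.e e)) (ω : RswCfg) : scrAct g (scrAct h ω) = scrAct g' (scrAct h' ω) := by
  unfold scrAct
  simp only [Finset.image_image]
  congr 1
  · exact Finset.image_congr fun x _ => hc x
  · exact Finset.image_congr fun x _ => hf x
  · exact Finset.image_congr fun x _ => he x

theorem scr99_act_id {g : ScrMapD} (hc : ∀ v, g.c v = v) (hf : ∀ v, g.f v = v) (he : ∀ e, g.e e = e) (ω : RswCfg) :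
    scrAct g ω = ω := by
  unfold scrAct
  have e1 : ω.S.image g.c = ω.S := by
    rw [Finset.image_congr (g := id) fun x _ => hc x, Finset.image_id]
  have e2 : ω.D.image g.f = ω.D := by
    rw [Finset.image_congr (g := id) fun x _ => hf x, Finset.image_id]
  have e3 : ω.O.image g.e = ω.O := by
    rw [Finset.image_congr (g := id) fun x _ => he x, Finset.image_id]
  rw [e1, e2, e3]

theorem scr99_tr_tr (a b : ℤ × ℤ) (ω : RswCfg) : scrAct (scrTr a) (scrAct (scrTr b) ω) = scrAct (scrTr (a + b)) ω :=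
  scr99_act_comp (fun v => by simp only [scrTr]; abel) (fun v => by simp only [scrTr]; abel)
    (fun e => by simp only [scrTr]; congr 1; abel) ω

theorem scr99_tr_zero (ω : RswCfg) : scrAct (scrTr 0) ω = ω :=
  scr99_act_id (fun v => by simp [scrTr]) (fun v => by simp [scrTr]) (fun e => by simp [scrTr]) ω

theorem scr99_re_re (j : Fin 4) (ω : RswCfg) : scrAct (scrRe j) (scrAct (scrRe j) ω) = ω := by
  rw [scr99_act_comp (k := ⟨id, id, id⟩) ?_ ?_ ?_, scr99_act_id (fun _ => rfl) (fun _ => rfl) (fun _ => rfl)]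
  · rintro ⟨x, y⟩
    fin_cases j <;> simp [scrRe]
  · rintro ⟨x, y⟩
    fin_cases j <;> simp [scrRe]
  · rintro ⟨⟨x, y⟩, d⟩
    fin_cases j <;> cases d <;> simp [scrRe]

/-- the linear part of the reflection is additive -/
theorem scr99_re_add (j : Fin 4) (u v : ℤ × ℤ) : (scrRe j).c (u + v) = (scrRe j).c u + (scrRe j).c v := by
  obtain ⟨x, y⟩ := u
  obtain ⟨x', y'⟩ := v
  fin_cases j <;> simp [scrRe] <;> omega

theorem scr99_re_neg (j : Fin 4) (u : ℤ × ℤ) : (scrRe j).c (-u) = -(scrRe j).c u := by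
  obtain ⟨x, y⟩ := u
  fin_cases j <;> simp [scrRe]

theorem scr99_re_c_c (j : Fin 4) (u : ℤ × ℤ) : (scrRe j).c ((scrRe j).c u) = u := by
  obtain ⟨x, y⟩ := u
  fin_cases j <;> simp [scrRe]

theorem scr99_re_nor (j : Fin 4) : (scrRe j).c (scrNor j) = -scrNor j := by
  fin_cases j <;> simp [scrRe, scrNor]

theorem scr99_re_smul_nor (j : Fin 4) (k : ℤ) : (scrRe j).c (k • scrNor j) = -(k • scrNor j) := by
  fin_cases j <;> simp [scrRe, scrNor]

/-- a translation after a reflection = the reflection after the reflected translation -/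
theorem scr99_tr_re (j : Fin 4) (a : ℤ × ℤ) (ω : RswCfg) :
    scrAct (scrTr a) (scrAct (scrRe j) ω) = scrAct (scrRe j) (scrAct (scrTr ((scrRe j).c a)) ω) := by
  obtain ⟨p, q⟩ := a
  refine scr99_act_comm ?_ ?_ ?_ ω
  · rintro ⟨x, y⟩
    fin_cases j <;> simp [scrRe, scrTr] <;> omega
  · rintro ⟨x, y⟩
    fin_cases j <;> simp [scrRe, scrTr] <;> omega
  · rintro ⟨⟨x, y⟩, d⟩
    fin_cases j <;> cases d <;> simp [scrRe, scrTr] <;> omega

theorem scr99_sh_sh (a b : ℤ × ℤ) (X : RswCfg → ℝ) : scrSh a (scrSh b X) = scrSh (a + b) X := by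
  funext ω
  unfold scrSh
  rw [scr99_tr_tr, neg_add, add_comm]

theorem scr99_sh_zero (X : RswCfg → ℝ) : scrSh 0 X = X := by
  funext ω
  unfold scrSh
  rw [neg_zero, scr99_tr_zero]

theorem scr99_th_th (j : Fin 4) (X : RswCfg → ℝ) : scrTh j (scrTh j X) = X := by
  funext ω
  unfold scrTh
  rw [scr99_re_re]

theorem scr99_th_sh (j : Fin 4) (a : ℤ × ℤ) (X : RswCfg → ℝ) :
    scrTh j (scrSh a X) = scrSh ((scrRe j).c a) (scrTh j X) := by
  funext ω
  unfold scrTh scrSh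
  rw [scr99_tr_re, scr99_re_neg]

theorem scr99_th_sh_nor (j : Fin 4) (k : ℤ) (X : RswCfg → ℝ) :
    scrTh j (scrSh (k • scrNor j) X) = scrSh (-(k • scrNor j)) (scrTh j X) := by
  rw [scr99_th_sh, scr99_re_smul_nor]

/-! ## 7. the reflection form -/

section form

variable {t : ℝ} (ht1 : 1 / 2 ≤ t) (ht2 : t < 1)
include ht1 ht2

theorem scr99_fm_symm (j : Fin 4) {A B : RswCfg → ℝ} (hA : ScrLoc A) (hB : ScrLoc B) : scrFm t j A B = scrFm t j B A := by
  unfold scrFm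
  rw [← scr99_pl_th ht1 ht2 (scr99_loc_mul (scr99_loc_th hA j) hB) j]
  have e : scrTh j (fun ω => scrTh j A ω * B ω) = fun ω => scrTh j B ω * A ω := by
    have := scr99_th_th j A
    funext ω
    have h2 := congrFun this ω
    show scrTh j (scrTh j A) ω * scrTh j B ω = _
    rw [h2, mul_comm]
  rw [e]

theorem scr99_fm_add_right (j : Fin 4) {A B C : RswCfg → ℝ} (hA : ScrLoc A) (hB : ScrLoc B) (hC : ScrLoc C) :
    scrFm t j A (fun ω => B ω + C ω) = scrFm t j A B + scrFm t j A C := by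
  unfold scrFm
  rw [← scr99_pl_add ht1 ht2 (scr99_loc_mul (scr99_loc_th hA j) hB) (scr99_loc_mul (scr99_loc_th hA j) hC)]
  congr 1
  funext ω
  ring

theorem scr99_fm_add_left (j : Fin 4) {A B C : RswCfg → ℝ} (hA : ScrLoc A) (hB : ScrLoc B) (hC : ScrLoc C) :
    scrFm t j (fun ω => A ω + B ω) C = scrFm t j A C + scrFm t j B C := by
  unfold scrFm
  rw [← scr99_pl_add ht1 ht2 (scr99_loc_mul (scr99_loc_th hA j) hC) (scr99_loc_mul (scr99_loc_th hB j) hC)]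
  congr 1
  funext ω
  show (scrTh j A ω + scrTh j B ω) * C ω = _
  ring

theorem scr99_fm_smul_right (j : Fin 4) {A B : RswCfg → ℝ} (hA : ScrLoc A) (hB : ScrLoc B) (c : ℝ) :
    scrFm t j A (fun ω => c * B ω) = c * scrFm t j A B := by
  unfold scrFm
  rw [← scr99_pl_smul ht1 ht2 (scr99_loc_mul (scr99_loc_th hA j) hB)]
  congr 1
  funext ω
  ring

theorem scr99_fm_smul_left (j : Fin 4) {A B : RswCfg → ℝ} (hA : ScrLoc A) (hB : ScrLoc B) (c : ℝ) :
    scrFm t j (fun ω => c * A ω) B = c * scrFm t j A B := by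
  unfold scrFm
  rw [← scr99_pl_smul ht1 ht2 (scr99_loc_mul (scr99_loc_th hA j) hB)]
  congr 1
  funext ω
  show (c * scrTh j A ω) * B ω = _
  ring

/-- moving a shift from the left slot to the right slot -/
theorem scr99_fm_sh (j : Fin 4) {A B : RswCfg → ℝ} (hA : ScrLoc A) (hB : ScrLoc B) (a : ℤ × ℤ) :
    scrFm t j (scrSh a A) B = scrFm t j A (scrSh (-(scrRe j).c a) B) := by
  unfold scrFm
  rw [scr99_th_sh, ← scr99_pl_sh ht1 ht2 (scr99_loc_mul (scr99_loc_sh (scr99_loc_th hA j) _) hB) (-(scrRe j).c a)]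
  congr 1
  funext ω
  show scrSh (-(scrRe j).c a) (scrSh ((scrRe j).c a) (scrTh j A)) ω * scrSh (-(scrRe j).c a) B ω = _
  rw [scr99_sh_sh, neg_add_cancel, scr99_sh_zero]

/-- **the normal shift is symmetric for the reflection form** -/
theorem scr99_fm_sh_nor (j : Fin 4) {A B : RswCfg → ℝ} (hA : ScrLoc A) (hB : ScrLoc B) (k : ℤ) :
    scrFm t j (scrSh (k • scrNor j) A) B = scrFm t j A (scrSh (k • scrNor j) B) := by
  rw [scr99_fm_sh ht1 ht2 j hA hB, scr99_re_smul_nor, neg_neg]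

/-- a priori bound of the form (Cauchy-Schwarz + invariance) -/
theorem scr99_fm_sq_le (j : Fin 4) {A B : RswCfg → ℝ} (hA : ScrLoc A) (hB : ScrLoc B) :
    scrFm t j A B ^ 2 ≤ scrPl t (fun ω => A ω ^ 2) * scrPl t (fun ω => B ω ^ 2) := by
  unfold scrFm
  have h1 := scr99_pl_cauchy ht1 ht2 (scr99_loc_th hA j) hB
  have h2 : scrPl t (fun ω => scrTh j A ω ^ 2) = scrPl t (fun ω => A ω ^ 2) :=
    scr99_pl_th ht1 ht2 (scr99_loc_pow hA 2) j
  rwa [h2] at h1

/-- the orbit of the normal shift is bounded in the form -/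
theorem scr99_fm_orbit (j : Fin 4) {A : RswCfg → ℝ} (hA : ScrLoc A) (a : ℤ × ℤ) :
    |scrFm t j (scrSh a A) (scrSh a A)| ≤ scrPl t (fun ω => A ω ^ 2) := by
  have h1 := scr99_fm_sq_le ht1 ht2 j (scr99_loc_sh hA a) (scr99_loc_sh hA a)
  have h2 : scrPl t (fun ω => scrSh a A ω ^ 2) = scrPl t (fun ω => A ω ^ 2) :=
    scr99_pl_sh ht1 ht2 (scr99_loc_pow hA 2) a
  rw [h2, ← sq] at h1
  have h3 : 0 ≤ scrPl t (fun ω => A ω ^ 2) := scr99_pl_nonneg ht1 ht2 (scr99_loc_pow hA 2) fun ω => sq_nonneg _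
  exact abs_le_of_sq_le_sq h1 h3

end form

/-! ## 8. the observables above the row of level `0` -/

theorem scr99_up_const (j : Fin 4) (c : ℝ) : ScrUp j (fun _ => c) :=
  ⟨∅, ∅, fun _ _ _ _ _ => rfl, fun _ h => absurd h (Finset.notMem_empty _), fun _ h => absurd h (Finset.notMem_empty _)⟩

theorem scr99_up_comp {j : Fin 4} {X : RswCfg → ℝ} (hX : ScrUp j X) (φ : ℝ → ℝ) : ScrUp j (fun ω => φ (X ω)) := by
  obtain ⟨R, R', h, h1, h2⟩ := hX
  exact ⟨R, R', fun ω ω' a b c => by simp only [h ω ω' a b c], h1, h2⟩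

theorem scr99_up_comp2 {j : Fin 4} {X Y : RswCfg → ℝ} (hX : ScrUp j X) (hY : ScrUp j Y) (φ : ℝ → ℝ → ℝ) :
    ScrUp j (fun ω => φ (X ω) (Y ω)) := by
  obtain ⟨R, R', h, h1, h2⟩ := hX
  obtain ⟨S, S', k, k1, k2⟩ := hY
  have h' := scr99_rloc_mono h (Finset.subset_union_left (s₂ := S)) (Finset.subset_union_left (s₂ := S'))
  have k' := scr99_rloc_mono k (Finset.subset_union_right (s₁ := R)) (Finset.subset_union_right (s₁ := R'))
  refine ⟨R ∪ S, R' ∪ S', fun ω ω' a b c => by simp only [h' ω ω' a b c, k' ω ω' a b c], ?_, ?_⟩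
  · intro v hv
    rcases Finset.mem_union.1 hv with hv | hv
    · exact h1 v hv
    · exact k1 v hv
  · intro e he
    rcases Finset.mem_union.1 he with he | he
    · exact h2 e he
    · exact k2 e he

theorem scr99_up_add {j : Fin 4} {X Y : RswCfg → ℝ} (hX : ScrUp j X) (hY : ScrUp j Y) : ScrUp j (fun ω => X ω + Y ω) :=
  scr99_up_comp2 hX hY (· + ·)

theorem scr99_up_sub {j : Fin 4} {X Y : RswCfg → ℝ} (hX : ScrUp j X) (hY : ScrUp j Y) : ScrUp j (fun ω => X ω - Y ω) :=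
  scr99_up_comp2 hX hY (· - ·)

theorem scr99_up_mul {j : Fin 4} {X Y : RswCfg → ℝ} (hX : ScrUp j X) (hY : ScrUp j Y) : ScrUp j (fun ω => X ω * Y ω) :=
  scr99_up_comp2 hX hY (· * ·)

theorem scr99_up_neg {j : Fin 4} {X : RswCfg → ℝ} (hX : ScrUp j X) : ScrUp j (fun ω => - X ω) := scr99_up_comp hX (- ·)

theorem scr99_up_smul {j : Fin 4} {X : RswCfg → ℝ} (hX : ScrUp j X) (c : ℝ) : ScrUp j (fun ω => c * X ω) :=
  scr99_up_comp hX (c * ·)

theorem scr99_up_sum {ι : Type*} {j : Fin 4} (s : Finset ι) {X : ι → RswCfg → ℝ} (hX : ∀ i ∈ s, ScrUp j (X i)) :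
    ScrUp j (fun ω => ∑ i ∈ s, X i ω) := by
  classical
  induction s using Finset.induction_on with
  | empty => simpa using scr99_up_const j 0
  | insert a s ha ih =>
    have h1 := scr99_up_add (hX a (Finset.mem_insert_self a s)) (ih fun i hi => hX i (Finset.mem_insert_of_mem hi))
    refine (congrArg (ScrUp j) ?_).mp h1
    funext ω
    rw [Finset.sum_insert ha]

theorem scr99_lev_add (j : Fin 4) (u v : ℤ × ℤ) : scrLev j (u + v) = scrLev j u + scrLev j v := by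
  unfold scrLev
  simp only [Prod.fst_add, Prod.snd_add]
  ring

theorem scr99_lev_nor (j : Fin 4) (k : ℕ) : 0 ≤ scrLev j ((k : ℤ) • scrNor j) := by
  unfold scrLev
  fin_cases j <;> simp [scrNor]

theorem scr99_end_add (e : (ℤ × ℤ) × Bool) (a : ℤ × ℤ) : rswEnd (e.1 + a, e.2) = rswEnd e + a := by
  obtain ⟨⟨x, y⟩, d⟩ := e
  obtain ⟨p, q⟩ := a
  cases d <;> simp [rswEnd] <;> omega

theorem scr99_real_tr_symm (a : ℤ × ℤ) : Scr99Real (scrTr (-a)) (rsyT a).symm :=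
  ⟨fun _ => rfl, fun _ => rfl, fun _ => rfl⟩

/-- the window of a shifted observable -/
theorem scr99_rloc_sh {R : Finset (ℤ × ℤ)} {R' : Finset ((ℤ × ℤ) × Bool)} {X : RswCfg → ℝ} (h : RswLoc R R' X)
    (a : ℤ × ℤ) : RswLoc (R.image (· + a)) (R'.image fun e => (e.1 + a, e.2)) (scrSh a X) := by
  have h1 := rsy_loc (rsyT a) h
  have e1 : (fun ω => X ((rsyT a).symm.act ω)) = scrSh a X := by
    funext ω
    unfold scrSh
    rw [scr99_act (scr99_real_tr_symm a)]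
  rw [e1] at h1
  refine scr99_rloc_mono h1 ?_ ?_
  · intro v hv
    rcases Finset.mem_union.1 hv with hv | hv
    · obtain ⟨u, hu, rfl⟩ := Finset.mem_map.1 hv
      exact Finset.mem_image.2 ⟨u, hu, rfl⟩
    · obtain ⟨u, hu, rfl⟩ := Finset.mem_map.1 hv
      exact Finset.mem_image.2 ⟨u, hu, rfl⟩
  · intro e he
    obtain ⟨u, hu, rfl⟩ := Finset.mem_map.1 he
    exact Finset.mem_image.2 ⟨u, hu, rfl⟩

/-- a shift which does not lower the level keeps an observable above the row -/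
theorem scr99_up_sh {j : Fin 4} {X : RswCfg → ℝ} (hX : ScrUp j X) {a : ℤ × ℤ} (ha : 0 ≤ scrLev j a) :
    ScrUp j (scrSh a X) := by
  obtain ⟨R, R', h, h1, h2⟩ := hX
  refine ⟨_, _, scr99_rloc_sh h a, ?_, ?_⟩
  · intro v hv
    obtain ⟨u, hu, rfl⟩ := Finset.mem_image.1 hv
    have := h1 u hu
    show 1 ≤ scrLev j (u + a)
    rw [scr99_lev_add]
    omega
  · intro e he
    obtain ⟨u, hu, rfl⟩ := Finset.mem_image.1 he
    have := h2 u hu
    show 1 ≤ scrLev j (u.1 + a) ∧ 1 ≤ scrLev j (rswEnd (u.1 + a, u.2))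
    rw [scr99_end_add, scr99_lev_add, scr99_lev_add]
    omega

theorem scr99_up_sh_nor {j : Fin 4} {X : RswCfg → ℝ} (hX : ScrUp j X) (k : ℕ) :
    ScrUp j (scrSh ((k : ℤ) • scrNor j) X) := scr99_up_sh hX (scr99_lev_nor j k)

end Claimed.Agent.R292
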