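import Claimed.Agent.R292.Screen.Inv289
import Claimed.Agent.R292.Screen.RpDiag62
import Claimed.Agent.R292.Screen.Sym99

/-!
# Row 292 (S0540), Screen/RpAxis39 : REFLECTION POSITIVITY IN THE AXIS FRAMES `j = 0, 2`      (helper39; prefix `scr39_`, `Scr39`)

Leaf (P2) `scr_cut_rp` of `Screen/Cut229` for the two axis frames, both rows.
1. configurations inside a window, splitting of the sums
2. an abstract frame `Scr39Fr` = a lattice reflection with levels of corners / faces / edges; the edges of level `0` are cut by the mirror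
3. finite volume RP for every frame and every symmetric `F`
4. the four frames (row `y = 0`, row `y = 1/2`, column `x = 0`, column `x = 1/2`)
5. the plane
6. **`scr39_cut_rp_all` = `scr_cut_rp` of Screen/Cut229 VERBATIM, all four frames** (diagonal frames: `scr62d_rp` of 62)
-/

set_option autoImplicit false

namespace Claimed.Agent.R292

open Claims Claims.C0468 Filter Topology

/-! ## 1. configurations inside a window -/

theorem scr39_ext {a b : RswCfg} (h1 : a.S = b.S) (h2 : a.D = b.D) (h3 : a.O = b.O) : a = b := by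
  cases a; cases b; simp_all

/-- componentwise union -/
def scr39U (a b : RswCfg) : RswCfg := ⟨a.S ∪ b.S, a.D ∪ b.D, a.O ∪ b.O⟩

/-- componentwise intersection -/
def scr39I (a b : RswCfg) : RswCfg := ⟨a.S ∩ b.S, a.D ∩ b.D, a.O ∩ b.O⟩

/-- the configurations inside the window `W` -/
def scr39Cf (W : RswCfg) : Finset RswCfg :=
  (W.S.powerset ×ˢ W.D.powerset ×ˢ W.O.powerset).map
    ⟨fun p => ⟨p.1, p.2.1, p.2.2⟩, fun p q h => by
      have h1 := congrArg RswCfg.S h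
      have h2 := congrArg RswCfg.D h
      have h3 := congrArg RswCfg.O h
      exact Prod.ext h1 (Prod.ext h2 h3)⟩

theorem scr39_mem_cf {W ω : RswCfg} : ω ∈ scr39Cf W ↔ ω.S ⊆ W.S ∧ ω.D ⊆ W.D ∧ ω.O ⊆ W.O := by
  unfold scr39Cf
  rw [Finset.mem_map]
  constructor
  · rintro ⟨p, hp, rfl⟩
    simp only [Finset.mem_product, Finset.mem_powerset] at hp
    exact hp
  · rintro ⟨h1, h2, h3⟩
    exact ⟨(ω.S, ω.D, ω.O), by simp [Finset.mem_product, Finset.mem_powerset, h1, h2, h3], rfl⟩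

theorem scr39_sum_cf (W : RswCfg) (f : RswCfg → ℝ) :
    ∑ ω ∈ scr39Cf W, f ω = ∑ S ∈ W.S.powerset, ∑ D ∈ W.D.powerset, ∑ O ∈ W.O.powerset, f ⟨S, D, O⟩ := by
  unfold scr39Cf
  rw [Finset.sum_map, Finset.sum_product]
  refine Finset.sum_congr rfl fun S _ => ?_
  rw [Finset.sum_product]
  rfl

theorem scr39_rswSum (t : ℝ) (F : Finset (ℤ × ℤ)) (b : Bool) (Y : RswCfg → ℝ) :
    rswSum t F b Y = ∑ ω ∈ scr39Cf ⟨cornersOf F, F, rswInt F⟩, rswWt t F b ω * Y ω := by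
  rw [scr39_sum_cf]; rfl

/-- splitting of a window in two disjoint windows -/
theorem scr39_split (W1 W2 : RswCfg) (h1 : Disjoint W1.S W2.S) (h2 : Disjoint W1.D W2.D) (h3 : Disjoint W1.O W2.O)
    (f : RswCfg → ℝ) :
    ∑ ω ∈ scr39Cf (scr39U W1 W2), f ω = ∑ a ∈ scr39Cf W1, ∑ b ∈ scr39Cf W2, f (scr39U a b) := by
  rw [← Finset.sum_product']
  have key : ∀ {α : Type} [DecidableEq α] {A B a b : Finset α}, Disjoint A B → a ⊆ A → b ⊆ B →
      (a ∪ b) ∩ A = a ∧ (a ∪ b) ∩ B = b := by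
    intro α _ A B a b hd ha hb
    constructor
    · ext x
      simp only [Finset.mem_inter, Finset.mem_union]
      constructor
      · rintro ⟨h | h, hx⟩
        · exact h
        · exact absurd (hb h) (Finset.disjoint_left.1 hd hx)
      · intro h; exact ⟨Or.inl h, ha h⟩
    · ext x
      simp only [Finset.mem_inter, Finset.mem_union]
      constructor
      · rintro ⟨h | h, hx⟩
        · exact absurd hx (Finset.disjoint_left.1 hd (ha h))
        · exact h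
      · intro h; exact ⟨Or.inr h, hb h⟩
  have key2 : ∀ {α : Type} [DecidableEq α] {A B a : Finset α}, a ⊆ A ∪ B → a ∩ A ∪ a ∩ B = a := by
    intro α _ A B a h
    rw [← Finset.inter_union_distrib_left]
    exact Finset.inter_eq_left.2 h
  refine Finset.sum_nbij' (fun ω => (scr39I ω W1, scr39I ω W2)) (fun p => scr39U p.1 p.2) ?_ ?_ ?_ ?_ ?_
  · intro ω _
    rw [Finset.mem_product, scr39_mem_cf, scr39_mem_cf]
    exact ⟨⟨Finset.inter_subset_right, Finset.inter_subset_right, Finset.inter_subset_right⟩,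
      Finset.inter_subset_right, Finset.inter_subset_right, Finset.inter_subset_right⟩
  · intro p hp
    rw [Finset.mem_product, scr39_mem_cf, scr39_mem_cf] at hp
    rw [scr39_mem_cf]
    exact ⟨Finset.union_subset_union hp.1.1 hp.2.1, Finset.union_subset_union hp.1.2.1 hp.2.2.1,
      Finset.union_subset_union hp.1.2.2 hp.2.2.2⟩
  · intro ω hω
    rw [scr39_mem_cf] at hω
    exact scr39_ext (key2 hω.1) (key2 hω.2.1) (key2 hω.2.2)
  · intro p hp
    rw [Finset.mem_product, scr39_mem_cf, scr39_mem_cf] at hp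
    refine Prod.ext (scr39_ext ?_ ?_ ?_) (scr39_ext ?_ ?_ ?_)
    · exact (key h1 hp.1.1 hp.2.1).1
    · exact (key h2 hp.1.2.1 hp.2.2.1).1
    · exact (key h3 hp.1.2.2 hp.2.2.2).1
    · exact (key h1 hp.1.1 hp.2.1).2
    · exact (key h2 hp.1.2.1 hp.2.2.1).2
    · exact (key h3 hp.1.2.2 hp.2.2.2).2
  · intro ω hω
    rw [scr39_mem_cf] at hω
    exact congrArg f (scr39_ext (key2 hω.1) (key2 hω.2.1) (key2 hω.2.2)).symm

/-- a window of edges only -/
theorem scr39_sum_edges (K : Finset ((ℤ × ℤ) × Bool)) (f : RswCfg → ℝ) :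
    ∑ o ∈ scr39Cf ⟨∅, ∅, K⟩, f o = ∑ T ∈ K.powerset, f ⟨∅, ∅, T⟩ := by
  rw [scr39_sum_cf]
  simp

/-- **abstract reflection positivity** with nonnegative crossing factors -/
theorem scr39_abs_rp {α κ : Type*} [DecidableEq κ] (U : Finset α) (K : Finset κ) (h : α → ℝ) (A B : κ → ℝ) (x : κ → α → ℝ)
    (hA : ∀ k ∈ K, 0 ≤ A k) (hB : ∀ k ∈ K, 0 ≤ B k) :
    0 ≤ ∑ u ∈ U, ∑ u' ∈ U, h u * h u' * ∏ k ∈ K, (A k + B k * (x k u * x k u')) := by
  have e : ∑ u ∈ U, ∑ u' ∈ U, h u * h u' * ∏ k ∈ K, (A k + B k * (x k u * x k u'))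
      = ∑ T ∈ K.powerset, ((∏ k ∈ T, A k) * ∏ k ∈ K \ T, B k) * ((∑ u ∈ U, h u * ∏ k ∈ K \ T, x k u) * (∑ u ∈ U, h u * ∏ k ∈ K \ T, x k u)) := by
    have e1 : ∀ u u' : α, h u * h u' * ∏ k ∈ K, (A k + B k * (x k u * x k u'))
        = ∑ T ∈ K.powerset, ((∏ k ∈ T, A k) * ∏ k ∈ K \ T, B k) * ((h u * ∏ k ∈ K \ T, x k u) * (h u' * ∏ k ∈ K \ T, x k u')) := by
      intro u u'
      rw [Finset.prod_add, Finset.mul_sum]
      refine Finset.sum_congr rfl fun T _ => ?_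
      rw [Finset.prod_mul_distrib, Finset.prod_mul_distrib]
      ring
    simp_rw [e1]
    calc ∑ u ∈ U, ∑ u' ∈ U, ∑ T ∈ K.powerset, ((∏ k ∈ T, A k) * ∏ k ∈ K \ T, B k) * ((h u * ∏ k ∈ K \ T, x k u) * (h u' * ∏ k ∈ K \ T, x k u'))
        = ∑ u ∈ U, ∑ T ∈ K.powerset, ∑ u' ∈ U, ((∏ k ∈ T, A k) * ∏ k ∈ K \ T, B k) * ((h u * ∏ k ∈ K \ T, x k u) * (h u' * ∏ k ∈ K \ T, x k u')) :=
          Finset.sum_congr rfl fun u _ => Finset.sum_comm
      _ = ∑ T ∈ K.powerset, ∑ u ∈ U, ∑ u' ∈ U, ((∏ k ∈ T, A k) * ∏ k ∈ K \ T, B k) * ((h u * ∏ k ∈ K \ T, x k u) * (h u' * ∏ k ∈ K \ T, x k u')) :=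
          Finset.sum_comm
      _ = _ := by
          refine Finset.sum_congr rfl fun T _ => ?_
          rw [Finset.sum_mul_sum, Finset.mul_sum]
          refine Finset.sum_congr rfl fun u _ => ?_
          rw [Finset.mul_sum]
  rw [e]
  refine Finset.sum_nonneg fun T hT => ?_
  rw [Finset.mem_powerset] at hT
  refine mul_nonneg (mul_nonneg (Finset.prod_nonneg fun k hk => hA k (hT hk))
    (Finset.prod_nonneg fun k hk => hB k (Finset.sdiff_subset hk))) (mul_self_nonneg _)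

theorem scr39_sum_prod_ite {κ : Type*} [DecidableEq κ] (K : Finset κ) (f g : κ → ℝ) :
    ∑ T ∈ K.powerset, ∏ k ∈ K, (if k ∈ T then f k else g k) = ∏ k ∈ K, (f k + g k) := by
  rw [Finset.prod_add]
  refine Finset.sum_congr rfl fun T hT => ?_
  rw [Finset.mem_powerset] at hT
  rw [Finset.prod_ite]
  congr 1
  · refine Finset.prod_congr ?_ fun _ _ => rfl
    rw [Finset.filter_mem_eq_inter]
    exact Finset.inter_eq_right.2 hT
  · refine Finset.prod_congr ?_ fun _ _ => rfl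
    ext k
    simp [Finset.mem_sdiff]

/-- the summed factor of a cut pair, the agreement `σ` on the mirror, the pair `p, q` across -/
theorem scr39_num_a (t : ℝ) (σ p q : Prop) [Decidable σ] [Decidable p] [Decidable q] [Decidable (p ↔ q)] :
    (if σ then t else 0) + (if (p ↔ q) then (if σ then 1 - t else t) else 0)
      = (if σ then (1 + t) / 2 else t / 2) + (if σ then (1 - t) / 2 else t / 2) * ((if p then 1 else -1) * (if q then 1 else -1)) := by
  by_cases hs : σ <;> by_cases hp : p <;> by_cases hq : q <;> simp [hs, hp, hq] <;> ring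

theorem scr39_num_b (t : ℝ) (σ p q : Prop) [Decidable σ] [Decidable p] [Decidable q] [Decidable (p ↔ q)] :
    (if (p ↔ q) then t else 0) + (if σ then (if (p ↔ q) then 1 - t else t) else 0)
      = (if σ then (1 + t) / 2 else t / 2) + (if σ then (1 - t) / 2 else t / 2) * ((if p then 1 else -1) * (if q then 1 else -1)) := by
  by_cases hs : σ <;> by_cases hp : p <;> by_cases hq : q <;> simp [hs, hp, hq] <;> ring

/-! ## 2. frames -/

/-- the face `f` has the corner `v` -/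
def Scr39Adj (v f : ℤ × ℤ) : Prop := f = v ∨ f = (v.1 - 1, v.2) ∨ f = (v.1, v.2 - 1) ∨ f = (v.1 - 1, v.2 - 1)

theorem scr39_mem_corners {F : Finset (ℤ × ℤ)} {v : ℤ × ℤ} : v ∈ cornersOf F ↔ ∃ f ∈ F, Scr39Adj v f := by
  unfold cornersOf Scr39Adj
  simp only [Finset.mem_biUnion, Finset.mem_insert, Finset.mem_singleton]
  constructor
  · rintro ⟨f, hf, h⟩
    refine ⟨f, hf, ?_⟩
    rcases h with rfl | rfl | rfl | rfl
    · exact Or.inl rfl
    · exact Or.inr (Or.inl (by simp))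
    · exact Or.inr (Or.inr (Or.inl (by simp)))
    · exact Or.inr (Or.inr (Or.inr (by simp)))
  · rintro ⟨f, hf, h⟩
    refine ⟨f, hf, ?_⟩
    rcases h with rfl | rfl | rfl | rfl
    · exact Or.inl rfl
    · exact Or.inr (Or.inl (by simp))
    · exact Or.inr (Or.inr (Or.inl (by simp)))
    · exact Or.inr (Or.inr (Or.inr (by simp)))

theorem scr39_onPolygon {F : Finset (ℤ × ℤ)} {v : ℤ × ℤ} : OnPolygon F v ↔ ¬ ∀ f, Scr39Adj v f → f ∈ F := by
  unfold OnPolygon Scr39Adj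
  refine not_congr ⟨?_, ?_⟩
  · rintro ⟨h1, h2, h3, h4⟩ f (rfl | rfl | rfl | rfl) <;> assumption
  · intro h
    exact ⟨h _ (Or.inl rfl), h _ (Or.inr (Or.inl rfl)), h _ (Or.inr (Or.inr (Or.inl rfl))), h _ (Or.inr (Or.inr (Or.inr rfl)))⟩

theorem scr39_mem_int {F : Finset (ℤ × ℤ)} {e : (ℤ × ℤ) × Bool} : e ∈ rswInt F ↔ e.1 ∈ F ∧ rswCo e ∈ F := by
  unfold rswInt
  simp [Finset.mem_filter, Finset.mem_product]

/-- a lattice reflection, with the levels of the corners, faces and edges; the edges of level `0` are cut by the mirror -/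
structure Scr39Fr where
  g : ScrMapD
  lc : ℤ × ℤ → ℤ
  lf : ℤ × ℤ → ℤ
  le : (ℤ × ℤ) × Bool → ℤ
  gc : ∀ v, g.c (g.c v) = v
  gf : ∀ f, g.f (g.f f) = f
  ge : ∀ e, g.e (g.e e) = e
  lcg : ∀ v, lc (g.c v) = - lc v
  lfg : ∀ f, lf (g.f f) = - lf f
  leg : ∀ e, le (g.e e) = - le e
  fixc : ∀ v, lc v = 0 → g.c v = v
  fixf : ∀ f, lf f = 0 → g.f f = f
  adj : ∀ v f, Scr39Adj v f → Scr39Adj (g.c v) (g.f f)
  ends : ∀ e, ((g.e e).1 = g.c e.1 ∧ rswEnd (g.e e) = g.c (rswEnd e)) ∨ ((g.e e).1 = g.c (rswEnd e) ∧ rswEnd (g.e e) = g.c e.1)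
  cofs : ∀ e, ((g.e e).1 = g.f e.1 ∧ rswCo (g.e e) = g.f (rswCo e)) ∨ ((g.e e).1 = g.f (rswCo e) ∧ rswCo (g.e e) = g.f e.1)
  up : ∀ e, 0 < le e → 0 ≤ lc e.1 ∧ 0 ≤ lc (rswEnd e) ∧ 0 ≤ lf e.1 ∧ 0 ≤ lf (rswCo e)
  cut : ∀ e, le e = 0 → (lc e.1 = 0 ∧ lc (rswEnd e) = 0 ∧ 0 < lf e.1 ∧ g.f e.1 = rswCo e) ∨
    (lf e.1 = 0 ∧ lf (rswCo e) = 0 ∧ 0 < lc (rswEnd e) ∧ g.c (rswEnd e) = e.1)

namespace Scr39Fr

variable (fr : Scr39Fr)

theorem memS (ω : RswCfg) (v : ℤ × ℤ) : v ∈ (scrAct fr.g ω).S ↔ fr.g.c v ∈ ω.S := by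
  unfold scrAct
  simp only [Finset.mem_image]
  constructor
  · rintro ⟨w, hw, rfl⟩; rwa [fr.gc]
  · intro h; exact ⟨_, h, fr.gc v⟩

theorem memD (ω : RswCfg) (v : ℤ × ℤ) : v ∈ (scrAct fr.g ω).D ↔ fr.g.f v ∈ ω.D := by
  unfold scrAct
  simp only [Finset.mem_image]
  constructor
  · rintro ⟨w, hw, rfl⟩; rwa [fr.gf]
  · intro h; exact ⟨_, h, fr.gf v⟩

theorem memO (ω : RswCfg) (e : (ℤ × ℤ) × Bool) : e ∈ (scrAct fr.g ω).O ↔ fr.g.e e ∈ ω.O := by
  unfold scrAct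
  simp only [Finset.mem_image]
  constructor
  · rintro ⟨w, hw, rfl⟩; rwa [fr.ge]
  · intro h; exact ⟨_, h, fr.ge e⟩

theorem act_act (ω : RswCfg) : scrAct fr.g (scrAct fr.g ω) = ω := by
  refine scr39_ext ?_ ?_ ?_
  · ext v; rw [fr.memS, fr.memS, fr.gc]
  · ext v; rw [fr.memD, fr.memD, fr.gf]
  · ext v; rw [fr.memO, fr.memO, fr.ge]

end Scr39Fr

theorem scr39_fac_congr (t : ℝ) {ω ω' : RswCfg} {e e' : (ℤ × ℤ) × Bool} (h1 : e ∈ ω.O ↔ e' ∈ ω'.O)
    (h2 : (e.1 ∈ ω.S ↔ rswEnd e ∈ ω.S) ↔ (e'.1 ∈ ω'.S ↔ rswEnd e' ∈ ω'.S))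
    (h3 : (e.1 ∈ ω.D ↔ rswCo e ∈ ω.D) ↔ (e'.1 ∈ ω'.D ↔ rswCo e' ∈ ω'.D)) : rswFac t ω e = rswFac t ω' e' := by
  unfold rswFac
  simp only [h1, h2, h3]

theorem scr39_fac_nonneg {t : ℝ} (h0 : 0 ≤ t) (h1 : t ≤ 1) (ω : RswCfg) (e : (ℤ × ℤ) × Bool) : 0 ≤ rswFac t ω e := by
  unfold rswFac
  split_ifs <;> linarith

theorem scr39_wt_nonneg {t : ℝ} (h0 : 0 ≤ t) (h1 : t ≤ 1) (F : Finset (ℤ × ℤ)) (b : Bool) (ω : RswCfg) : 0 ≤ rswWt t F b ω := by
  unfold rswWt
  split_ifs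
  · exact Finset.prod_nonneg fun e _ => scr39_fac_nonneg h0 h1 ω e
  · exact le_rfl

theorem scr39_Z_nonneg {t : ℝ} (h0 : 0 ≤ t) (h1 : t ≤ 1) (F : Finset (ℤ × ℤ)) (b : Bool) : 0 ≤ rswSum t F b fun _ => 1 := by
  rw [scr39_rswSum]
  exact Finset.sum_nonneg fun ω _ => mul_nonneg (scr39_wt_nonneg h0 h1 F b ω) zero_le_one

namespace Scr39Fr

variable (fr : Scr39Fr)

/-- covariance of the factor -/
theorem fac_act (t : ℝ) (ω : RswCfg) (e : (ℤ × ℤ) × Bool) : rswFac t (scrAct fr.g ω) (fr.g.e e) = rswFac t ω e := by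
  refine scr39_fac_congr t ?_ ?_ ?_
  · rw [fr.memO, fr.ge]
  · rw [fr.memS, fr.memS]
    rcases fr.ends e with ⟨h1, h2⟩ | ⟨h1, h2⟩
    · rw [h1, h2, fr.gc, fr.gc]
    · rw [h1, h2, fr.gc, fr.gc]; exact iff_comm
  · rw [fr.memD, fr.memD]
    rcases fr.cofs e with ⟨h1, h2⟩ | ⟨h1, h2⟩
    · rw [h1, h2, fr.gf, fr.gf]
    · rw [h1, h2, fr.gf, fr.gf]; exact iff_comm

variable {F : Finset (ℤ × ℤ)} (hF : ∀ f ∈ F, fr.g.f f ∈ F)
include hF

theorem symC {v : ℤ × ℤ} (hv : v ∈ cornersOf F) : fr.g.c v ∈ cornersOf F := by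
  rw [scr39_mem_corners] at hv ⊢
  obtain ⟨f, hf, h⟩ := hv
  exact ⟨_, hF f hf, fr.adj v f h⟩

theorem symP (v : ℤ × ℤ) : OnPolygon F (fr.g.c v) ↔ OnPolygon F v := by
  rw [scr39_onPolygon, scr39_onPolygon]
  refine not_congr ⟨fun h f hf => ?_, fun h f hf => ?_⟩
  · have := hF _ (h _ (fr.adj v f hf))
    rwa [fr.gf] at this
  · have h1 := fr.adj _ _ hf
    rw [fr.gc] at h1
    have := hF _ (h _ h1)
    rwa [fr.gf] at this

theorem symE {e : (ℤ × ℤ) × Bool} (he : e ∈ rswInt F) : fr.g.e e ∈ rswInt F := by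
  rw [scr39_mem_int] at he ⊢
  rcases fr.cofs e with ⟨h1, h2⟩ | ⟨h1, h2⟩
  · rw [h1, h2]; exact ⟨hF _ he.1, hF _ he.2⟩
  · rw [h1, h2]; exact ⟨hF _ he.2, hF _ he.1⟩

end Scr39Fr

/-! ## 3. finite volume reflection positivity -/

/-- `X` reads only strictly above the mirror -/
def Scr39Up (fr : Scr39Fr) (X : RswCfg → ℝ) : Prop :=
  ∃ (R : Finset (ℤ × ℤ)) (R' : Finset ((ℤ × ℤ) × Bool)), RswLoc R R' X ∧ (∀ v ∈ R, 0 < fr.lc v ∧ 0 < fr.lf v) ∧ ∀ e ∈ R', 0 < fr.le e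

/-- the two configurations agree on the closed upper half -/
def Scr39Ag (fr : Scr39Fr) (ω η : RswCfg) : Prop :=
  (∀ v, 0 ≤ fr.lc v → (v ∈ ω.S ↔ v ∈ η.S)) ∧ (∀ f, 0 ≤ fr.lf f → (f ∈ ω.D ↔ f ∈ η.D)) ∧ ∀ e, 0 < fr.le e → (e ∈ ω.O ↔ e ∈ η.O)

/-- the boundary condition on the closed upper half -/
def Scr39Bc (fr : Scr39Fr) (F : Finset (ℤ × ℤ)) (b : Bool) (η : RswCfg) : Prop :=
  ∀ v ∈ cornersOf F, 0 ≤ fr.lc v → OnPolygon F v → (v ∈ η.S ↔ b = true)

/-- the half weight times the observable -/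
noncomputable def scr39H (fr : Scr39Fr) (t : ℝ) (F : Finset (ℤ × ℤ)) (b : Bool) (X : RswCfg → ℝ) (η : RswCfg) : ℝ :=
  open Classical in
  (if Scr39Bc fr F b η then 1 else 0) * (∏ e ∈ (rswInt F).filter (fun e => 0 < fr.le e), rswFac t η e) * X η

theorem scr39_H_congr (fr : Scr39Fr) (t : ℝ) (F : Finset (ℤ × ℤ)) (b : Bool) {X : RswCfg → ℝ} (hX : Scr39Up fr X)
    {ω η : RswCfg} (h : Scr39Ag fr ω η) : scr39H fr t F b X ω = scr39H fr t F b X η := by
  obtain ⟨h1, h2, h3⟩ := h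
  obtain ⟨R, R', hloc, hR, hR'⟩ := hX
  have eX : X ω = X η := by
    refine hloc ω η ?_ ?_ ?_
    · ext v
      simp only [Finset.mem_inter]
      exact ⟨fun hv => ⟨(h1 v (hR v hv.2).1.le).1 hv.1, hv.2⟩, fun hv => ⟨(h1 v (hR v hv.2).1.le).2 hv.1, hv.2⟩⟩
    · ext v
      simp only [Finset.mem_inter]
      exact ⟨fun hv => ⟨(h2 v (hR v hv.2).2.le).1 hv.1, hv.2⟩, fun hv => ⟨(h2 v (hR v hv.2).2.le).2 hv.1, hv.2⟩⟩
    · ext v
      simp only [Finset.mem_inter]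
      exact ⟨fun hv => ⟨(h3 v (hR' v hv.2)).1 hv.1, hv.2⟩, fun hv => ⟨(h3 v (hR' v hv.2)).2 hv.1, hv.2⟩⟩
  have eB : Scr39Bc fr F b ω ↔ Scr39Bc fr F b η := by
    unfold Scr39Bc
    refine forall_congr' fun v => forall_congr' fun _ => forall_congr' fun hv => forall_congr' fun _ => ?_
    rw [h1 v hv]
  have eP : ∏ e ∈ (rswInt F).filter (fun e => 0 < fr.le e), rswFac t ω e = ∏ e ∈ (rswInt F).filter (fun e => 0 < fr.le e), rswFac t η e := by
    refine Finset.prod_congr rfl fun e he => ?_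
    have he' := (Finset.mem_filter.1 he).2
    obtain ⟨a1, a2, a3, a4⟩ := fr.up e he'
    refine scr39_fac_congr t (h3 e he') ?_ ?_
    · rw [h1 _ a1, h1 _ a2]
    · rw [h2 _ a3, h2 _ a4]
  classical
  unfold scr39H
  rw [eX, eP, if_congr eB rfl rfl]

/-- the global factorisation of the weight -/
theorem scr39_factor (fr : Scr39Fr) (t : ℝ) {F : Finset (ℤ × ℤ)} (hF : ∀ f ∈ F, fr.g.f f ∈ F) (b : Bool) (X : RswCfg → ℝ) (ω : RswCfg) :
    rswWt t F b ω * (X (scrAct fr.g ω) * X ω)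
      = scr39H fr t F b X ω * scr39H fr t F b X (scrAct fr.g ω) * ∏ e ∈ (rswInt F).filter (fun e => fr.le e = 0), rswFac t ω e := by
  classical
  have eB : RswBc F b ω ↔ Scr39Bc fr F b ω ∧ Scr39Bc fr F b (scrAct fr.g ω) := by
    unfold RswBc Scr39Bc
    constructor
    · intro h
      refine ⟨fun v hv _ hp => h v hv hp, fun v hv _ hp => ?_⟩
      rw [fr.memS]
      exact h _ (fr.symC hF hv) ((fr.symP hF v).2 hp)
    · rintro ⟨h1, h2⟩ v hv hp
      by_cases hl : 0 ≤ fr.lc v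
      · exact h1 v hv hl hp
      · have := h2 _ (fr.symC hF hv) (by rw [fr.lcg]; omega) ((fr.symP hF v).2 hp)
        rwa [fr.memS, fr.gc] at this
  have eP : ∏ e ∈ rswInt F, rswFac t ω e
      = (∏ e ∈ (rswInt F).filter (fun e => 0 < fr.le e), rswFac t ω e) * (∏ e ∈ (rswInt F).filter (fun e => fr.le e < 0), rswFac t ω e)
        * ∏ e ∈ (rswInt F).filter (fun e => fr.le e = 0), rswFac t ω e := by
    rw [Finset.prod_filter, Finset.prod_filter, Finset.prod_filter, ← Finset.prod_mul_distrib, ← Finset.prod_mul_distrib]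
    refine Finset.prod_congr rfl fun e _ => ?_
    rcases lt_trichotomy (fr.le e) 0 with h | h | h
    · simp [h, h.ne, h.le.not_gt]
    · simp [h]
    · simp [h, h.ne', h.le.not_gt]
  have eQ : ∏ e ∈ (rswInt F).filter (fun e => fr.le e < 0), rswFac t ω e
      = ∏ e ∈ (rswInt F).filter (fun e => 0 < fr.le e), rswFac t (scrAct fr.g ω) e := by
    refine Finset.prod_nbij' fr.g.e fr.g.e ?_ ?_ ?_ ?_ ?_
    · intro e he
      rw [Finset.mem_filter] at he ⊢
      exact ⟨fr.symE hF he.1, by rw [fr.leg]; omega⟩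
    · intro e he
      rw [Finset.mem_filter] at he ⊢
      exact ⟨fr.symE hF he.1, by rw [fr.leg]; omega⟩
    · intro e _; exact fr.ge e
    · intro e _; exact fr.ge e
    · intro e _; exact (fr.fac_act t ω e).symm
  unfold rswWt scr39H
  by_cases h1 : Scr39Bc fr F b ω
  · by_cases h2 : Scr39Bc fr F b (scrAct fr.g ω)
    · rw [if_pos (eB.2 ⟨h1, h2⟩), if_pos h1, if_pos h2, eP, eQ]
      ring
    · rw [if_neg (fun h => h2 (eB.1 h).2), if_neg h2]
      ring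
  · rw [if_neg (fun h => h1 (eB.1 h).1), if_neg h1]
    ring

/-- membership in a set glued from a mirror part, an upper part and a reflected upper part -/
theorem scr39_mem3 {α : Type} [DecidableEq α] (l : α → ℤ) (γ : α → α) (hγ : ∀ a, γ (γ a) = a) (hl : ∀ a, l (γ a) = - l a)
    {A0 A1 A2 : Finset α} (h0 : ∀ a ∈ A0, l a = 0) (h1 : ∀ a ∈ A1, 0 < l a) (h2 : ∀ a ∈ A2, 0 < l a) (a : α) :
    (l a = 0 → (a ∈ A0 ∪ (A1 ∪ A2.image γ) ↔ a ∈ A0)) ∧ (0 < l a → (a ∈ A0 ∪ (A1 ∪ A2.image γ) ↔ a ∈ A1)) ∧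
      (l a < 0 → (a ∈ A0 ∪ (A1 ∪ A2.image γ) ↔ γ a ∈ A2)) := by
  have hi : a ∈ A2.image γ ↔ γ a ∈ A2 := by
    rw [Finset.mem_image]
    constructor
    · rintro ⟨w, hw, rfl⟩; rwa [hγ]
    · intro h; exact ⟨_, h, hγ a⟩
  simp only [Finset.mem_union, hi]
  refine ⟨fun h => ⟨?_, Or.inl⟩, fun h => ⟨?_, fun x => Or.inr (Or.inl x)⟩, fun h => ⟨?_, fun x => Or.inr (Or.inr x)⟩⟩
  · rintro (x | x | x)
    · exact x
    · have := h1 a x; omega
    · have := h2 _ x; rw [hl] at this; omega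
  · rintro (x | x | x)
    · have := h0 a x; omega
    · exact x
    · have := h2 _ x; rw [hl] at this; omega
  · rintro (x | x | x)
    · have := h0 a x; omega
    · have := h1 a x; omega
    · exact x

/-- the four windows -/
def scr39Wr (fr : Scr39Fr) (F : Finset (ℤ × ℤ)) : RswCfg :=
  ⟨(cornersOf F).filter (fun v => fr.lc v = 0), F.filter (fun f => fr.lf f = 0), ∅⟩
def scr39Wu (fr : Scr39Fr) (F : Finset (ℤ × ℤ)) : RswCfg :=
  ⟨(cornersOf F).filter (fun v => 0 < fr.lc v), F.filter (fun f => 0 < fr.lf f), (rswInt F).filter (fun e => 0 < fr.le e)⟩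
def scr39Wl (fr : Scr39Fr) (F : Finset (ℤ × ℤ)) : RswCfg :=
  ⟨(cornersOf F).filter (fun v => fr.lc v < 0), F.filter (fun f => fr.lf f < 0), (rswInt F).filter (fun e => fr.le e < 0)⟩
def scr39Wo (fr : Scr39Fr) (F : Finset (ℤ × ℤ)) : RswCfg := ⟨∅, ∅, (rswInt F).filter (fun e => fr.le e = 0)⟩

theorem scr39_tri {α : Type} [DecidableEq α] (A : Finset α) (l : α → ℤ) :
    A.filter (fun a => l a = 0) ∪ (A.filter (fun a => 0 < l a) ∪ (A.filter (fun a => l a < 0) ∪ ∅)) = A ∧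
    ∅ ∪ (A.filter (fun a => 0 < l a) ∪ (A.filter (fun a => l a < 0) ∪ A.filter (fun a => l a = 0))) = A := by
  constructor
  · ext a
    simp only [Finset.mem_union, Finset.mem_filter, Finset.notMem_empty, or_false]
    constructor
    · rintro (h | h | h) <;> exact h.1
    · intro h
      rcases lt_trichotomy (l a) 0 with x | x | x
      · exact Or.inr (Or.inr ⟨h, x⟩)
      · exact Or.inl ⟨h, x⟩
      · exact Or.inr (Or.inl ⟨h, x⟩)
  · ext a
    simp only [Finset.mem_union, Finset.mem_filter, Finset.notMem_empty, false_or]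
    constructor
    · rintro (h | h | h) <;> exact h.1
    · intro h
      rcases lt_trichotomy (l a) 0 with x | x | x
      · exact Or.inr (Or.inl ⟨h, x⟩)
      · exact Or.inr (Or.inr ⟨h, x⟩)
      · exact Or.inl ⟨h, x⟩

theorem scr39_window (fr : Scr39Fr) (F : Finset (ℤ × ℤ)) :
    (⟨cornersOf F, F, rswInt F⟩ : RswCfg) = scr39U (scr39Wr fr F) (scr39U (scr39Wu fr F) (scr39U (scr39Wl fr F) (scr39Wo fr F))) :=
  scr39_ext (scr39_tri _ _).1.symm (scr39_tri _ _).1.symm (scr39_tri _ _).2.symm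

theorem scr39_dj {α : Type} [DecidableEq α] (A : Finset α) (l : α → ℤ) :
    Disjoint (A.filter (fun a => l a = 0)) (A.filter (fun a => 0 < l a) ∪ (A.filter (fun a => l a < 0) ∪ ∅)) ∧
    Disjoint (A.filter (fun a => 0 < l a)) (A.filter (fun a => l a < 0) ∪ ∅) ∧
    Disjoint (A.filter (fun a => 0 < l a)) (A.filter (fun a => l a < 0) ∪ A.filter (fun a => l a = 0)) ∧
    Disjoint (A.filter (fun a => l a < 0)) (A.filter (fun a => l a = 0)) := by
  refine ⟨?_, ?_, ?_, ?_⟩ <;> rw [Finset.disjoint_left] <;> intro a <;>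
    simp only [Finset.mem_union, Finset.mem_filter, Finset.notMem_empty, or_false] <;> intro h <;> omega

/-- the sum over all configurations, in four sums -/
theorem scr39_split4 (fr : Scr39Fr) (F : Finset (ℤ × ℤ)) (f : RswCfg → ℝ) :
    ∑ ω ∈ scr39Cf ⟨cornersOf F, F, rswInt F⟩, f ω
      = ∑ r ∈ scr39Cf (scr39Wr fr F), ∑ u ∈ scr39Cf (scr39Wu fr F), ∑ l ∈ scr39Cf (scr39Wl fr F),
          ∑ T ∈ ((rswInt F).filter (fun e => fr.le e = 0)).powerset, f (scr39U r (scr39U u (scr39U l ⟨∅, ∅, T⟩))) := by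
  rw [scr39_window fr F, scr39_split _ _ (scr39_dj _ _).1 (scr39_dj _ _).1 (Finset.disjoint_empty_left _)]
  refine Finset.sum_congr rfl fun r _ => ?_
  rw [scr39_split _ _ (scr39_dj _ _).2.1 (scr39_dj _ _).2.1 (scr39_dj _ _).2.2.1]
  refine Finset.sum_congr rfl fun u _ => ?_
  rw [scr39_split _ _ (Finset.disjoint_empty_right _) (Finset.disjoint_empty_right _) (scr39_dj _ _).2.2.2]
  refine Finset.sum_congr rfl fun l _ => ?_
  exact scr39_sum_edges _ _

/-- the lower configurations are the reflected upper ones -/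
theorem scr39_reindex (fr : Scr39Fr) {F : Finset (ℤ × ℤ)} (hF : ∀ f ∈ F, fr.g.f f ∈ F) (f : RswCfg → ℝ) :
    ∑ l ∈ scr39Cf (scr39Wl fr F), f l = ∑ u ∈ scr39Cf (scr39Wu fr F), f (scrAct fr.g u) := by
  refine Finset.sum_nbij' (scrAct fr.g) (scrAct fr.g) ?_ ?_ ?_ ?_ ?_
  · intro l hl
    rw [scr39_mem_cf] at hl ⊢
    refine ⟨fun v hv => ?_, fun v hv => ?_, fun v hv => ?_⟩
    · rw [fr.memS] at hv
      have := Finset.mem_filter.1 (hl.1 hv)
      refine Finset.mem_filter.2 ⟨?_, ?_⟩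
      · have h := fr.symC hF this.1; rwa [fr.gc] at h
      · have h := this.2; rw [fr.lcg] at h; omega
    · rw [fr.memD] at hv
      have := Finset.mem_filter.1 (hl.2.1 hv)
      refine Finset.mem_filter.2 ⟨?_, ?_⟩
      · have h := hF _ this.1; rwa [fr.gf] at h
      · have h := this.2; rw [fr.lfg] at h; omega
    · rw [fr.memO] at hv
      have := Finset.mem_filter.1 (hl.2.2 hv)
      refine Finset.mem_filter.2 ⟨?_, ?_⟩
      · have h := fr.symE hF this.1; rwa [fr.ge] at h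
      · have h := this.2; rw [fr.leg] at h; omega
  · intro l hl
    rw [scr39_mem_cf] at hl ⊢
    refine ⟨fun v hv => ?_, fun v hv => ?_, fun v hv => ?_⟩
    · rw [fr.memS] at hv
      have := Finset.mem_filter.1 (hl.1 hv)
      refine Finset.mem_filter.2 ⟨?_, ?_⟩
      · have h := fr.symC hF this.1; rwa [fr.gc] at h
      · have h := this.2; rw [fr.lcg] at h; omega
    · rw [fr.memD] at hv
      have := Finset.mem_filter.1 (hl.2.1 hv)
      refine Finset.mem_filter.2 ⟨?_, ?_⟩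
      · have h := hF _ this.1; rwa [fr.gf] at h
      · have h := this.2; rw [fr.lfg] at h; omega
    · rw [fr.memO] at hv
      have := Finset.mem_filter.1 (hl.2.2 hv)
      refine Finset.mem_filter.2 ⟨?_, ?_⟩
      · have h := fr.symE hF this.1; rwa [fr.ge] at h
      · have h := this.2; rw [fr.leg] at h; omega
  · intro l _; exact fr.act_act l
  · intro l _; exact fr.act_act l
  · intro l _; rw [fr.act_act]

/-- level facts of a triple (mirror part, upper part, upper part) and a set of cut edges -/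
structure Scr39Lv (fr : Scr39Fr) (r u u' : RswCfg) (T : Finset ((ℤ × ℤ) × Bool)) : Prop where
  rS : ∀ v ∈ r.S, fr.lc v = 0
  rD : ∀ v ∈ r.D, fr.lf v = 0
  rO : r.O = ∅
  uS : ∀ v ∈ u.S, 0 < fr.lc v
  uD : ∀ v ∈ u.D, 0 < fr.lf v
  uO : ∀ v ∈ u.O, 0 < fr.le v
  uS' : ∀ v ∈ u'.S, 0 < fr.lc v
  uD' : ∀ v ∈ u'.D, 0 < fr.lf v
  uO' : ∀ v ∈ u'.O, 0 < fr.le v
  tO : ∀ v ∈ T, fr.le v = 0

theorem scr39_lv (fr : Scr39Fr) {F : Finset (ℤ × ℤ)} {r u u' : RswCfg} {T : Finset ((ℤ × ℤ) × Bool)}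
    (hr : r ∈ scr39Cf (scr39Wr fr F)) (hu : u ∈ scr39Cf (scr39Wu fr F)) (hu' : u' ∈ scr39Cf (scr39Wu fr F))
    (hT : T ∈ ((rswInt F).filter (fun e => fr.le e = 0)).powerset) : Scr39Lv fr r u u' T := by
  rw [scr39_mem_cf] at hr hu hu'
  rw [Finset.mem_powerset] at hT
  exact ⟨fun v hv => (Finset.mem_filter.1 (hr.1 hv)).2, fun v hv => (Finset.mem_filter.1 (hr.2.1 hv)).2,
    Finset.subset_empty.1 hr.2.2,
    fun v hv => (Finset.mem_filter.1 (hu.1 hv)).2, fun v hv => (Finset.mem_filter.1 (hu.2.1 hv)).2,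
    fun v hv => (Finset.mem_filter.1 (hu.2.2 hv)).2,
    fun v hv => (Finset.mem_filter.1 (hu'.1 hv)).2, fun v hv => (Finset.mem_filter.1 (hu'.2.1 hv)).2,
    fun v hv => (Finset.mem_filter.1 (hu'.2.2 hv)).2, fun v hv => (Finset.mem_filter.1 (hT hv)).2⟩

/-- the glued configuration -/
def scr39G (fr : Scr39Fr) (r u u' : RswCfg) (T : Finset ((ℤ × ℤ) × Bool)) : RswCfg :=
  ⟨r.S ∪ (u.S ∪ u'.S.image fr.g.c), r.D ∪ (u.D ∪ u'.D.image fr.g.f), T ∪ (u.O ∪ u'.O.image fr.g.e)⟩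

theorem scr39_glue (fr : Scr39Fr) {r u u' : RswCfg} {T : Finset ((ℤ × ℤ) × Bool)} (h : Scr39Lv fr r u u' T) :
    scr39U r (scr39U u (scr39U (scrAct fr.g u') ⟨∅, ∅, T⟩)) = scr39G fr r u u' T := by
  refine scr39_ext ?_ ?_ ?_
  · simp [scr39U, scr39G, scrAct]
  · simp [scr39U, scr39G, scrAct]
  · ext e
    simp only [scr39U, scr39G, scrAct, h.rO, Finset.mem_union, Finset.notMem_empty, false_or]
    tauto

namespace Scr39Lv

variable {fr : Scr39Fr} {r u u' : RswCfg} {T : Finset ((ℤ × ℤ) × Bool)} (h : Scr39Lv fr r u u' T)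
include h

theorem mS (v : ℤ × ℤ) : (fr.lc v = 0 → (v ∈ (scr39G fr r u u' T).S ↔ v ∈ r.S)) ∧
    (0 < fr.lc v → (v ∈ (scr39G fr r u u' T).S ↔ v ∈ u.S)) ∧ (fr.lc v < 0 → (v ∈ (scr39G fr r u u' T).S ↔ fr.g.c v ∈ u'.S)) :=
  scr39_mem3 fr.lc fr.g.c fr.gc fr.lcg h.rS h.uS h.uS' v
theorem mD (v : ℤ × ℤ) : (fr.lf v = 0 → (v ∈ (scr39G fr r u u' T).D ↔ v ∈ r.D)) ∧
    (0 < fr.lf v → (v ∈ (scr39G fr r u u' T).D ↔ v ∈ u.D)) ∧ (fr.lf v < 0 → (v ∈ (scr39G fr r u u' T).D ↔ fr.g.f v ∈ u'.D)) :=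
  scr39_mem3 fr.lf fr.g.f fr.gf fr.lfg h.rD h.uD h.uD' v
theorem mO (v : (ℤ × ℤ) × Bool) : (fr.le v = 0 → (v ∈ (scr39G fr r u u' T).O ↔ v ∈ T)) ∧
    (0 < fr.le v → (v ∈ (scr39G fr r u u' T).O ↔ v ∈ u.O)) ∧ (fr.le v < 0 → (v ∈ (scr39G fr r u u' T).O ↔ fr.g.e v ∈ u'.O)) :=
  scr39_mem3 fr.le fr.g.e fr.ge fr.leg h.tO h.uO h.uO' v

theorem ag1 : Scr39Ag fr (scr39G fr r u u' T) (scr39U r u) := by
  refine ⟨fun v hv => ?_, fun v hv => ?_, fun v hv => ?_⟩
  · show v ∈ (scr39G fr r u u' T).S ↔ v ∈ r.S ∪ u.S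
    rw [Finset.mem_union (s := r.S) (t := u.S)]
    rcases hv.eq_or_lt with e | e
    · rw [(h.mS v).1 e.symm]
      exact ⟨Or.inl, fun x => x.elim id fun y => by have := h.uS v y; omega⟩
    · rw [(h.mS v).2.1 e]
      exact ⟨Or.inr, fun x => x.elim (fun y => by have := h.rS v y; omega) id⟩
  · show v ∈ (scr39G fr r u u' T).D ↔ v ∈ r.D ∪ u.D
    rw [Finset.mem_union (s := r.D) (t := u.D)]
    rcases hv.eq_or_lt with e | e
    · rw [(h.mD v).1 e.symm]
      exact ⟨Or.inl, fun x => x.elim id fun y => by have := h.uD v y; omega⟩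
    · rw [(h.mD v).2.1 e]
      exact ⟨Or.inr, fun x => x.elim (fun y => by have := h.rD v y; omega) id⟩
  · show v ∈ (scr39G fr r u u' T).O ↔ v ∈ r.O ∪ u.O
    rw [(h.mO v).2.1 hv, h.rO, Finset.empty_union]

theorem ag2 : Scr39Ag fr (scrAct fr.g (scr39G fr r u u' T)) (scr39U r u') := by
  refine ⟨fun v hv => ?_, fun v hv => ?_, fun v hv => ?_⟩
  · rw [fr.memS]
    show fr.g.c v ∈ (scr39G fr r u u' T).S ↔ v ∈ r.S ∪ u'.S
    rw [Finset.mem_union (s := r.S) (t := u'.S)]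
    rcases hv.eq_or_lt with e | e
    · rw [fr.fixc v e.symm, (h.mS v).1 e.symm]
      exact ⟨Or.inl, fun x => x.elim id fun y => by have := h.uS' v y; omega⟩
    · rw [(h.mS _).2.2 (by rw [fr.lcg]; omega), fr.gc]
      exact ⟨Or.inr, fun x => x.elim (fun y => by have := h.rS v y; omega) id⟩
  · rw [fr.memD]
    show fr.g.f v ∈ (scr39G fr r u u' T).D ↔ v ∈ r.D ∪ u'.D
    rw [Finset.mem_union (s := r.D) (t := u'.D)]
    rcases hv.eq_or_lt with e | e
    · rw [fr.fixf v e.symm, (h.mD v).1 e.symm]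
      exact ⟨Or.inl, fun x => x.elim id fun y => by have := h.uD' v y; omega⟩
    · rw [(h.mD _).2.2 (by rw [fr.lfg]; omega), fr.gf]
      exact ⟨Or.inr, fun x => x.elim (fun y => by have := h.rD v y; omega) id⟩
  · rw [fr.memO]
    show fr.g.e v ∈ (scr39G fr r u u' T).O ↔ v ∈ r.O ∪ u'.O
    rw [(h.mO _).2.2 (by rw [fr.leg]; omega), fr.ge, h.rO, Finset.empty_union]

end Scr39Lv

/-- the spin read by a cut edge above the mirror -/
noncomputable def scr39X (fr : Scr39Fr) (e : (ℤ × ℤ) × Bool) (η : RswCfg) : ℝ :=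
  if fr.lc e.1 = 0 then (if e.1 ∈ η.D then 1 else -1) else (if rswEnd e ∈ η.S then 1 else -1)

/-- the agreement of the pair of a cut edge which lies on the mirror -/
def Scr39Row (fr : Scr39Fr) (e : (ℤ × ℤ) × Bool) (r : RswCfg) : Prop :=
  if fr.lc e.1 = 0 then (e.1 ∈ r.S ↔ rswEnd e ∈ r.S) else (e.1 ∈ r.D ↔ rswCo e ∈ r.D)

open Classical in
noncomputable def scr39A (fr : Scr39Fr) (t : ℝ) (r : RswCfg) (e : (ℤ × ℤ) × Bool) : ℝ := if Scr39Row fr e r then (1 + t) / 2 else t / 2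

open Classical in
noncomputable def scr39B (fr : Scr39Fr) (t : ℝ) (r : RswCfg) (e : (ℤ × ℤ) × Bool) : ℝ := if Scr39Row fr e r then (1 - t) / 2 else t / 2

/-- the factor of a cut edge, summed over its state -/
theorem scr39_cut_fac (fr : Scr39Fr) (t : ℝ) {r u u' : RswCfg} {K : Finset ((ℤ × ℤ) × Bool)} (hK : ∀ e ∈ K, fr.le e = 0)
    (h : Scr39Lv fr r u u' ∅) :
    ∑ T ∈ K.powerset, ∏ e ∈ K, rswFac t (scr39G fr r u u' T) e
      = ∏ e ∈ K, (scr39A fr t r e + scr39B fr t r e * (scr39X fr e u * scr39X fr e u')) := by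
  classical
  set ω0 := scr39G fr r u u' ∅ with hω0
  have e1 : ∀ T ∈ K.powerset, ∏ e ∈ K, rswFac t (scr39G fr r u u' T) e
      = ∏ e ∈ K, (if e ∈ T then (if (e.1 ∈ ω0.S ↔ rswEnd e ∈ ω0.S) then t else 0)
          else (if (e.1 ∈ ω0.D ↔ rswCo e ∈ ω0.D) then (if (e.1 ∈ ω0.S ↔ rswEnd e ∈ ω0.S) then 1 - t else t) else 0)) := by
    intro T hT
    rw [Finset.mem_powerset] at hT
    have hl : Scr39Lv fr r u u' T := { h with tO := fun v hv => hK v (hT hv) }
    refine Finset.prod_congr rfl fun e he => ?_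
    have hO : e ∈ (scr39G fr r u u' T).O ↔ e ∈ T := (hl.mO e).1 (hK e he)
    unfold rswFac
    simp only [hO]
    rfl
  rw [Finset.sum_congr rfl e1, scr39_sum_prod_ite]
  refine Finset.prod_congr rfl fun e he => ?_
  unfold scr39A scr39B scr39X Scr39Row
  rcases fr.cut e (hK e he) with ⟨a1, a2, a3, a4⟩ | ⟨a1, a2, a3, a4⟩
  · have s1 : e.1 ∈ ω0.S ↔ e.1 ∈ r.S := (h.mS _).1 a1
    have s2 : rswEnd e ∈ ω0.S ↔ rswEnd e ∈ r.S := (h.mS _).1 a2
    have d1 : e.1 ∈ ω0.D ↔ e.1 ∈ u.D := (h.mD _).2.1 a3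
    have d2 : rswCo e ∈ ω0.D ↔ e.1 ∈ u'.D := by
      have := (h.mD (rswCo e)).2.2 (by rw [← a4, fr.lfg]; omega)
      rw [← a4, fr.gf] at this
      rw [← a4]; exact this
    simp only [s1, s2, d1, d2, a1, if_true]
    exact scr39_num_a t _ _ _
  · have a5 : fr.lc e.1 < 0 := by rw [← a4, fr.lcg]; omega
    have d1 : e.1 ∈ ω0.D ↔ e.1 ∈ r.D := (h.mD _).1 a1
    have d2 : rswCo e ∈ ω0.D ↔ rswCo e ∈ r.D := (h.mD _).1 a2
    have s2 : rswEnd e ∈ ω0.S ↔ rswEnd e ∈ u.S := (h.mS _).2.1 a3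
    have s1 : e.1 ∈ ω0.S ↔ rswEnd e ∈ u'.S := by
      have := (h.mS e.1).2.2 a5
      rw [← a4, fr.gc] at this
      rw [← a4]; exact this
    have s3 : (e.1 ∈ ω0.S ↔ rswEnd e ∈ ω0.S) ↔ (rswEnd e ∈ u.S ↔ rswEnd e ∈ u'.S) := by rw [s1, s2]; exact iff_comm
    simp only [s3, d1, d2, a5.ne, if_false]
    exact scr39_num_b t _ _ _

/-- **finite volume reflection positivity** (unnormalised), every frame, every symmetric `F` -/
theorem scr39_rp_sum (fr : Scr39Fr) {t : ℝ} (h0 : 0 ≤ t) (h1 : t ≤ 1) {F : Finset (ℤ × ℤ)} (hF : ∀ f ∈ F, fr.g.f f ∈ F) (b : Bool)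
    {X : RswCfg → ℝ} (hX : Scr39Up fr X) : 0 ≤ rswSum t F b (fun ω => X (scrAct fr.g ω) * X ω) := by
  classical
  rw [scr39_rswSum, Finset.sum_congr rfl (fun ω _ => scr39_factor fr t hF b X ω), scr39_split4 fr F]
  refine Finset.sum_nonneg fun r hr => ?_
  have hK : ∀ e ∈ (rswInt F).filter (fun e => fr.le e = 0), fr.le e = 0 := fun e he => (Finset.mem_filter.1 he).2
  have e1 : ∑ u ∈ scr39Cf (scr39Wu fr F), ∑ l ∈ scr39Cf (scr39Wl fr F), ∑ T ∈ ((rswInt F).filter (fun e => fr.le e = 0)).powerset,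
        scr39H fr t F b X (scr39U r (scr39U u (scr39U l ⟨∅, ∅, T⟩))) *
          scr39H fr t F b X (scrAct fr.g (scr39U r (scr39U u (scr39U l ⟨∅, ∅, T⟩)))) *
          ∏ e ∈ (rswInt F).filter (fun e => fr.le e = 0), rswFac t (scr39U r (scr39U u (scr39U l ⟨∅, ∅, T⟩))) e
      = ∑ u ∈ scr39Cf (scr39Wu fr F), ∑ u' ∈ scr39Cf (scr39Wu fr F),
          scr39H fr t F b X (scr39U r u) * scr39H fr t F b X (scr39U r u') *
            ∏ e ∈ (rswInt F).filter (fun e => fr.le e = 0), (scr39A fr t r e + scr39B fr t r e * (scr39X fr e u * scr39X fr e u')) := by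
    refine Finset.sum_congr rfl fun u hu => ?_
    rw [scr39_reindex fr hF]
    refine Finset.sum_congr rfl fun u' hu' => ?_
    have hl0 : Scr39Lv fr r u u' ∅ := scr39_lv fr hr hu hu' (Finset.empty_mem_powerset _)
    rw [← scr39_cut_fac fr t hK hl0, Finset.mul_sum]
    refine Finset.sum_congr rfl fun T hT => ?_
    have hl := scr39_lv fr hr hu hu' hT
    rw [scr39_glue fr hl, scr39_H_congr fr t F b hX hl.ag1, scr39_H_congr fr t F b hX hl.ag2]
  rw [e1]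
  refine scr39_abs_rp _ _ (fun u => scr39H fr t F b X (scr39U r u)) _ _ (fun e u => scr39X fr e u) ?_ ?_
  · intro e _
    unfold scr39A
    split_ifs <;> linarith
  · intro e _
    unfold scr39B
    split_ifs <;> linarith

/-- **finite volume reflection positivity** -/
theorem scr39_rp_fin (fr : Scr39Fr) {t : ℝ} (h0 : 0 ≤ t) (h1 : t ≤ 1) {F : Finset (ℤ × ℤ)} (hF : ∀ f ∈ F, fr.g.f f ∈ F) (b : Bool)
    {X : RswCfg → ℝ} (hX : Scr39Up fr X) : 0 ≤ rswE t F b (fun ω => X (scrAct fr.g ω) * X ω) :=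
  div_nonneg (scr39_rp_sum fr h0 h1 hF b hX) (scr39_Z_nonneg h0 h1 F b)

/-! ## 4. the four axis frames -/

/-- mirror = the row `y = 0` of corners -/
def scr39FrA0 : Scr39Fr where
  g := ⟨fun v => (v.1, -v.2), fun v => (v.1, -v.2 - 1), fun e => if e.2 then ((e.1.1, -e.1.2 - 1), true) else ((e.1.1, -e.1.2), false)⟩
  lc := fun v => v.2
  lf := fun f => 2 * f.2 + 1
  le := fun e => if e.2 then 2 * e.1.2 + 1 else e.1.2
  gc := by rintro ⟨x, y⟩; simp
  gf := by rintro ⟨x, y⟩; simp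
  ge := by rintro ⟨⟨x, y⟩, b⟩; cases b <;> simp
  lcg := by rintro ⟨x, y⟩; simp
  lfg := by rintro ⟨x, y⟩; simp only; ring
  leg := by rintro ⟨⟨x, y⟩, b⟩; cases b <;> simp <;> ring
  fixc := by rintro ⟨x, y⟩ h; simp only at h; simp [h]
  fixf := by rintro ⟨x, y⟩ h; simp only at h; omega
  adj := by
    rintro ⟨x, y⟩ ⟨a, c⟩ h
    simp only [Scr39Adj, Prod.mk.injEq] at h ⊢
    omega
  ends := by rintro ⟨⟨x, y⟩, b⟩; cases b <;> simp [rswEnd] <;> omega
  cofs := by rintro ⟨⟨x, y⟩, b⟩; cases b <;> simp [rswCo] <;> omega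
  up := by rintro ⟨⟨x, y⟩, b⟩ h; cases b <;> simp [rswEnd, rswCo] at h ⊢ <;> omega
  cut := by rintro ⟨⟨x, y⟩, b⟩ h; cases b <;> simp [rswEnd, rswCo] at h ⊢ <;> omega

/-- mirror = the row `y = 1/2` of face centres -/
def scr39FrB0 : Scr39Fr where
  g := ⟨fun v => (v.1, 1 - v.2), fun v => (v.1, -v.2), fun e => if e.2 then ((e.1.1, -e.1.2), true) else ((e.1.1, 1 - e.1.2), false)⟩
  lc := fun v => 2 * v.2 - 1
  lf := fun f => f.2
  le := fun e => if e.2 then e.1.2 else 2 * e.1.2 - 1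
  gc := by rintro ⟨x, y⟩; simp
  gf := by rintro ⟨x, y⟩; simp
  ge := by rintro ⟨⟨x, y⟩, b⟩; cases b <;> simp
  lcg := by rintro ⟨x, y⟩; simp only; ring
  lfg := by rintro ⟨x, y⟩; simp
  leg := by rintro ⟨⟨x, y⟩, b⟩; cases b <;> simp <;> ring
  fixc := by rintro ⟨x, y⟩ h; simp only at h; omega
  fixf := by rintro ⟨x, y⟩ h; simp only at h; simp [h]
  adj := by
    rintro ⟨x, y⟩ ⟨a, c⟩ h
    simp only [Scr39Adj, Prod.mk.injEq] at h ⊢
    omega
  ends := by rintro ⟨⟨x, y⟩, b⟩; cases b <;> simp [rswEnd] <;> omega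
  cofs := by rintro ⟨⟨x, y⟩, b⟩; cases b <;> simp [rswCo] <;> omega
  up := by rintro ⟨⟨x, y⟩, b⟩ h; cases b <;> simp [rswEnd, rswCo] at h ⊢ <;> omega
  cut := by rintro ⟨⟨x, y⟩, b⟩ h; cases b <;> simp [rswEnd, rswCo] at h ⊢ <;> omega

/-- mirror = the column `x = 0` of corners -/
def scr39FrA2 : Scr39Fr where
  g := ⟨fun v => (-v.1, v.2), fun v => (-v.1 - 1, v.2), fun e => if e.2 then ((-e.1.1, e.1.2), true) else ((-e.1.1 - 1, e.1.2), false)⟩
  lc := fun v => v.1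
  lf := fun f => 2 * f.1 + 1
  le := fun e => if e.2 then e.1.1 else 2 * e.1.1 + 1
  gc := by rintro ⟨x, y⟩; simp
  gf := by rintro ⟨x, y⟩; simp
  ge := by rintro ⟨⟨x, y⟩, b⟩; cases b <;> simp
  lcg := by rintro ⟨x, y⟩; simp
  lfg := by rintro ⟨x, y⟩; simp only; ring
  leg := by rintro ⟨⟨x, y⟩, b⟩; cases b <;> simp <;> ring
  fixc := by rintro ⟨x, y⟩ h; simp only at h; simp [h]
  fixf := by rintro ⟨x, y⟩ h; simp only at h; omega
  adj := by
    rintro ⟨x, y⟩ ⟨a, c⟩ h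
    simp only [Scr39Adj, Prod.mk.injEq] at h ⊢
    omega
  ends := by rintro ⟨⟨x, y⟩, b⟩; cases b <;> simp [rswEnd] <;> omega
  cofs := by rintro ⟨⟨x, y⟩, b⟩; cases b <;> simp [rswCo] <;> omega
  up := by rintro ⟨⟨x, y⟩, b⟩ h; cases b <;> simp [rswEnd, rswCo] at h ⊢ <;> omega
  cut := by rintro ⟨⟨x, y⟩, b⟩ h; cases b <;> simp [rswEnd, rswCo] at h ⊢ <;> omega

/-- mirror = the column `x = 1/2` of face centres -/
def scr39FrB2 : Scr39Fr where
  g := ⟨fun v => (1 - v.1, v.2), fun v => (-v.1, v.2), fun e => if e.2 then ((1 - e.1.1, e.1.2), true) else ((-e.1.1, e.1.2), false)⟩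
  lc := fun v => 2 * v.1 - 1
  lf := fun f => f.1
  le := fun e => if e.2 then 2 * e.1.1 - 1 else e.1.1
  gc := by rintro ⟨x, y⟩; simp
  gf := by rintro ⟨x, y⟩; simp
  ge := by rintro ⟨⟨x, y⟩, b⟩; cases b <;> simp
  lcg := by rintro ⟨x, y⟩; simp only; ring
  lfg := by rintro ⟨x, y⟩; simp
  leg := by rintro ⟨⟨x, y⟩, b⟩; cases b <;> simp <;> ring
  fixc := by rintro ⟨x, y⟩ h; simp only at h; omega
  fixf := by rintro ⟨x, y⟩ h; simp only at h; simp [h]
  adj := by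
    rintro ⟨x, y⟩ ⟨a, c⟩ h
    simp only [Scr39Adj, Prod.mk.injEq] at h ⊢
    omega
  ends := by rintro ⟨⟨x, y⟩, b⟩; cases b <;> simp [rswEnd] <;> omega
  cofs := by rintro ⟨⟨x, y⟩, b⟩; cases b <;> simp [rswCo] <;> omega
  up := by rintro ⟨⟨x, y⟩, b⟩ h; cases b <;> simp [rswEnd, rswCo] at h ⊢ <;> omega
  cut := by rintro ⟨⟨x, y⟩, b⟩ h; cases b <;> simp [rswEnd, rswCo] at h ⊢ <;> omega

/-! ## 5. the plane -/

theorem scr39_rect_jordan (x0 x1 y0 y1 : ℤ) (hx : x0 < x1) (hy : y0 < y1) : RswJordan (Finset.Ico x0 x1 ×ˢ Finset.Ico y0 y1) := by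
  unfold RswJordan
  rw [atb89_rect_region one_pos _ _ _ _ hx hy]
  have c1 : (x0 : ℝ) < x1 := by exact_mod_cast hx
  have c2 : (y0 : ℝ) < y1 := by exact_mod_cast hy
  exact atb89_jordan (atb89_rectG (by linarith) (by linarith)) _

theorem Scr39Up.loc {fr : Scr39Fr} {X : RswCfg → ℝ} (h : Scr39Up fr X) : ScrLoc X := by
  obtain ⟨R, R', h1, _⟩ := h
  exact ⟨R, R', h1⟩

/-- **plane reflection positivity** for a frame which has a symmetric flat exhaustion -/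
theorem scr39_rp_plane (fr : Scr39Fr) (t : ℝ) (ht1 : 1 / 2 ≤ t) (ht2 : t < 1) (Fs : ℕ → Finset (ℤ × ℤ))
    (hsym : ∀ n, ∀ f ∈ Fs n, fr.g.f f ∈ Fs n) (hJ : ∀ᶠ n in atTop, RswJordan (Fs n)) (hex : ∀ m : ℕ, ∀ᶠ n in atTop, rswBox 0 m ⊆ Fs n)
    {X : RswCfg → ℝ} (hX : Scr39Up fr X) : 0 ≤ scrPl t (fun ω => X (scrAct fr.g ω) * X ω) := by
  have hloc : ScrLoc (fun ω => X (scrAct fr.g ω) * X ω) :=
    scr289_loc_mul (scr289_loc_act hX.loc fr.g (Function.LeftInverse.injective fr.gc) (Function.LeftInverse.injective fr.gf)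
      (Function.LeftInverse.injective fr.ge)) hX.loc
  refine ge_of_tendsto' (scr289_pl_tendsto_of t ht1 ht2 _ hloc Fs (fun _ => true) hJ hex) fun n => ?_
  exact scr39_rp_fin fr (by linarith) ht2.le (hsym n) true hX

theorem scr39_re0 : scrRe 0 = scr39FrA0.g := rfl
theorem scr39_re2 : scrRe 2 = scr39FrA2.g := rfl

theorem scr39_up_A0 {X : RswCfg → ℝ} (hX : ScrUp 0 X) : Scr39Up scr39FrA0 X := by
  obtain ⟨R, R', h1, h2, h3⟩ := hX
  refine ⟨R, R', h1, fun v hv => ?_, fun e he => ?_⟩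
  · have := h2 v hv
    simp only [scrLev, scrNor, Matrix.cons_val_zero] at this
    simp only [scr39FrA0]
    omega
  · obtain ⟨a, b⟩ := h3 e he
    obtain ⟨⟨x, y⟩, c⟩ := e
    simp only [scrLev, scrNor, Matrix.cons_val_zero] at a b
    cases c <;> simp [scr39FrA0] at a b ⊢ <;> omega

theorem scr39_up_A2 {X : RswCfg → ℝ} (hX : ScrUp 2 X) : Scr39Up scr39FrA2 X := by
  obtain ⟨R, R', h1, h2, h3⟩ := hX
  have hn : scrNor 2 = (1, 0) := rfl
  refine ⟨R, R', h1, fun v hv => ?_, fun e he => ?_⟩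
  · have := h2 v hv
    simp only [scrLev, hn] at this
    simp only [scr39FrA2]
    omega
  · obtain ⟨a, b⟩ := h3 e he
    obtain ⟨⟨x, y⟩, c⟩ := e
    simp only [scrLev, hn] at a b
    cases c <;> simp [scr39FrA2] at a b ⊢ <;> omega

theorem scr39_up_B0 {X : RswCfg → ℝ} (hX : ScrUp 0 X) : Scr39Up scr39FrB0 (scrSh (0, 1) X) := by
  obtain ⟨R, R', h1, h2, h3⟩ := hX
  have hn : scrNor 0 = (0, 1) := rfl
  have hi := scr289_tr_inj (-((0 : ℤ), (1 : ℤ)))
  refine ⟨_, _, scr289_loc_act' h1 (scrTr (-((0 : ℤ), (1 : ℤ)))) hi.1 hi.2.1 hi.2.2, fun v hv => ?_, fun e he => ?_⟩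
  · rw [Finset.mem_union, Finset.mem_preimage, Finset.mem_preimage] at hv
    have hv' : v + -((0 : ℤ), (1 : ℤ)) ∈ R := hv.elim id id
    have := h2 _ hv'
    simp only [scrLev, hn, Prod.fst_add, Prod.snd_add, Prod.fst_neg, Prod.snd_neg] at this
    simp only [scr39FrB0]
    omega
  · rw [Finset.mem_preimage] at he
    obtain ⟨a, b⟩ := h3 _ he
    obtain ⟨⟨x, y⟩, c⟩ := e
    simp only [scrLev, hn, scrTr] at a b
    cases c <;> simp [scr39FrB0] at a b ⊢ <;> omega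

theorem scr39_up_B2 {X : RswCfg → ℝ} (hX : ScrUp 2 X) : Scr39Up scr39FrB2 (scrSh (1, 0) X) := by
  obtain ⟨R, R', h1, h2, h3⟩ := hX
  have hn : scrNor 2 = (1, 0) := rfl
  have hi := scr289_tr_inj (-((1 : ℤ), (0 : ℤ)))
  refine ⟨_, _, scr289_loc_act' h1 (scrTr (-((1 : ℤ), (0 : ℤ)))) hi.1 hi.2.1 hi.2.2, fun v hv => ?_, fun e he => ?_⟩
  · rw [Finset.mem_union, Finset.mem_preimage, Finset.mem_preimage] at hv
    have hv' : v + -((1 : ℤ), (0 : ℤ)) ∈ R := hv.elim id id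
    have := h2 _ hv'
    simp only [scrLev, hn, Prod.fst_add, Prod.snd_add, Prod.fst_neg, Prod.snd_neg] at this
    simp only [scr39FrB2]
    omega
  · rw [Finset.mem_preimage] at he
    obtain ⟨a, b⟩ := h3 _ he
    obtain ⟨⟨x, y⟩, c⟩ := e
    simp only [scrLev, hn, scrTr] at a b
    cases c <;> simp [scr39FrB2] at a b ⊢ <;> omega

theorem scr39_comp_B0 (ω : RswCfg) : scrAct (scrTr (-((0 : ℤ), (1 : ℤ)))) (scrAct scr39FrB0.g ω) = scrAct (scrRe 0) ω := by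
  rw [scr39_re0]
  refine scr39_ext ?_ ?_ ?_
  · simp only [scrAct, Finset.image_image]
    refine Finset.image_congr fun v _ => ?_
    obtain ⟨x, y⟩ := v
    simp [scrTr, scr39FrB0, scr39FrA0]
    ring
  · simp only [scrAct, Finset.image_image]
    refine Finset.image_congr fun v _ => ?_
    obtain ⟨x, y⟩ := v
    simp [scrTr, scr39FrB0, scr39FrA0]
    ring
  · simp only [scrAct, Finset.image_image]
    refine Finset.image_congr fun v _ => ?_
    obtain ⟨⟨x, y⟩, c⟩ := v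
    cases c <;> simp [scrTr, scr39FrB0, scr39FrA0] <;> ring

theorem scr39_comp_B2 (ω : RswCfg) : scrAct (scrTr (-((1 : ℤ), (0 : ℤ)))) (scrAct scr39FrB2.g ω) = scrAct (scrRe 2) ω := by
  rw [scr39_re2]
  refine scr39_ext ?_ ?_ ?_
  · simp only [scrAct, Finset.image_image]
    refine Finset.image_congr fun v _ => ?_
    obtain ⟨x, y⟩ := v
    simp [scrTr, scr39FrB2, scr39FrA2]
    ring
  · simp only [scrAct, Finset.image_image]
    refine Finset.image_congr fun v _ => ?_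
    obtain ⟨x, y⟩ := v
    simp [scrTr, scr39FrB2, scr39FrA2]
    ring
  · simp only [scrAct, Finset.image_image]
    refine Finset.image_congr fun v _ => ?_
    obtain ⟨⟨x, y⟩, c⟩ := v
    cases c <;> simp [scrTr, scr39FrB2, scr39FrA2] <;> ring

/-- **(P2) `scr_cut_rp` for the axis frames `j = 0, 2`**, both rows -/
theorem scr39_cut_rp (t : ℝ) (ht1 : 1 / 2 ≤ t) (ht2 : t < 1) (j : Fin 4) (hj : j = 0 ∨ j = 2) (X : RswCfg → ℝ) (hX : ScrUp j X) :
    0 ≤ scrFm t j X X ∧ 0 ≤ scrFm t j X (scrSh (scrNor j) X) := by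
  have hJ0 : ∀ᶠ n : ℕ in atTop, RswJordan (rswBox 0 n) := by
    filter_upwards [eventually_ge_atTop 1] with n hn
    exact scr289_box_jordan 0 n hn
  have hex0 : ∀ m : ℕ, ∀ᶠ n : ℕ in atTop, rswBox 0 m ⊆ rswBox 0 n := by
    intro m
    filter_upwards [eventually_ge_atTop m] with n hn
    exact scr289_box_mono 0 hn
  rcases hj with rfl | rfl
  · constructor
    · refine scr39_rp_plane scr39FrA0 t ht1 ht2 (fun n => rswBox 0 n) ?_ hJ0 hex0 (scr39_up_A0 hX)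
      intro n f hf
      rw [scr289_mem_box] at hf ⊢
      simp only [scr39FrA0, Prod.fst_zero, Prod.snd_zero] at hf ⊢
      omega
    · have key := scr39_rp_plane scr39FrB0 t ht1 ht2 (fun n : ℕ => Finset.Ico (-(n : ℤ)) n ×ˢ Finset.Ico (-(n : ℤ)) (n + 1)) ?_ ?_ ?_
        (scr39_up_B0 hX)
      · have e : (fun ω => scrSh (0, 1) X (scrAct scr39FrB0.g ω) * scrSh (0, 1) X ω) = fun ω => scrTh 0 X ω * scrSh (scrNor 0) X ω := by
          funext ω
          have : scrSh (0, 1) X (scrAct scr39FrB0.g ω) = scrTh 0 X ω := by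
            unfold scrSh scrTh
            rw [scr39_comp_B0]
          rw [this]; rfl
        rw [e] at key
        exact key
      · intro n f hf
        simp only [Finset.mem_product, Finset.mem_Ico, scr39FrB0] at hf ⊢
        omega
      · filter_upwards [eventually_ge_atTop 1] with n hn
        have : (1 : ℤ) ≤ n := by exact_mod_cast hn
        exact scr39_rect_jordan _ _ _ _ (by omega) (by omega)
      · intro m
        filter_upwards [eventually_ge_atTop m] with n hn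
        have : (m : ℤ) ≤ n := by exact_mod_cast hn
        intro f hf
        rw [scr289_mem_box] at hf
        simp only [Finset.mem_product, Finset.mem_Ico, Prod.fst_zero, Prod.snd_zero] at hf ⊢
        omega
  · constructor
    · refine scr39_rp_plane scr39FrA2 t ht1 ht2 (fun n => rswBox 0 n) ?_ hJ0 hex0 (scr39_up_A2 hX)
      intro n f hf
      rw [scr289_mem_box] at hf ⊢
      simp only [scr39FrA2, Prod.fst_zero, Prod.snd_zero] at hf ⊢
      omega
    · have key := scr39_rp_plane scr39FrB2 t ht1 ht2 (fun n : ℕ => Finset.Ico (-(n : ℤ)) (n + 1) ×ˢ Finset.Ico (-(n : ℤ)) n) ?_ ?_ ?_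
        (scr39_up_B2 hX)
      · have e : (fun ω => scrSh (1, 0) X (scrAct scr39FrB2.g ω) * scrSh (1, 0) X ω) = fun ω => scrTh 2 X ω * scrSh (scrNor 2) X ω := by
          funext ω
          have : scrSh (1, 0) X (scrAct scr39FrB2.g ω) = scrTh 2 X ω := by
            unfold scrSh scrTh
            rw [scr39_comp_B2]
          rw [this]; rfl
        rw [e] at key
        exact key
      · intro n f hf
        simp only [Finset.mem_product, Finset.mem_Ico, scr39FrB2] at hf ⊢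
        omega
      · filter_upwards [eventually_ge_atTop 1] with n hn
        have : (1 : ℤ) ≤ n := by exact_mod_cast hn
        exact scr39_rect_jordan _ _ _ _ (by omega) (by omega)
      · intro m
        filter_upwards [eventually_ge_atTop m] with n hn
        have : (m : ℤ) ≤ n := by exact_mod_cast hn
        intro f hf
        rw [scr289_mem_box] at hf
        simp only [Finset.mem_product, Finset.mem_Ico, Prod.fst_zero, Prod.snd_zero] at hf ⊢
        omega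

/-- the equation lemmas of the definitions of this file are generated HERE (RULES.md, rule 6) -/
theorem scr39_defs_eqns_cite : True := by
  have := @scr39U.eq_1
  have := @scr39I.eq_1
  have := @scr39Cf.eq_1
  have := @Scr39Adj.eq_1
  have := @Scr39Up.eq_1
  have := @Scr39Ag.eq_1
  have := @Scr39Bc.eq_1
  have := @scr39H.eq_1
  have := @scr39Wr.eq_1
  have := @scr39Wu.eq_1
  have := @scr39Wl.eq_1
  have := @scr39Wo.eq_1
  have := @scr39G.eq_1
  have := @scr39X.eq_1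
  have := @Scr39Row.eq_1
  have := @scr39A.eq_1
  have := @scr39B.eq_1
  have := @scr39FrA0.eq_1
  have := @scr39FrB0.eq_1
  have := @scr39FrA2.eq_1
  have := @scr39FrB2.eq_1
  trivial

/-! ## 6. all four frames -/

/-- **(P2) `scr_cut_rp` VERBATIM, all four frames**: axis frames = `scr39_cut_rp`, diagonal frames = `scr62d_rp` of 62 (limit: `scr289_pl_tendsto`; invariance: `scr289_cut_inv` + `scr99_cov`). -/
theorem scr39_cut_rp_all (t : ℝ) (ht1 : 1 / 2 ≤ t) (ht2 : t < 1) (j : Fin 4) (X : RswCfg → ℝ) (hX : ScrUp j X) :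
    0 ≤ scrFm t j X X ∧ 0 ≤ scrFm t j X (scrSh (scrNor j) X) := by
  have hj : (j = 0 ∨ j = 2) ∨ (j = 1 ∨ j = 3) := by fin_cases j <;> simp
  rcases hj with hj | hj
  · exact scr39_cut_rp t ht1 ht2 j hj X hX
  · exact scr62d_rp (by linarith) ht2.le (fun Y hY => ⟨scrPl t Y, scr289_pl_tendsto t ht1 ht2 Y hY 0 true⟩)
      (fun Y hY a => scr289_cut_inv t ht1 ht2 Y hY (scrTr a) (Or.inl ⟨a, rfl⟩)
        (fun F b Z => scr99_cov t F b Z (scrTr a) (Or.inl ⟨a, rfl⟩))) j hj X hX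

end Claimed.Agent.R292
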