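import Claimed.Agent.R292.Defs.ScreenPl
import Claimed.Agent.R292.Exit.RSW
import Claimed.Agent.R292.Rsw.Base31
import Claimed.Agent.R291.Pin.Tr

/-!
# Row 292 (S0540), Screen/Tr142 : (P3) THE POSITIVE NORMAL TRANSFER, IN NUMBERS      (helper142, unit SCREEN; prefix `scr142t_`)

Port of R291 `Pin/Tr` sec. 7 onto `scrFm / scrSh / scrTh` of `Defs/ScreenPl` (AT paper Lemma 4.1 as Sec. 5 consumes it).  No sorry of its own;
the leaves (P1') `scr_cut_inv`, (P2) `scr_cut_rp` enter as HYPOTHESES `hinv`, `hrp` (their statements after `t ht1 ht2`; 229's import rule: no Cut file imported); `exit_rsw_plane` (Exit/RSW) is cited.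
* sec. 1  algebra of the action: `scr142t_act_act`, `_tr_tr`, `_tr_zero`, `_re_re` (involution), `_re_tr` (conjugation, linear part `scr142t_rho j`), `_rho_nor`
* sec. 2  `scr142t_sh_sh`, `_sh_zero`, `_th_th`, `_th_sh`
* sec. 3  locality: `scr142t_loc_mono`, `_loc_act`, `_loc_sh`, `ScrLoc` under `sh th add mul smul sum const`, `scr142t_Loc_bdd` (a local observable is bounded)
* sec. 4  `ScrUp j` under shifts of level `≥ 0`, `add smul sum const`
* sec. 5  record `Scr142tPl t` (what is used of the plane law) ; `scr142t_fm_shift/symm/add_right/smul_right/sum_right/sum_sum` ;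
          **`scr142t_haus`** (`k ↦ ⟨y, τ^k y⟩` is a Hausdorff sequence `PinHs`), **`scr142t_tr`** (`PinTr`, from the record)
* sec. 6  **`scr142t_box_jordan : 1 ≤ n → RswJordan (rswBox z n)`** (`scr142t_box_region`: the region is the open ball of the sup norm), `scr142t_box_mono`
* sec. 7  API of `scrPl` on local observables: `scr142t_pl_tendsto` (the boxes converge), `_pl_add`, `_pl_smul`, `_pl_bound`, `_pl_nonneg`, `_pl_const`
* sec. 8  `scr142t_record`, **`scr142t_cut_tr` = `scr_cut_tr` VERBATIM**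
-/

set_option autoImplicit false

namespace Claimed.Agent.R292

open Claims Claims.C0468 Filter Topology
open Claimed.Agent.R291

/-! ## 1. the algebra of the action -/

theorem scr142t_cfg_ext {ω ω' : RswCfg} (hS : ω.S = ω'.S) (hD : ω.D = ω'.D) (hO : ω.O = ω'.O) : ω = ω' := by
  cases ω; cases ω'; simp_all

theorem scr142t_act_act (g h : ScrMapD) (ω : RswCfg) :
    scrAct g (scrAct h ω) = scrAct ⟨g.c ∘ h.c, g.f ∘ h.f, g.e ∘ h.e⟩ ω := by
  simp only [scrAct, Finset.image_image]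

theorem scr142t_act_congr {g h : ScrMapD} (hc : ∀ v, g.c v = h.c v) (hf : ∀ v, g.f v = h.f v) (he : ∀ e, g.e e = h.e e)
    (ω : RswCfg) : scrAct g ω = scrAct h ω := by
  have e1 : g.c = h.c := funext hc
  have e2 : g.f = h.f := funext hf
  have e3 : g.e = h.e := funext he
  simp only [scrAct, e1, e2, e3]

theorem scr142t_act_id {g : ScrMapD} (hc : ∀ v, g.c v = v) (hf : ∀ v, g.f v = v) (he : ∀ e, g.e e = e)
    (ω : RswCfg) : scrAct g ω = ω := by
  have e1 : g.c = id := funext hc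
  have e2 : g.f = id := funext hf
  have e3 : g.e = id := funext he
  refine scr142t_cfg_ext ?_ ?_ ?_ <;> simp [scrAct, e1, e2, e3]

theorem scr142t_tr_tr (a b : ℤ × ℤ) (ω : RswCfg) :
    scrAct (scrTr a) (scrAct (scrTr b) ω) = scrAct (scrTr (a + b)) ω := by
  rw [scr142t_act_act]
  refine scr142t_act_congr (fun v => ?_) (fun v => ?_) (fun e => ?_) ω
  · simp only [scrTr, Function.comp]; abel
  · simp only [scrTr, Function.comp]; abel
  · simp only [scrTr, Function.comp]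
    congr 1; abel

theorem scr142t_tr_zero (ω : RswCfg) : scrAct (scrTr 0) ω = ω :=
  scr142t_act_id (fun v => by simp [scrTr]) (fun v => by simp [scrTr]) (fun e => by simp [scrTr]) ω

theorem scr142t_re_re (j : Fin 4) (ω : RswCfg) : scrAct (scrRe j) (scrAct (scrRe j) ω) = ω := by
  rw [scr142t_act_act]
  refine scr142t_act_id (fun v => ?_) (fun v => ?_) (fun e => ?_) ω
  · fin_cases j <;> simp [scrRe]
  · fin_cases j <;> simp [scrRe]
  · obtain ⟨v, b⟩ := e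
    fin_cases j <;> cases b <;> simp [scrRe]

/-- the linear part of the reflection. -/
def scr142t_rho (j : Fin 4) (a : ℤ × ℤ) : ℤ × ℤ := (scrRe j).c a

theorem scr142t_re_tr (j : Fin 4) (a : ℤ × ℤ) (ω : RswCfg) :
    scrAct (scrRe j) (scrAct (scrTr a) ω) = scrAct (scrTr (scr142t_rho j a)) (scrAct (scrRe j) ω) := by
  rw [scr142t_act_act, scr142t_act_act]
  refine scr142t_act_congr (fun v => ?_) (fun v => ?_) (fun e => ?_) ω
  · fin_cases j <;> simp [scrRe, scrTr, scr142t_rho] <;> omega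
  · fin_cases j <;> simp [scrRe, scrTr, scr142t_rho] <;> omega
  · obtain ⟨v, b⟩ := e
    fin_cases j <;> cases b <;> simp [scrRe, scrTr, scr142t_rho] <;> omega

theorem scr142t_rho_rho (j : Fin 4) (a : ℤ × ℤ) : scr142t_rho j (scr142t_rho j a) = a := by
  fin_cases j <;> simp [scrRe, scr142t_rho]

theorem scr142t_rho_neg (j : Fin 4) (a : ℤ × ℤ) : scr142t_rho j (-a) = -scr142t_rho j a := by
  fin_cases j <;> simp [scrRe, scr142t_rho]

theorem scr142t_rho_add (j : Fin 4) (a b : ℤ × ℤ) : scr142t_rho j (a + b) = scr142t_rho j a + scr142t_rho j b := by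
  fin_cases j <;> simp [scrRe, scr142t_rho] <;> omega

theorem scr142t_rho_nor (j : Fin 4) (k : ℤ) : scr142t_rho j (k • scrNor j) = -(k • scrNor j) := by
  fin_cases j <;> simp [scrRe, scr142t_rho, scrNor]

/-! ## 2. translated and reflected observables -/

theorem scr142t_sh_sh (a b : ℤ × ℤ) (X : RswCfg → ℝ) : scrSh a (scrSh b X) = scrSh (a + b) X := by
  funext ω
  simp only [scrSh]
  rw [scr142t_tr_tr]
  congr 3
  abel

theorem scr142t_sh_zero (X : RswCfg → ℝ) : scrSh 0 X = X := by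
  funext ω
  simp only [scrSh, neg_zero, scr142t_tr_zero]

theorem scr142t_th_th (j : Fin 4) (X : RswCfg → ℝ) : scrTh j (scrTh j X) = X := by
  funext ω
  simp only [scrTh, scr142t_re_re]

theorem scr142t_th_sh (j : Fin 4) (a : ℤ × ℤ) (X : RswCfg → ℝ) :
    scrTh j (scrSh a X) = scrSh (scr142t_rho j a) (scrTh j X) := by
  funext ω
  simp only [scrTh, scrSh]
  rw [scr142t_re_tr, scr142t_rho_neg, scr142t_rho_rho]

/-! ## 3. locality -/

theorem scr142t_loc_mono {R R₁ : Finset (ℤ × ℤ)} {R' R₁' : Finset ((ℤ × ℤ) × Bool)} {X : RswCfg → ℝ}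
    (h : RswLoc R R' X) (hR : R ⊆ R₁) (hR' : R' ⊆ R₁') : RswLoc R₁ R₁' X := by
  intro ω ω' h1 h2 h3
  have aux : ∀ {α : Type} [DecidableEq α] {A B U V : Finset α}, U ⊆ V → A ∩ V = B ∩ V → A ∩ U = B ∩ U := by
    intro α _ A B U V hUV hAB
    have e1 : A ∩ U = (A ∩ V) ∩ U := by
      rw [Finset.inter_assoc, Finset.inter_eq_right.2 hUV]
    have e2 : B ∩ U = (B ∩ V) ∩ U := by
      rw [Finset.inter_assoc, Finset.inter_eq_right.2 hUV]
    rw [e1, e2, hAB]
  exact h ω ω' (aux hR h1) (aux hR h2) (aux hR' h3)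

/-- the image under an injective map, cut by a window. -/
theorem scr142t_image_inter {α : Type} [DecidableEq α] {g h : α → α} (hg : ∀ v, h (g v) = v) {A B R R₁ : Finset α}
    (hR : R.image h ⊆ R₁) (hAB : A ∩ R₁ = B ∩ R₁) : A.image g ∩ R = B.image g ∩ R := by
  have one : ∀ {A B : Finset α}, A ∩ R₁ = B ∩ R₁ → A.image g ∩ R ⊆ B.image g ∩ R := by
    intro A B hAB v hv
    rw [Finset.mem_inter, Finset.mem_image] at hv
    obtain ⟨⟨u, hu, rfl⟩, hvR⟩ := hv
    have hu1 : u ∈ R₁ := hR (Finset.mem_image.2 ⟨g u, hvR, hg u⟩)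
    have : u ∈ B ∩ R₁ := hAB ▸ Finset.mem_inter.2 ⟨hu, hu1⟩
    exact Finset.mem_inter.2 ⟨Finset.mem_image_of_mem g (Finset.mem_inter.1 this).1, hvR⟩
  exact Finset.Subset.antisymm (one hAB) (one hAB.symm)

theorem scr142t_loc_act {g h : ScrMapD} (hc : ∀ v, h.c (g.c v) = v) (hf : ∀ v, h.f (g.f v) = v)
    (he : ∀ e, h.e (g.e e) = e) {R : Finset (ℤ × ℤ)} {R' : Finset ((ℤ × ℤ) × Bool)} {X : RswCfg → ℝ}
    (hX : RswLoc R R' X) :
    RswLoc (R.image h.c ∪ R.image h.f) (R'.image h.e) (fun ω => X (scrAct g ω)) := by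
  intro ω ω' h1 h2 h3
  refine hX _ _ ?_ ?_ ?_
  · exact scr142t_image_inter hc Finset.subset_union_left h1
  · exact scr142t_image_inter hf Finset.subset_union_right h2
  · exact scr142t_image_inter he (Finset.Subset.refl _) h3

theorem scr142t_loc_sh (a : ℤ × ℤ) {R : Finset (ℤ × ℤ)} {R' : Finset ((ℤ × ℤ) × Bool)} {X : RswCfg → ℝ}
    (hX : RswLoc R R' X) :
    RswLoc (R.image fun v => v + a) (R'.image fun e => (e.1 + a, e.2)) (scrSh a X) := by
  have h := scr142t_loc_act (g := scrTr (-a)) (h := scrTr a) (fun v => by simp [scrTr]) (fun v => by simp [scrTr])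
    (fun e => by simp [scrTr]) hX
  refine scr142t_loc_mono h ?_ (Finset.Subset.refl _)
  simp [scrTr]

theorem scr142t_Loc_sh (a : ℤ × ℤ) {X : RswCfg → ℝ} (hX : ScrLoc X) : ScrLoc (scrSh a X) := by
  obtain ⟨R, R', h⟩ := hX
  exact ⟨_, _, scr142t_loc_sh a h⟩

theorem scr142t_Loc_th (j : Fin 4) {X : RswCfg → ℝ} (hX : ScrLoc X) : ScrLoc (scrTh j X) := by
  obtain ⟨R, R', h⟩ := hX
  have hc : ∀ v, (scrRe j).c ((scrRe j).c v) = v := fun v => by fin_cases j <;> simp [scrRe]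
  have hf : ∀ v, (scrRe j).f ((scrRe j).f v) = v := fun v => by fin_cases j <;> simp [scrRe]
  have he : ∀ e, (scrRe j).e ((scrRe j).e e) = e := fun e => by
    obtain ⟨v, b⟩ := e
    fin_cases j <;> cases b <;> simp [scrRe]
  exact ⟨_, _, scr142t_loc_act (g := scrRe j) (h := scrRe j) hc hf he h⟩

theorem scr142t_loc_op₂ (op : ℝ → ℝ → ℝ) {R₁ R₂ : Finset (ℤ × ℤ)} {R₁' R₂' : Finset ((ℤ × ℤ) × Bool)}
    {X Y : RswCfg → ℝ} (hX : RswLoc R₁ R₁' X) (hY : RswLoc R₂ R₂' Y) :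
    RswLoc (R₁ ∪ R₂) (R₁' ∪ R₂') (fun ω => op (X ω) (Y ω)) := by
  intro ω ω' h1 h2 h3
  have a := scr142t_loc_mono hX (Finset.subset_union_left (s₂ := R₂)) (Finset.subset_union_left (s₂ := R₂')) ω ω' h1 h2 h3
  have b := scr142t_loc_mono hY (Finset.subset_union_right (s₁ := R₁)) (Finset.subset_union_right (s₁ := R₁')) ω ω' h1 h2 h3
  simp only [a, b]

theorem scr142t_Loc_add {X Y : RswCfg → ℝ} (hX : ScrLoc X) (hY : ScrLoc Y) : ScrLoc (fun ω => X ω + Y ω) := by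
  obtain ⟨R, R', h⟩ := hX
  obtain ⟨S, S', h'⟩ := hY
  exact ⟨_, _, scr142t_loc_op₂ (· + ·) h h'⟩

theorem scr142t_Loc_mul {X Y : RswCfg → ℝ} (hX : ScrLoc X) (hY : ScrLoc Y) : ScrLoc (fun ω => X ω * Y ω) := by
  obtain ⟨R, R', h⟩ := hX
  obtain ⟨S, S', h'⟩ := hY
  exact ⟨_, _, scr142t_loc_op₂ (· * ·) h h'⟩

theorem scr142t_Loc_const (c : ℝ) : ScrLoc (fun _ => c) := ⟨∅, ∅, fun _ _ _ _ _ => rfl⟩

theorem scr142t_Loc_smul (c : ℝ) {X : RswCfg → ℝ} (hX : ScrLoc X) : ScrLoc (fun ω => c * X ω) :=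
  scr142t_Loc_mul (scr142t_Loc_const c) hX

theorem scr142t_Loc_sum {ι : Type*} (s : Finset ι) {X : ι → RswCfg → ℝ} (hX : ∀ i ∈ s, ScrLoc (X i)) :
    ScrLoc (fun ω => ∑ i ∈ s, X i ω) := by
  classical
  induction s using Finset.induction_on with
  | empty => simpa using scr142t_Loc_const 0
  | insert a s ha ih =>
    simp only [Finset.sum_insert ha]
    exact scr142t_Loc_add (hX a (Finset.mem_insert_self a s)) (ih fun i hi => hX i (Finset.mem_insert_of_mem hi))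

/-- a local observable is bounded. -/
theorem scr142t_Loc_bdd {X : RswCfg → ℝ} (hX : ScrLoc X) : ∃ K : ℝ, 0 ≤ K ∧ ∀ ω, |X ω| ≤ K := by
  obtain ⟨R, R', h⟩ := hX
  refine ⟨∑ x ∈ R.powerset ×ˢ R.powerset ×ˢ R'.powerset, |X ⟨x.1, x.2.1, x.2.2⟩|,
    Finset.sum_nonneg fun _ _ => abs_nonneg _, fun ω => ?_⟩
  have e : X ω = X ⟨ω.S ∩ R, ω.D ∩ R, ω.O ∩ R'⟩ :=
    h _ _ (by simp [Finset.inter_assoc]) (by simp [Finset.inter_assoc]) (by simp [Finset.inter_assoc])
  rw [e]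
  exact Finset.single_le_sum (f := fun x : Finset (ℤ × ℤ) × Finset (ℤ × ℤ) × Finset ((ℤ × ℤ) × Bool) =>
    |X ⟨x.1, x.2.1, x.2.2⟩|) (fun _ _ => abs_nonneg _)
    (show (ω.S ∩ R, ω.D ∩ R, ω.O ∩ R') ∈ R.powerset ×ˢ R.powerset ×ˢ R'.powerset by
      simp [Finset.inter_subset_right])

/-! ## 4. observables above the row -/

theorem scr142t_Up_loc {j : Fin 4} {X : RswCfg → ℝ} (h : ScrUp j X) : ScrLoc X := by
  obtain ⟨R, R', h, -⟩ := h
  exact ⟨R, R', h⟩

theorem scr142t_lev_add (j : Fin 4) (u v : ℤ × ℤ) : scrLev j (u + v) = scrLev j u + scrLev j v := by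
  simp only [scrLev, Prod.fst_add, Prod.snd_add]; ring

theorem scr142t_end_add (e : (ℤ × ℤ) × Bool) (a : ℤ × ℤ) : rswEnd (e.1 + a, e.2) = rswEnd e + a := by
  obtain ⟨v, b⟩ := e
  cases b <;> simp only [rswEnd] <;> ext <;> simp <;> ring

theorem scr142t_lev_nor (j : Fin 4) (k : ℤ) (hk : 0 ≤ k) : 0 ≤ scrLev j (k • scrNor j) := by
  fin_cases j <;> simp [scrLev, scrNor] <;> omega

theorem scr142t_Up_sh {j : Fin 4} {X : RswCfg → ℝ} (h : ScrUp j X) {a : ℤ × ℤ} (ha : 0 ≤ scrLev j a) :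
    ScrUp j (scrSh a X) := by
  obtain ⟨R, R', h, h1, h2⟩ := h
  refine ⟨_, _, scr142t_loc_sh a h, fun v hv => ?_, fun e he => ?_⟩
  · obtain ⟨u, hu, rfl⟩ := Finset.mem_image.1 hv
    rw [scr142t_lev_add]
    have := h1 u hu
    omega
  · obtain ⟨u, hu, rfl⟩ := Finset.mem_image.1 he
    rw [scr142t_end_add]
    simp only [scr142t_lev_add]
    have := h2 u hu
    omega

theorem scr142t_Up_op₂ (op : ℝ → ℝ → ℝ) {j : Fin 4} {X Y : RswCfg → ℝ} (hX : ScrUp j X) (hY : ScrUp j Y) :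
    ScrUp j (fun ω => op (X ω) (Y ω)) := by
  obtain ⟨R, R', h, h1, h2⟩ := hX
  obtain ⟨S, S', k, k1, k2⟩ := hY
  refine ⟨_, _, scr142t_loc_op₂ op h k, fun v hv => ?_, fun e he => ?_⟩
  · rcases Finset.mem_union.1 hv with hv | hv
    · exact h1 v hv
    · exact k1 v hv
  · rcases Finset.mem_union.1 he with he | he
    · exact h2 e he
    · exact k2 e he

theorem scr142t_Up_const (j : Fin 4) (c : ℝ) : ScrUp j (fun _ => c) :=
  ⟨∅, ∅, fun _ _ _ _ _ => rfl, fun _ h => absurd h (Finset.notMem_empty _), fun _ h => absurd h (Finset.notMem_empty _)⟩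

theorem scr142t_Up_add {j : Fin 4} {X Y : RswCfg → ℝ} (hX : ScrUp j X) (hY : ScrUp j Y) :
    ScrUp j (fun ω => X ω + Y ω) := scr142t_Up_op₂ (· + ·) hX hY

theorem scr142t_Up_smul {j : Fin 4} (c : ℝ) {X : RswCfg → ℝ} (hX : ScrUp j X) : ScrUp j (fun ω => c * X ω) :=
  scr142t_Up_op₂ (· * ·) (scr142t_Up_const j c) hX

theorem scr142t_Up_sum {ι : Type*} {j : Fin 4} (s : Finset ι) {X : ι → RswCfg → ℝ} (hX : ∀ i ∈ s, ScrUp j (X i)) :
    ScrUp j (fun ω => ∑ i ∈ s, X i ω) := by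
  classical
  induction s using Finset.induction_on with
  | empty => simpa using scr142t_Up_const j 0
  | insert a s ha ih =>
    simp only [Finset.sum_insert ha]
    exact scr142t_Up_add (hX a (Finset.mem_insert_self a s)) (ih fun i hi => hX i (Finset.mem_insert_of_mem hi))

/-! ## 5. the reflection form -/

/-- what the transfer needs of the plane law on local observables. -/
structure Scr142tPl (t : ℝ) : Prop where
  add : ∀ X Y : RswCfg → ℝ, ScrLoc X → ScrLoc Y → scrPl t (fun ω => X ω + Y ω) = scrPl t X + scrPl t Y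
  smul : ∀ (c : ℝ) (X : RswCfg → ℝ), ScrLoc X → scrPl t (fun ω => c * X ω) = c * scrPl t X
  bound : ∀ (X : RswCfg → ℝ) (K : ℝ), ScrLoc X → (∀ ω, |X ω| ≤ K) → |scrPl t X| ≤ K
  inv : ∀ (X : RswCfg → ℝ), ScrLoc X → ∀ g : ScrMapD, ((∃ a, g = scrTr a) ∨ ∃ j, g = scrRe j) →
    scrPl t (fun ω => X (scrAct g ω)) = scrPl t X
  rp : ∀ (j : Fin 4) (X : RswCfg → ℝ), ScrUp j X → 0 ≤ scrFm t j X X ∧ 0 ≤ scrFm t j X (scrSh (scrNor j) X)

section form

variable {t : ℝ} (hP : Scr142tPl t) (j : Fin 4)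
include hP

theorem scr142t_pl_zero : scrPl t (fun _ => 0) = 0 := by
  have := hP.smul 0 (fun _ => 0) (scr142t_Loc_const 0)
  simpa using this

theorem scr142t_pl_sum {ι : Type*} (s : Finset ι) {X : ι → RswCfg → ℝ} (hX : ∀ i ∈ s, ScrLoc (X i)) :
    scrPl t (fun ω => ∑ i ∈ s, X i ω) = ∑ i ∈ s, scrPl t (X i) := by
  classical
  induction s using Finset.induction_on with
  | empty => simpa using scr142t_pl_zero hP
  | insert a s ha ih =>
    simp only [Finset.sum_insert ha]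
    rw [hP.add _ _ (hX a (Finset.mem_insert_self a s))
      (scr142t_Loc_sum s fun i hi => hX i (Finset.mem_insert_of_mem hi)), ih fun i hi => hX i (Finset.mem_insert_of_mem hi)]

theorem scr142t_pl_sh (a : ℤ × ℤ) {X : RswCfg → ℝ} (hX : ScrLoc X) : scrPl t (scrSh a X) = scrPl t X :=
  hP.inv X hX (scrTr (-a)) (Or.inl ⟨_, rfl⟩)

theorem scr142t_pl_th {X : RswCfg → ℝ} (hX : ScrLoc X) : scrPl t (scrTh j X) = scrPl t X :=
  hP.inv X hX (scrRe j) (Or.inr ⟨_, rfl⟩)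

theorem scr142t_fm_shift {F G : RswCfg → ℝ} (hF : ScrLoc F) (hG : ScrLoc G) (a b : ℤ × ℤ) :
    scrFm t j (scrSh a F) (scrSh b G) = scrFm t j F (scrSh (b - scr142t_rho j a) G) := by
  unfold scrFm
  have h := scr142t_pl_sh hP (scr142t_rho j a) (X := fun ω => scrTh j F ω * scrSh (b - scr142t_rho j a) G ω)
    (scr142t_Loc_mul (scr142t_Loc_th j hF) (scr142t_Loc_sh _ hG))
  rw [← h]
  have e : scrSh (scr142t_rho j a) (fun ω => scrTh j F ω * scrSh (b - scr142t_rho j a) G ω)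
      = fun ω => scrSh (scr142t_rho j a) (scrTh j F) ω * scrSh (scr142t_rho j a) (scrSh (b - scr142t_rho j a) G) ω := rfl
  rw [e, scr142t_sh_sh, scr142t_th_sh, add_sub_cancel]

theorem scr142t_fm_symm {F G : RswCfg → ℝ} (hF : ScrLoc F) (hG : ScrLoc G) : scrFm t j F G = scrFm t j G F := by
  unfold scrFm
  have h := scr142t_pl_th hP j (X := fun ω => scrTh j F ω * G ω) (scr142t_Loc_mul (scr142t_Loc_th j hF) hG)
  rw [← h]
  have e : scrTh j (fun ω => scrTh j F ω * G ω) = fun ω => scrTh j (scrTh j F) ω * scrTh j G ω := rfl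
  rw [e, scr142t_th_th]
  congr 1
  funext ω
  ring

theorem scr142t_fm_add_right {F G G' : RswCfg → ℝ} (hF : ScrLoc F) (hG : ScrLoc G) (hG' : ScrLoc G') :
    scrFm t j F (fun ω => G ω + G' ω) = scrFm t j F G + scrFm t j F G' := by
  unfold scrFm
  rw [← hP.add _ _ (scr142t_Loc_mul (scr142t_Loc_th j hF) hG) (scr142t_Loc_mul (scr142t_Loc_th j hF) hG')]
  congr 1
  funext ω
  ring

theorem scr142t_fm_smul_right {F G : RswCfg → ℝ} (hF : ScrLoc F) (hG : ScrLoc G) (c : ℝ) :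
    scrFm t j F (fun ω => c * G ω) = c * scrFm t j F G := by
  unfold scrFm
  rw [← hP.smul _ _ (scr142t_Loc_mul (scr142t_Loc_th j hF) hG)]
  congr 1
  funext ω
  ring

theorem scr142t_fm_sum_right {ι : Type*} (s : Finset ι) {F : RswCfg → ℝ} {G : ι → RswCfg → ℝ} (hF : ScrLoc F)
    (hG : ∀ i ∈ s, ScrLoc (G i)) : scrFm t j F (fun ω => ∑ i ∈ s, G i ω) = ∑ i ∈ s, scrFm t j F (G i) := by
  unfold scrFm
  rw [← scr142t_pl_sum hP s fun i hi => scr142t_Loc_mul (scr142t_Loc_th j hF) (hG i hi)]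
  congr 1
  funext ω
  rw [Finset.mul_sum]

theorem scr142t_fm_sum_sum {ι : Type*} (s : Finset ι) {G G' : ι → RswCfg → ℝ} (hG : ∀ i ∈ s, ScrLoc (G i))
    (hG' : ∀ i ∈ s, ScrLoc (G' i)) :
    scrFm t j (fun ω => ∑ i ∈ s, G i ω) (fun ω => ∑ i ∈ s, G' i ω) = ∑ p ∈ s, ∑ q ∈ s, scrFm t j (G p) (G' q) := by
  have hS : ScrLoc (fun ω => ∑ i ∈ s, G i ω) := scr142t_Loc_sum s hG
  have hS' : ScrLoc (fun ω => ∑ i ∈ s, G' i ω) := scr142t_Loc_sum s hG'
  rw [scr142t_fm_symm hP j hS hS', scr142t_fm_sum_right hP j s hS' hG]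
  refine Finset.sum_congr rfl fun p hp => ?_
  rw [scr142t_fm_symm hP j hS' (hG p hp), scr142t_fm_sum_right hP j s (hG p hp) hG']

/-- **the moment sequence of the normal transfer is a Hausdorff sequence.** -/
theorem scr142t_haus {y : RswCfg → ℝ} (hu : ScrUp j y) :
    PinHs (fun k : ℕ => scrFm t j y (scrSh ((k : ℤ) • scrNor j) y)) := by
  have hy : ScrLoc y := scr142t_Up_loc hu
  have key : ∀ (p q : ℕ), scrFm t j (scrSh ((p : ℤ) • scrNor j) y) (scrSh ((q : ℤ) • scrNor j) y)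
      = scrFm t j y (scrSh (((p + q : ℕ) : ℤ) • scrNor j) y) := by
    intro p q
    rw [scr142t_fm_shift hP j hy hy, scr142t_rho_nor]
    congr 2
    push_cast
    rw [add_smul]
    abel
  have pos : ∀ (d : ℕ), (∀ Z : RswCfg → ℝ, ScrUp j Z → 0 ≤ scrFm t j Z (scrSh ((d : ℤ) • scrNor j) Z)) →
      ∀ (α : Type) (s : Finset α) (e : α → ℕ) (c : α → ℝ),
      0 ≤ ∑ p ∈ s, ∑ q ∈ s, c p * c q * scrFm t j y (scrSh (((e p + e q + d : ℕ) : ℤ) • scrNor j) y) := by
    intro d hd α s e c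
    have hup1 : ∀ i ∈ s, ScrUp j (fun ω => c i * scrSh ((e i : ℤ) • scrNor j) y ω) := fun i _ =>
      scr142t_Up_smul _ (scr142t_Up_sh hu (scr142t_lev_nor j _ (by positivity)))
    have hup : ScrUp j (fun ω => ∑ i ∈ s, c i * scrSh ((e i : ℤ) • scrNor j) y ω) := scr142t_Up_sum s hup1
    have h0 := hd _ hup
    have e1 : scrSh ((d : ℤ) • scrNor j) (fun ω => ∑ i ∈ s, c i * scrSh ((e i : ℤ) • scrNor j) y ω)
        = fun ω => ∑ i ∈ s, c i * scrSh (((e i + d : ℕ) : ℤ) • scrNor j) y ω := by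
      have : ∀ i, scrSh (((e i + d : ℕ) : ℤ) • scrNor j) y = scrSh ((d : ℤ) • scrNor j) (scrSh ((e i : ℤ) • scrNor j) y) := by
        intro i
        rw [scr142t_sh_sh]
        congr 1
        push_cast
        rw [add_smul]
        abel
      simp only [this]
      rfl
    rw [e1, scr142t_fm_sum_sum hP j s (fun i hi => scr142t_Up_loc (hup1 i hi))
      (fun i _ => scr142t_Loc_smul _ (scr142t_Loc_sh _ hy))] at h0
    refine h0.trans_eq (Finset.sum_congr rfl fun p _ => Finset.sum_congr rfl fun q _ => ?_)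
    rw [scr142t_fm_smul_right hP j (scr142t_Loc_smul _ (scr142t_Loc_sh _ hy)) (scr142t_Loc_sh _ hy),
      scr142t_fm_symm hP j (scr142t_Loc_smul _ (scr142t_Loc_sh _ hy)) (scr142t_Loc_sh _ hy),
      scr142t_fm_smul_right hP j (scr142t_Loc_sh _ hy) (scr142t_Loc_sh _ hy),
      scr142t_fm_symm hP j (scr142t_Loc_sh _ hy) (scr142t_Loc_sh _ hy), key]
    have : e p + (e q + d) = e p + e q + d := by ring
    rw [this]
    ring
  refine ⟨fun α s e c => ?_, fun α s e c => ?_, ?_⟩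
  · have := pos 0 (fun Z hZ => by
      simp only [Nat.cast_zero, zero_smul, scr142t_sh_zero]
      exact (hP.rp j Z hZ).1) α s e c
    simpa using this
  · exact pos 1 (fun Z hZ => by
      simp only [Nat.cast_one, one_smul]
      exact (hP.rp j Z hZ).2) α s e c
  · obtain ⟨K, hK0, hK⟩ := scr142t_Loc_bdd hy
    refine ⟨K * K, fun k => ?_⟩
    refine hP.bound _ _ (scr142t_Loc_mul (scr142t_Loc_th j hy) (scr142t_Loc_sh _ hy)) fun ω => ?_
    rw [abs_mul]
    exact mul_le_mul (hK _) (hK _) (abs_nonneg _) hK0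

/-- **(P3) the transfer representation**, from the record. -/
theorem scr142t_tr {a b : RswCfg → ℝ} (hua : ScrUp j a) (hub : ScrUp j b) (N : ℕ) :
    PinTr ((scrFm t j a a + scrFm t j b b) / 2) N
      (fun m => ((scrFm t j a (scrSh (((m + N : ℕ) : ℤ) • scrNor j) b) : ℝ) : ℂ)) := by
  have ha : ScrLoc a := scr142t_Up_loc hua
  have hb : ScrLoc b := scr142t_Up_loc hub
  have Hp := scr142t_haus hP j (scr142t_Up_add hua hub)
  have Hm := scr142t_haus hP j (scr142t_Up_add hua (scr142t_Up_smul (-1) hub))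
  have ex : ∀ (σ : ℝ) (v : ℤ × ℤ), scrFm t j (fun h => a h + σ * b h) (scrSh v (fun h => a h + σ * b h))
      = scrFm t j a (scrSh v a) + σ * scrFm t j a (scrSh v b) + σ * scrFm t j b (scrSh v a)
        + σ ^ 2 * scrFm t j b (scrSh v b) := by
    intro σ v
    have hσ : ScrLoc (fun h => σ * b h) := scr142t_Loc_smul σ hb
    have hs : ScrLoc (fun h => a h + σ * b h) := scr142t_Loc_add ha hσ
    have hav := scr142t_Loc_sh v ha
    have hbv := scr142t_Loc_sh v hb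
    have e1 : scrSh v (fun h => a h + σ * b h) = fun h => scrSh v a h + σ * scrSh v b h := rfl
    rw [e1, scr142t_fm_add_right hP j hs hav (scr142t_Loc_smul σ hbv), scr142t_fm_smul_right hP j hs hbv,
      scr142t_fm_symm hP j hs hav, scr142t_fm_symm hP j hs hbv,
      scr142t_fm_add_right hP j hav ha hσ, scr142t_fm_add_right hP j hbv ha hσ,
      scr142t_fm_smul_right hP j hav hb, scr142t_fm_smul_right hP j hbv hb,
      scr142t_fm_symm hP j hav ha, scr142t_fm_symm hP j hav hb, scr142t_fm_symm hP j hbv ha,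
      scr142t_fm_symm hP j hbv hb]
    ring
  have sy : ∀ k : ℤ, scrFm t j b (scrSh (k • scrNor j) a) = scrFm t j a (scrSh (k • scrNor j) b) := by
    intro k
    rw [scr142t_fm_symm hP j hb (scr142t_Loc_sh _ ha)]
    have := scr142t_fm_shift hP j ha hb (k • scrNor j) 0
    rw [scr142t_sh_zero, scr142t_rho_nor, zero_sub, neg_neg] at this
    exact this
  have h := pin_tr_of_haus Hp Hm N
    (M := fun m : ℕ => ((scrFm t j a (scrSh (((m + N : ℕ) : ℤ) • scrNor j) b) : ℝ) : ℂ)) (fun m => by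
    have e1 := ex 1 (((m + N : ℕ) : ℤ) • scrNor j)
    have e2 := ex (-1) (((m + N : ℕ) : ℤ) • scrNor j)
    simp only [one_mul] at e1
    have e3 : scrFm t j a (scrSh (((m + N : ℕ) : ℤ) • scrNor j) b)
        = (scrFm t j (fun h => a h + b h) (scrSh (((m + N : ℕ) : ℤ) • scrNor j) (fun h => a h + b h))
          - scrFm t j (fun h => a h + (-1) * b h) (scrSh (((m + N : ℕ) : ℤ) • scrNor j) (fun h => a h + (-1) * b h))) / 4 := by
      rw [e1, e2, sy]
      ring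
    exact congrArg Complex.ofReal e3)
  have e0 : (scrFm t j (fun h => a h + b h) (scrSh (((0 : ℕ) : ℤ) • scrNor j) (fun h => a h + b h))
      + scrFm t j (fun h => a h + (-1) * b h) (scrSh (((0 : ℕ) : ℤ) • scrNor j) (fun h => a h + (-1) * b h))) / 4
      = (scrFm t j a a + scrFm t j b b) / 2 := by
    have e1 := ex 1 (((0 : ℕ) : ℤ) • scrNor j)
    have e2 := ex (-1) (((0 : ℕ) : ℤ) • scrNor j)
    simp only [one_mul] at e1
    rw [e1, e2]
    simp only [Nat.cast_zero, zero_smul, scr142t_sh_zero]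
    ring
  rw [e0] at h
  exact h

end form

/-! ## 6. a box is a Jordan domain -/

/-- unit intervals tile an interval with integer ends. -/
theorem scr142t_tile (a : ℤ) (n : ℕ) (hn : 1 ≤ n) (x : ℝ) (hx : x ∈ Set.Icc ((a : ℝ) - n) ((a : ℝ) + n)) :
    ∃ f ∈ Finset.Ico (a - n) (a + n), x ∈ Set.Icc (1 * (f : ℝ)) (1 * ((f : ℝ) + 1)) := by
  refine ⟨min ⌊x⌋ (a + n - 1), ?_, ?_⟩
  · rw [Finset.mem_Ico]
    constructor
    · refine le_min ?_ (by omega)
      rw [Int.le_floor]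
      push_cast
      exact hx.1
    · have := min_le_right ⌊x⌋ (a + n - 1)
      omega
  · rw [one_mul, one_mul]
    constructor
    · have h1 : ((min ⌊x⌋ (a + n - 1) : ℤ) : ℝ) ≤ (⌊x⌋ : ℝ) := by exact_mod_cast min_le_left _ _
      exact h1.trans (Int.floor_le x)
    · rcases le_total ⌊x⌋ (a + n - 1) with h | h
      · rw [min_eq_left h]
        exact (Int.lt_floor_add_one x).le
      · rw [min_eq_right h]
        push_cast
        have := hx.2
        linarith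

/-- the region of a box is the open ball of the sup norm. -/
theorem scr142t_box_region (z : ℤ × ℤ) (n : ℕ) (hn : 1 ≤ n) :
    faceRegionSq 1 (rswBox z n) = Metric.ball (((z.1 : ℝ), (z.2 : ℝ)) : ℝ × ℝ) n := by
  have hn0 : (n : ℝ) ≠ 0 := by positivity
  have e : (⋃ f ∈ rswBox z n, Set.Icc ((1 : ℝ) * f.1) (1 * (f.1 + 1)) ×ˢ Set.Icc ((1 : ℝ) * f.2) (1 * (f.2 + 1)))
      = Metric.closedBall (((z.1 : ℝ), (z.2 : ℝ)) : ℝ × ℝ) n := by
    rw [← closedBall_prod_same, Real.closedBall_eq_Icc, Real.closedBall_eq_Icc]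
    ext p
    simp only [Set.mem_iUnion, Set.mem_prod, exists_prop]
    constructor
    · rintro ⟨f, hf, h1, h2⟩
      unfold rswBox at hf
      rw [Finset.mem_product, Finset.mem_Ico, Finset.mem_Ico] at hf
      obtain ⟨⟨a1, a2⟩, b1, b2⟩ := hf
      rw [one_mul, one_mul] at h1 h2
      have a1' : (z.1 : ℝ) - n ≤ f.1 := by exact_mod_cast a1
      have a2' : (f.1 : ℝ) + 1 ≤ z.1 + n := by exact_mod_cast a2
      have b1' : (z.2 : ℝ) - n ≤ f.2 := by exact_mod_cast b1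
      have b2' : (f.2 : ℝ) + 1 ≤ z.2 + n := by exact_mod_cast b2
      exact ⟨⟨a1'.trans h1.1, h1.2.trans a2'⟩, ⟨b1'.trans h2.1, h2.2.trans b2'⟩⟩
    · rintro ⟨h1, h2⟩
      obtain ⟨f1, hf1, g1⟩ := scr142t_tile z.1 n hn p.1 h1
      obtain ⟨f2, hf2, g2⟩ := scr142t_tile z.2 n hn p.2 h2
      exact ⟨(f1, f2), by unfold rswBox; exact Finset.mem_product.2 ⟨hf1, hf2⟩, g1, g2⟩
  unfold faceRegionSq
  rw [e, interior_closedBall _ hn0]

/-- the radial map of the circle onto the unit sphere of the sup norm. -/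
noncomputable def scr142t_rad (w : Circle) : ℝ × ℝ := ‖(((w : ℂ).re, (w : ℂ).im) : ℝ × ℝ)‖⁻¹ • ((w : ℂ).re, (w : ℂ).im)

theorem scr142t_pair_ne (w : Circle) : (((w : ℂ).re, (w : ℂ).im) : ℝ × ℝ) ≠ 0 := by
  intro h
  have h1 : (w : ℂ).re = 0 := congrArg Prod.fst h
  have h2 : (w : ℂ).im = 0 := congrArg Prod.snd h
  have : (w : ℂ) = 0 := Complex.ext h1 h2
  exact w.coe_ne_zero this

theorem scr142t_rad_cont : Continuous scr142t_rad := by
  unfold scr142t_rad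
  have h1 : Continuous fun w : Circle => (((w : ℂ).re, (w : ℂ).im) : ℝ × ℝ) :=
    (Complex.continuous_re.comp continuous_subtype_val).prodMk (Complex.continuous_im.comp continuous_subtype_val)
  exact (h1.norm.inv₀ fun w => norm_ne_zero_iff.2 (scr142t_pair_ne w)).smul h1

theorem scr142t_rad_norm (w : Circle) : ‖scr142t_rad w‖ = 1 := by
  unfold scr142t_rad
  rw [norm_smul, norm_inv, norm_norm, inv_mul_cancel₀ (norm_ne_zero_iff.2 (scr142t_pair_ne w))]

theorem scr142t_rad_inj : Function.Injective scr142t_rad := by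
  intro w w' h
  unfold scr142t_rad at h
  set a := ‖(((w : ℂ).re, (w : ℂ).im) : ℝ × ℝ)‖ with ha
  set a' := ‖(((w' : ℂ).re, (w' : ℂ).im) : ℝ × ℝ)‖ with ha'
  have hapos : 0 < a := norm_pos_iff.2 (scr142t_pair_ne w)
  have hapos' : 0 < a' := norm_pos_iff.2 (scr142t_pair_ne w')
  have h1 : a⁻¹ * (w : ℂ).re = a'⁻¹ * (w' : ℂ).re := congrArg Prod.fst h
  have h2 : a⁻¹ * (w : ℂ).im = a'⁻¹ * (w' : ℂ).im := congrArg Prod.snd h
  have n1 : (w : ℂ).re ^ 2 + (w : ℂ).im ^ 2 = 1 := by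
    have := Complex.sq_norm_sub_sq_re (w : ℂ)
    have h3 : ‖(w : ℂ)‖ = 1 := w.norm_coe
    rw [h3] at this; linarith
  have n2 : (w' : ℂ).re ^ 2 + (w' : ℂ).im ^ 2 = 1 := by
    have := Complex.sq_norm_sub_sq_re (w' : ℂ)
    have h3 : ‖(w' : ℂ)‖ = 1 := w'.norm_coe
    rw [h3] at this; linarith
  have h3 : (a⁻¹) ^ 2 = (a'⁻¹) ^ 2 := by
    have e1 : (a⁻¹) ^ 2 = (a⁻¹ * (w : ℂ).re) ^ 2 + (a⁻¹ * (w : ℂ).im) ^ 2 := by
      rw [mul_pow, mul_pow, ← mul_add, n1, mul_one]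
    have e2 : (a'⁻¹) ^ 2 = (a'⁻¹ * (w' : ℂ).re) ^ 2 + (a'⁻¹ * (w' : ℂ).im) ^ 2 := by
      rw [mul_pow, mul_pow, ← mul_add, n2, mul_one]
    rw [e1, e2, h1, h2]
  have h4 : a⁻¹ = a'⁻¹ := by
    have p1 : 0 < a⁻¹ := inv_pos.2 hapos
    have p2 : 0 < a'⁻¹ := inv_pos.2 hapos'
    exact (pow_left_inj₀ p1.le p2.le two_ne_zero).1 h3
  rw [h4] at h1 h2
  have hne : a'⁻¹ ≠ 0 := (inv_pos.2 hapos').ne'
  exact Circle.ext (Complex.ext (mul_left_cancel₀ hne h1) (mul_left_cancel₀ hne h2))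

theorem scr142t_rad_surj (v : ℝ × ℝ) (hv : ‖v‖ = 1) : ∃ w : Circle, scr142t_rad w = v := by
  have hv0 : v ≠ 0 := by
    intro h; rw [h, norm_zero] at hv; exact zero_ne_one hv
  set c : ℂ := ⟨v.1, v.2⟩ with hc
  have hc0 : c ≠ 0 := by
    intro h
    apply hv0
    have h1 : v.1 = 0 := congrArg Complex.re h
    have h2 : v.2 = 0 := congrArg Complex.im h
    exact Prod.ext h1 h2
  have hn : 0 < ‖c‖ := norm_pos_iff.2 hc0
  have hmem : ‖c / (‖c‖ : ℂ)‖ = 1 := by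
    rw [norm_div, Complex.norm_real, norm_norm, div_self hn.ne']
  refine ⟨⟨c / (‖c‖ : ℂ), mem_sphere_zero_iff_norm.2 hmem⟩, ?_⟩
  have e : ((((⟨c / (‖c‖ : ℂ), mem_sphere_zero_iff_norm.2 hmem⟩ : Circle) : ℂ).re,
      ((⟨c / (‖c‖ : ℂ), mem_sphere_zero_iff_norm.2 hmem⟩ : Circle) : ℂ).im) : ℝ × ℝ) = ‖c‖⁻¹ • v := by
    have h1 : (c / (‖c‖ : ℂ)).re = ‖c‖⁻¹ * v.1 := by
      rw [Complex.div_ofReal_re]; rw [div_eq_inv_mul]
    have h2 : (c / (‖c‖ : ℂ)).im = ‖c‖⁻¹ * v.2 := by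
      rw [Complex.div_ofReal_im]; rw [div_eq_inv_mul]
    exact Prod.ext h1 h2
  unfold scr142t_rad
  rw [e, norm_smul, hv, mul_one, norm_inv, norm_norm, inv_inv, smul_smul, mul_inv_cancel₀ hn.ne', one_smul]

/-- **a box is a Jordan domain.** -/
theorem scr142t_box_jordan (z : ℤ × ℤ) (n : ℕ) (hn : 1 ≤ n) : RswJordan (rswBox z n) := by
  have hn0 : (n : ℝ) ≠ 0 := by positivity
  have hnpos : (0 : ℝ) < n := by positivity
  refine ⟨fun w => (((z.1 : ℝ), (z.2 : ℝ)) : ℝ × ℝ) + (n : ℝ) • scr142t_rad w, ?_, ?_, ?_⟩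
  · have hc := scr142t_rad_cont
    fun_prop
  · intro w w' h
    have h1 : (n : ℝ) • scr142t_rad w = (n : ℝ) • scr142t_rad w' := add_left_cancel h
    exact scr142t_rad_inj (smul_right_injective _ hn0 h1)
  · rw [scr142t_box_region z n hn, frontier_ball _ hn0]
    ext p
    simp only [Set.mem_range, mem_sphere_iff_norm]
    constructor
    · rintro ⟨w, rfl⟩
      rw [add_sub_cancel_left, norm_smul, scr142t_rad_norm, mul_one, Real.norm_of_nonneg hnpos.le]
    · intro hp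
      obtain ⟨w, hw⟩ := scr142t_rad_surj ((n : ℝ)⁻¹ • (p - (((z.1 : ℝ), (z.2 : ℝ)) : ℝ × ℝ))) (by
        rw [norm_smul, hp, norm_inv, Real.norm_of_nonneg hnpos.le, inv_mul_cancel₀ hn0])
      refine ⟨w, ?_⟩
      rw [hw, smul_smul, mul_inv_cancel₀ hn0, one_smul, add_sub_cancel]

theorem scr142t_box_mono (z : ℤ × ℤ) {m n : ℕ} (h : m ≤ n) : rswBox z m ⊆ rswBox z n := by
  unfold rswBox
  have h' : (m : ℤ) ≤ n := by exact_mod_cast h
  exact Finset.product_subset_product (Finset.Ico_subset_Ico (by omega) (by omega))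
    (Finset.Ico_subset_Ico (by omega) (by omega))

/-! ## 7. the plane law on local observables -/

/-- the boxes converge. -/
theorem scr142t_pl_tendsto {t : ℝ} (ht1 : 1 / 2 ≤ t) (ht2 : t < 1) {X : RswCfg → ℝ} (hX : ScrLoc X) :
    Tendsto (fun n : ℕ => rswE t (rswBox 0 n) true X) atTop (𝓝 (scrPl t X)) := by
  obtain ⟨R, R', h⟩ := hX
  obtain ⟨ℓ, hℓ⟩ := exit_rsw_plane t ht1 ht2 R R' X h
  have hl : Tendsto (fun n : ℕ => rswE t (rswBox 0 n) true X) atTop (𝓝 ℓ) := by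
    rw [Metric.tendsto_atTop]
    intro ε hε
    obtain ⟨n0, hn0⟩ := hℓ ε hε
    refine ⟨max n0 1, fun n hn => ?_⟩
    rw [Real.dist_eq]
    exact hn0 _ true (scr142t_box_jordan 0 n (le_of_max_le_right hn)) (scr142t_box_mono 0 (le_of_max_le_left hn))
  have : scrPl t X = ℓ := hl.limUnder_eq
  rw [this]
  exact hl

theorem scr142t_pl_add {t : ℝ} (ht1 : 1 / 2 ≤ t) (ht2 : t < 1) {X Y : RswCfg → ℝ} (hX : ScrLoc X) (hY : ScrLoc Y)
    (hXY : ScrLoc fun ω => X ω + Y ω) :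
    scrPl t (fun ω => X ω + Y ω) = scrPl t X + scrPl t Y := by
  have h1 := (scr142t_pl_tendsto ht1 ht2 hX).add (scr142t_pl_tendsto ht1 ht2 hY)
  have h2 := scr142t_pl_tendsto ht1 ht2 hXY
  simp only [rsb_E_add] at h2
  exact tendsto_nhds_unique h2 h1

theorem scr142t_pl_smul {t : ℝ} (ht1 : 1 / 2 ≤ t) (ht2 : t < 1) (c : ℝ) {X : RswCfg → ℝ} (hX : ScrLoc X)
    (hcX : ScrLoc fun ω => c * X ω) :
    scrPl t (fun ω => c * X ω) = c * scrPl t X := by
  have h1 := (scr142t_pl_tendsto ht1 ht2 hX).const_mul c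
  have h2 := scr142t_pl_tendsto ht1 ht2 hcX
  simp only [rsb_E_const_mul] at h2
  exact tendsto_nhds_unique h2 h1

theorem scr142t_pl_bound {t : ℝ} (ht1 : 1 / 2 ≤ t) (ht2 : t < 1) {X : RswCfg → ℝ} {K : ℝ} (hX : ScrLoc X)
    (hK : ∀ ω, |X ω| ≤ K) : |scrPl t X| ≤ K := by
  have h1 := (scr142t_pl_tendsto ht1 ht2 hX).abs
  refine le_of_tendsto h1 (Eventually.of_forall fun n => ?_)
  exact rsb_abs_E_le_of_le (by linarith) ht2.le fun ω _ _ => hK ω

theorem scr142t_pl_nonneg {t : ℝ} (ht1 : 1 / 2 ≤ t) (ht2 : t < 1) {X : RswCfg → ℝ} (hX : ScrLoc X)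
    (h0 : ∀ ω, 0 ≤ X ω) : 0 ≤ scrPl t X := by
  refine ge_of_tendsto (scr142t_pl_tendsto ht1 ht2 hX) (Eventually.of_forall fun n => ?_)
  exact rsb_E_nonneg (by linarith) ht2.le fun ω _ _ => h0 ω

theorem scr142t_pl_const {t : ℝ} (ht1 : 1 / 2 ≤ t) (ht2 : t < 1) (c : ℝ) : scrPl t (fun _ => c) = c := by
  have h := scr142t_pl_tendsto ht1 ht2 (X := fun _ => c) ⟨∅, ∅, fun _ _ _ _ _ => rfl⟩
  simp only [rsb_E_const (show (0 : ℝ) < t by linarith) ht2.le] at h
  exact tendsto_nhds_unique h tendsto_const_nhds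

/-! ## 8. (P3) verbatim -/

/-- the record, from the leaves (P1') `scr_cut_inv`, (P2) `scr_cut_rp` (hypotheses, verbatim after `t ht1 ht2`) and `exit_rsw_plane` of 122. -/
theorem scr142t_record (t : ℝ) (ht1 : 1 / 2 ≤ t) (ht2 : t < 1)
    (hinv : ∀ (X : RswCfg → ℝ) (_ : ScrLoc X) (g : ScrMapD) (_ : (∃ a, g = scrTr a) ∨ ∃ j, g = scrRe j),
      scrPl t (fun ω => X (scrAct g ω)) = scrPl t X)
    (hrp : ∀ (j : Fin 4) (X : RswCfg → ℝ) (_ : ScrUp j X), 0 ≤ scrFm t j X X ∧ 0 ≤ scrFm t j X (scrSh (scrNor j) X)) :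
    Scr142tPl t where
  add := fun _ _ hX hY => scr142t_pl_add ht1 ht2 hX hY (scr142t_Loc_add hX hY)
  smul := fun c _ hX => scr142t_pl_smul ht1 ht2 c hX (scr142t_Loc_smul c hX)
  bound := fun _ _ hX hK => scr142t_pl_bound ht1 ht2 hX hK
  inv := fun X hX g hg => hinv X hX g hg
  rp := fun j X hX => hrp j X hX

/-- **(P3) = the statement of `scr_cut_tr`, verbatim**, with the two lower leaves as hypotheses.
Wiring in `Cut229`: `scr142t_cut_tr t ht1 ht2 (scr_cut_inv t ht1 ht2) (scr_cut_rp t ht1 ht2) j A B hA hB N`. -/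
theorem scr142t_cut_tr (t : ℝ) (ht1 : 1 / 2 ≤ t) (ht2 : t < 1)
    (hinv : ∀ (X : RswCfg → ℝ) (_ : ScrLoc X) (g : ScrMapD) (_ : (∃ a, g = scrTr a) ∨ ∃ j, g = scrRe j),
      scrPl t (fun ω => X (scrAct g ω)) = scrPl t X)
    (hrp : ∀ (j : Fin 4) (X : RswCfg → ℝ) (_ : ScrUp j X), 0 ≤ scrFm t j X X ∧ 0 ≤ scrFm t j X (scrSh (scrNor j) X))
    (j : Fin 4) (A B : RswCfg → ℝ) (hA : ScrUp j A) (hB : ScrUp j B)
    (N : ℕ) :
    PinTr ((scrFm t j A A + scrFm t j B B) / 2) N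
      (fun m => ((scrFm t j A (scrSh (((m + N : ℕ) : ℤ) • scrNor j) B) : ℝ) : ℂ)) :=
  scr142t_tr (scr142t_record t ht1 ht2 hinv hrp) j hA hB N

end Claimed.Agent.R292
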