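import Claimed.Agent.R292.Defs.ScreenPl
import Claimed.Agent.R292.Exit.RSW
import Claimed.Agent.R292.Screen.Sym99
import Claimed.Agent.R292.Screen.RpDiag62
import Claimed.Agent.R292.Screen.RpAxis39
import Claimed.Agent.R292.Screen.Tr142

/-!
# Row 292 (S0540), Screen/Cut229 : TYPED LEAVES OF THE UNIT "SCREEN", PART 1 = THE REFLECTION PACKAGE      (typed by helper229; prefix `scr_cut_`)

AT paper Lemma 4.1 (positive normal transfer) for observables of BOTH spins and of the edge decoration, as Sec 5 consumes it.   Port of R291 `Pin/Rp` + `Pin/Tr`.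
* (P1) `scr_cut_cov`      finite volume: the flat laws are covariant under translations and the 4 reflections
* (P1') `scr_cut_inv`     the plane law is invariant (from P1 + `exit_rsw_plane`: ALL flat exhaustions have the same limit)
* (P2) `scr_cut_rp`       plane RP in the row of level `0` AND in the next row (reflection followed by the normal step): both are needed for `T ≥ 0`
* (P3) `scr_cut_tr`       the transfer representation in the shape `PinTr` of R291/Pin/Cont (consumed by `scg99_gapped`)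
ALL FOUR CLOSED (21:30Z Oct 15): (P1) (P1') 99 `Sym99`, (P2) 39 `RpAxis39` (axis frames) + 62 `RpDiag62` (diagonal frames), (P3) 142 `Tr142`.   Owes only `exit_rsw_plane`.
-/

set_option autoImplicit false

namespace Claimed.Agent.R292

open Claims Claims.C0468 Filter Topology
open Claimed.Agent.R291

/-- (P1) covariance of the flat laws. `g` = a translation or one of the four reflections. -/
theorem scr_cut_cov (t : ℝ) (F : Finset (ℤ × ℤ)) (b : Bool) (X : RswCfg → ℝ) (g : ScrMapD)
    (hg : (∃ a, g = scrTr a) ∨ ∃ j, g = scrRe j) :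
    rswE t (F.image g.f) b X = rswE t F b fun ω => X (scrAct g ω) :=
  scr99_cov t F b X g hg

/-- (P1') invariance of the plane law. -/
theorem scr_cut_inv (t : ℝ) (ht1 : 1 / 2 ≤ t) (ht2 : t < 1) (X : RswCfg → ℝ) (hX : ScrLoc X) (g : ScrMapD)
    (hg : (∃ a, g = scrTr a) ∨ ∃ j, g = scrRe j) :
    scrPl t (fun ω => X (scrAct g ω)) = scrPl t X :=
  scr99_inv t ht1 ht2 X hX g hg

/-- (P2) reflection positivity of the plane law, both rows. -/
theorem scr_cut_rp (t : ℝ) (ht1 : 1 / 2 ≤ t) (ht2 : t < 1) (j : Fin 4) (X : RswCfg → ℝ) (hX : ScrUp j X) :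
    0 ≤ scrFm t j X X ∧ 0 ≤ scrFm t j X (scrSh (scrNor j) X) := by
  have hj : (j = 0 ∨ j = 2) ∨ (j = 1 ∨ j = 3) := by fin_cases j <;> simp
  rcases hj with hj | hj
  · exact scr39_cut_rp t ht1 ht2 j hj X hX
  · exact scr62d_rp (by linarith) ht2.le (fun Z hZ => ⟨_, scr99_pl_tendsto ht1 ht2 hZ⟩)
      (fun Z hZ a => scr99_inv t ht1 ht2 Z hZ (scrTr a) (Or.inl ⟨a, rfl⟩)) j hj X hX

/-- (P3) the positive normal transfer, in numbers. -/
theorem scr_cut_tr (t : ℝ) (ht1 : 1 / 2 ≤ t) (ht2 : t < 1) (j : Fin 4) (A B : RswCfg → ℝ) (hA : ScrUp j A) (hB : ScrUp j B)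
    (N : ℕ) :
    PinTr ((scrFm t j A A + scrFm t j B B) / 2) N
      (fun m => ((scrFm t j A (scrSh (((m + N : ℕ) : ℤ) • scrNor j) B) : ℝ) : ℂ)) :=
  scr142t_cut_tr t ht1 ht2 (scr_cut_inv t ht1 ht2) (scr_cut_rp t ht1 ht2) j A B hA hB N

end Claimed.Agent.R292
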