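import Claimed.Agent.R292.Rsw.Cut91
import Claimed.Agent.R292.Rsw.Expl107
import Claimed.Agent.R292.Defs.ScreenSep

/-!
# Row 292 (S0540), Screen/MixCut199 : EXACT SEPARATION ACROSS A MIXED CUT      (pen helper199, unit SCREEN; prefix `scx199_`, defs `scx199*`, `Scx199*`)      0 sorry

TEX 05-screening, lem:screen-bridge-coupling, last paragraph: "Along the arms and bridges no `d` observation is needed: the local factor there is `t 1[s_i = s_j]`, independent of the
transverse colours.  Along a remaining core edge all its `s, W` data and the two incident `d` values are fixed.  Every local factor crossing the cycle is consequently either fixed or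
independent of the transverse variables.  The Gibbs weight factors into an inside weight and an outside weight after these observations.  This proves conditional independence."

Vocabulary of `Rsw/Cut91` (`rskCore`, `rskIn`, `rskOut`, `RskInside`, `RskOutside`, `RskBd`); `F'` = the faces inside the separating cycle; NO topology: the cycle is the polygon of `F'`.
* `scx199Mix F' ω ω'`      the strict inside of `ω` (inner corners, faces, interior edges of `F'`), the rest of `ω'`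
* `Scx199Agree F' ω ω'`    the two configurations carry the same separator data: `s` on the rim of `F'`, `W` on the polygon edges, `d` on both faces of the polygon edges which are NOT open
* `scx199_wt_mix`          `w (Mix ω ω') = A ω * B ω'`, `w ω = A ω * B ω`;   **`scx199_wt_swap`**  `w (Mix ω ω') w (Mix ω' ω) = w ω w ω'`
* `Scx199Sep F' E`         an event all of whose members agree on the separator and which is stable under mixing (e.g. "separator data `= y`" ∩ inside event ∩ outside event)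
* **`scx199_four`**        `Σ(1_E X G) Σ(1_E X' G') = Σ(1_E X G') Σ(1_E X' G)` for `X X'` inside, `G G'` outside
* **`scx199_indep`**       `E(1_E X G) P(E) = E(1_E X) E(1_E G)`: the hypothesis `hci` of `scr142_ci_step`
* `scx199Data`, `scx199_sep_data`   the concrete event "separator data of `ω` = separator data of `π`"; `scx199_sep_inter` intersections with inside / outside events
-/

set_option autoImplicit false

namespace Claimed.Agent.R292

open Claims Claims.C0468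

/-! ### mixing -/

/-- the strict inside of `ω`, the rest of `ω'` -/
noncomputable def scx199Mix (F' : Finset (ℤ × ℤ)) (ω ω' : RswCfg) : RswCfg :=
  ⟨(ω.S ∩ rskCore F') ∪ (ω'.S \ rskCore F'), (ω.D ∩ F') ∪ (ω'.D \ F'), (ω.O ∩ rswInt F') ∪ (ω'.O \ rswInt F')⟩

section mem

variable {F' : Finset (ℤ × ℤ)} {ω ω' : RswCfg}

theorem scx199_S_in {v : ℤ × ℤ} (hv : v ∈ rskCore F') : v ∈ (scx199Mix F' ω ω').S ↔ v ∈ ω.S := by
  simp only [scx199Mix, Finset.mem_union, Finset.mem_inter, Finset.mem_sdiff]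
  tauto

theorem scx199_S_out {v : ℤ × ℤ} (hv : v ∉ rskCore F') : v ∈ (scx199Mix F' ω ω').S ↔ v ∈ ω'.S := by
  simp only [scx199Mix, Finset.mem_union, Finset.mem_inter, Finset.mem_sdiff]
  tauto

theorem scx199_D_in {f : ℤ × ℤ} (hf : f ∈ F') : f ∈ (scx199Mix F' ω ω').D ↔ f ∈ ω.D := by
  simp only [scx199Mix, Finset.mem_union, Finset.mem_inter, Finset.mem_sdiff]
  tauto

theorem scx199_D_out {f : ℤ × ℤ} (hf : f ∉ F') : f ∈ (scx199Mix F' ω ω').D ↔ f ∈ ω'.D := by
  simp only [scx199Mix, Finset.mem_union, Finset.mem_inter, Finset.mem_sdiff]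
  tauto

theorem scx199_O_in {e : (ℤ × ℤ) × Bool} (he : e ∈ rswInt F') : e ∈ (scx199Mix F' ω ω').O ↔ e ∈ ω.O := by
  simp only [scx199Mix, Finset.mem_union, Finset.mem_inter, Finset.mem_sdiff]
  tauto

theorem scx199_O_out {e : (ℤ × ℤ) × Bool} (he : e ∉ rswInt F') : e ∈ (scx199Mix F' ω ω').O ↔ e ∈ ω'.O := by
  simp only [scx199Mix, Finset.mem_union, Finset.mem_inter, Finset.mem_sdiff]
  tauto

end mem

/-- mixing twice gives back the first configuration -/
theorem scx199_mix_mix (F' : Finset (ℤ × ℤ)) (ω ω' : RswCfg) :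
    scx199Mix F' (scx199Mix F' ω ω') (scx199Mix F' ω' ω) = ω := by
  refine rsx_cfg_ext ?_ ?_ ?_
  · ext v
    by_cases hv : v ∈ rskCore F'
    · rw [scx199_S_in hv, scx199_S_in hv]
    · rw [scx199_S_out hv, scx199_S_out hv]
  · ext f
    by_cases hf : f ∈ F'
    · rw [scx199_D_in hf, scx199_D_in hf]
    · rw [scx199_D_out hf, scx199_D_out hf]
  · ext e
    by_cases he : e ∈ rswInt F'
    · rw [scx199_O_in he, scx199_O_in he]
    · rw [scx199_O_out he, scx199_O_out he]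

theorem scx199_mix_self (F' : Finset (ℤ × ℤ)) (ω : RswCfg) : scx199Mix F' ω ω = ω := by
  refine rsx_cfg_ext ?_ ?_ ?_
  · ext v
    by_cases hv : v ∈ rskCore F'
    · rw [scx199_S_in hv]
    · rw [scx199_S_out hv]
  · ext f
    by_cases hf : f ∈ F'
    · rw [scx199_D_in hf]
    · rw [scx199_D_out hf]
  · ext e
    by_cases he : e ∈ rswInt F'
    · rw [scx199_O_in he]
    · rw [scx199_O_out he]

theorem scx199_mix_mem {F F' : Finset (ℤ × ℤ)} {ω ω' : RswCfg} (h : ω ∈ rsxCfgs F) (h' : ω' ∈ rsxCfgs F) :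
    scx199Mix F' ω ω' ∈ rsxCfgs F := by
  rw [rsx_mem_cfgs] at h h' ⊢
  refine ⟨fun v hv => ?_, fun f hf => ?_, fun e he => ?_⟩
  · by_cases hc : v ∈ rskCore F'
    · exact h.1 ((scx199_S_in hc).1 hv)
    · exact h'.1 ((scx199_S_out hc).1 hv)
  · by_cases hc : f ∈ F'
    · exact h.2.1 ((scx199_D_in hc).1 hf)
    · exact h'.2.1 ((scx199_D_out hc).1 hf)
  · by_cases hc : e ∈ rswInt F'
    · exact h.2.2 ((scx199_O_in hc).1 he)
    · exact h'.2.2 ((scx199_O_out hc).1 he)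

/-- the outside of a mixture is the outside of the second configuration -/
theorem scx199_out_mix (F' : Finset (ℤ × ℤ)) (ω ω' : RswCfg) : rskOut F' (scx199Mix F' ω ω') = rskOut F' ω' := by
  refine rsx_cfg_ext ?_ ?_ ?_
  · ext v
    simp only [rskOut, Finset.mem_sdiff]
    by_cases hv : v ∈ rskCore F'
    · simp [hv]
    · rw [scx199_S_out hv]
  · ext f
    simp only [rskOut, Finset.mem_sdiff]
    by_cases hf : f ∈ F'
    · simp [hf]
    · rw [scx199_D_out hf]
  · ext e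
    simp only [rskOut, Finset.mem_sdiff]
    by_cases he : e ∈ rswInt F'
    · simp [he]
    · rw [scx199_O_out he]

/-! ### agreement on the separator -/

/-- the same separator data -/
structure Scx199Agree (F' : Finset (ℤ × ℤ)) (ω ω' : RswCfg) : Prop where
  rim : ∀ v ∈ cornersOf F', v ∉ rskCore F' → (v ∈ ω.S ↔ v ∈ ω'.S)
  edge : ∀ e, RskBd F' e → (e ∈ ω.O ↔ e ∈ ω'.O)
  col : ∀ e, RskBd F' e → e ∉ ω.O → (e.1 ∈ ω.D ↔ e.1 ∈ ω'.D) ∧ (rswCo e ∈ ω.D ↔ rswCo e ∈ ω'.D)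

theorem scx199_agree_refl (F' : Finset (ℤ × ℤ)) (ω : RswCfg) : Scx199Agree F' ω ω :=
  ⟨fun _ _ _ => Iff.rfl, fun _ _ => Iff.rfl, fun _ _ _ => ⟨Iff.rfl, Iff.rfl⟩⟩

theorem scx199_agree_symm {F' : Finset (ℤ × ℤ)} {ω ω' : RswCfg} (h : Scx199Agree F' ω ω') : Scx199Agree F' ω' ω :=
  ⟨fun v hv hc => (h.rim v hv hc).symm, fun e he => (h.edge e he).symm, fun e he hO =>
    have := h.col e he (fun hO' => hO ((h.edge e he).1 hO'))
    ⟨this.1.symm, this.2.symm⟩⟩

/-- the inside (rim included) of a mixture is the inside of the first configuration -/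
theorem scx199_in_mix {F' : Finset (ℤ × ℤ)} {ω ω' : RswCfg} (h : Scx199Agree F' ω ω') :
    rskIn F' (scx199Mix F' ω ω') = rskIn F' ω := by
  refine rsx_cfg_ext ?_ ?_ ?_
  · ext v
    simp only [rskIn, Finset.mem_inter]
    by_cases hv : v ∈ rskCore F'
    · rw [scx199_S_in hv]
    · rw [scx199_S_out hv]
      constructor
      · rintro ⟨h1, h2⟩; exact ⟨(h.rim v h2 hv).2 h1, h2⟩
      · rintro ⟨h1, h2⟩; exact ⟨(h.rim v h2 hv).1 h1, h2⟩
  · ext f
    simp only [rskIn, Finset.mem_inter]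
    by_cases hf : f ∈ F'
    · rw [scx199_D_in hf]
    · simp [hf]
  · ext e
    simp only [rskIn, Finset.mem_inter]
    by_cases he : e ∈ rswInt F'
    · rw [scx199_O_in he]
    · simp [he]

/-! ### the factor of one edge -/

theorem scx199_S_rim {F' : Finset (ℤ × ℤ)} {ω ω' : RswCfg} (h : Scx199Agree F' ω ω') {v : ℤ × ℤ} (hv : v ∈ cornersOf F') :
    v ∈ (scx199Mix F' ω ω').S ↔ v ∈ ω.S := by
  by_cases hc : v ∈ rskCore F'
  · exact scx199_S_in hc
  · rw [scx199_S_out hc]; exact (h.rim v hv hc).symm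

theorem scx199_fac_in (t : ℝ) {F' : Finset (ℤ × ℤ)} {ω ω' : RswCfg} (h : Scx199Agree F' ω ω') {e : (ℤ × ℤ) × Bool}
    (he : e ∈ rswInt F') : rswFac t (scx199Mix F' ω ω') e = rswFac t ω e := by
  have h2 := rsk_mem_int.1 he
  exact rsk_fac_congr t (scx199_O_in he) (scx199_S_rim h (rsk_int_fst he)) (scx199_S_rim h (rsk_int_end he))
    (scx199_D_in h2.1) (scx199_D_in h2.2)

theorem scx199_fac_out (t : ℝ) {F' : Finset (ℤ × ℤ)} {ω ω' : RswCfg} (h : Scx199Agree F' ω ω') {e : (ℤ × ℤ) × Bool}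
    (he : e ∉ rswInt F') : rswFac t (scx199Mix F' ω ω') e = rswFac t ω' e := by
  have h1 : e.1 ∈ (scx199Mix F' ω ω').S ↔ e.1 ∈ ω'.S := scx199_S_out fun hc => he (rsk_fst_core hc)
  have h2 : rswEnd e ∈ (scx199Mix F' ω ω').S ↔ rswEnd e ∈ ω'.S := scx199_S_out fun hc => he (rsk_end_core hc)
  have hO : e ∈ (scx199Mix F' ω ω').O ↔ e ∈ ω'.O := scx199_O_out he
  by_cases hb : RskBd F' e
  · by_cases hop : e ∈ ω'.O
    · exact rsk_fac_congr_open t (hO.2 hop) hop h1 h2
    · have hcol := h.col e hb (fun hop' => hop ((h.edge e hb).1 hop'))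
      refine rsk_fac_congr t hO h1 h2 ?_ ?_
      · by_cases hf : e.1 ∈ F'
        · rw [scx199_D_in hf]; exact hcol.1
        · exact scx199_D_out hf
      · by_cases hf : rswCo e ∈ F'
        · rw [scx199_D_in hf]; exact hcol.2
        · exact scx199_D_out hf
  · have h3 : e.1 ∉ F' ∧ rswCo e ∉ F' := by
      rw [rsk_mem_int] at he
      unfold RskBd at hb
      by_cases hx : e.1 ∈ F' <;> by_cases hy : rswCo e ∈ F' <;> simp_all
    exact rsk_fac_congr t hO h1 h2 (scx199_D_out h3.1) (scx199_D_out h3.2)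

theorem scx199_bc_mix {F F' : Finset (ℤ × ℤ)} (hF : F' ⊆ F) (b : Bool) (ω ω' : RswCfg) :
    RswBc F b (scx199Mix F' ω ω') ↔ RswBc F b ω' := by
  unfold RswBc
  refine forall_congr' fun v => imp_congr_right fun _ => imp_congr_right fun hp => ?_
  rw [scx199_S_out]
  intro hv
  rw [rsk_mem_core] at hv
  exact hp ⟨hF hv.1, hF hv.2.1, hF hv.2.2.1, hF hv.2.2.2⟩

/-! ### the weight -/

/-- the inside weight -/
noncomputable def scx199A (t : ℝ) (F' : Finset (ℤ × ℤ)) (ω : RswCfg) : ℝ := ∏ e ∈ rswInt F', rswFac t ω e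

theorem scx199_wt_eq (t : ℝ) {F F' : Finset (ℤ × ℤ)} (hF : F' ⊆ F) (b : Bool) (ω : RswCfg) :
    rswWt t F b ω = scx199A t F' ω * rskWout t F F' b ω := by
  classical
  unfold rswWt rskWout scx199A
  by_cases hb : RswBc F b ω
  · rw [if_pos hb, if_pos hb, ← Finset.prod_sdiff (rsk_int_mono hF), mul_comm]
  · rw [if_neg hb, if_neg hb, mul_zero]

/-- **the weight of a mixture factorises** -/
theorem scx199_wt_mix (t : ℝ) {F F' : Finset (ℤ × ℤ)} (hF : F' ⊆ F) (b : Bool) {ω ω' : RswCfg}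
    (h : Scx199Agree F' ω ω') : rswWt t F b (scx199Mix F' ω ω') = scx199A t F' ω * rskWout t F F' b ω' := by
  classical
  rw [scx199_wt_eq t hF]
  congr 1
  · exact Finset.prod_congr rfl fun e he => scx199_fac_in t h he
  · unfold rskWout
    by_cases hb : RswBc F b ω'
    · rw [if_pos hb, if_pos ((scx199_bc_mix hF b ω ω').2 hb)]
      exact Finset.prod_congr rfl fun e he => scx199_fac_out t h (Finset.mem_sdiff.1 he).2
    · rw [if_neg hb, if_neg fun hb' => hb ((scx199_bc_mix hF b ω ω').1 hb')]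

/-- **the swap identity** -/
theorem scx199_wt_swap (t : ℝ) {F F' : Finset (ℤ × ℤ)} (hF : F' ⊆ F) (b : Bool) {ω ω' : RswCfg}
    (h : Scx199Agree F' ω ω') :
    rswWt t F b (scx199Mix F' ω ω') * rswWt t F b (scx199Mix F' ω' ω) = rswWt t F b ω * rswWt t F b ω' := by
  rw [scx199_wt_mix t hF b h, scx199_wt_mix t hF b (scx199_agree_symm h), scx199_wt_eq t hF b ω, scx199_wt_eq t hF b ω']
  ring

/-! ### separator events -/

/-- an event all of whose members carry the same separator data, stable under mixing -/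
structure Scx199Sep (F' : Finset (ℤ × ℤ)) (E : RswCfg → Prop) : Prop where
  agree : ∀ ω ω', E ω → E ω' → Scx199Agree F' ω ω'
  mix : ∀ ω ω', E ω → E ω' → E (scx199Mix F' ω ω')

open Classical in
/-- indicator -/
noncomputable def scx199I (E : RswCfg → Prop) (ω : RswCfg) : ℝ := if E ω then 1 else 0

theorem scx199_I_pos {E : RswCfg → Prop} {ω : RswCfg} (h : E ω) : scx199I E ω = 1 := by
  unfold scx199I; rw [if_pos h]

theorem scx199_I_neg {E : RswCfg → Prop} {ω : RswCfg} (h : ¬ E ω) : scx199I E ω = 0 := by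
  unfold scx199I; rw [if_neg h]

theorem scx199_inside_mix {F' : Finset (ℤ × ℤ)} {X : RswCfg → ℝ} (hX : RskInside F' X) {ω ω' : RswCfg}
    (h : Scx199Agree F' ω ω') : X (scx199Mix F' ω ω') = X ω := by
  rw [← hX (scx199Mix F' ω ω'), scx199_in_mix h, hX]

theorem scx199_outside_mix {F' : Finset (ℤ × ℤ)} {G : RswCfg → ℝ} (hG : RskOutside F' G) (ω ω' : RswCfg) :
    G (scx199Mix F' ω ω') = G ω' := by
  rw [← hG (scx199Mix F' ω ω'), scx199_out_mix, hG]

/-- both mixtures are in the event iff both configurations are -/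
theorem scx199_sep_iff {F' : Finset (ℤ × ℤ)} {E : RswCfg → Prop} (hE : Scx199Sep F' E) (ω ω' : RswCfg) :
    (E (scx199Mix F' ω ω') ∧ E (scx199Mix F' ω' ω)) ↔ (E ω ∧ E ω') := by
  constructor
  · rintro ⟨h1, h2⟩
    have a := hE.mix _ _ h1 h2
    have b := hE.mix _ _ h2 h1
    rw [scx199_mix_mix] at a b
    exact ⟨a, b⟩
  · rintro ⟨h1, h2⟩
    exact ⟨hE.mix _ _ h1 h2, hE.mix _ _ h2 h1⟩

/-- **THE FOUR FUNCTION FORMULA**: given a separator event the inside and the outside are exchangeable -/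
theorem scx199_four (t : ℝ) {F F' : Finset (ℤ × ℤ)} (hF : F' ⊆ F) (b : Bool) {E : RswCfg → Prop} (hE : Scx199Sep F' E)
    {X X' G G' : RswCfg → ℝ} (hX : RskInside F' X) (hX' : RskInside F' X') (hG : RskOutside F' G)
    (hG' : RskOutside F' G') :
    rswSum t F b (fun ω => scx199I E ω * (X ω * G ω)) * rswSum t F b (fun ω => scx199I E ω * (X' ω * G' ω)) =
      rswSum t F b (fun ω => scx199I E ω * (X ω * G' ω)) * rswSum t F b (fun ω => scx199I E ω * (X' ω * G ω)) := by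
  rw [rsx_sum_eq, rsx_sum_eq, rsx_sum_eq, rsx_sum_eq, Finset.sum_mul_sum, Finset.sum_mul_sum,
    ← Finset.sum_product', ← Finset.sum_product']
  refine Finset.sum_nbij' (fun p => (scx199Mix F' p.1 p.2, scx199Mix F' p.2 p.1))
    (fun p => (scx199Mix F' p.1 p.2, scx199Mix F' p.2 p.1)) ?_ ?_ ?_ ?_ ?_
  · rintro ⟨ω, ω'⟩ hp
    rw [Finset.mem_product] at hp ⊢
    exact ⟨scx199_mix_mem hp.1 hp.2, scx199_mix_mem hp.2 hp.1⟩
  · rintro ⟨ω, ω'⟩ hp
    rw [Finset.mem_product] at hp ⊢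
    exact ⟨scx199_mix_mem hp.1 hp.2, scx199_mix_mem hp.2 hp.1⟩
  · rintro ⟨ω, ω'⟩ _
    simp only [scx199_mix_mix]
  · rintro ⟨ω, ω'⟩ _
    simp only [scx199_mix_mix]
  · rintro ⟨ω, ω'⟩ _
    simp only
    by_cases h : E ω ∧ E ω'
    · have hag := hE.agree _ _ h.1 h.2
      have hm := (scx199_sep_iff hE ω ω').2 h
      rw [scx199_I_pos h.1, scx199_I_pos h.2, scx199_I_pos hm.1, scx199_I_pos hm.2,
        scx199_inside_mix hX hag, scx199_inside_mix hX' (scx199_agree_symm hag),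
        scx199_outside_mix hG', scx199_outside_mix hG]
      have hw := scx199_wt_swap t hF b hag
      calc rswWt t F b ω * (1 * (X ω * G ω)) * (rswWt t F b ω' * (1 * (X' ω' * G' ω')))
          = (rswWt t F b ω * rswWt t F b ω') * (X ω * G ω * (X' ω' * G' ω')) := by ring
        _ = (rswWt t F b (scx199Mix F' ω ω') * rswWt t F b (scx199Mix F' ω' ω)) *
              (X ω * G ω * (X' ω' * G' ω')) := by rw [hw]
        _ = _ := by ring
    · have hm : ¬ (E (scx199Mix F' ω ω') ∧ E (scx199Mix F' ω' ω)) := fun hm => h ((scx199_sep_iff hE ω ω').1 hm)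
      have e1 : scx199I E ω * scx199I E ω' = 0 := by
        by_cases h1 : E ω
        · rw [scx199_I_neg (fun h2 => h ⟨h1, h2⟩), mul_zero]
        · rw [scx199_I_neg h1, zero_mul]
      have e2 : scx199I E (scx199Mix F' ω ω') * scx199I E (scx199Mix F' ω' ω) = 0 := by
        by_cases h1 : E (scx199Mix F' ω ω')
        · rw [scx199_I_neg (fun h2 => hm ⟨h1, h2⟩), mul_zero]
        · rw [scx199_I_neg h1, zero_mul]
      calc rswWt t F b ω * (scx199I E ω * (X ω * G ω)) * (rswWt t F b ω' * (scx199I E ω' * (X' ω' * G' ω')))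
          = (scx199I E ω * scx199I E ω') * (rswWt t F b ω * (X ω * G ω) * (rswWt t F b ω' * (X' ω' * G' ω'))) := by
            ring
        _ = 0 := by rw [e1, zero_mul]
        _ = (scx199I E (scx199Mix F' ω ω') * scx199I E (scx199Mix F' ω' ω)) *
              (rswWt t F b (scx199Mix F' ω ω') * (X (scx199Mix F' ω ω') * G' (scx199Mix F' ω ω')) *
                (rswWt t F b (scx199Mix F' ω' ω) * (X' (scx199Mix F' ω' ω) * G (scx199Mix F' ω' ω)))) := by
            rw [e2, zero_mul]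
        _ = _ := by ring

theorem scx199_inside_const (F' : Finset (ℤ × ℤ)) (c : ℝ) : RskInside F' (fun _ => c) := fun _ => rfl

theorem scx199_outside_const (F' : Finset (ℤ × ℤ)) (c : ℝ) : RskOutside F' (fun _ => c) := fun _ => rfl

/-- **CONDITIONAL INDEPENDENCE** (unnormalised) -/
theorem scx199_indep_sum (t : ℝ) {F F' : Finset (ℤ × ℤ)} (hF : F' ⊆ F) (b : Bool) {E : RswCfg → Prop}
    (hE : Scx199Sep F' E) {X G : RswCfg → ℝ} (hX : RskInside F' X) (hG : RskOutside F' G) :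
    rswSum t F b (fun ω => scx199I E ω * (X ω * G ω)) * rswSum t F b (fun ω => scx199I E ω) =
      rswSum t F b (fun ω => scx199I E ω * X ω) * rswSum t F b (fun ω => scx199I E ω * G ω) := by
  have h := scx199_four t hF b hE hX (scx199_inside_const F' 1) hG (scx199_outside_const F' 1)
  simpa only [mul_one, one_mul] using h

/-- **CONDITIONAL INDEPENDENCE** given a separator event, product form: the hypothesis `hci` of `scr142_ci_step` -/
theorem scx199_indep (t : ℝ) {F F' : Finset (ℤ × ℤ)} (hF : F' ⊆ F) (b : Bool) {E : RswCfg → Prop}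
    (hE : Scx199Sep F' E) {X G : RswCfg → ℝ} (hX : RskInside F' X) (hG : RskOutside F' G) :
    rswE t F b (fun ω => scx199I E ω * (X ω * G ω)) * rswE t F b (fun ω => scx199I E ω) =
      rswE t F b (fun ω => scx199I E ω * X ω) * rswE t F b (fun ω => scx199I E ω * G ω) := by
  unfold rswE
  rw [div_mul_div_comm, div_mul_div_comm, scx199_indep_sum t hF b hE hX hG]

/-! ### concrete separator events -/

theorem scx199_agree_trans {F' : Finset (ℤ × ℤ)} {ω₁ ω₂ ω₃ : RswCfg} (h : Scx199Agree F' ω₁ ω₂)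
    (h' : Scx199Agree F' ω₂ ω₃) : Scx199Agree F' ω₁ ω₃ :=
  ⟨fun v hv hc => (h.rim v hv hc).trans (h'.rim v hv hc), fun e he => (h.edge e he).trans (h'.edge e he),
    fun e he hO =>
      have a := h.col e he hO
      have b := h'.col e he (fun hO' => hO ((h.edge e he).2 hO'))
      ⟨a.1.trans b.1, a.2.trans b.2⟩⟩

theorem scx199_agree_mix {F' : Finset (ℤ × ℤ)} {π ω ω' : RswCfg} (h : Scx199Agree F' π ω) (h' : Scx199Agree F' π ω') :
    Scx199Agree F' π (scx199Mix F' ω ω') := by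
  refine ⟨fun v hv hc => ?_, fun e he => ?_, fun e he hO => ⟨?_, ?_⟩⟩
  · rw [scx199_S_out hc]; exact h'.rim v hv hc
  · rw [scx199_O_out (rsk_bd_not_int he)]; exact h'.edge e he
  · by_cases hf : e.1 ∈ F'
    · rw [scx199_D_in hf]; exact (h.col e he hO).1
    · rw [scx199_D_out hf]; exact (h'.col e he hO).1
  · by_cases hf : rswCo e ∈ F'
    · rw [scx199_D_in hf]; exact (h.col e he hO).2
    · rw [scx199_D_out hf]; exact (h'.col e he hO).2

/-- "the separator data are those of `π`" is a separator event -/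
theorem scx199_sep_data (F' : Finset (ℤ × ℤ)) (π : RswCfg) : Scx199Sep F' (Scx199Agree F' π) :=
  ⟨fun _ _ h h' => scx199_agree_trans (scx199_agree_symm h) h', fun _ _ h h' => scx199_agree_mix h h'⟩

/-- a separator event may be cut by an inside event and by an outside event (complete block patterns, pins, core colours on either side) -/
theorem scx199_sep_inter {F' : Finset (ℤ × ℤ)} {E A B : RswCfg → Prop} (hE : Scx199Sep F' E)
    (hA : ∀ ω, A (rskIn F' ω) ↔ A ω) (hB : ∀ ω, B (rskOut F' ω) ↔ B ω) :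
    Scx199Sep F' (fun ω => E ω ∧ A ω ∧ B ω) := by
  refine ⟨fun ω ω' h h' => hE.agree _ _ h.1 h'.1, fun ω ω' h h' => ⟨hE.mix _ _ h.1 h'.1, ?_, ?_⟩⟩
  · rw [← hA, scx199_in_mix (hE.agree _ _ h.1 h'.1), hA]; exact h.2.1
  · rw [← hB, scx199_out_mix, hB]; exact h'.2.2

/-- a smaller event which is stable under mixing is a separator event -/
theorem scx199_sep_mono {F' : Finset (ℤ × ℤ)} {E E' : RswCfg → Prop} (hE : Scx199Sep F' E) (hsub : ∀ ω, E' ω → E ω)
    (hmix : ∀ ω ω', E' ω → E' ω' → E' (scx199Mix F' ω ω')) : Scx199Sep F' E' :=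
  ⟨fun _ _ h h' => hE.agree _ _ (hsub _ h) (hsub _ h'), hmix⟩

/-! ## PART 2 : FROM A REGION TO (CI) = `scr_cut_ci`

The event of `scr_cut_ci` (Screen/Cut229c of 229) is `Ev = {scrYL Λ δ ω = scrYL Λ δ ω₀} ∩ {bridge pins}`.  It is a CYLINDER event: stable under every mixing, it knows `s`, `W` in the blocks,
`d` on `scrCoreSel`, and the bridge edges are good.   So (CI) follows from `scx199_indep` as soon as (TOPO) supplies a finite set of faces `In ⊆ F` with
* (T1) every polygon edge of `In` is a bridge edge, or lies in a block and is open in `ω₀` or has its two faces in `scrCoreSel`;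
* (T2) no corner of `closedBall z r` is on the polygon of `In` (its four faces are in `In`);
* (T3) the faces of `In` have their lower left corner in `closedBall z s`.
**`scx199_ci`**: the conclusion of `scr_cut_ci`, word for word, from (T1) (T2) (T3). -/

/-! ### mixing and coordinates -/

theorem scx199_mix_S_of {F' : Finset (ℤ × ℤ)} {ω ω' : RswCfg} {v : ℤ × ℤ} {p : Prop} (h : v ∈ ω.S ↔ p) (h' : v ∈ ω'.S ↔ p) :
    v ∈ (scx199Mix F' ω ω').S ↔ p := by
  by_cases hv : v ∈ rskCore F'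
  · rw [scx199_S_in hv]; exact h
  · rw [scx199_S_out hv]; exact h'

theorem scx199_mix_D_of {F' : Finset (ℤ × ℤ)} {ω ω' : RswCfg} {f : ℤ × ℤ} {p : Prop} (h : f ∈ ω.D ↔ p) (h' : f ∈ ω'.D ↔ p) :
    f ∈ (scx199Mix F' ω ω').D ↔ p := by
  by_cases hf : f ∈ F'
  · rw [scx199_D_in hf]; exact h
  · rw [scx199_D_out hf]; exact h'

theorem scx199_mix_O_of {F' : Finset (ℤ × ℤ)} {ω ω' : RswCfg} {e : (ℤ × ℤ) × Bool} {p : Prop} (h : e ∈ ω.O ↔ p)
    (h' : e ∈ ω'.O ↔ p) : e ∈ (scx199Mix F' ω ω').O ↔ p := by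
  by_cases he : e ∈ rswInt F'
  · rw [scx199_O_in he]; exact h
  · rw [scx199_O_out he]; exact h'

theorem scx199_mix_good {F' : Finset (ℤ × ℤ)} {ω ω' : RswCfg} {a : Bool} {e : (ℤ × ℤ) × Bool} (h : RswGood a ω e)
    (h' : RswGood a ω' e) : RswGood a (scx199Mix F' ω ω') e :=
  ⟨(scx199_mix_O_of (p := True) (iff_true_intro h.1) (iff_true_intro h'.1)).2 trivial,
    scx199_mix_S_of h.2.1 h'.2.1, scx199_mix_S_of h.2.2 h'.2.2⟩

/-! ### what the data `Y` know -/

/-- the data `Y` of the layout, coordinate by coordinate -/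
theorem scx199_YL_iff (Λ : ScrLay) (δ : ℝ) (ω ω₀ : RswCfg) :
    scrYL Λ δ ω = scrYL Λ δ ω₀ ↔
      (∀ i v, scr232P δ v ∈ Λ.blk i → (v ∈ ω.S ↔ v ∈ ω₀.S)) ∧
      (∀ i (e : (ℤ × ℤ) × Bool), scr232P δ e.1 ∈ Λ.blk i → scr232P δ (rswEnd e) ∈ Λ.blk i → (e ∈ ω.O ↔ e ∈ ω₀.O)) ∧
      (∀ f ∈ scrCoreSel Λ δ, (f ∈ ω.D ↔ f ∈ ω₀.D)) := by
  classical
  unfold scrYL scrY scrPats scrPat
  rw [Prod.mk.injEq, funext_iff]
  simp only [Prod.mk.injEq, Finset.ext_iff, Finset.mem_filter, Finset.mem_inter]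
  constructor
  · rintro ⟨h1, h2⟩
    refine ⟨fun i v hv => ?_, fun i e he he' => ?_, fun f hf => ?_⟩
    · have := (h1 i).1 v
      tauto
    · have := (h1 i).2 e
      tauto
    · have := h2 f
      tauto
  · rintro ⟨h1, h2, h3⟩
    refine ⟨fun i => ⟨fun v => ?_, fun e => ?_⟩, fun f => ?_⟩
    · have := h1 i v
      tauto
    · have := h2 i e
      tauto
    · have := h3 f
      tauto

/-- the event of `scr_cut_ci` -/
def Scx199Ev (Λ : ScrLay) (δ : ℝ) (ω₀ ω : RswCfg) : Prop := scrYL Λ δ ω = scrYL Λ δ ω₀ ∧ ScrBr Λ δ ω₀ ω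

/-- the event is stable under EVERY mixing -/
theorem scx199_ev_mix (Λ : ScrLay) (δ : ℝ) (ω₀ : RswCfg) (F' : Finset (ℤ × ℤ)) {ω ω' : RswCfg} (h : Scx199Ev Λ δ ω₀ ω)
    (h' : Scx199Ev Λ δ ω₀ ω') : Scx199Ev Λ δ ω₀ (scx199Mix F' ω ω') := by
  obtain ⟨a1, a2, a3⟩ := (scx199_YL_iff Λ δ ω ω₀).1 h.1
  obtain ⟨b1, b2, b3⟩ := (scx199_YL_iff Λ δ ω' ω₀).1 h'.1
  refine ⟨(scx199_YL_iff Λ δ _ ω₀).2 ⟨fun i v hv => scx199_mix_S_of (a1 i v hv) (b1 i v hv),
    fun i e he he' => scx199_mix_O_of (a2 i e he he') (b2 i e he he'), fun f hf => scx199_mix_D_of (a3 f hf) (b3 f hf)⟩, ?_⟩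
  exact fun k e he => scx199_mix_good (h.2 k e he) (h'.2 k e he)

/-! ### the rim -/

/-- a corner on the polygon of `F'` is an end of a polygon edge -/
theorem scx199_rim_edge {F' : Finset (ℤ × ℤ)} {v : ℤ × ℤ} (hv : v ∈ cornersOf F') (hp : v ∉ rskCore F') :
    ∃ e, RskBd F' e ∧ (v = e.1 ∨ v = rswEnd e) := by
  obtain ⟨x, y⟩ := v
  rw [rsk_mem_corners] at hv
  rw [rsk_mem_core] at hp
  simp only at hv hp
  by_contra hcon
  have h1 : ¬ RskBd F' ((x, y), true) := fun h => hcon ⟨_, h, Or.inl rfl⟩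
  have h2 : ¬ RskBd F' ((x, y), false) := fun h => hcon ⟨_, h, Or.inl rfl⟩
  have h3 : ¬ RskBd F' ((x - 1, y), false) := fun h => hcon ⟨_, h, Or.inr (by simp [rswEnd])⟩
  simp only [RskBd, rswCo, if_true, Bool.false_eq_true, if_false] at h1 h2 h3
  tauto

/-! ### the region -/

/-- (T1) -/
def Scx199T1 (Λ : ScrLay) (δ : ℝ) (ω₀ : RswCfg) (In : Finset (ℤ × ℤ)) : Prop :=
  ∀ e, RskBd In e → (∃ k, e ∈ scrBridge Λ δ k ω₀) ∨
    ((∃ i, scr232P δ e.1 ∈ Λ.blk i ∧ scr232P δ (rswEnd e) ∈ Λ.blk i) ∧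
      (e ∈ ω₀.O ∨ (e.1 ∈ scrCoreSel Λ δ ∧ rswCo e ∈ scrCoreSel Λ δ)))

/-- under (T1) the event is a separator event of the region -/
theorem scx199_ev_sep {Λ : ScrLay} {δ : ℝ} {ω₀ : RswCfg} {In : Finset (ℤ × ℤ)} (hT1 : Scx199T1 Λ δ ω₀ In) :
    Scx199Sep In (Scx199Ev Λ δ ω₀) := by
  refine ⟨fun ω ω' h h' => ?_, fun ω ω' h h' => scx199_ev_mix Λ δ ω₀ In h h'⟩
  obtain ⟨a1, a2, a3⟩ := (scx199_YL_iff Λ δ ω ω₀).1 h.1
  obtain ⟨b1, b2, b3⟩ := (scx199_YL_iff Λ δ ω' ω₀).1 h'.1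
  have hends : ∀ e, RskBd In e → (e.1 ∈ ω.S ↔ e.1 ∈ ω'.S) ∧ (rswEnd e ∈ ω.S ↔ rswEnd e ∈ ω'.S) := by
    intro e he
    rcases hT1 e he with ⟨k, hk⟩ | ⟨⟨i, h1, h2⟩, -⟩
    · have g := h.2 k e hk
      have g' := h'.2 k e hk
      exact ⟨g.2.1.trans g'.2.1.symm, g.2.2.trans g'.2.2.symm⟩
    · exact ⟨(a1 i _ h1).trans (b1 i _ h1).symm, (a1 i _ h2).trans (b1 i _ h2).symm⟩
  refine ⟨fun v hv hc => ?_, fun e he => ?_, fun e he hO => ?_⟩
  · obtain ⟨e, he, rfl | rfl⟩ := scx199_rim_edge hv hc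
    · exact (hends e he).1
    · exact (hends e he).2
  · rcases hT1 e he with ⟨k, hk⟩ | ⟨⟨i, h1, h2⟩, -⟩
    · exact iff_of_true (h.2 k e hk).1 (h'.2 k e hk).1
    · exact (a2 i e h1 h2).trans (b2 i e h1 h2).symm
  · rcases hT1 e he with ⟨k, hk⟩ | ⟨⟨i, h1, h2⟩, hop | ⟨c1, c2⟩⟩
    · exact absurd (h.2 k e hk).1 hO
    · exact absurd ((a2 i e h1 h2).2 hop) hO
    · exact ⟨(a3 _ c1).trans (b3 _ c1).symm, (a3 _ c2).trans (b3 _ c2).symm⟩

/-- (T2) gives inside observables -/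
theorem scx199_inside_of_in {δ : ℝ} {U : Set (ℝ × ℝ)} {X : RswCfg → ℝ} (hX : ScrIn δ U X) {In : Finset (ℤ × ℤ)}
    (hT2 : ∀ v, scr232P δ v ∈ U → ¬ OnPolygon In v) : RskInside In X := by
  have hall : ∀ v, scr232P δ v ∈ U → v ∈ In ∧ (v.1 - 1, v.2) ∈ In ∧ (v.1, v.2 - 1) ∈ In ∧ (v.1 - 1, v.2 - 1) ∈ In :=
    fun v hv => not_not.1 (hT2 v hv)
  intro ω
  refine hX _ _ (fun v hv => ?_) (fun f hf => ?_) (fun e he _ => ?_)
  · simp only [rskIn, Finset.mem_inter]
    exact ⟨fun h => h.1, fun h => ⟨h, rsk_mem_corners.2 (Or.inl (hall v hv).1)⟩⟩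
  · simp only [rskIn, Finset.mem_inter]
    exact ⟨fun h => h.1, fun h => ⟨h, (hall f hf).1⟩⟩
  · simp only [rskIn, Finset.mem_inter]
    refine ⟨fun h => h.1, fun h => ⟨h, rsk_mem_int.2 ⟨(hall _ he).1, ?_⟩⟩⟩
    obtain ⟨v, c⟩ := e
    cases c
    · exact (hall v he).2.2.1
    · exact (hall v he).2.1

/-- (T3) gives outside observables -/
theorem scx199_outside_of_in {δ : ℝ} {V : Set (ℝ × ℝ)} {G : RswCfg → ℝ} (hG : ScrIn δ V G) {In : Finset (ℤ × ℤ)}
    (hT3 : ∀ f ∈ In, scr232P δ f ∉ V) : RskOutside In G := by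
  intro ω
  refine hG _ _ (fun v hv => ?_) (fun f hf => ?_) (fun e he _ => ?_)
  · exact rsk_out_S fun hc => hT3 v (rsk_mem_core.1 hc).1 hv
  · exact rsk_out_D fun hc => hT3 f hc hf
  · exact rsk_out_O fun hc => hT3 e.1 (rsk_mem_int.1 hc).1 he

open Classical in
/-- **(CI) FROM A REGION**: the conclusion of `scr_cut_ci`, word for word -/
theorem scx199_ci (t : ℝ) (Λ : ScrLay) (δ : ℝ) (F : Finset (ℤ × ℤ)) (ω₀ : RswCfg) (In : Finset (ℤ × ℤ)) (hIn : In ⊆ F)
    (hT1 : Scx199T1 Λ δ ω₀ In) (hT2 : ∀ v, scr232P δ v ∈ Metric.closedBall Λ.z Λ.r → ¬ OnPolygon In v)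
    (hT3 : ∀ f ∈ In, scr232P δ f ∈ Metric.closedBall Λ.z Λ.s)
    (X G : RswCfg → ℝ) (hX : ScrIn δ (Metric.closedBall Λ.z Λ.r) X) (hG : ScrIn δ (Metric.closedBall Λ.z Λ.s)ᶜ G) :
    rswE t F true (fun ω => if scrYL Λ δ ω = scrYL Λ δ ω₀ ∧ ScrBr Λ δ ω₀ ω then X ω * G ω else 0) *
        rswE t F true (fun ω => if scrYL Λ δ ω = scrYL Λ δ ω₀ ∧ ScrBr Λ δ ω₀ ω then 1 else 0)
      = rswE t F true (fun ω => if scrYL Λ δ ω = scrYL Λ δ ω₀ ∧ ScrBr Λ δ ω₀ ω then X ω else 0) *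
        rswE t F true (fun ω => if scrYL Λ δ ω = scrYL Λ δ ω₀ ∧ ScrBr Λ δ ω₀ ω then G ω else 0) := by
  have key := scx199_indep t hIn true (scx199_ev_sep hT1) (scx199_inside_of_in hX hT2)
    (scx199_outside_of_in hG (fun f hf h => h (hT3 f hf)))
  have e : ∀ (a : RswCfg → ℝ), (fun ω => if scrYL Λ δ ω = scrYL Λ δ ω₀ ∧ ScrBr Λ δ ω₀ ω then a ω else 0) =
      fun ω => scx199I (Scx199Ev Λ δ ω₀) ω * a ω := by
    intro a
    funext ω
    by_cases h : scrYL Λ δ ω = scrYL Λ δ ω₀ ∧ ScrBr Λ δ ω₀ ω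
    · rw [if_pos h, scx199_I_pos (show Scx199Ev Λ δ ω₀ ω from h), one_mul]
    · rw [if_neg h, scx199_I_neg (show ¬ Scx199Ev Λ δ ω₀ ω from h), zero_mul]
  have e1 := e (fun ω => X ω * G ω)
  have e2 := e (fun _ => 1)
  have e3 := e X
  have e4 := e G
  simp only [mul_one] at e2
  rw [e1, e2, e3, e4]
  exact key

end Claimed.Agent.R292
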