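import Claimed.Agent.R292.Defs.ScreenSep
import Claimed.Agent.R292.Screen.MixCut199

/-!
# Row 292 (S0540), Screen/Ci239 : (CI) + (TOPO): EXACT SEPARATION ON A SUCCESSFUL PATTERN      (helper239, gap chain by helper199; prefix `scr239`, `Scr239`)

**`scr239_cut_ci` = the leaf `scr_cut_ci` of `Screen/Cut229c`, verbatim, no hypothesis.**   It is `scx199_ci` (MixCut199: exact separation from a region) applied to the region of
**`scr239_region`**: `In ⊆ F` with (T1) every polygon edge of `In` is a bridge edge, or lies in a block and is open or has both faces observed; (T2) the corners of `closedBall z r` are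
inner corners of `In`; (T3) the faces of `In` lie in `closedBall z s`.

No walks, no lists, no Jordan curve.  `γ` is a 1-chain mod 2 (`edges →₀ ZMod 2`) with boundary `0`: the sum of the four gap chains (arm + bridge + arm, `scr239_gap`; arms by induction on
`ReflTransGen`, `scr239_path`) and of four L-shaped chains in the cores (`scr239L`).   `σ γ f` (`scr239Sig`) = sum of `γ` over the vertical edges of the row of the face `f`, at or to the left of `f`;
`In = {f ∈ F | σ γ f = 1}`.   Linear identities, checked on single edges: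
* `scr239_sig_vert`, `scr239_sig_hor`, `scr239_sig_jump` : `σ` jumps exactly across the edges of a cycle;
* `scr239_row_total`, `scr239_sig_between` : the total of a cycle over a row vanishes, so a face with `σ ≠ 0` lies between two vertical edges of the cycle.
-/

set_option autoImplicit false
set_option linter.unusedVariables false

namespace Claimed.Agent.R292

open Claims Claims.C0468 Filter Topology

/-! ## A. chains mod 2 -/

/-- edges -/
abbrev Scr239E : Type := (ℤ × ℤ) × Bool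

/-- 1-chains mod 2 -/
abbrev Scr239C : Type := Scr239E →₀ ZMod 2

/-- 0-chains mod 2 -/
abbrev Scr239Z : Type := (ℤ × ℤ) →₀ ZMod 2

open Classical in
/-- sum of a chain over the cells with the property `p` -/
noncomputable def scr239Cnt {α : Type} (p : α → Prop) (c : α →₀ ZMod 2) : ZMod 2 :=
  c.sum fun e a => if p e then a else 0

theorem scr239_cnt_zero {α : Type} (p : α → Prop) : scr239Cnt p (0 : α →₀ ZMod 2) = 0 := by
  simp [scr239Cnt]

theorem scr239_cnt_add {α : Type} (p : α → Prop) (c d : α →₀ ZMod 2) :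
    scr239Cnt p (c + d) = scr239Cnt p c + scr239Cnt p d := by
  classical
  unfold scr239Cnt
  apply Finsupp.sum_add_index'
  · intro e; simp
  · intro e a b; split_ifs <;> simp

open Classical in
theorem scr239_cnt_single {α : Type} (p : α → Prop) (e : α) (a : ZMod 2) :
    scr239Cnt p (Finsupp.single e a) = if p e then a else 0 := by
  unfold scr239Cnt
  rw [Finsupp.sum_single_index]
  simp

/-- a chain without a cell with the property `p` -/
theorem scr239_cnt_eq_zero {α : Type} {p : α → Prop} {c : α →₀ ZMod 2} (h : ∀ e ∈ c.support, ¬ p e) :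
    scr239Cnt p c = 0 := by
  classical
  unfold scr239Cnt Finsupp.sum
  apply Finset.sum_eq_zero
  intro e he
  show (if p e then c e else 0) = 0
  rw [if_neg (h e he)]

theorem scr239_cnt_exists {α : Type} {p : α → Prop} {c : α →₀ ZMod 2} (h : scr239Cnt p c ≠ 0) :
    ∃ e ∈ c.support, p e := by
  by_contra hcon
  push Not at hcon
  exact h (scr239_cnt_eq_zero hcon)

/-- the boundary of a 1-chain -/
noncomputable def scr239Bd (c : Scr239C) : Scr239Z :=
  c.sum fun e a => Finsupp.single e.1 a + Finsupp.single (rswEnd e) a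

theorem scr239_bd_zero : scr239Bd 0 = 0 := by simp [scr239Bd]

theorem scr239_bd_add (c d : Scr239C) : scr239Bd (c + d) = scr239Bd c + scr239Bd d := by
  unfold scr239Bd
  apply Finsupp.sum_add_index'
  · intro e; simp
  · intro e a b
    rw [Finsupp.single_add, Finsupp.single_add]
    abel

theorem scr239_bd_single (e : Scr239E) (a : ZMod 2) :
    scr239Bd (Finsupp.single e a) = Finsupp.single e.1 a + Finsupp.single (rswEnd e) a := by
  unfold scr239Bd
  rw [Finsupp.sum_single_index]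
  simp

/-- the parity function -/
noncomputable def scr239Sig (c : Scr239C) (f : ℤ × ℤ) : ZMod 2 :=
  scr239Cnt (fun e : Scr239E => e.2 = true ∧ e.1.2 = f.2 ∧ e.1.1 ≤ f.1) c

theorem scr239_sig_add (c d : Scr239C) (f : ℤ × ℤ) :
    scr239Sig (c + d) f = scr239Sig c f + scr239Sig d f := scr239_cnt_add _ c d

theorem scr239_two (a : ZMod 2) : a + a = 0 := CharTwo.add_self_eq_zero a

/-- `σ` across a vertical edge -/
theorem scr239_sig_vert (c : Scr239C) (x y : ℤ) :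
    scr239Sig c (x, y) + scr239Sig c (x - 1, y) = c ((x, y), true) := by
  classical
  induction c using Finsupp.induction_linear with
  | zero => simp [scr239Sig, scr239_cnt_zero]
  | add c d hc hd =>
    rw [scr239_sig_add, scr239_sig_add, Finsupp.add_apply, ← hc, ← hd]
    abel
  | single e a =>
    obtain ⟨⟨x', y'⟩, b⟩ := e
    unfold scr239Sig
    rw [scr239_cnt_single, scr239_cnt_single, Finsupp.single_apply]
    simp only [Prod.mk.injEq]
    have h2 := scr239_two a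
    cases b
    · simp
    · by_cases hy : y' = y
      · subst hy
        rcases lt_trichotomy x' x with h | h | h
        · rw [if_pos ⟨rfl, rfl, h.le⟩, if_pos ⟨rfl, rfl, by omega⟩, if_neg (by omega), h2]
        · subst h
          rw [if_pos ⟨rfl, rfl, le_refl _⟩, if_neg (by omega), if_pos ⟨⟨rfl, rfl⟩, rfl⟩, add_zero]
        · rw [if_neg (by omega), if_neg (by omega), if_neg (by omega), add_zero]
      · rw [if_neg (by tauto), if_neg (by tauto), if_neg (by tauto), add_zero]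

/-- `σ` across a horizontal edge -/
theorem scr239_sig_hor (c : Scr239C) (x y : ℤ) :
    scr239Sig c (x, y) + scr239Sig c (x, y - 1) =
      c ((x, y), false) + scr239Cnt (fun v : ℤ × ℤ => v.2 = y ∧ v.1 ≤ x) (scr239Bd c) := by
  classical
  induction c using Finsupp.induction_linear with
  | zero => simp [scr239Sig, scr239_cnt_zero, scr239_bd_zero]
  | add c d hc hd =>
    rw [scr239_sig_add, scr239_sig_add, Finsupp.add_apply, scr239_bd_add, scr239_cnt_add]
    calc _ = (scr239Sig c (x, y) + scr239Sig c (x, y - 1)) +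
        (scr239Sig d (x, y) + scr239Sig d (x, y - 1)) := by abel
      _ = _ := by rw [hc, hd]; abel
  | single e a =>
    obtain ⟨⟨x', y'⟩, b⟩ := e
    unfold scr239Sig
    rw [scr239_cnt_single, scr239_cnt_single, Finsupp.single_apply, scr239_bd_single, scr239_cnt_add,
      scr239_cnt_single, scr239_cnt_single]
    simp only [Prod.mk.injEq, rswEnd]
    have h2 := scr239_two a
    cases b
    · simp only [Bool.false_eq_true, false_and, if_false, add_zero, and_true]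
      by_cases hy : y' = y
      · subst hy
        rcases lt_trichotomy x' x with h | h | h
        · rw [if_neg (by omega), if_pos ⟨rfl, h.le⟩, if_pos ⟨rfl, by omega⟩, h2, add_zero]
        · subst h
          rw [if_pos ⟨rfl, rfl⟩, if_pos ⟨rfl, le_refl _⟩, if_neg (by omega), add_zero, h2]
        · rw [if_neg (by omega), if_neg (by omega), if_neg (by omega), add_zero, add_zero]
      · rw [if_neg (by tauto), if_neg (by tauto), if_neg (by tauto), add_zero, add_zero]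
    · simp only [if_true, true_and, and_false, Bool.true_eq_false, if_false, zero_add]
      by_cases hx : x' ≤ x
      · by_cases h1 : y' = y
        · rw [if_pos ⟨h1, hx⟩, if_neg (by omega), if_pos ⟨h1, hx⟩, if_neg (by omega)]
        · by_cases h3 : y' = y - 1
          · rw [if_neg (by omega), if_pos ⟨h3, hx⟩, if_neg (by omega), if_pos ⟨by omega, hx⟩]
          · rw [if_neg (by omega), if_neg (by omega), if_neg (by omega), if_neg (by omega)]
      · rw [if_neg (by tauto), if_neg (by tauto), if_neg (by tauto), if_neg (by tauto)]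

/-- the total of a chain over a row of vertical edges is read on its boundary -/
theorem scr239_row_total (c : Scr239C) (y : ℤ) :
    scr239Cnt (fun e : Scr239E => e.2 = true ∧ e.1.2 = y) c =
      scr239Cnt (fun v : ℤ × ℤ => v.2 ≤ y) (scr239Bd c) := by
  classical
  induction c using Finsupp.induction_linear with
  | zero => simp [scr239_cnt_zero, scr239_bd_zero]
  | add c d hc hd => rw [scr239_cnt_add, scr239_bd_add, scr239_cnt_add, hc, hd]
  | single e a =>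
    obtain ⟨⟨x', y'⟩, b⟩ := e
    rw [scr239_cnt_single, scr239_bd_single, scr239_cnt_add, scr239_cnt_single, scr239_cnt_single]
    simp only [rswEnd]
    have h2 := scr239_two a
    cases b
    · simp only [Bool.false_eq_true, false_and, if_false]
      by_cases h : y' ≤ y
      · rw [if_pos h, if_pos h, h2]
      · rw [if_neg h, if_neg h, add_zero]
    · simp only [if_true, true_and]
      rcases lt_trichotomy y' y with h | h | h
      · rw [if_neg (by omega), if_pos h.le, if_pos (by omega), h2]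
      · rw [if_pos h, if_pos h.le, if_neg (by omega), add_zero]
      · rw [if_neg (by omega), if_neg (by omega), if_neg (by omega), add_zero]

/-- splitting a row at `f` -/
theorem scr239_row_split (c : Scr239C) (f : ℤ × ℤ) :
    scr239Cnt (fun e : Scr239E => e.2 = true ∧ e.1.2 = f.2) c =
      scr239Sig c f + scr239Cnt (fun e : Scr239E => e.2 = true ∧ e.1.2 = f.2 ∧ f.1 < e.1.1) c := by
  classical
  induction c using Finsupp.induction_linear with
  | zero => simp [scr239Sig, scr239_cnt_zero]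
  | add c d hc hd =>
    rw [scr239_cnt_add, scr239_sig_add, scr239_cnt_add, hc, hd]
    abel
  | single e a =>
    unfold scr239Sig
    rw [scr239_cnt_single, scr239_cnt_single, scr239_cnt_single]
    by_cases h1 : e.2 = true ∧ e.1.2 = f.2
    · by_cases h2 : e.1.1 ≤ f.1
      · rw [if_pos h1, if_pos ⟨h1.1, h1.2, h2⟩, if_neg (by omega), add_zero]
      · rw [if_pos h1, if_neg (by tauto), if_pos ⟨h1.1, h1.2, by omega⟩, zero_add]
    · rw [if_neg h1, if_neg (by tauto), if_neg (by tauto), add_zero]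

/-- **the jump of `σ`**: for a cycle, `σ` changes exactly across the edges of the cycle -/
theorem scr239_sig_jump {c : Scr239C} (hc : scr239Bd c = 0) (e : Scr239E) :
    scr239Sig c e.1 + scr239Sig c (rswCo e) = c e := by
  obtain ⟨⟨x, y⟩, b⟩ := e
  cases b
  · have := scr239_sig_hor c x y
    rw [hc, scr239_cnt_zero, add_zero] at this
    simpa [rswCo] using this
  · have := scr239_sig_vert c x y
    simpa [rswCo] using this

/-- **a face with `σ ≠ 0` lies between two vertical edges of the cycle, in its own row** -/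
theorem scr239_sig_between {c : Scr239C} (hc : scr239Bd c = 0) {f : ℤ × ℤ} (hf : scr239Sig c f ≠ 0) :
    (∃ e ∈ c.support, e.2 = true ∧ e.1.2 = f.2 ∧ e.1.1 ≤ f.1) ∧
      ∃ e ∈ c.support, e.2 = true ∧ e.1.2 = f.2 ∧ f.1 < e.1.1 := by
  refine ⟨scr239_cnt_exists hf, ?_⟩
  apply scr239_cnt_exists
  intro h0
  have h1 := scr239_row_split c f
  rw [scr239_row_total, hc, scr239_cnt_zero, h0, add_zero] at h1
  exact hf h1.symm

/-! ## B. chains of sets of edges, of segments and of paths -/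

/-- the 0-chain of a vertex -/
noncomputable def scr239Pt (v : ℤ × ℤ) : Scr239Z := Finsupp.single v 1

theorem scr239_pt_two (v : ℤ × ℤ) : scr239Pt v + scr239Pt v = 0 := by
  unfold scr239Pt
  rw [← Finsupp.single_add, scr239_two, Finsupp.single_zero]

/-- the chain of a finite set of edges -/
noncomputable def scr239Ch (A : Finset Scr239E) : Scr239C := ∑ e ∈ A, Finsupp.single e 1

/-- all the edges of the chain have the property `Q` -/
def Scr239All (Q : Scr239E → Prop) (c : Scr239C) : Prop := ∀ e ∈ c.support, Q e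

theorem Scr239All.add {Q : Scr239E → Prop} {c d : Scr239C} (hc : Scr239All Q c) (hd : Scr239All Q d) :
    Scr239All Q (c + d) := by
  classical
  intro e he
  rcases Finset.mem_union.1 (Finsupp.support_add he) with h | h
  · exact hc e h
  · exact hd e h

theorem Scr239All.mono {Q Q' : Scr239E → Prop} {c : Scr239C} (hc : Scr239All Q c) (h : ∀ e, Q e → Q' e) :
    Scr239All Q' c := fun e he => h e (hc e he)

theorem scr239_all_zero (Q : Scr239E → Prop) : Scr239All Q 0 := by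
  intro e he
  simp at he

theorem scr239_all_single {Q : Scr239E → Prop} {e : Scr239E} (h : Q e) (a : ZMod 2) :
    Scr239All Q (Finsupp.single e a) := by
  classical
  intro e' he'
  have := Finsupp.support_single_subset he'
  rw [Finset.mem_singleton] at this
  rwa [this]

theorem scr239_all_ch {Q : Scr239E → Prop} {A : Finset Scr239E} (h : ∀ e ∈ A, Q e) :
    Scr239All Q (scr239Ch A) := by
  classical
  intro e he
  have h1 := Finsupp.support_finsetSum he
  rw [Finset.mem_biUnion] at h1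
  obtain ⟨i, hi, h2⟩ := h1
  have h3 := Finsupp.support_single_subset h2
  rw [Finset.mem_singleton] at h3
  rw [h3]
  exact h i hi

theorem scr239_bd_sum {ι : Type} (s : Finset ι) (g : ι → Scr239C) :
    scr239Bd (∑ i ∈ s, g i) = ∑ i ∈ s, scr239Bd (g i) := by
  classical
  induction s using Finset.induction_on with
  | empty => simp [scr239_bd_zero]
  | insert a s ha ih => rw [Finset.sum_insert ha, Finset.sum_insert ha, scr239_bd_add, ih]

theorem scr239_cnt_sum {α ι : Type} (p : α → Prop) (s : Finset ι) (g : ι → α →₀ ZMod 2) :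
    scr239Cnt p (∑ i ∈ s, g i) = ∑ i ∈ s, scr239Cnt p (g i) := by
  classical
  induction s using Finset.induction_on with
  | empty => simp [scr239_cnt_zero]
  | insert a s ha ih => rw [Finset.sum_insert ha, Finset.sum_insert ha, scr239_cnt_add, ih]

theorem scr239_tele_v (x a b : ℤ) (h : a ≤ b) :
    ∑ y ∈ Finset.Ico a b, (scr239Pt (x, y) + scr239Pt (x, y + 1)) = scr239Pt (x, a) + scr239Pt (x, b) := by
  induction b, h using Int.leInduction with
  | base => simp [scr239_pt_two]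
  | succ b hb ih =>
    rw [← Finset.insert_Ico_right_eq_Ico_add_one hb, Finset.sum_insert (by simp), ih]
    calc _ = scr239Pt (x, a) + scr239Pt (x, b + 1) + (scr239Pt (x, b) + scr239Pt (x, b)) := by abel
      _ = _ := by rw [scr239_pt_two, add_zero]

theorem scr239_tele_h (y a b : ℤ) (h : a ≤ b) :
    ∑ x ∈ Finset.Ico a b, (scr239Pt (x, y) + scr239Pt (x + 1, y)) = scr239Pt (a, y) + scr239Pt (b, y) := by
  induction b, h using Int.leInduction with
  | base => simp [scr239_pt_two]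
  | succ b hb ih =>
    rw [← Finset.insert_Ico_right_eq_Ico_add_one hb, Finset.sum_insert (by simp), ih]
    calc _ = scr239Pt (a, y) + scr239Pt (b + 1, y) + (scr239Pt (b, y) + scr239Pt (b, y)) := by abel
      _ = _ := by rw [scr239_pt_two, add_zero]

theorem scr239_ch_vseg (x y1 y2 : ℤ) :
    scr239Ch (scrVseg x y1 y2) = ∑ y ∈ Finset.Ico (min y1 y2) (max y1 y2), Finsupp.single ((x, y), true) 1 := by
  classical
  unfold scr239Ch scrVseg
  rw [Finset.sum_image]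
  intro a _ b _ hab
  simpa using hab

theorem scr239_ch_hseg (y x1 x2 : ℤ) :
    scr239Ch (scrHseg y x1 x2) = ∑ x ∈ Finset.Ico (min x1 x2) (max x1 x2), Finsupp.single ((x, y), false) 1 := by
  classical
  unfold scr239Ch scrHseg
  rw [Finset.sum_image]
  intro a _ b _ hab
  simpa using hab

theorem scr239_bd_vseg (x y1 y2 : ℤ) :
    scr239Bd (scr239Ch (scrVseg x y1 y2)) = scr239Pt (x, y1) + scr239Pt (x, y2) := by
  rw [scr239_ch_vseg, scr239_bd_sum]
  have h : ∀ y : ℤ, scr239Bd (Finsupp.single ((x, y), true) 1) = scr239Pt (x, y) + scr239Pt (x, y + 1) := by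
    intro y
    rw [scr239_bd_single]
    rfl
  simp only [h]
  rw [scr239_tele_v x _ _ min_le_max]
  rcases le_total y1 y2 with h | h
  · rw [min_eq_left h, max_eq_right h]
  · rw [min_eq_right h, max_eq_left h, add_comm]

theorem scr239_bd_hseg (y x1 x2 : ℤ) :
    scr239Bd (scr239Ch (scrHseg y x1 x2)) = scr239Pt (x1, y) + scr239Pt (x2, y) := by
  rw [scr239_ch_hseg, scr239_bd_sum]
  have h : ∀ x : ℤ, scr239Bd (Finsupp.single ((x, y), false) 1) = scr239Pt (x, y) + scr239Pt (x + 1, y) := by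
    intro x
    rw [scr239_bd_single]
    rfl
  simp only [h]
  rw [scr239_tele_h y _ _ min_le_max]
  rcases le_total x1 x2 with h | h
  · rw [min_eq_left h, max_eq_right h]
  · rw [min_eq_right h, max_eq_left h, add_comm]

theorem scr239_vseg_mem {x y1 y2 : ℤ} {e : Scr239E} (he : e ∈ scrVseg x y1 y2) :
    e.2 = true ∧ e.1.1 = x ∧ min y1 y2 ≤ e.1.2 ∧ e.1.2 + 1 ≤ max y1 y2 := by
  classical
  unfold scrVseg at he
  rw [Finset.mem_image] at he
  obtain ⟨y, hy, rfl⟩ := he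
  rw [Finset.mem_Ico] at hy
  exact ⟨rfl, rfl, hy.1, hy.2⟩

theorem scr239_hseg_mem {y x1 x2 : ℤ} {e : Scr239E} (he : e ∈ scrHseg y x1 x2) :
    e.2 = false ∧ e.1.2 = y ∧ min x1 x2 ≤ e.1.1 ∧ e.1.1 + 1 ≤ max x1 x2 := by
  classical
  unfold scrHseg at he
  rw [Finset.mem_image] at he
  obtain ⟨x, hx, rfl⟩ := he
  rw [Finset.mem_Ico] at hx
  exact ⟨rfl, rfl, hx.1, hx.2⟩

/-- a vertical segment to the left of `f` which crosses the row of `f` -/
theorem scr239_sig_vseg {x y1 y2 : ℤ} {f : ℤ × ℤ} (hx : x ≤ f.1) (h1 : min y1 y2 ≤ f.2) (h2 : f.2 < max y1 y2) :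
    scr239Sig (scr239Ch (scrVseg x y1 y2)) f = 1 := by
  classical
  unfold scr239Sig
  rw [scr239_ch_vseg, scr239_cnt_sum]
  simp only [scr239_cnt_single]
  rw [Finset.sum_eq_single_of_mem f.2 (Finset.mem_Ico.2 ⟨h1, h2⟩)]
  · simp [hx]
  · intro y _ hy
    simp [hy]

/-- a horizontal segment does not count -/
theorem scr239_sig_hseg (y x1 x2 : ℤ) (f : ℤ × ℤ) : scr239Sig (scr239Ch (scrHseg y x1 x2)) f = 0 := by
  apply scr239_cnt_eq_zero
  intro e he
  have h := scr239_all_ch (Q := fun e => e.2 = false) (A := scrHseg y x1 x2)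
    (fun e he => (scr239_hseg_mem he).1) e he
  rintro ⟨h', -⟩
  rw [h] at h'
  exact Bool.false_ne_true h'

/-- the chain of a path of good steps -/
theorem scr239_path {δ : ℝ} {U : Set (ℝ × ℝ)} {ω : RswCfg} {a c : ℤ × ℤ}
    (h : Relation.ReflTransGen (ScrGStep δ U ω) a c) :
    ∃ p : Scr239C, scr239Bd p = scr239Pt a + scr239Pt c ∧
      Scr239All (fun e => RswGood true ω e ∧ scr232P δ e.1 ∈ U ∧ scr232P δ (rswEnd e) ∈ U) p := by
  induction h with
  | refl => exact ⟨0, by rw [scr239_bd_zero, scr239_pt_two], scr239_all_zero _⟩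
  | @tail b c _ hbc ih =>
    obtain ⟨p, hp, hall⟩ := ih
    obtain ⟨hb, hc, e, hg, he⟩ := hbc
    refine ⟨p + Finsupp.single e 1, ?_, hall.add (scr239_all_single ?_ 1)⟩
    · rw [scr239_bd_add, hp, scr239_bd_single]
      rcases he with ⟨h1, h2⟩ | ⟨h1, h2⟩
      · rw [h1, h2]
        calc _ = scr239Pt a + scr239Pt c + (scr239Pt b + scr239Pt b) := by unfold scr239Pt; abel
          _ = _ := by rw [scr239_pt_two, add_zero]
      · rw [h1, h2]
        calc _ = scr239Pt a + scr239Pt c + (scr239Pt b + scr239Pt b) := by unfold scr239Pt; abel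
          _ = _ := by rw [scr239_pt_two, add_zero]
    · rcases he with ⟨h1, h2⟩ | ⟨h1, h2⟩
      · exact ⟨hg, by rw [h1]; exact hb, by rw [h2]; exact hc⟩
      · exact ⟨hg, by rw [h1]; exact hc, by rw [h2]; exact hb⟩

/-- the end of a path of steps inside `U` -/
theorem scr239_path_end {δ : ℝ} {U U' : Set (ℝ × ℝ)} {ω : RswCfg} {a c : ℤ × ℤ}
    (h : Relation.ReflTransGen (ScrGStep δ U ω) a c) (ha : scr232P δ a ∈ U') (hU : U ⊆ U') :
    scr232P δ c ∈ U' := by
  rcases Relation.ReflTransGen.cases_tail h with rfl | ⟨b, -, hbc⟩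
  · exact ha
  · exact hU hbc.2.1

/-! ## C. the layout -/

/-- the property (T1) of one edge (`Scx199T1` of MixCut199 asks it of every polygon edge of the region) -/
def Scr239T1 (Λ : ScrLay) (δ : ℝ) (ω₀ : RswCfg) (e : Scr239E) : Prop :=
  (∃ k, e ∈ scrBridge Λ δ k ω₀) ∨
    ((∃ i, scr232P δ e.1 ∈ Λ.blk i ∧ scr232P δ (rswEnd e) ∈ Λ.blk i) ∧
      (e ∈ ω₀.O ∨ (e.1 ∈ scrCoreSel Λ δ ∧ rswCo e ∈ scrCoreSel Λ δ)))

/-- both ends of `e` lie in `U` -/
def Scr239In (δ : ℝ) (U : Set (ℝ × ℝ)) (e : Scr239E) : Prop :=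
  scr232P δ e.1 ∈ U ∧ scr232P δ (rswEnd e) ∈ U

theorem scr239_mem_cball {p c : ℝ × ℝ} {r : ℝ} :
    p ∈ Metric.closedBall c r ↔ |p.1 - c.1| ≤ r ∧ |p.2 - c.2| ≤ r := by
  rw [Metric.mem_closedBall, Prod.dist_eq, max_le_iff, Real.dist_eq, Real.dist_eq]

theorem scr239_mem_ball {p c : ℝ × ℝ} {r : ℝ} :
    p ∈ Metric.ball c r ↔ |p.1 - c.1| < r ∧ |p.2 - c.2| < r := by
  rw [Metric.mem_ball, Prod.dist_eq, max_lt_iff, Real.dist_eq, Real.dist_eq]

/-! ### numbers -/

theorem scr239_Rt_pos {Λ : ScrLay} (hΛ : Λ.Ok) : 0 < Λ.Rt := by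
  have h1 := hΛ.hws
  have h2 : (0 : ℝ) < Λ.M := by exact_mod_cast hΛ.hM
  unfold ScrLay.Rt
  exact div_pos (by linarith) (by positivity)

theorem scr239_M_Rt {Λ : ScrLay} (hΛ : Λ.Ok) : 2 * (Λ.M : ℝ) * Λ.Rt = Λ.s - Λ.w := by
  have h2 : (0 : ℝ) < Λ.M := by exact_mod_cast hΛ.hM
  unfold ScrLay.Rt
  field_simp

theorem scr239_wh_pos {Λ : ScrLay} (hΛ : Λ.Ok) : 0 < Λ.wh := mul_pos hΛ.hq (scr239_Rt_pos hΛ)

theorem scr239_wh_le {Λ : ScrLay} (hΛ : Λ.Ok) : Λ.wh ≤ Λ.Rt / 40 := by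
  have h := mul_le_mul_of_nonneg_right hΛ.hq' (scr239_Rt_pos hΛ).le
  unfold ScrLay.wh
  linarith

theorem scr239_lt_of_mul {δ : ℝ} (hδ : 0 < δ) {a b : ℤ} (h : δ * a < δ * b) : a < b := by
  exact_mod_cast lt_of_mul_lt_mul_left h hδ.le

theorem scr239_mul_le {δ : ℝ} (hδ : 0 < δ) {a b : ℤ} (h : a ≤ b) : δ * a ≤ δ * b :=
  mul_le_mul_of_nonneg_left (by exact_mod_cast h) hδ.le

/-! ### boxes -/

/-- a closed box -/
def scr239Bx (l1 h1 l2 h2 : ℝ) : Set (ℝ × ℝ) := {p | l1 ≤ p.1 ∧ p.1 ≤ h1 ∧ l2 ≤ p.2 ∧ p.2 ≤ h2}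

theorem scr239_cball_eq (c : ℝ × ℝ) (r : ℝ) :
    Metric.closedBall c r = scr239Bx (c.1 - r) (c.1 + r) (c.2 - r) (c.2 + r) := by
  ext p
  rw [scr239_mem_cball, abs_le, abs_le]
  constructor
  · rintro ⟨⟨h1, h2⟩, h3, h4⟩
    exact ⟨by linarith, by linarith, by linarith, by linarith⟩
  · rintro ⟨h1, h2, h3, h4⟩
    exact ⟨⟨by linarith, by linarith⟩, by linarith, by linarith⟩

theorem scr239_between {δ a b : ℝ} (hδ : 0 < δ) {y y1 y2 : ℤ} (h1 : min y1 y2 ≤ y) (h2 : y ≤ max y1 y2)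
    (ha1 : a ≤ δ * y1) (ha2 : a ≤ δ * y2) (hb1 : δ * y1 ≤ b) (hb2 : δ * y2 ≤ b) :
    a ≤ δ * y ∧ δ * y ≤ b := by
  rcases le_total y1 y2 with h | h
  · rw [min_eq_left h] at h1
    rw [max_eq_right h] at h2
    exact ⟨ha1.trans (scr239_mul_le hδ h1), (scr239_mul_le hδ h2).trans hb2⟩
  · rw [min_eq_right h] at h1
    rw [max_eq_left h] at h2
    exact ⟨ha2.trans (scr239_mul_le hδ h1), (scr239_mul_le hδ h2).trans hb1⟩

/-- a vertical segment with both ends in a box lies in the box -/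
theorem scr239_vseg_box {δ l1 h1 l2 h2 : ℝ} (hδ : 0 < δ) {x y1 y2 : ℤ}
    (ha : scr232P δ (x, y1) ∈ scr239Bx l1 h1 l2 h2) (hb : scr232P δ (x, y2) ∈ scr239Bx l1 h1 l2 h2)
    {e : Scr239E} (he : e ∈ scrVseg x y1 y2) : Scr239In δ (scr239Bx l1 h1 l2 h2) e := by
  obtain ⟨e2, e1, e3, e4⟩ := scr239_vseg_mem he
  obtain ⟨⟨ex, ey⟩, eb⟩ := e
  simp only at e1 e2 e3 e4
  subst e1 e2
  obtain ⟨a1, a2, a3, a4⟩ := ha
  obtain ⟨b1, b2, b3, b4⟩ := hb
  simp only [scr232P] at a1 a2 a3 a4 b1 b2 b3 b4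
  have k1 := scr239_between hδ e3 (by omega : ey ≤ max y1 y2) a3 b3 a4 b4
  have k2 := scr239_between hδ (by omega : min y1 y2 ≤ ey + 1) e4 a3 b3 a4 b4
  exact ⟨⟨a1, a2, k1.1, k1.2⟩, ⟨a1, a2, k2.1, k2.2⟩⟩

/-- a horizontal segment with both ends in a box lies in the box -/
theorem scr239_hseg_box {δ l1 h1 l2 h2 : ℝ} (hδ : 0 < δ) {y x1 x2 : ℤ}
    (ha : scr232P δ (x1, y) ∈ scr239Bx l1 h1 l2 h2) (hb : scr232P δ (x2, y) ∈ scr239Bx l1 h1 l2 h2)
    {e : Scr239E} (he : e ∈ scrHseg y x1 x2) : Scr239In δ (scr239Bx l1 h1 l2 h2) e := by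
  obtain ⟨e2, e1, e3, e4⟩ := scr239_hseg_mem he
  obtain ⟨⟨ex, ey⟩, eb⟩ := e
  simp only at e1 e2 e3 e4
  subst e1 e2
  obtain ⟨a1, a2, a3, a4⟩ := ha
  obtain ⟨b1, b2, b3, b4⟩ := hb
  simp only [scr232P] at a1 a2 a3 a4 b1 b2 b3 b4
  have k1 := scr239_between hδ e3 (by omega : ex ≤ max x1 x2) a1 b1 a2 b2
  have k2 := scr239_between hδ (by omega : min x1 x2 ≤ ex + 1) e4 a1 b1 a2 b2
  exact ⟨⟨k1.1, k1.2, a3, a4⟩, ⟨k2.1, k2.2, a3, a4⟩⟩

/-- the sides of the hulls -/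
noncomputable def scr239Lo1 (Λ : ScrLay) (i : Fin 4) : ℝ := ![Λ.x0 - Λ.s, Λ.x0 - Λ.s, Λ.x0 - Λ.s, Λ.x0 + Λ.w] i
noncomputable def scr239Hi1 (Λ : ScrLay) (i : Fin 4) : ℝ := ![Λ.x0 + Λ.s, Λ.x0 + Λ.s, Λ.x0 - Λ.w, Λ.x0 + Λ.s] i
noncomputable def scr239Lo2 (Λ : ScrLay) (i : Fin 4) : ℝ :=
  ![Λ.y0 + Λ.h + Λ.g, Λ.y0 - Λ.s, Λ.y0 - Λ.h + Λ.g, Λ.y0 - Λ.h + Λ.g] i
noncomputable def scr239Hi2 (Λ : ScrLay) (i : Fin 4) : ℝ :=
  ![Λ.y0 + Λ.s, Λ.y0 - Λ.h - Λ.g, Λ.y0 + Λ.h - Λ.g, Λ.y0 + Λ.h - Λ.g] i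

theorem scr239_hull_eq (Λ : ScrLay) (i : Fin 4) :
    Λ.hull i = scr239Bx (scr239Lo1 Λ i) (scr239Hi1 Λ i) (scr239Lo2 Λ i) (scr239Hi2 Λ i) := by
  ext p
  fin_cases i <;>
  simp only [ScrLay.hull, scrHull, scr232Obj, scr239Bx, scr239Lo1, scr239Hi1, scr239Lo2, scr239Hi2,
    Set.mem_ofPred_eq, abs_le, Fin.zero_eta, Fin.mk_one, Fin.reduceFinMk, Matrix.cons_val] <;>
  constructor <;> intro h <;> (try obtain ⟨⟨h1, h2⟩, h3, h4⟩ := h) <;>
  (try obtain ⟨h1, h2, ⟨h3, h4⟩⟩ := h) <;>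
  first
    | exact ⟨by linarith, by linarith, by linarith, by linarith⟩
    | exact ⟨⟨by linarith, by linarith⟩, by linarith, by linarith⟩

/-- the points with margin `c` in a box -/
theorem scr239_marg_iff {l1 h1 l2 h2 c : ℝ} (hc : 0 ≤ c) (p : ℝ × ℝ) :
    Metric.closedBall p c ⊆ scr239Bx l1 h1 l2 h2 ↔ p ∈ scr239Bx (l1 + c) (h1 - c) (l2 + c) (h2 - c) := by
  constructor
  · intro h
    have a1 : ((p.1 - c, p.2) : ℝ × ℝ) ∈ Metric.closedBall p c := by
      rw [scr239_mem_cball]; simp [abs_of_nonneg hc, hc]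
    have a2 : ((p.1 + c, p.2) : ℝ × ℝ) ∈ Metric.closedBall p c := by
      rw [scr239_mem_cball]; simp [abs_of_nonneg hc, hc]
    have a3 : ((p.1, p.2 - c) : ℝ × ℝ) ∈ Metric.closedBall p c := by
      rw [scr239_mem_cball]; simp [abs_of_nonneg hc, hc]
    have a4 : ((p.1, p.2 + c) : ℝ × ℝ) ∈ Metric.closedBall p c := by
      rw [scr239_mem_cball]; simp [abs_of_nonneg hc, hc]
    have b1 := (h a1).1
    have b2 := (h a2).2.1
    have b3 := (h a3).2.2.1
    have b4 := (h a4).2.2.2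
    simp only at b1 b2 b3 b4
    exact ⟨by linarith, by linarith, by linarith, by linarith⟩
  · rintro ⟨h1', h2', h3', h4'⟩ q hq
    rw [scr239_mem_cball, abs_le, abs_le] at hq
    obtain ⟨⟨q1, q2⟩, q3, q4⟩ := hq
    exact ⟨by linarith, by linarith, by linarith, by linarith⟩

theorem scr239_core_eq {Λ : ScrLay} (hΛ : Λ.Ok) (i : Fin 4) :
    Λ.core i = scr239Bx (scr239Lo1 Λ i + Λ.c1) (scr239Hi1 Λ i - Λ.c1) (scr239Lo2 Λ i + Λ.c1) (scr239Hi2 Λ i - Λ.c1) := by
  have hc : 0 ≤ Λ.c1 := by have := scr239_Rt_pos hΛ; unfold ScrLay.c1; linarith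
  ext p
  rw [← scr239_marg_iff hc, ← scr239_hull_eq]
  rfl

theorem scr239_coreP_eq {Λ : ScrLay} (hΛ : Λ.Ok) (i : Fin 4) :
    Λ.coreP i = scr239Bx (scr239Lo1 Λ i + Λ.c1 / 2) (scr239Hi1 Λ i - Λ.c1 / 2) (scr239Lo2 Λ i + Λ.c1 / 2)
      (scr239Hi2 Λ i - Λ.c1 / 2) := by
  have hc : 0 ≤ Λ.c1 / 2 := by have := scr239_Rt_pos hΛ; unfold ScrLay.c1; linarith
  ext p
  rw [← scr239_marg_iff hc, ← scr239_hull_eq]
  rfl

/-! ### cores, blocks, observed faces -/

theorem scr239_h_pos {Λ : ScrLay} (hΛ : Λ.Ok) : 0 < Λ.h := by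
  have h1 := hΛ.sc.hr
  have h2 := hΛ.sc.hr0
  have h3 := hΛ.sc.hg
  linarith

/-- the second coordinate of a centre -/
theorem scr239_cen_snd (Λ : ScrLay) (k : Fin 4) (j : ℕ) :
    (Λ.cen k j).2 = Λ.y0 + Λ.h ∨ (Λ.cen k j).2 = Λ.y0 - Λ.h := by
  fin_cases k <;> simp [ScrLay.cen] <;> ring_nf <;> simp

/-- a point of a core is far from the two middle lines of the gaps -/
theorem scr239_core_far {Λ : ScrLay} (hΛ : Λ.Ok) {i : Fin 4} {p : ℝ × ℝ} (hp : p ∈ Λ.core i) :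
    Λ.c1 ≤ |p.2 - (Λ.y0 + Λ.h)| ∧ Λ.c1 ≤ |p.2 - (Λ.y0 - Λ.h)| := by
  rw [scr239_core_eq hΛ] at hp
  obtain ⟨-, -, h3, h4⟩ := hp
  have hh := scr239_h_pos hΛ
  have hg := hΛ.sc.hg
  have hc : 0 < Λ.c1 := by have := scr239_Rt_pos hΛ; unfold ScrLay.c1; linarith
  fin_cases i <;>
  simp only [scr239Lo2, scr239Hi2, Fin.zero_eta, Fin.mk_one, Fin.reduceFinMk, Matrix.cons_val] at h3 h4
  · exact ⟨le_trans (by linarith) (le_abs_self _), le_trans (by linarith) (le_abs_self _)⟩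
  · exact ⟨le_trans (by linarith) (neg_le_abs _), le_trans (by linarith) (neg_le_abs _)⟩
  · exact ⟨le_trans (by linarith) (neg_le_abs _), le_trans (by linarith) (le_abs_self _)⟩
  · exact ⟨le_trans (by linarith) (neg_le_abs _), le_trans (by linarith) (le_abs_self _)⟩

theorem scr239_core_sub_hull {Λ : ScrLay} (hΛ : Λ.Ok) (i : Fin 4) : Λ.core i ⊆ Λ.hull i := by
  intro p hp
  have hc : 0 ≤ Λ.c1 := by have := scr239_Rt_pos hΛ; unfold ScrLay.c1; linarith
  exact hp (Metric.mem_closedBall_self hc)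

theorem scr239_core_sub_blk {Λ : ScrLay} (hΛ : Λ.Ok) (i : Fin 4) : Λ.core i ⊆ Λ.blk i := by
  intro p hp
  refine ⟨scr239_core_sub_hull hΛ i hp, ?_⟩
  simp only [Set.mem_iUnion, not_exists]
  intro k j _ hh
  unfold ScrLay.hole at hh
  rw [scr239_mem_ball] at hh
  have h1 := scr239_core_far hΛ hp
  have h2 := scr239_wh_le hΛ
  have h3 := scr239_Rt_pos hΛ
  have h4 : Λ.c1 = Λ.Rt / 5 := rfl
  rcases scr239_cen_snd Λ k j with e | e
  · rw [e] at hh
    linarith [hh.2, h1.1]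
  · rw [e] at hh
    linarith [hh.2, h1.2]

theorem scr239_hull_sub_cball {Λ : ScrLay} (hΛ : Λ.Ok) (i : Fin 4) : Λ.hull i ⊆ Metric.closedBall Λ.z Λ.s := by
  intro p hp
  rw [scr239_hull_eq] at hp
  obtain ⟨h1, h2, h3, h4⟩ := hp
  have hh := scr239_h_pos hΛ
  have hg := hΛ.sc.hg
  have hhs := hΛ.sc.hhs
  have hws := hΛ.sc.hws
  have hw := hΛ.sc.hw
  rw [scr239_cball_eq]
  fin_cases i <;>
  simp only [scr239Lo1, scr239Hi1, scr239Lo2, scr239Hi2, Fin.zero_eta, Fin.mk_one, Fin.reduceFinMk,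
    Matrix.cons_val] at h1 h2 h3 h4 <;>
  exact ⟨by simp only [ScrLay.z]; linarith, by simp only [ScrLay.z]; linarith,
    by simp only [ScrLay.z]; linarith, by simp only [ScrLay.z]; linarith⟩

/-- a face of a larger core is observed -/
theorem scr239_coreSel {Λ : ScrLay} (hΛ : Λ.Ok) {δ : ℝ} (hδ : 0 < δ) {f : ℤ × ℤ} {i : Fin 4}
    (hf : scr232P δ f ∈ Λ.coreP i) : f ∈ scrCoreSel Λ δ := by
  classical
  have hc : 0 ≤ Λ.c1 / 2 := by have := scr239_Rt_pos hΛ; unfold ScrLay.c1; linarith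
  have h1 : scr232P δ f ∈ Metric.closedBall Λ.z Λ.s :=
    scr239_hull_sub_cball hΛ i (hf (Metric.mem_closedBall_self hc))
  rw [scr239_mem_cball, abs_le, abs_le] at h1
  obtain ⟨⟨a1, a2⟩, a3, a4⟩ := h1
  simp only [scr232P, ScrLay.z] at a1 a2 a3 a4
  set A : ℝ := |Λ.x0| + |Λ.y0| + Λ.s with hA
  have hx1 := le_abs_self Λ.x0
  have hx2 := neg_abs_le Λ.x0
  have hy1 := le_abs_self Λ.y0
  have hy2 := neg_abs_le Λ.y0
  have hx0 := abs_nonneg Λ.x0
  have hy0 := abs_nonneg Λ.y0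
  have hN : A / δ ≤ (⌈A / δ⌉ : ℝ) := Int.le_ceil _
  have key : ∀ n : ℤ, -A ≤ δ * n → δ * n ≤ A → -⌈A / δ⌉ ≤ n ∧ n ≤ ⌈A / δ⌉ := by
    intro n h1 h2
    have b1 : (n : ℝ) ≤ A / δ := by rw [le_div_iff₀ hδ]; linarith
    have b2 : -(A / δ) ≤ (n : ℝ) := by
      rw [neg_le, ← sub_nonneg]
      have : A / δ - -(n : ℝ) = (A + δ * n) / δ := by field_simp; ring
      rw [this]
      exact div_nonneg (by linarith) hδ.le
    constructor
    · have : (-(⌈A / δ⌉ : ℝ)) ≤ (n : ℝ) := by linarith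
      exact_mod_cast this
    · have : (n : ℝ) ≤ (⌈A / δ⌉ : ℝ) := by linarith
      exact_mod_cast this
  have k1 := key f.1 (by linarith) (by linarith)
  have k2 := key f.2 (by linarith) (by linarith)
  unfold scrCoreSel
  rw [Finset.mem_filter, Finset.mem_product, Finset.mem_Icc, Finset.mem_Icc]
  exact ⟨⟨k1, k2⟩, i, hf⟩

/-- an edge with both ends in a core has the property (T1) -/
theorem scr239_core_T1 {Λ : ScrLay} (hΛ : Λ.Ok) {δ : ℝ} (hδ : 0 < δ) (hδ' : δ ≤ Λ.Rt / 10) (ω₀ : RswCfg)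
    {i : Fin 4} {e : Scr239E} (he : Scr239In δ (Λ.core i) e) : Scr239T1 Λ δ ω₀ e := by
  refine Or.inr ⟨⟨i, scr239_core_sub_blk hΛ i he.1, scr239_core_sub_blk hΛ i he.2⟩, Or.inr ⟨?_, ?_⟩⟩
  · apply scr239_coreSel hΛ hδ (i := i)
    have h := he.1
    rw [scr239_core_eq hΛ] at h
    rw [scr239_coreP_eq hΛ]
    obtain ⟨h1, h2, h3, h4⟩ := h
    have hc : 0 ≤ Λ.c1 := by have := scr239_Rt_pos hΛ; unfold ScrLay.c1; linarith
    exact ⟨by linarith, by linarith, by linarith, by linarith⟩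
  · apply scr239_coreSel hΛ hδ (i := i)
    have h := he.1
    rw [scr239_core_eq hΛ] at h
    rw [scr239_coreP_eq hΛ]
    obtain ⟨h1, h2, h3, h4⟩ := h
    have hc : Λ.c1 = Λ.Rt / 5 := rfl
    obtain ⟨⟨x, y⟩, b⟩ := e
    simp only [scr232P] at h1 h2 h3 h4
    cases b
    · simp only [rswCo, scr232P, scr239Bx, Set.mem_ofPred_eq, Bool.false_eq_true, if_false]
      push_cast
      exact ⟨by linarith, by linarith, by linarith, by linarith⟩
    · simp only [rswCo, scr232P, scr239Bx, Set.mem_ofPred_eq, if_true]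
      push_cast
      exact ⟨by linarith, by linarith, by linarith, by linarith⟩

/-- the L-shaped chain between two corners -/
noncomputable def scr239L (u u' : ℤ × ℤ) : Scr239C :=
  scr239Ch (scrVseg u.1 u.2 u'.2) + scr239Ch (scrHseg u'.2 u.1 u'.1)

theorem scr239_bd_L (u u' : ℤ × ℤ) : scr239Bd (scr239L u u') = scr239Pt u + scr239Pt u' := by
  unfold scr239L
  rw [scr239_bd_add, scr239_bd_vseg, scr239_bd_hseg]
  calc _ = scr239Pt (u.1, u.2) + scr239Pt (u'.1, u'.2) + (scr239Pt (u.1, u'.2) + scr239Pt (u.1, u'.2)) := by abel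
    _ = _ := by rw [scr239_pt_two, add_zero]

/-- the L-shaped chain between two corners of a box stays in the box -/
theorem scr239_L_box {δ l1 h1 l2 h2 : ℝ} (hδ : 0 < δ) {u u' : ℤ × ℤ}
    (hu : scr232P δ u ∈ scr239Bx l1 h1 l2 h2) (hu' : scr232P δ u' ∈ scr239Bx l1 h1 l2 h2) :
    Scr239All (Scr239In δ (scr239Bx l1 h1 l2 h2)) (scr239L u u') := by
  have hm : scr232P δ (u.1, u'.2) ∈ scr239Bx l1 h1 l2 h2 := ⟨hu.1, hu.2.1, hu'.2.2.1, hu'.2.2.2⟩
  exact (scr239_all_ch fun e he => scr239_vseg_box hδ hu hm he).add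
    (scr239_all_ch fun e he => scr239_hseg_box hδ hm hu' he)

/-- (CORE) the chain between two corners of a core -/
theorem scr239_core_path {Λ : ScrLay} (hΛ : Λ.Ok) {δ : ℝ} (hδ : 0 < δ) (hδ' : δ ≤ Λ.Rt / 10) (ω₀ : RswCfg)
    {i : Fin 4} {u u' : ℤ × ℤ} (hu : scr232P δ u ∈ Λ.core i) (hu' : scr232P δ u' ∈ Λ.core i) :
    Scr239All (fun e => Scr239T1 Λ δ ω₀ e ∧ Scr239In δ (Λ.core i) e) (scr239L u u') := by
  have h : Scr239All (Scr239In δ (Λ.core i)) (scr239L u u') := by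
    rw [scr239_core_eq hΛ] at hu hu' ⊢
    exact scr239_L_box hδ hu hu'
  exact h.mono fun e he => ⟨scr239_core_T1 hΛ hδ hδ' ω₀ he, he⟩

/-! ### the gap boxes -/

theorem scr239_cen_fst (Λ : ScrLay) (k : Fin 4) (j : ℕ) :
    (Λ.cen k j).1 = Λ.x0 + (Λ.w + (2 * j + 1) * Λ.Rt) ∨ (Λ.cen k j).1 = Λ.x0 - (Λ.w + (2 * j + 1) * Λ.Rt) := by
  fin_cases k <;> simp [ScrLay.cen] <;> ring_nf <;> simp

/-- a gap box lies in the big square -/
theorem scr239_gapbox_sub {Λ : ScrLay} (hΛ : Λ.Ok) {k : Fin 4} {j : ℕ} (hj : j < Λ.M) :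
    Metric.closedBall (Λ.cen k j) (Λ.Rt / 2) ⊆ Metric.closedBall Λ.z Λ.s := by
  intro p hp
  rw [scr239_mem_cball, abs_le, abs_le] at hp ⊢
  obtain ⟨⟨a1, a2⟩, a3, a4⟩ := hp
  have hR := scr239_Rt_pos hΛ
  have hM := scr239_M_Rt hΛ
  have hh := scr239_h_pos hΛ
  have hw := hΛ.sc.hw
  have hT := hΛ.hT
  have hg := hΛ.sc.hg
  have hj' : (j : ℝ) + 1 ≤ Λ.M := by exact_mod_cast hj
  have hj0 : (0 : ℝ) ≤ j := Nat.cast_nonneg j
  have h1 : (2 * (j : ℝ) + 1) * Λ.Rt ≤ Λ.s - Λ.w - Λ.Rt := by nlinarith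
  have h2 : 0 ≤ (2 * (j : ℝ) + 1) * Λ.Rt := by positivity
  simp only [ScrLay.z]
  rcases scr239_cen_fst Λ k j with e1 | e1 <;> rcases scr239_cen_snd Λ k j with e2 | e2 <;>
  rw [e1] at a1 a2 <;> rw [e2] at a3 a4 <;>
  exact ⟨⟨by linarith, by linarith⟩, by linarith, by linarith⟩

/-- the rows of a gap box are far from the rows of `K` -/
theorem scr239_gapbox_row {Λ : ScrLay} {k : Fin 4} {j : ℕ} {p : ℝ × ℝ}
    (hp : p ∈ Metric.closedBall (Λ.cen k j) (Λ.Rt / 2)) :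
    Λ.y0 + Λ.h - Λ.Rt / 2 ≤ p.2 ∨ p.2 ≤ Λ.y0 - Λ.h + Λ.Rt / 2 := by
  rw [scr239_mem_cball, abs_le, abs_le] at hp
  obtain ⟨-, a3, a4⟩ := hp
  rcases scr239_cen_snd Λ k j with e2 | e2 <;> rw [e2] at a3 a4
  · left; linarith
  · right; linarith

theorem scr239_gapbox_top {Λ : ScrLay} {j : ℕ} {p : ℝ × ℝ}
    (hp : p ∈ Metric.closedBall (Λ.cen 0 j) (Λ.Rt / 2)) : Λ.y0 + Λ.h - Λ.Rt / 2 ≤ p.2 := by
  rw [scr239_mem_cball, abs_le, abs_le] at hp
  obtain ⟨-, a3, a4⟩ := hp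
  simp [ScrLay.cen] at a3
  linarith

theorem scr239_gapbox_bot {Λ : ScrLay} {j : ℕ} {p : ℝ × ℝ}
    (hp : p ∈ Metric.closedBall (Λ.cen 2 j) (Λ.Rt / 2)) : p.2 ≤ Λ.y0 - Λ.h + Λ.Rt / 2 := by
  rw [scr239_mem_cball, abs_le, abs_le] at hp
  obtain ⟨-, a3, a4⟩ := hp
  simp [ScrLay.cen] at a4
  linarith

theorem scr239_zmod (a : ZMod 2) : a = 0 ∨ a = 1 := by
  revert a
  decide


/-! ### (GAP) the chain of one gap: written by helper199 (prefix `scr239g_`) -/

/-- the selected trial and the selected ports -/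
theorem scr239g_sel {Λ : ScrLay} {δ : ℝ} {ω₀ : RswCfg} (hS : ScrSucc Λ δ ω₀) (k : Fin 4) :
    scrSelJ Λ δ k ω₀ < Λ.M ∧
      ∀ b, ScrArm Λ δ k (scrSelJ Λ δ k ω₀) b (scrPc Λ δ ω₀) (scrSelA Λ δ k b ω₀) := by
  classical
  have hk : ScrGapOk Λ δ k ω₀ := hS k
  have hJ : scrSelJ Λ δ k ω₀ = Nat.find hk := by
    unfold scrSelJ
    rw [dif_pos hk]
  have hsp := Nat.find_spec hk
  rw [← hJ] at hsp
  refine ⟨hsp.1, fun b => ?_⟩
  have hb : ∃ a, ScrArm Λ δ k (scrSelJ Λ δ k ω₀) b (scrPc Λ δ ω₀) a := hsp.2 b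
  have hA : scrSelA Λ δ k b ω₀ = Classical.choose hb := by
    unfold scrSelA
    rw [dif_pos hb]
  rw [hA]
  exact Classical.choose_spec hb

/-- a good edge of the pattern configuration is an open edge of `ω₀` -/
theorem scr239g_pc_open {Λ : ScrLay} {δ : ℝ} {ω₀ : RswCfg} {e : Scr239E}
    (h : RswGood true (scrPc Λ δ ω₀) e) : e ∈ ω₀.O := by
  classical
  have h1 : e ∈ (scrPc Λ δ ω₀).O := h.1
  unfold scrPc scrOfPat at h1
  simp only [Finset.mem_biUnion, Finset.mem_univ, true_and] at h1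
  obtain ⟨i, hi⟩ := h1
  unfold scrPats scrPat at hi
  exact (Finset.mem_filter.1 hi).1

/-- convexity on the lattice line -/
theorem scr239g_between {δ c R : ℝ} (hδ : 0 < δ) {a b y : ℤ} (h1 : min a b ≤ y) (h2 : y ≤ max a b)
    (ha : |δ * (a : ℝ) - c| ≤ R) (hb : |δ * (b : ℝ) - c| ≤ R) : |δ * (y : ℝ) - c| ≤ R := by
  rw [abs_le] at ha hb ⊢
  have h1' : ((min a b : ℤ) : ℝ) ≤ (y : ℝ) := by exact_mod_cast h1
  have h2' : (y : ℝ) ≤ ((max a b : ℤ) : ℝ) := by exact_mod_cast h2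
  have h3 := mul_le_mul_of_nonneg_left h1' hδ.le
  have h4 := mul_le_mul_of_nonneg_left h2' hδ.le
  rcases le_total a b with h | h
  · rw [min_eq_left h] at h3
    rw [max_eq_right h] at h4
    constructor <;> linarith [ha.1, hb.2]
  · rw [min_eq_right h] at h3
    rw [max_eq_left h] at h4
    constructor <;> linarith [ha.2, hb.1]

/-- a vertical segment in a square -/
theorem scr239g_vseg_in {δ R : ℝ} {c : ℝ × ℝ} (hδ : 0 < δ) {x y1 y2 : ℤ}
    (hx : |δ * (x : ℝ) - c.1| ≤ R) (h1 : |δ * (y1 : ℝ) - c.2| ≤ R) (h2 : |δ * (y2 : ℝ) - c.2| ≤ R)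
    {e : Scr239E} (he : e ∈ scrVseg x y1 y2) : Scr239In δ (Metric.closedBall c R) e := by
  obtain ⟨hb, hx', hlo, hhi⟩ := scr239_vseg_mem he
  obtain ⟨⟨x', y'⟩, b⟩ := e
  simp only at hb hx' hlo hhi
  subst hb hx'
  unfold Scr239In
  rw [scr239_mem_cball, scr239_mem_cball]
  simp only [scr232P, rswEnd, if_true]
  exact ⟨⟨hx, scr239g_between hδ hlo (by omega) h1 h2⟩,
    ⟨hx, scr239g_between hδ (by omega) hhi h1 h2⟩⟩

/-- a horizontal segment in a square -/
theorem scr239g_hseg_in {δ R : ℝ} {c : ℝ × ℝ} (hδ : 0 < δ) {y x1 x2 : ℤ}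
    (hy : |δ * (y : ℝ) - c.2| ≤ R) (h1 : |δ * (x1 : ℝ) - c.1| ≤ R) (h2 : |δ * (x2 : ℝ) - c.1| ≤ R)
    {e : Scr239E} (he : e ∈ scrHseg y x1 x2) : Scr239In δ (Metric.closedBall c R) e := by
  obtain ⟨hb, hy', hlo, hhi⟩ := scr239_hseg_mem he
  obtain ⟨⟨x', y'⟩, b⟩ := e
  simp only at hb hy' hlo hhi
  subst hb hy'
  unfold Scr239In
  rw [scr239_mem_cball, scr239_mem_cball]
  simp only [scr232P, rswEnd, Bool.false_eq_true, if_false]
  exact ⟨⟨scr239g_between hδ hlo (by omega) h1 h2, hy⟩,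
    ⟨scr239g_between hδ (by omega) hhi h1 h2, hy⟩⟩

/-- the middle row -/
theorem scr239g_floor {δ c : ℝ} (hδ : 0 < δ) : |δ * ((⌊c / δ⌋ : ℤ) : ℝ) - c| ≤ δ := by
  have h1 := Int.floor_le (c / δ)
  have h2 := Int.lt_floor_add_one (c / δ)
  rw [le_div_iff₀ hδ] at h1
  rw [div_lt_iff₀ hδ] at h2
  rw [abs_le]
  constructor <;> nlinarith

theorem scr239g_Rt_pos {Λ : ScrLay} (hΛ : Λ.Ok) : 0 < Λ.Rt := by
  unfold ScrLay.Rt
  have h1 : (0 : ℝ) < Λ.M := by exact_mod_cast hΛ.hM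
  have h2 := hΛ.hws
  apply div_pos <;> linarith

theorem scr239g_wh_le {Λ : ScrLay} (hΛ : Λ.Ok) : Λ.wh ≤ Λ.Rt / 40 := by
  unfold ScrLay.wh
  have h1 := scr239g_Rt_pos hΛ
  have h2 := hΛ.hq'
  nlinarith

theorem scr239g_wh_pos {Λ : ScrLay} (hΛ : Λ.Ok) : 0 < Λ.wh := by
  unfold ScrLay.wh
  exact mul_pos hΛ.hq (scr239g_Rt_pos hΛ)

theorem scr239g_cen_snd (Λ : ScrLay) (k : Fin 4) (j j' : ℕ) : (Λ.cen k j).2 = (Λ.cen k j').2 := rfl

/-- (GAP) the chain of the gap `k`: arm + bridge + arm, from the core of the bar to the core of the side block -/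
theorem scr239_gap (Λ : ScrLay) (hΛ : Λ.Ok) {δ : ℝ} (hδ : 0 < δ) (hδ' : δ ≤ Λ.Rt / 10) {ω₀ : RswCfg}
    (hS : ScrSucc Λ δ ω₀) (k : Fin 4) :
    ∃ (G : Scr239C) (u u' : ℤ × ℤ) (j : ℕ), j < Λ.M ∧ scr239Bd G = scr239Pt u + scr239Pt u' ∧
      scr232P δ u ∈ Λ.core (ScrLay.adj k false) ∧ scr232P δ u' ∈ Λ.core (ScrLay.adj k true) ∧
      scr232P δ u ∈ Metric.closedBall (Λ.cen k j) (Λ.Rt / 2) ∧
      scr232P δ u' ∈ Metric.closedBall (Λ.cen k j) (Λ.Rt / 2) ∧
      Scr239All (fun e => Scr239T1 Λ δ ω₀ e ∧ Scr239In δ (Metric.closedBall (Λ.cen k j) (Λ.Rt / 2)) e) G := by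
  classical
  obtain ⟨hj, harm⟩ := scr239g_sel hS k
  have hRt := scr239g_Rt_pos hΛ
  have hwh := scr239g_wh_le hΛ
  have hwh0 := scr239g_wh_pos hΛ
  set j := scrSelJ Λ δ k ω₀ with hjdef
  set m : ℤ := ⌊(Λ.cen k 0).2 / δ⌋ with hm
  -- the ports
  have hport : ∀ b, |δ * ((scrSelA Λ δ k b ω₀).1 : ℝ) - (Λ.cen k j).1| ≤ Λ.Rt / 2 ∧
      |δ * ((scrSelA Λ δ k b ω₀).2 : ℝ) - (Λ.cen k j).2| ≤ Λ.Rt / 2 := by
    intro b
    obtain ⟨⟨-, h1, h2⟩, -⟩ := harm b
    exact ⟨by linarith, by linarith⟩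
  have hmid : |δ * (m : ℝ) - (Λ.cen k j).2| ≤ Λ.Rt / 2 := by
    have := scr239g_floor (c := (Λ.cen k 0).2) hδ
    rw [scr239g_cen_snd Λ k j 0]
    linarith
  -- the arms
  have harm' : ∀ b, ∃ (p : Scr239C) (c : ℤ × ℤ),
      scr239Bd p = scr239Pt (scrSelA Λ δ k b ω₀) + scr239Pt c ∧
      scr232P δ c ∈ Λ.core (ScrLay.adj k b) ∧
      scr232P δ c ∈ Metric.closedBall (Λ.cen k j) (Λ.Rt / 2) ∧
      Scr239All (fun e => Scr239T1 Λ δ ω₀ e ∧
        Scr239In δ (Metric.closedBall (Λ.cen k j) (Λ.Rt / 2)) e) p := by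
    intro b
    obtain ⟨-, c, hc, hpath⟩ := harm b
    obtain ⟨p, hp, hall⟩ := scr239_path hpath
    refine ⟨p, c, hp, hc, ?_, hall.mono ?_⟩
    · apply scr239_path_end hpath _ Set.inter_subset_right
      rw [scr239_mem_cball]
      exact hport b
    · rintro e ⟨hg, h1, h2⟩
      exact ⟨Or.inr ⟨⟨ScrLay.adj k b, h1.1, h2.1⟩, Or.inl (scr239g_pc_open hg)⟩, h1.2, h2.2⟩
  obtain ⟨pF, cF, hpF, hcF, hcF', hallF⟩ := harm' false
  obtain ⟨pT, cT, hpT, hcT, hcT', hallT⟩ := harm' true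
  set aF := scrSelA Λ δ k false ω₀ with haF
  set aT := scrSelA Λ δ k true ω₀ with haT
  refine ⟨pF + (scr239Ch (scrVseg aF.1 aF.2 m) + scr239Ch (scrHseg m aF.1 aT.1) +
    scr239Ch (scrVseg aT.1 m aT.2)) + pT, cF, cT, j, hj, ?_, hcF, hcT, hcF', hcT', ?_⟩
  · rw [scr239_bd_add, scr239_bd_add, scr239_bd_add, scr239_bd_add, hpF, hpT, scr239_bd_vseg,
      scr239_bd_hseg, scr239_bd_vseg]
    have e1 : ((aF.1, aF.2) : ℤ × ℤ) = aF := rfl
    have e2 : ((aT.1, aT.2) : ℤ × ℤ) = aT := rfl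
    rw [e1, e2]
    calc _ = scr239Pt cF + scr239Pt cT + (scr239Pt aF + scr239Pt aF) + (scr239Pt aT + scr239Pt aT) +
          (scr239Pt (aF.1, m) + scr239Pt (aF.1, m)) + (scr239Pt (aT.1, m) + scr239Pt (aT.1, m)) := by
            abel
      _ = _ := by simp only [scr239_pt_two, add_zero]
  · refine (hallF.add ((Scr239All.add (scr239_all_ch ?_) (scr239_all_ch ?_)).add
      (scr239_all_ch ?_))).add hallT
    · intro e he
      refine ⟨Or.inl ⟨k, ?_⟩, scr239g_vseg_in hδ (hport false).1 (hport false).2 hmid he⟩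
      unfold scrBridge
      exact Finset.mem_union_left _ (Finset.mem_union_left _ he)
    · intro e he
      refine ⟨Or.inl ⟨k, ?_⟩, scr239g_hseg_in hδ hmid (hport false).1 (hport true).1 he⟩
      unfold scrBridge
      exact Finset.mem_union_left _ (Finset.mem_union_right _ he)
    · intro e he
      refine ⟨Or.inl ⟨k, ?_⟩, scr239g_vseg_in hδ (hport true).1 hmid (hport true).2 he⟩
      unfold scrBridge
      exact Finset.mem_union_right _ he

/-! ## D. the region -/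

theorem scr239_sig_zero_of {c : Scr239C} {f : ℤ × ℤ} {Q : Scr239E → Prop} (h : Scr239All Q c)
    (hQ : ∀ e, Q e → e.1.2 = f.2 → e.1.1 ≤ f.1 → False) : scr239Sig c f = 0 := by
  apply scr239_cnt_eq_zero
  rintro e he ⟨-, h1, h2⟩
  exact hQ e (h e he) h1 h2

/-- **(TOPO)**: the region enclosed by the arms, the bridges and the core segments -/
theorem scr239_region {Λ : ScrLay} (hΛ : Λ.Ok) {δ : ℝ} (hδ : 0 < δ) (hδ' : δ ≤ Λ.Rt / 10)
    {F : Finset (ℤ × ℤ)} (hF : ScrFits Λ δ F) {ω₀ : RswCfg} (hS : ScrSucc Λ δ ω₀) :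
    ∃ In : Finset (ℤ × ℤ), In ⊆ F ∧ Scx199T1 Λ δ ω₀ In ∧
      (∀ v, scr232P δ v ∈ Metric.closedBall Λ.z Λ.r → ¬ OnPolygon In v) ∧
      ∀ f ∈ In, scr232P δ f ∈ Metric.closedBall Λ.z Λ.s := by
  classical
  choose G u u' j hj hbd hu hu' bu bu' hall using fun k => scr239_gap Λ hΛ hδ hδ' hS k
  -- numbers
  have hR := scr239_Rt_pos hΛ
  have hK := hΛ.hK
  have hg := hΛ.sc.hg
  have hr0 := hΛ.sc.hr0
  have hr8 := hΛ.sc.hr8
  have hh := scr239_h_pos hΛ
  have hc1 : Λ.c1 = Λ.Rt / 5 := rfl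
  -- the blocks next to the gaps
  have hu0 : scr232P δ (u 0) ∈ Λ.core 0 := hu 0
  have hu1 : scr232P δ (u 1) ∈ Λ.core 0 := hu 1
  have hu2 : scr232P δ (u 2) ∈ Λ.core 1 := hu 2
  have hu3 : scr232P δ (u 3) ∈ Λ.core 1 := hu 3
  have hv0 : scr232P δ (u' 0) ∈ Λ.core 2 := hu' 0
  have hv1 : scr232P δ (u' 1) ∈ Λ.core 3 := hu' 1
  have hv2 : scr232P δ (u' 2) ∈ Λ.core 2 := hu' 2
  have hv3 : scr232P δ (u' 3) ∈ Λ.core 3 := hu' 3
  have cT := scr239_core_path hΛ hδ hδ' ω₀ hu0 hu1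
  have cD := scr239_core_path hΛ hδ hδ' ω₀ hu2 hu3
  have cL := scr239_core_path hΛ hδ hδ' ω₀ hv0 hv2
  have cR := scr239_core_path hΛ hδ hδ' ω₀ hv1 hv3
  -- the cycle
  obtain ⟨γ, hγdef⟩ : ∃ γ : Scr239C, γ = G 0 + G 1 + G 2 + G 3 + scr239L (u 0) (u 1) + scr239L (u 2) (u 3) +
      scr239L (u' 0) (u' 2) + scr239L (u' 1) (u' 3) := ⟨_, rfl⟩
  have hcyc : scr239Bd γ = 0 := by
    rw [hγdef]
    simp only [scr239_bd_add, hbd, scr239_bd_L]
    calc _ = (scr239Pt (u 0) + scr239Pt (u 0)) + (scr239Pt (u 1) + scr239Pt (u 1)) +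
          (scr239Pt (u 2) + scr239Pt (u 2)) + (scr239Pt (u 3) + scr239Pt (u 3)) +
          (scr239Pt (u' 0) + scr239Pt (u' 0)) + (scr239Pt (u' 1) + scr239Pt (u' 1)) +
          (scr239Pt (u' 2) + scr239Pt (u' 2)) + (scr239Pt (u' 3) + scr239Pt (u' 3)) := by abel
      _ = 0 := by simp only [scr239_pt_two, add_zero]
  have hgapall : ∀ k, Scr239All (fun e => Scr239T1 Λ δ ω₀ e ∧ Scr239In δ (Metric.closedBall Λ.z Λ.s) e) (G k) :=
    fun k => (hall k).mono fun e he =>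
      ⟨he.1, scr239_gapbox_sub hΛ (hj k) he.2.1, scr239_gapbox_sub hΛ (hj k) he.2.2⟩
  have hcoreall : ∀ (i : Fin 4) (c : Scr239C),
      Scr239All (fun e => Scr239T1 Λ δ ω₀ e ∧ Scr239In δ (Λ.core i) e) c →
      Scr239All (fun e => Scr239T1 Λ δ ω₀ e ∧ Scr239In δ (Metric.closedBall Λ.z Λ.s) e) c :=
    fun i c hc => hc.mono fun e he =>
      ⟨he.1, scr239_hull_sub_cball hΛ i (scr239_core_sub_hull hΛ i he.2.1),
        scr239_hull_sub_cball hΛ i (scr239_core_sub_hull hΛ i he.2.2)⟩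
  have hγ : Scr239All (fun e => Scr239T1 Λ δ ω₀ e ∧ Scr239In δ (Metric.closedBall Λ.z Λ.s) e) γ := by
    rw [hγdef]
    exact (((((((hgapall 0).add (hgapall 1)).add (hgapall 2)).add (hgapall 3)).add (hcoreall 0 _ cT)).add
      (hcoreall 1 _ cD)).add (hcoreall 2 _ cL)).add (hcoreall 3 _ cR)
  -- (T3)
  have hT3 : ∀ f, scr239Sig γ f ≠ 0 → scr232P δ f ∈ Metric.closedBall Λ.z Λ.s := by
    intro f hf
    obtain ⟨⟨e1, he1, -, r1, x1⟩, e2, he2, -, r2, x2⟩ := scr239_sig_between hcyc hf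
    have b1 := (hγ e1 he1).2.1
    have b2 := (hγ e2 he2).2.1
    rw [scr239_mem_cball, abs_le, abs_le] at b1 b2 ⊢
    simp only [scr232P, ScrLay.z] at b1 b2 ⊢
    rw [r1] at b1
    have c1 := scr239_mul_le hδ x1
    have c2 := scr239_mul_le hδ x2.le
    exact ⟨⟨by linarith [b1.1.1], by linarith [b2.1.2]⟩, b1.2⟩
  -- (T2)
  have hT2 : ∀ f : ℤ × ℤ, Λ.x0 - Λ.r - δ ≤ δ * f.1 → δ * f.1 ≤ Λ.x0 + Λ.r → Λ.y0 - Λ.r - δ ≤ δ * f.2 →
      δ * f.2 ≤ Λ.y0 + Λ.r → scr239Sig γ f = 1 := by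
    intro f f1 f2 f3 f4
    have zG : ∀ k, scr239Sig (G k) f = 0 := by
      intro k
      refine scr239_sig_zero_of (hall k) fun e he h1 _ => ?_
      have h := scr239_gapbox_row he.2.1
      simp only [scr232P] at h
      rw [h1] at h
      rcases h with h | h <;> linarith
    have zT : scr239Sig (scr239L (u 0) (u 1)) f = 0 := by
      refine scr239_sig_zero_of cT fun e he h1 _ => ?_
      have h := he.2.1
      rw [scr239_core_eq hΛ] at h
      have h3 := h.2.2.1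
      simp only [scr232P, scr239Lo2, Matrix.cons_val] at h3
      rw [h1] at h3
      linarith
    have zD : scr239Sig (scr239L (u 2) (u 3)) f = 0 := by
      refine scr239_sig_zero_of cD fun e he h1 _ => ?_
      have h := he.2.1
      rw [scr239_core_eq hΛ] at h
      have h3 := h.2.2.2
      simp only [scr232P, scr239Hi2, Matrix.cons_val] at h3
      rw [h1] at h3
      linarith
    have zR : scr239Sig (scr239L (u' 1) (u' 3)) f = 0 := by
      refine scr239_sig_zero_of cR fun e he _ h2 => ?_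
      have h := he.2.1
      rw [scr239_core_eq hΛ] at h
      have h3 := h.1
      simp only [scr232P, scr239Lo1, Matrix.cons_val] at h3
      have := scr239_mul_le hδ h2
      linarith
    have oL : scr239Sig (scr239L (u' 0) (u' 2)) f = 1 := by
      unfold scr239L
      rw [scr239_sig_add, scr239_sig_hseg, add_zero]
      have a0 := hv0
      rw [scr239_core_eq hΛ] at a0
      have a1 := a0.2.1
      simp only [scr232P, scr239Hi1, Matrix.cons_val] at a1
      have t0 := scr239_gapbox_top (bu' 0)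
      have t2 := scr239_gapbox_bot (bu' 2)
      simp only [scr232P] at t0 t2
      apply scr239_sig_vseg
      · exact (scr239_lt_of_mul hδ (by linarith)).le
      · exact le_trans (min_le_right _ _) (scr239_lt_of_mul hδ (by linarith)).le
      · exact lt_of_lt_of_le (scr239_lt_of_mul hδ (by linarith)) (le_max_left _ _)
    rw [hγdef]
    simp only [scr239_sig_add, zG, zT, zD, zR, oL, zero_add, add_zero]
  -- the region
  have hmem : ∀ f, f ∈ F.filter (fun f => scr239Sig γ f = 1) ↔ scr239Sig γ f = 1 := by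
    intro f
    rw [Finset.mem_filter]
    refine ⟨fun h => h.2, fun h => ⟨hF f ?_, h⟩⟩
    have h1 := hT3 f (by rw [h]; exact one_ne_zero)
    exact Metric.closedBall_subset_closedBall (by linarith) h1
  refine ⟨F.filter (fun f => scr239Sig γ f = 1), Finset.filter_subset _ _, ?_, ?_, ?_⟩
  · intro e he
    have hne : γ e ≠ 0 := by
      intro h0
      have hj := scr239_sig_jump hcyc e
      rw [h0] at hj
      have heq : scr239Sig γ e.1 = scr239Sig γ (rswCo e) := by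
        have := scr239_two (scr239Sig γ (rswCo e))
        calc scr239Sig γ e.1 = scr239Sig γ e.1 + (scr239Sig γ (rswCo e) + scr239Sig γ (rswCo e)) := by
              rw [this, add_zero]
          _ = (scr239Sig γ e.1 + scr239Sig γ (rswCo e)) + scr239Sig γ (rswCo e) := by abel
          _ = _ := by rw [hj, zero_add]
      unfold RskBd at he
      rw [hmem, hmem, heq] at he
      tauto
    exact (hγ e (Finsupp.mem_support_iff.2 hne)).1
  · intro v hv
    rw [scr239_mem_cball, abs_le, abs_le] at hv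
    simp only [scr232P, ScrLay.z] at hv
    obtain ⟨⟨v1, v2⟩, v3, v4⟩ := hv
    unfold OnPolygon
    rw [not_not, hmem, hmem, hmem, hmem]
    refine ⟨hT2 _ ?_ ?_ ?_ ?_, hT2 _ ?_ ?_ ?_ ?_, hT2 _ ?_ ?_ ?_ ?_, hT2 _ ?_ ?_ ?_ ?_⟩ <;>
    push_cast <;> linarith
  · intro f hf
    rw [hmem] at hf
    exact hT3 f (by rw [hf]; exact one_ne_zero)

open Classical in
/-- **(CI) exact separation** = `scr_cut_ci` of `Screen/Cut229c`, verbatim -/
theorem scr239_cut_ci (t : ℝ) (ht1 : 1 / 2 ≤ t) (ht2 : t < 1) (Λ : ScrLay) (hΛ : Λ.Ok) :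
    ∃ δ₀ : ℝ, 0 < δ₀ ∧ ∀ δ : ℝ, 0 < δ → δ < δ₀ → ∀ F : Finset (ℤ × ℤ), ScrFits Λ δ F → ∀ ω₀ : RswCfg, ScrSucc Λ δ ω₀ →
      ∀ X G : RswCfg → ℝ, ScrIn δ (Metric.closedBall Λ.z Λ.r) X → ScrIn δ (Metric.closedBall Λ.z Λ.s)ᶜ G →
      rswE t F true (fun ω => if scrYL Λ δ ω = scrYL Λ δ ω₀ ∧ ScrBr Λ δ ω₀ ω then X ω * G ω else 0) *
          rswE t F true (fun ω => if scrYL Λ δ ω = scrYL Λ δ ω₀ ∧ ScrBr Λ δ ω₀ ω then 1 else 0)
        = rswE t F true (fun ω => if scrYL Λ δ ω = scrYL Λ δ ω₀ ∧ ScrBr Λ δ ω₀ ω then X ω else 0) *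
          rswE t F true (fun ω => if scrYL Λ δ ω = scrYL Λ δ ω₀ ∧ ScrBr Λ δ ω₀ ω then G ω else 0) := by
  have hR := scr239_Rt_pos hΛ
  refine ⟨Λ.Rt / 10, by linarith, fun δ hδ hδ' F hF ω₀ hS X G hX hG => ?_⟩
  obtain ⟨In, h1, h2, h3, h4⟩ := scr239_region hΛ hδ hδ'.le hF hS
  exact scx199_ci t Λ δ F ω₀ In h1 h2 h3 h4 X G hX hG

end Claimed.Agent.R292
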