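import Claimed.Agent.R292.Defs.ScreenSep

/-!
# Row 292 (S0540), Screen/Pos260 : LEAF (POS) OF (SEP)      (pen helper260; prefix `scr260_`)

`scr260_cut_pos` = the statement of `scr_cut_pos` (Screen/Cut229c.lean) VERBATIM: the bridge pins are compatible with every successful
block pattern of positive probability (AT paper, 05-screening l.505-520).

Explicit filling.  Let `ω₁ = (S₁, D₁, O₁)` be a configuration of positive weight with the block patterns of `ω₀`.  Put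
* `S₂` = the corners of `F` which are plus in `ω₁` or lie in no block;
* `D₂` = all faces of `F`;
* `O₂` = the open edges of `ω₁` with both ends in one block, together with the four selected bridges.
A closed edge has the factor `t` or `1 - t` (both face spins are plus), an open pattern edge has equal ends because `ω₁` has positive weight,
a bridge edge has two plus ends: the inner vertices of a bridge lie in the hole (in no block), the two ports are the first vertices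
of open plus arms of positive length (a port is not in the core).  No bridge edge has both ends in a block, so the patterns are unchanged.
-/

set_option autoImplicit false

namespace Claimed.Agent.R292

open Claims Claims.C0468 Filter Topology

section weights

theorem scr260_fac_nonneg {t : ℝ} (h0 : 0 ≤ t) (h1 : t ≤ 1) (ω : RswCfg) (e : (ℤ × ℤ) × Bool) : 0 ≤ rswFac t ω e := by
  unfold rswFac
  split_ifs <;> linarith

theorem scr260_wt_nonneg {t : ℝ} (h0 : 0 ≤ t) (h1 : t ≤ 1) (F : Finset (ℤ × ℤ)) (b : Bool) (ω : RswCfg) :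
    0 ≤ rswWt t F b ω := by
  unfold rswWt
  split_ifs
  · exact Finset.prod_nonneg fun e _ => scr260_fac_nonneg h0 h1 ω e
  · exact le_rfl

/-- positive weight = boundary condition + every factor positive. -/
theorem scr260_wt_pos_iff {t : ℝ} (h0 : 0 ≤ t) (h1 : t ≤ 1) (F : Finset (ℤ × ℤ)) (b : Bool) (ω : RswCfg) :
    0 < rswWt t F b ω ↔ RswBc F b ω ∧ ∀ e ∈ rswInt F, 0 < rswFac t ω e := by
  classical
  unfold rswWt
  by_cases hb : RswBc F b ω
  · rw [if_pos hb]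
    constructor
    · intro h
      refine ⟨hb, fun e he => lt_of_le_of_ne (scr260_fac_nonneg h0 h1 ω e) ?_⟩
      intro h2
      rw [Finset.prod_eq_zero he h2.symm] at h
      exact lt_irrefl _ h
    · rintro ⟨-, h⟩
      exact Finset.prod_pos h
  · rw [if_neg hb]
    constructor
    · intro h; exact absurd h (lt_irrefl _)
    · rintro ⟨h, -⟩; exact absurd h hb

theorem scr260_sum_nonneg {t : ℝ} (h0 : 0 ≤ t) (h1 : t ≤ 1) (F : Finset (ℤ × ℤ)) (b : Bool) (X : RswCfg → ℝ)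
    (hX : ∀ ω, 0 ≤ X ω) : 0 ≤ rswSum t F b X := by
  unfold rswSum
  exact Finset.sum_nonneg fun S _ => Finset.sum_nonneg fun D _ => Finset.sum_nonneg fun O _ =>
    mul_nonneg (scr260_wt_nonneg h0 h1 F b _) (hX _)

theorem scr260_sum_pos {t : ℝ} (h0 : 0 ≤ t) (h1 : t ≤ 1) (F : Finset (ℤ × ℤ)) (b : Bool) (X : RswCfg → ℝ)
    (hX : ∀ ω, 0 ≤ X ω) {S D : Finset (ℤ × ℤ)} {O : Finset ((ℤ × ℤ) × Bool)} (hS : S ⊆ cornersOf F) (hD : D ⊆ F)
    (hO : O ⊆ rswInt F) (hw : 0 < rswWt t F b ⟨S, D, O⟩) (hx : 0 < X ⟨S, D, O⟩) : 0 < rswSum t F b X := by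
  unfold rswSum
  have hterm : ∀ S' D' O', 0 ≤ rswWt t F b ⟨S', D', O'⟩ * X ⟨S', D', O'⟩ := fun S' D' O' =>
    mul_nonneg (scr260_wt_nonneg h0 h1 F b _) (hX _)
  have a1 : rswWt t F b ⟨S, D, O⟩ * X ⟨S, D, O⟩ ≤ ∑ O' ∈ (rswInt F).powerset, rswWt t F b ⟨S, D, O'⟩ * X ⟨S, D, O'⟩ :=
    Finset.single_le_sum (f := fun O' => rswWt t F b ⟨S, D, O'⟩ * X ⟨S, D, O'⟩) (fun O' _ => hterm S D O')
      (Finset.mem_powerset.2 hO)
  have a2 : (∑ O' ∈ (rswInt F).powerset, rswWt t F b ⟨S, D, O'⟩ * X ⟨S, D, O'⟩)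
      ≤ ∑ D' ∈ F.powerset, ∑ O' ∈ (rswInt F).powerset, rswWt t F b ⟨S, D', O'⟩ * X ⟨S, D', O'⟩ :=
    Finset.single_le_sum (f := fun D' => ∑ O' ∈ (rswInt F).powerset, rswWt t F b ⟨S, D', O'⟩ * X ⟨S, D', O'⟩)
      (fun D' _ => Finset.sum_nonneg fun O' _ => hterm S D' O') (Finset.mem_powerset.2 hD)
  have a3 : (∑ D' ∈ F.powerset, ∑ O' ∈ (rswInt F).powerset, rswWt t F b ⟨S, D', O'⟩ * X ⟨S, D', O'⟩)
      ≤ ∑ S' ∈ (cornersOf F).powerset, ∑ D' ∈ F.powerset, ∑ O' ∈ (rswInt F).powerset,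
        rswWt t F b ⟨S', D', O'⟩ * X ⟨S', D', O'⟩ :=
    Finset.single_le_sum
      (f := fun S' => ∑ D' ∈ F.powerset, ∑ O' ∈ (rswInt F).powerset, rswWt t F b ⟨S', D', O'⟩ * X ⟨S', D', O'⟩)
      (fun S' _ => Finset.sum_nonneg fun D' _ => Finset.sum_nonneg fun O' _ => hterm S' D' O')
      (Finset.mem_powerset.2 hS)
  have a0 : 0 < rswWt t F b ⟨S, D, O⟩ * X ⟨S, D, O⟩ := mul_pos hw hx
  linarith

/-- a witness of positive weight gives positive probability. -/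
theorem scr260_P_pos {t : ℝ} (h0 : 0 ≤ t) (h1 : t ≤ 1) (F : Finset (ℤ × ℤ)) (b : Bool) (L : RswCfg → Prop)
    {S D : Finset (ℤ × ℤ)} {O : Finset ((ℤ × ℤ) × Bool)} (hS : S ⊆ cornersOf F) (hD : D ⊆ F)
    (hO : O ⊆ rswInt F) (hw : 0 < rswWt t F b ⟨S, D, O⟩) (hL : L ⟨S, D, O⟩) : 0 < rswP t F b L := by
  classical
  unfold rswP rswE
  refine div_pos ?_ ?_
  · refine scr260_sum_pos h0 h1 F b _ (fun ω => ?_) hS hD hO hw ?_
    · split_ifs <;> norm_num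
    · rw [if_pos hL]; norm_num
  · exact scr260_sum_pos h0 h1 F b _ (fun _ => zero_le_one) hS hD hO hw one_pos

/-- positive probability gives a witness of positive weight. -/
theorem scr260_P_witness {t : ℝ} (h0 : 0 ≤ t) (h1 : t ≤ 1) (F : Finset (ℤ × ℤ)) (b : Bool) (L : RswCfg → Prop)
    (h : 0 < rswP t F b L) :
    ∃ (S D : Finset (ℤ × ℤ)) (O : Finset ((ℤ × ℤ) × Bool)), S ⊆ cornersOf F ∧ D ⊆ F ∧ O ⊆ rswInt F ∧
      0 < rswWt t F b ⟨S, D, O⟩ ∧ L ⟨S, D, O⟩ := by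
  classical
  by_contra hno
  push Not at hno
  have hz : rswSum t F b (fun ω => if L ω then (1 : ℝ) else 0) = 0 := by
    unfold rswSum
    refine Finset.sum_eq_zero fun S hS => Finset.sum_eq_zero fun D hD => Finset.sum_eq_zero fun O hO => ?_
    by_cases hL : L ⟨S, D, O⟩
    · have hw : ¬ 0 < rswWt t F b ⟨S, D, O⟩ := fun hw =>
        hno S D O (Finset.mem_powerset.1 hS) (Finset.mem_powerset.1 hD) (Finset.mem_powerset.1 hO) hw hL
      have : rswWt t F b ⟨S, D, O⟩ = 0 := le_antisymm (not_lt.1 hw) (scr260_wt_nonneg h0 h1 F b _)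
      rw [this, zero_mul]
    · beta_reduce
      rw [if_neg hL, mul_zero]
  unfold rswP rswE at h
  have e : (fun ω => @ite ℝ (L ω) (Classical.propDecidable _) 1 0) = fun ω => if L ω then (1 : ℝ) else 0 := by
    funext ω
    congr
  rw [e, hz, zero_div] at h
  exact lt_irrefl _ h

end weights

section geometry

theorem scr260_floor {δ c : ℝ} (hδ : 0 < δ) : δ * (⌊c / δ⌋ : ℝ) ≤ c ∧ c < δ * (⌊c / δ⌋ : ℝ) + δ := by
  constructor
  · have h := Int.floor_le (c / δ)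
    rw [le_div_iff₀ hδ] at h
    linarith
  · have h := Int.lt_floor_add_one (c / δ)
    rw [div_lt_iff₀ hδ] at h
    linarith

/-- the vertical legs of a bridge: every vertex but the port is at height `< wh` over the gap line. -/
theorem scr260_leg {δ wh c : ℝ} (hδ : 0 < δ) (hδw : δ ≤ wh) {y0 y : ℤ}
    (h1 : wh ≤ |δ * (y0 : ℝ) - c|) (h2 : |δ * (y0 : ℝ) - c| < wh + δ)
    (hy : min y0 ⌊c / δ⌋ ≤ y) (hy' : y ≤ max y0 ⌊c / δ⌋) : y = y0 ∨ |δ * (y : ℝ) - c| < wh := by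
  obtain ⟨hm1, hm2⟩ := scr260_floor (c := c) hδ
  set m := ⌊c / δ⌋ with hm
  by_cases hyy : y = y0
  · exact Or.inl hyy
  right
  obtain ⟨h3, h4⟩ := abs_lt.1 h2
  rcases le_abs'.1 h1 with h | h
  · have hlt : y0 < m := by
      have h5 : δ * (y0 : ℝ) < δ * (m : ℝ) := by linarith
      have h6 := lt_of_mul_lt_mul_left h5 hδ.le
      exact_mod_cast h6
    rw [min_eq_left hlt.le] at hy
    rw [max_eq_right hlt.le] at hy'
    have hy1 : y0 + 1 ≤ y := by omega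
    have c1 : (y0 : ℝ) + 1 ≤ (y : ℝ) := by exact_mod_cast hy1
    have c2 : (y : ℝ) ≤ (m : ℝ) := by exact_mod_cast hy'
    have c3 := mul_le_mul_of_nonneg_left c1 hδ.le
    have c4 := mul_le_mul_of_nonneg_left c2 hδ.le
    rw [abs_lt]
    constructor <;> linarith
  · have hlt : m < y0 := by
      have h5 : δ * (m : ℝ) < δ * (y0 : ℝ) := by linarith
      have h6 := lt_of_mul_lt_mul_left h5 hδ.le
      exact_mod_cast h6
    rw [min_eq_right hlt.le] at hy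
    rw [max_eq_left hlt.le] at hy'
    have hy1 : y + 1 ≤ y0 := by omega
    have c1 : (y : ℝ) + 1 ≤ (y0 : ℝ) := by exact_mod_cast hy1
    have c2 : (m : ℝ) ≤ (y : ℝ) := by exact_mod_cast hy
    have c3 := mul_le_mul_of_nonneg_left c1 hδ.le
    have c4 := mul_le_mul_of_nonneg_left c2 hδ.le
    rw [abs_lt]
    constructor <;> linarith

theorem scr260_between {δ c r : ℝ} (hδ : 0 < δ) {x1 x2 x : ℤ} (h1 : |δ * (x1 : ℝ) - c| ≤ r)
    (h2 : |δ * (x2 : ℝ) - c| ≤ r) (hx : min x1 x2 ≤ x) (hx' : x ≤ max x1 x2) : |δ * (x : ℝ) - c| ≤ r := by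
  obtain ⟨a1, a2⟩ := abs_le.1 h1
  obtain ⟨b1, b2⟩ := abs_le.1 h2
  rcases le_total x1 x2 with h | h
  · rw [min_eq_left h] at hx
    rw [max_eq_right h] at hx'
    have c1 : (x1 : ℝ) ≤ (x : ℝ) := by exact_mod_cast hx
    have c2 : (x : ℝ) ≤ (x2 : ℝ) := by exact_mod_cast hx'
    have c3 := mul_le_mul_of_nonneg_left c1 hδ.le
    have c4 := mul_le_mul_of_nonneg_left c2 hδ.le
    rw [abs_le]
    constructor <;> linarith
  · rw [min_eq_right h] at hx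
    rw [max_eq_left h] at hx'
    have c1 : (x2 : ℝ) ≤ (x : ℝ) := by exact_mod_cast hx
    have c2 : (x : ℝ) ≤ (x1 : ℝ) := by exact_mod_cast hx'
    have c3 := mul_le_mul_of_nonneg_left c1 hδ.le
    have c4 := mul_le_mul_of_nonneg_left c2 hδ.le
    rw [abs_le]
    constructor <;> linarith

variable (Λ : ScrLay)

theorem scr260_Rt_pos (hΛ : Λ.Ok) : 0 < Λ.Rt := by
  unfold ScrLay.Rt
  have h1 : (0 : ℝ) < Λ.M := by exact_mod_cast hΛ.hM
  have h2 := hΛ.hws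
  exact div_pos (by linarith) (by linarith)

theorem scr260_wh_pos (hΛ : Λ.Ok) : 0 < Λ.wh := mul_pos hΛ.hq (scr260_Rt_pos Λ hΛ)

theorem scr260_wh_le (hΛ : Λ.Ok) : Λ.wh ≤ Λ.Rt / 40 := by
  have h1 := scr260_Rt_pos Λ hΛ
  have h2 := hΛ.hq'
  unfold ScrLay.wh
  nlinarith

theorem scr260_h_pos (hΛ : Λ.Ok) : 0 < Λ.h := by
  have h1 := hΛ.sc.hr
  have h2 := hΛ.sc.hr0
  have h3 := hΛ.sc.hg
  linarith

theorem scr260_cen_fst (hΛ : Λ.Ok) (k : Fin 4) {j : ℕ} (hj : j < Λ.M) : |(Λ.cen k j).1 - Λ.x0| ≤ Λ.s - Λ.Rt := by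
  have hR := scr260_Rt_pos Λ hΛ
  have hM : (0 : ℝ) < Λ.M := by exact_mod_cast hΛ.hM
  have e : 2 * (Λ.M : ℝ) * Λ.Rt = Λ.s - Λ.w := by
    unfold ScrLay.Rt
    field_simp
  have hσ : |(![-1, 1, -1, 1] k : ℝ)| = 1 := by fin_cases k <;> simp
  have hw : 0 < Λ.w := by
    have := hΛ.sc.hw
    have := scr260_h_pos Λ hΛ
    linarith
  have hj' : (j : ℝ) + 1 ≤ Λ.M := by exact_mod_cast hj
  have e2 : (Λ.cen k j).1 - Λ.x0 = (![-1, 1, -1, 1] k : ℝ) * (Λ.w + (2 * j + 1) * Λ.Rt) := by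
    unfold ScrLay.cen
    ring
  have hj0 : (0 : ℝ) ≤ j := Nat.cast_nonneg j
  rw [e2, abs_mul, hσ, one_mul, abs_of_pos (by positivity)]
  nlinarith

theorem scr260_cen_snd (hΛ : Λ.Ok) (k : Fin 4) (j : ℕ) : |(Λ.cen k j).2 - Λ.y0| = Λ.h := by
  have hσ : |(![1, 1, -1, -1] k : ℝ)| = 1 := by fin_cases k <;> simp
  have e2 : (Λ.cen k j).2 - Λ.y0 = (![1, 1, -1, -1] k : ℝ) * Λ.h := by
    unfold ScrLay.cen
    ring
  rw [e2, abs_mul, hσ, one_mul, abs_of_pos (scr260_h_pos Λ hΛ)]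

/-- the gap line does not meet the two blocks next to the gap. -/
theorem scr260_gapline (hΛ : Λ.Ok) (k : Fin 4) (j : ℕ) (b : Bool) (x : ℝ) :
    (x, (Λ.cen k j).2) ∉ Λ.hull (ScrLay.adj k b) := by
  have hg := hΛ.sc.hg
  have hh := scr260_h_pos Λ hΛ
  intro hmem
  fin_cases k <;> cases b <;>
    simp only [ScrLay.hull, ScrLay.adj, ScrLay.cen, scrHull, scr232Obj] at hmem <;>
    simp at hmem
  all_goals
    obtain ⟨-, h2, h3⟩ := hmem
    first
      | linarith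
      | (rw [abs_of_pos hh] at h3; linarith)

theorem scr260_mem_hole (δ : ℝ) (k : Fin 4) (j : ℕ) (v : ℤ × ℤ) :
    scr232P δ v ∈ Λ.hole k j ↔
      |δ * (v.1 : ℝ) - (Λ.cen k j).1| < Λ.wh ∧ |δ * (v.2 : ℝ) - (Λ.cen k j).2| < Λ.wh := by
  unfold ScrLay.hole scr232P
  rw [Metric.mem_ball, Prod.dist_eq, max_lt_iff, Real.dist_eq, Real.dist_eq]

theorem scr260_hole_not_blk {k : Fin 4} {j : ℕ} (hj : j < Λ.M) {p : ℝ × ℝ} (hp : p ∈ Λ.hole k j) (i : Fin 4) :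
    p ∉ Λ.blk i := by
  intro h
  exact h.2 (Set.mem_iUnion.2 ⟨k, Set.mem_iUnion.2 ⟨j, Set.mem_iUnion.2 ⟨hj, hp⟩⟩⟩)

/-- a port is at height `≥ wh` over the gap line. -/
theorem scr260_port_far (hΛ : Λ.Ok) {δ : ℝ} {k : Fin 4} {j : ℕ} {b : Bool} {a : ℤ × ℤ} (hj : j < Λ.M)
    (h : ScrPort Λ δ k j b a) : Λ.wh ≤ |δ * (a.2 : ℝ) - (Λ.cen k j).2| := by
  by_contra hlt
  have hlt' := not_le.1 hlt
  have hw := scr260_wh_pos Λ hΛ
  exact scr260_hole_not_blk Λ hj ((scr260_mem_hole Λ δ k j a).2 ⟨lt_of_le_of_lt h.2.1 (by linarith), hlt'⟩) _ h.1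

/-- a port is not in the core. -/
theorem scr260_port_not_core (hΛ : Λ.Ok) {δ : ℝ} (hδ : δ ≤ Λ.wh) {k : Fin 4} {j : ℕ} {b : Bool} {a : ℤ × ℤ}
    (h : ScrPort Λ δ k j b a) : scr232P δ a ∉ Λ.core (ScrLay.adj k b) := by
  intro hc
  have hR := scr260_Rt_pos Λ hΛ
  have hw := scr260_wh_le Λ hΛ
  have hmem : ((δ * (a.1 : ℝ), (Λ.cen k j).2) : ℝ × ℝ) ∈ Metric.closedBall (scr232P δ a) Λ.c1 := by
    unfold scr232P ScrLay.c1
    rw [Metric.mem_closedBall, Prod.dist_eq, Real.dist_eq, Real.dist_eq, sub_self, abs_zero, abs_sub_comm]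
    refine max_le (by positivity) ?_
    have := h.2.2
    linarith
  exact scr260_gapline Λ hΛ k j b _ (hc hmem)

/-- the port of an arm is plus. -/
theorem scr260_arm_plus (hΛ : Λ.Ok) {δ : ℝ} (hδ : δ ≤ Λ.wh) {k : Fin 4} {j : ℕ} {b : Bool} {ω : RswCfg} {a : ℤ × ℤ}
    (h : ScrArm Λ δ k j b ω a) : a ∈ ω.S := by
  obtain ⟨hport, c, hc, hpath⟩ := h
  rcases Relation.ReflTransGen.cases_head hpath with rfl | ⟨v', hstep, -⟩
  · exact absurd hc (scr260_port_not_core Λ hΛ hδ hport)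
  · obtain ⟨-, -, e, hgood, he | he⟩ := hstep
    · rw [← he.1]
      exact hgood.2.1.2 rfl
    · rw [← he.2]
      exact hgood.2.2.2 rfl

/-- everything at lattice distance one from a vertex near a hole is a face of `F`. -/
theorem scr260_fits (hΛ : Λ.Ok) {δ : ℝ} (hδ : 0 < δ) (hδ2 : δ ≤ 1 / 2) {F : Finset (ℤ × ℤ)} (hF : ScrFits Λ δ F)
    (k : Fin 4) {j : ℕ} (hj : j < Λ.M) {v : ℤ × ℤ} (h1 : |δ * (v.1 : ℝ) - (Λ.cen k j).1| < Λ.wh)
    (h2 : |δ * (v.2 : ℝ) - (Λ.cen k j).2| < Λ.wh + δ) (dx dy : ℤ) (hdx : |(dx : ℝ)| ≤ 1) (hdy : |(dy : ℝ)| ≤ 1) :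
    (v.1 + dx, v.2 + dy) ∈ F := by
  apply hF
  have hR := scr260_Rt_pos Λ hΛ
  have hw := scr260_wh_le Λ hΛ
  have hg := hΛ.sc.hg
  have hT := hΛ.hT
  obtain ⟨a1, a2⟩ := abs_lt.1 h1
  obtain ⟨b1, b2⟩ := abs_lt.1 h2
  obtain ⟨c1, c2⟩ := abs_le.1 (scr260_cen_fst Λ hΛ k hj)
  obtain ⟨d1, d2⟩ := abs_le.1 (scr260_cen_snd Λ hΛ k j).le
  obtain ⟨e1, e2⟩ := abs_le.1 hdx
  obtain ⟨f1, f2⟩ := abs_le.1 hdy
  have e3 := mul_le_mul_of_nonneg_left e1 hδ.le
  have e4 := mul_le_mul_of_nonneg_left e2 hδ.le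
  have f3 := mul_le_mul_of_nonneg_left f1 hδ.le
  have f4 := mul_le_mul_of_nonneg_left f2 hδ.le
  unfold scr232P ScrLay.z
  rw [Metric.mem_closedBall, Prod.dist_eq, Real.dist_eq, Real.dist_eq]
  push_cast
  refine max_le ?_ ?_
  · rw [abs_le]
    constructor <;> nlinarith
  · rw [abs_le]
    constructor <;> nlinarith

/-- the edges of a bridge: every end is a port or lies in the hole, and one of the two ends lies in the hole. -/
theorem scr260_bridge_edge (hΛ : Λ.Ok) {δ : ℝ} (hδ0 : 0 < δ) (hδ : δ ≤ Λ.wh) {k : Fin 4} {j : ℕ} (hj : j < Λ.M)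
    {a a' : ℤ × ℤ} (ha : ScrPort Λ δ k j false a) (ha' : ScrPort Λ δ k j true a') {e : (ℤ × ℤ) × Bool}
    (he : e ∈ scrVseg a.1 a.2 ⌊(Λ.cen k 0).2 / δ⌋ ∪ scrHseg ⌊(Λ.cen k 0).2 / δ⌋ a.1 a'.1 ∪
      scrVseg a'.1 ⌊(Λ.cen k 0).2 / δ⌋ a'.2) :
    (e.1 = a ∨ e.1 = a' ∨ scr232P δ e.1 ∈ Λ.hole k j) ∧
      (rswEnd e = a ∨ rswEnd e = a' ∨ scr232P δ (rswEnd e) ∈ Λ.hole k j) ∧
      (scr232P δ e.1 ∈ Λ.hole k j ∨ scr232P δ (rswEnd e) ∈ Λ.hole k j) := by
  have hw := scr260_wh_pos Λ hΛ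
  have hc : (Λ.cen k 0).2 = (Λ.cen k j).2 := rfl
  rw [hc] at he
  set c := (Λ.cen k j).2 with hcdef
  -- a vertical leg
  have leg : ∀ {p : ℤ × ℤ} {b : Bool}, ScrPort Λ δ k j b p → ∀ y : ℤ, min p.2 ⌊c / δ⌋ ≤ y → y < max p.2 ⌊c / δ⌋ →
      (((p.1, y) : ℤ × ℤ) = p ∨ scr232P δ (p.1, y) ∈ Λ.hole k j) ∧
      (((p.1, y + 1) : ℤ × ℤ) = p ∨ scr232P δ (p.1, y + 1) ∈ Λ.hole k j) ∧
      (scr232P δ (p.1, y) ∈ Λ.hole k j ∨ scr232P δ (p.1, y + 1) ∈ Λ.hole k j) := by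
    intro p b hp y hy hy'
    have hx : |δ * (p.1 : ℝ) - (Λ.cen k j).1| < Λ.wh := lt_of_le_of_lt hp.2.1 (by linarith)
    have q1 := scr260_leg (c := c) hδ0 hδ (scr260_port_far Λ hΛ hj hp) hp.2.2 hy hy'.le
    have q2 := scr260_leg (c := c) hδ0 hδ (scr260_port_far Λ hΛ hj hp) hp.2.2 (y := y + 1) (by omega) (by omega)
    have r1 : y = p.2 ∨ scr232P δ (p.1, y) ∈ Λ.hole k j :=
      q1.imp id fun h => (scr260_mem_hole Λ δ k j (p.1, y)).2 ⟨hx, h⟩
    have r2 : y + 1 = p.2 ∨ scr232P δ (p.1, y + 1) ∈ Λ.hole k j :=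
      q2.imp id fun h => (scr260_mem_hole Λ δ k j (p.1, y + 1)).2 ⟨hx, h⟩
    refine ⟨r1.imp (fun h => by rw [h]) id, r2.imp (fun h => by rw [h]) id, ?_⟩
    rcases r1 with h | h
    · rcases r2 with h' | h'
      · omega
      · exact Or.inr h'
    · exact Or.inl h
  rcases Finset.mem_union.1 he with he | he
  · rcases Finset.mem_union.1 he with he | he
    · -- first leg
      obtain ⟨y, hy, rfl⟩ := Finset.mem_image.1 he
      obtain ⟨hy1, hy2⟩ := Finset.mem_Ico.1 hy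
      obtain ⟨s1, s2, s3⟩ := leg ha y hy1 hy2
      have e2 : rswEnd ((a.1, y), true) = (a.1, y + 1) := by simp [rswEnd]
      rw [e2]
      exact ⟨s1.imp id Or.inr, s2.imp id Or.inr, s3⟩
    · -- the middle row
      obtain ⟨x, hx, rfl⟩ := Finset.mem_image.1 he
      obtain ⟨hx1, hx2⟩ := Finset.mem_Ico.1 hx
      obtain ⟨f1, f2⟩ := scr260_floor (c := c) hδ0
      have hrow : |δ * ((⌊c / δ⌋ : ℤ) : ℝ) - c| < Λ.wh := by
        rw [abs_lt]
        constructor <;> linarith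
      have g1 := scr260_between hδ0 ha.2.1 ha'.2.1 hx1 hx2.le
      have g2 := scr260_between hδ0 ha.2.1 ha'.2.1 (x := x + 1) (by omega) (by omega)
      have m1 : scr232P δ (x, ⌊c / δ⌋) ∈ Λ.hole k j :=
        (scr260_mem_hole Λ δ k j (x, ⌊c / δ⌋)).2 ⟨lt_of_le_of_lt g1 (by linarith), hrow⟩
      have m2 : scr232P δ (x + 1, ⌊c / δ⌋) ∈ Λ.hole k j :=
        (scr260_mem_hole Λ δ k j (x + 1, ⌊c / δ⌋)).2 ⟨lt_of_le_of_lt g2 (by linarith), hrow⟩
      have e2 : rswEnd ((x, ⌊c / δ⌋), false) = (x + 1, ⌊c / δ⌋) := by simp [rswEnd]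
      rw [e2]
      exact ⟨Or.inr (Or.inr m1), Or.inr (Or.inr m2), Or.inl m1⟩
  · -- second leg
    obtain ⟨y, hy, rfl⟩ := Finset.mem_image.1 he
    obtain ⟨hy1, hy2⟩ := Finset.mem_Ico.1 hy
    rw [min_comm] at hy1
    rw [max_comm] at hy2
    obtain ⟨s1, s2, s3⟩ := leg ha' y hy1 hy2
    have e2 : rswEnd ((a'.1, y), true) = (a'.1, y + 1) := by simp [rswEnd]
    rw [e2]
    exact ⟨by tauto, by tauto, s3⟩

end geometry

section main

/-- the selected trial and the selected ports of a successful pattern. -/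
theorem scr260_sel {Λ : ScrLay} {δ : ℝ} {ω₀ : RswCfg} (h : ScrSucc Λ δ ω₀) (k : Fin 4) :
    scrSelJ Λ δ k ω₀ < Λ.M ∧
      ∀ b, ScrArm Λ δ k (scrSelJ Λ δ k ω₀) b (scrPc Λ δ ω₀) (scrSelA Λ δ k b ω₀) := by
  classical
  have hk : ScrGapOk Λ δ k ω₀ := h k
  have e : scrSelJ Λ δ k ω₀ = Nat.find hk := by
    unfold scrSelJ
    rw [dif_pos hk]
  have hs := Nat.find_spec hk
  rw [← e] at hs
  refine ⟨hs.1, fun b => ?_⟩
  have hb : ∃ a, ScrArm Λ δ k (scrSelJ Λ δ k ω₀) b (scrPc Λ δ ω₀) a := hs.2 b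
  have e2 : scrSelA Λ δ k b ω₀ = Classical.choose hb := by
    unfold scrSelA
    rw [dif_pos hb]
  rw [e2]
  exact Classical.choose_spec hb

/-- a plus spin of the pattern configuration is a plus spin of every configuration with the same patterns. -/
theorem scr260_pc_S {Λ : ScrLay} {δ : ℝ} {ω₀ ω₁ : RswCfg} (hpat : scrPats δ Λ.blk ω₁ = scrPats δ Λ.blk ω₀)
    {a : ℤ × ℤ} (ha : a ∈ (scrPc Λ δ ω₀).S) : a ∈ ω₁.S := by
  classical
  unfold scrPc scrOfPat at ha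
  obtain ⟨i, -, hi⟩ := Finset.mem_biUnion.1 ha
  rw [← hpat] at hi
  unfold scrPats scrPat at hi
  exact (Finset.mem_filter.1 hi).1

theorem scr260_corner_of_face {F : Finset (ℤ × ℤ)} {v : ℤ × ℤ} (hv : v ∈ F) : v ∈ cornersOf F := by
  unfold cornersOf
  exact Finset.mem_biUnion.2 ⟨v, hv, by simp⟩

/-- **(POS)** = `scr_cut_pos` of `Screen/Cut229c.lean`, verbatim. -/
theorem scr260_cut_pos (t : ℝ) (ht1 : 1 / 2 ≤ t) (ht2 : t < 1) (Λ : ScrLay) (hΛ : Λ.Ok) :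
    ∃ δ₀ : ℝ, 0 < δ₀ ∧ ∀ δ : ℝ, 0 < δ → δ < δ₀ → ∀ F : Finset (ℤ × ℤ), ScrFits Λ δ F → ∀ ω₀ : RswCfg, ScrSucc Λ δ ω₀ →
      0 < rswP t F true (fun ω => scrPats δ Λ.blk ω = scrPats δ Λ.blk ω₀) →
      0 < rswP t F true (fun ω => scrPats δ Λ.blk ω = scrPats δ Λ.blk ω₀ ∧ ScrBr Λ δ ω₀ ω) := by
  classical
  have h0 : 0 ≤ t := by linarith
  have ht0 : 0 < t := by linarith
  have hwh := scr260_wh_pos Λ hΛ
  refine ⟨min (1 / 2) Λ.wh, lt_min (by norm_num) hwh, ?_⟩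
  intro δ hδ0 hδ F hF ω₀ hsucc hpos
  have hδ2 : δ ≤ 1 / 2 := (hδ.trans_le (min_le_left _ _)).le
  have hδw : δ ≤ Λ.wh := (hδ.trans_le (min_le_right _ _)).le
  obtain ⟨S₁, D₁, O₁, hS₁, hD₁, hO₁, hw₁, hpat⟩ := scr260_P_witness h0 ht2.le F true _ hpos
  obtain ⟨hbc₁, hfac₁⟩ := (scr260_wt_pos_iff h0 ht2.le F true _).1 hw₁
  have hsel := fun k => scr260_sel hsucc k
  have hport : ∀ k b, scrSelA Λ δ k b ω₀ ∈ S₁ := fun k b =>
    scr260_pc_S (ω₁ := ⟨S₁, D₁, O₁⟩) hpat (scr260_arm_plus Λ hΛ hδw ((hsel k).2 b))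
  set S₂ : Finset (ℤ × ℤ) := (cornersOf F).filter (fun v => (∃ i, scr232P δ v ∈ Λ.blk i) → v ∈ S₁) with hS₂
  set B : Finset ((ℤ × ℤ) × Bool) := Finset.univ.biUnion (fun k : Fin 4 => scrBridge Λ δ k ω₀) with hB
  set O₂ : Finset ((ℤ × ℤ) × Bool) :=
    (O₁.filter (fun e => ∃ i, scr232P δ e.1 ∈ Λ.blk i ∧ scr232P δ (rswEnd e) ∈ Λ.blk i)) ∪ B with hO₂
  -- spins inside the blocks
  have hSblk : ∀ v, (∃ i, scr232P δ v ∈ Λ.blk i) → (v ∈ S₂ ↔ v ∈ S₁) := by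
    intro v hv
    rw [hS₂, Finset.mem_filter]
    exact ⟨fun h => h.2 hv, fun h => ⟨hS₁ h, fun _ => h⟩⟩
  -- the vertices of the bridges
  have hvert : ∀ (k : Fin 4) (v : ℤ × ℤ), (v = scrSelA Λ δ k false ω₀ ∨ v = scrSelA Λ δ k true ω₀ ∨
      scr232P δ v ∈ Λ.hole k (scrSelJ Λ δ k ω₀)) →
      v ∈ S₂ ∧ ∀ dx dy : ℤ, |(dx : ℝ)| ≤ 1 → |(dy : ℝ)| ≤ 1 → (v.1 + dx, v.2 + dy) ∈ F := by
    intro k v hv
    obtain ⟨hj, harm⟩ := hsel k
    have hnear : |δ * (v.1 : ℝ) - (Λ.cen k (scrSelJ Λ δ k ω₀)).1| < Λ.wh ∧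
        |δ * (v.2 : ℝ) - (Λ.cen k (scrSelJ Λ δ k ω₀)).2| < Λ.wh + δ := by
      rcases hv with rfl | rfl | hv
      · exact ⟨lt_of_le_of_lt (harm false).1.2.1 (by linarith), (harm false).1.2.2⟩
      · exact ⟨lt_of_le_of_lt (harm true).1.2.1 (by linarith), (harm true).1.2.2⟩
      · obtain ⟨q1, q2⟩ := (scr260_mem_hole Λ δ k _ v).1 hv
        exact ⟨q1, by linarith⟩
    have hfit := scr260_fits Λ hΛ hδ0 hδ2 hF k hj hnear.1 hnear.2
    refine ⟨?_, hfit⟩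
    have hvF : v ∈ F := by
      have := hfit 0 0 (by simp) (by simp)
      simpa using this
    rw [hS₂, Finset.mem_filter]
    refine ⟨scr260_corner_of_face hvF, fun hin => ?_⟩
    rcases hv with rfl | rfl | hv
    · exact hport k false
    · exact hport k true
    · obtain ⟨i, hi⟩ := hin
      exact absurd hi (scr260_hole_not_blk Λ hj hv i)
  -- the edges of the bridges
  have hedge : ∀ e ∈ B, e ∈ rswInt F ∧ e.1 ∈ S₂ ∧ rswEnd e ∈ S₂ ∧
      ¬ ∃ i, scr232P δ e.1 ∈ Λ.blk i ∧ scr232P δ (rswEnd e) ∈ Λ.blk i := by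
    intro e he
    obtain ⟨k, -, hek⟩ := Finset.mem_biUnion.1 he
    obtain ⟨hj, harm⟩ := hsel k
    unfold scrBridge at hek
    obtain ⟨v1, v2, v3⟩ := scr260_bridge_edge Λ hΛ hδ0 hδw hj (harm false).1 (harm true).1 hek
    obtain ⟨w1, w2⟩ := hvert k e.1 v1
    obtain ⟨w3, -⟩ := hvert k (rswEnd e) v2
    refine ⟨?_, w1, w3, ?_⟩
    · unfold rswInt
      rw [Finset.mem_filter, Finset.mem_product]
      refine ⟨⟨?_, Finset.mem_univ _⟩, ?_⟩
      · have := w2 0 0 (by simp) (by simp)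
        simpa using this
      · unfold rswCo
        split_ifs
        · have := w2 (-1) 0 (by simp) (by simp)
          simpa [sub_eq_add_neg] using this
        · have := w2 0 (-1) (by simp) (by simp)
          simpa [sub_eq_add_neg] using this
    · rintro ⟨i, i1, i2⟩
      rcases v3 with h | h
      · exact scr260_hole_not_blk Λ hj h i i1
      · exact scr260_hole_not_blk Λ hj h i i2
  have hO₂sub : O₂ ⊆ rswInt F := by
    intro e he
    rcases Finset.mem_union.1 he with h | h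
    · exact hO₁ (Finset.mem_filter.1 h).1
    · exact (hedge e h).1
  refine scr260_P_pos h0 ht2.le F true _ (S := S₂) (D := F) (O := O₂) (Finset.filter_subset _ _)
    (Finset.Subset.refl _) hO₂sub ?_ ⟨?_, ?_⟩
  · -- the weight
    rw [scr260_wt_pos_iff h0 ht2.le]
    constructor
    · intro v hv hpol
      refine ⟨fun _ => rfl, fun _ => ?_⟩
      show v ∈ S₂
      rw [hS₂, Finset.mem_filter]
      exact ⟨hv, fun _ => (hbc₁ v hv hpol).2 rfl⟩
    · intro e he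
      have heF : e.1 ∈ F ∧ rswCo e ∈ F := by
        unfold rswInt at he
        rw [Finset.mem_filter, Finset.mem_product] at he
        exact ⟨he.1.1, he.2⟩
      unfold rswFac
      by_cases hop : e ∈ O₂
      · have heq : (e.1 ∈ S₂ ↔ rswEnd e ∈ S₂) := by
          rcases Finset.mem_union.1 hop with h | h
          · obtain ⟨h1, i, i1, i2⟩ := Finset.mem_filter.1 h
            rw [hSblk e.1 ⟨i, i1⟩, hSblk (rswEnd e) ⟨i, i2⟩]
            have hf := hfac₁ e he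
            unfold rswFac at hf
            by_contra hne
            simp only [if_pos h1, if_neg hne, lt_self_iff_false] at hf
          · exact ⟨fun _ => (hedge e h).2.2.1, fun _ => (hedge e h).2.1⟩
        simp only [if_pos hop, if_pos heq]
        exact ht0
      · have hD : (e.1 ∈ F ↔ rswCo e ∈ F) := ⟨fun _ => heF.2, fun _ => heF.1⟩
        simp only [if_neg hop, if_pos hD]
        split_ifs <;> linarith
  · -- the patterns
    rw [← hpat]
    funext i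
    unfold scrPats scrPat
    refine Prod.ext ?_ ?_
    · ext v
      simp only [Finset.mem_filter]
      constructor
      · rintro ⟨h1, h2⟩
        exact ⟨(hSblk v ⟨i, h2⟩).1 h1, h2⟩
      · rintro ⟨h1, h2⟩
        exact ⟨(hSblk v ⟨i, h2⟩).2 h1, h2⟩
    · ext e
      simp only [Finset.mem_filter]
      constructor
      · rintro ⟨h1, h2⟩
        rcases Finset.mem_union.1 h1 with h | h
        · exact ⟨(Finset.mem_filter.1 h).1, h2⟩
        · exact absurd ⟨i, h2⟩ (hedge e h).2.2.2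
      · rintro ⟨h1, h2⟩
        exact ⟨Finset.mem_union_left _ (Finset.mem_filter.2 ⟨h1, i, h2⟩), h2⟩
  · -- the pins
    intro k e he
    have heB : e ∈ B := Finset.mem_biUnion.2 ⟨k, Finset.mem_univ _, he⟩
    exact ⟨Finset.mem_union_right _ heB, ⟨fun _ => rfl, fun _ => (hedge e heB).2.1⟩,
      ⟨fun _ => rfl, fun _ => (hedge e heB).2.2.1⟩⟩

end main

end Claimed.Agent.R292
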