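import Claimed.Agent.R292.Defs.RSW

/-!
# Row 292 (S0540), Screen/Dual62 : (DUAL) planar duality in a lattice rectangle, model free   (pen helper62; order of 229, msg 121241)

Corners `a ≤ x ≤ a + m`, `c ≤ y ≤ c + n`; faces of the columns `a - 1 .. a + m` and of the rows `c .. c + n - 1` (the two outer columns are
the left and the right "sea").  For an arbitrary predicate `good` on edges: EITHER the bottom row is joined to the top row by good edges
of the rectangle, OR the left sea is joined to the right sea by a path of faces crossing only edges of the rectangle which are not good.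

Proof = parity (no Jordan curve): `u` = indicator (in `ZMod 2`) of the corners reachable from the bottom row, `d` = indicator of the faces
reachable from the left sea, `T x = ∑_j (u (x, j) + u (x, j + 1)) * d (x, j)`.  `T` does not depend on `x`, and it is `1` at the left sea.
-/

set_option autoImplicit false

namespace Claimed.Agent.R292

/-- the corners of the rectangle -/
def ScrDuIn (a c : ℤ) (m n : ℕ) (v : ℤ × ℤ) : Prop := a ≤ v.1 ∧ v.1 ≤ a + m ∧ c ≤ v.2 ∧ v.2 ≤ c + n

/-- one primal step: a good edge of the rectangle -/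
def ScrDuP (good : (ℤ × ℤ) × Bool → Prop) (a c : ℤ) (m n : ℕ) (v v' : ℤ × ℤ) : Prop :=
  ScrDuIn a c m n v ∧ ScrDuIn a c m n v' ∧ ∃ e, good e ∧ ((e.1 = v ∧ rswEnd e = v') ∨ (e.1 = v' ∧ rswEnd e = v))

/-- the faces of the rectangle, with the two seas -/
def ScrDuF (a c : ℤ) (m n : ℕ) (f : ℤ × ℤ) : Prop := a - 1 ≤ f.1 ∧ f.1 ≤ a + m ∧ c ≤ f.2 ∧ f.2 < c + n

/-- one dual step: across an edge of the rectangle which is not good -/
def ScrDuD (good : (ℤ × ℤ) × Bool → Prop) (a c : ℤ) (m n : ℕ) (f f' : ℤ × ℤ) : Prop :=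
  ScrDuF a c m n f ∧ ScrDuF a c m n f' ∧ ∃ e, ¬ good e ∧ ScrDuIn a c m n e.1 ∧ ScrDuIn a c m n (rswEnd e) ∧
    ((f = e.1 ∧ f' = rswCo e) ∨ (f' = e.1 ∧ f = rswCo e))

theorem scr62du_P_symm (good : (ℤ × ℤ) × Bool → Prop) (a c : ℤ) (m n : ℕ) {v v' : ℤ × ℤ}
    (h : ScrDuP good a c m n v v') : ScrDuP good a c m n v' v := by
  obtain ⟨h1, h2, e, he, h3⟩ := h
  exact ⟨h2, h1, e, he, h3.symm⟩

theorem scr62du_D_symm (good : (ℤ × ℤ) × Bool → Prop) (a c : ℤ) (m n : ℕ) {f f' : ℤ × ℤ}
    (h : ScrDuD good a c m n f f') : ScrDuD good a c m n f' f := by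
  obtain ⟨h1, h2, e, he, h3, h4, h5⟩ := h
  exact ⟨h2, h1, e, he, h3, h4, h5.symm⟩

theorem scr62du_P_rev (good : (ℤ × ℤ) × Bool → Prop) (a c : ℤ) (m n : ℕ) {v v' : ℤ × ℤ}
    (h : Relation.ReflTransGen (ScrDuP good a c m n) v v') : Relation.ReflTransGen (ScrDuP good a c m n) v' v := by
  induction h with
  | refl => exact Relation.ReflTransGen.refl
  | tail _ hbc ih => exact Relation.ReflTransGen.head (scr62du_P_symm good a c m n hbc) ih

theorem scr62du_D_rev (good : (ℤ × ℤ) × Bool → Prop) (a c : ℤ) (m n : ℕ) {f f' : ℤ × ℤ}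
    (h : Relation.ReflTransGen (ScrDuD good a c m n) f f') : Relation.ReflTransGen (ScrDuD good a c m n) f' f := by
  induction h with
  | refl => exact Relation.ReflTransGen.refl
  | tail _ hbc ih => exact Relation.ReflTransGen.head (scr62du_D_symm good a c m n hbc) ih

/-- telescoping in characteristic two -/
theorem scr62du_tel (w : ℕ → ZMod 2) (n : ℕ) : ∑ j ∈ Finset.range n, (w j + w (j + 1)) = w 0 + w n := by
  induction n with
  | zero => simp [CharTwo.add_self_eq_zero]
  | succ k ih =>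
    rw [Finset.sum_range_succ, ih]
    have := CharTwo.add_self_eq_zero (w k)
    linear_combination this

/-- summation by parts in characteristic two -/
theorem scr62du_parts (h g : ℕ → ZMod 2) (n : ℕ) (h0 : h 0 = 0)
    (hs : ∀ k, k + 1 < n → h (k + 1) * (g k + g (k + 1)) = 0) :
    ∀ k, k + 1 ≤ n → ∑ j ∈ Finset.range (k + 1), (h j + h (j + 1)) * g j = h (k + 1) * g k := by
  intro k
  induction k with
  | zero => intro _; simp [h0]
  | succ k ih =>
    intro hk
    rw [Finset.sum_range_succ, ih (by omega)]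
    have := hs k (by omega)
    linear_combination this

/-- **(DUAL)** -/
theorem scr62_dual (good : (ℤ × ℤ) × Bool → Prop) (a c : ℤ) (m n : ℕ) :
    (∃ x x' : ℤ, a ≤ x ∧ x ≤ a + m ∧ a ≤ x' ∧ x' ≤ a + m ∧
      Relation.ReflTransGen (ScrDuP good a c m n) (x, c) (x', c + n)) ∨
    (∃ y y' : ℤ, c ≤ y ∧ y < c + n ∧ c ≤ y' ∧ y' < c + n ∧
      Relation.ReflTransGen (ScrDuD good a c m n) (a - 1, y) (a + m, y')) := by
  classical
  by_cases hL : ∃ x x' : ℤ, a ≤ x ∧ x ≤ a + m ∧ a ≤ x' ∧ x' ≤ a + m ∧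
      Relation.ReflTransGen (ScrDuP good a c m n) (x, c) (x', c + n)
  · exact Or.inl hL
  right
  obtain _ | n' := n
  · exact absurd ⟨a, a, le_refl _, by omega, le_refl _, by omega, by simpa using Relation.ReflTransGen.refl⟩ hL
  set n := n' + 1 with hn
  -- the two reachable sets
  set U : ℤ × ℤ → Prop := fun v => ∃ x : ℤ, a ≤ x ∧ x ≤ a + m ∧ Relation.ReflTransGen (ScrDuP good a c m n) (x, c) v with hU
  set W : ℤ × ℤ → Prop := fun f => ∃ y : ℤ, c ≤ y ∧ y < c + n ∧ Relation.ReflTransGen (ScrDuD good a c m n) (a - 1, y) f with hW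
  set u : ℤ × ℤ → ZMod 2 := fun v => if U v then 1 else 0 with hu
  set d : ℤ × ℤ → ZMod 2 := fun f => if W f then 1 else 0 with hd
  have hUstep : ∀ v v', ScrDuP good a c m n v v' → u v = u v' := by
    intro v v' h
    have : U v ↔ U v' := by
      constructor
      · rintro ⟨x, h1, h2, h3⟩; exact ⟨x, h1, h2, h3.tail h⟩
      · rintro ⟨x, h1, h2, h3⟩; exact ⟨x, h1, h2, h3.tail (scr62du_P_symm good a c m n h)⟩
    simp only [hu, this]
  have hWstep : ∀ f f', ScrDuD good a c m n f f' → d f = d f' := by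
    intro f f' h
    have : W f ↔ W f' := by
      constructor
      · rintro ⟨x, h1, h2, h3⟩; exact ⟨x, h1, h2, h3.tail h⟩
      · rintro ⟨x, h1, h2, h3⟩; exact ⟨x, h1, h2, h3.tail (scr62du_D_symm good a c m n h)⟩
    simp only [hd, this]
  have hbot : ∀ x : ℤ, a ≤ x → x ≤ a + m → u (x, c) = 1 := by
    intro x h1 h2
    have : U (x, c) := ⟨x, h1, h2, Relation.ReflTransGen.refl⟩
    simp only [hu, this, if_true]
  have htop : ∀ x : ℤ, a ≤ x → x ≤ a + m → u (x, c + n) = 0 := by
    intro x h1 h2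
    have : ¬ U (x, c + n) := by
      rintro ⟨x0, h3, h4, h5⟩
      exact hL ⟨x0, x, h3, h4, h1, h2, h5⟩
    simp only [hu, this, if_false]
  have hsea : ∀ y : ℤ, c ≤ y → y < c + n → d (a - 1, y) = 1 := by
    intro y h1 h2
    have : W (a - 1, y) := ⟨y, h1, h2, Relation.ReflTransGen.refl⟩
    simp only [hd, this, if_true]
  -- a vertical edge
  have hV : ∀ x y : ℤ, a ≤ x → x ≤ a + m → c ≤ y → y < c + n →
      (u (x, y) + u (x, y + 1)) * d (x, y) = (u (x, y) + u (x, y + 1)) * d (x - 1, y) := by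
    intro x y h1 h2 h3 h4
    have i1 : ScrDuIn a c m n (x, y) := ⟨h1, h2, h3, h4.le⟩
    have i2 : ScrDuIn a c m n (x, y + 1) := ⟨h1, h2, by simp only; omega, by simp only; omega⟩
    by_cases hg : good ((x, y), true)
    · have := hUstep (x, y) (x, y + 1) ⟨i1, i2, ((x, y), true), hg, Or.inl ⟨rfl, by simp [rswEnd]⟩⟩
      rw [this, CharTwo.add_self_eq_zero, zero_mul, zero_mul]
    · have := hWstep (x, y) (x - 1, y) ⟨⟨by simp only; omega, h2, h3, h4⟩, ⟨by simp only; omega, by simp only; omega, h3, h4⟩,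
        ((x, y), true), hg, i1, by simpa [rswEnd] using i2, Or.inl ⟨rfl, by simp [rswCo]⟩⟩
      rw [this]
  -- a horizontal edge
  have hH : ∀ x y : ℤ, a ≤ x → x + 1 ≤ a + m → c ≤ y → y + 1 < c + n →
      (u (x, y + 1) + u (x + 1, y + 1)) * (d (x, y) + d (x, y + 1)) = 0 := by
    intro x y h1 h2 h3 h4
    have i1 : ScrDuIn a c m n (x, y + 1) := ⟨h1, by simp only; omega, by simp only; omega, by simp only; omega⟩
    have i2 : ScrDuIn a c m n (x + 1, y + 1) := ⟨by simp only; omega, h2, by simp only; omega, by simp only; omega⟩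
    by_cases hg : good ((x, y + 1), false)
    · have := hUstep (x, y + 1) (x + 1, y + 1) ⟨i1, i2, ((x, y + 1), false), hg, Or.inl ⟨rfl, by simp [rswEnd]⟩⟩
      rw [this, CharTwo.add_self_eq_zero, zero_mul]
    · have := hWstep (x, y + 1) (x, y) ⟨⟨by simp only; omega, by simp only; omega, by simp only; omega, h4⟩,
        ⟨by simp only; omega, by simp only; omega, h3, by simp only; omega⟩,
        ((x, y + 1), false), hg, i1, by simpa [rswEnd] using i2, Or.inl ⟨rfl, by simp [rswCo]⟩⟩
      rw [this, CharTwo.add_self_eq_zero, mul_zero]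
  -- the invariant
  set T : ℕ → ZMod 2 := fun i => ∑ j ∈ Finset.range n, (u (a + i, c + j) + u (a + i, c + j + 1)) * d (a + i, c + j) with hT
  have hT0 : T 0 = 1 := by
    have e1 : T 0 = ∑ j ∈ Finset.range n, (u (a, c + j) + u (a, c + (j + 1 : ℕ))) := by
      simp only [hT]
      refine Finset.sum_congr rfl fun j hj => ?_
      have hj' := Finset.mem_range.1 hj
      have := hV a (c + j) (le_refl _) (by omega) (by omega) (by omega)
      simp only [Nat.cast_zero, add_zero]
      rw [this, hsea (c + j) (by omega) (by omega), mul_one]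
      push_cast
      rw [add_assoc]
    rw [e1, scr62du_tel (fun j => u (a, c + (j : ℕ))) n]
    simp only [Nat.cast_zero, add_zero]
    rw [hbot a (le_refl _) (by omega), htop a (le_refl _) (by omega), add_zero]
  have hTs : ∀ i : ℕ, i + 1 ≤ m → T (i + 1) = T i := by
    intro i hi
    have hx1 : a ≤ a + (i : ℤ) := by omega
    have hx2 : a + (i : ℤ) + 1 ≤ a + m := by omega
    have e1 : T (i + 1) = ∑ j ∈ Finset.range n,
        (u (a + i + 1, c + j) + u (a + i + 1, c + j + 1)) * d (a + i, c + j) := by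
      simp only [hT]
      refine Finset.sum_congr rfl fun j hj => ?_
      have hj' := Finset.mem_range.1 hj
      have := hV (a + i + 1) (c + j) (by omega) hx2 (by omega) (by omega)
      push_cast
      rw [← add_assoc, this, add_sub_cancel_right]
    have e2 : T (i + 1) + T i = ∑ j ∈ Finset.range (n' + 1),
        ((fun j : ℕ => u (a + i, c + j) + u (a + i + 1, c + j)) j + (fun j : ℕ => u (a + i, c + j) + u (a + i + 1, c + j)) (j + 1))
          * (fun j : ℕ => d (a + i, c + j)) j := by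
      rw [e1]
      simp only [hT]
      rw [← Finset.sum_add_distrib]
      refine Finset.sum_congr rfl fun j _ => ?_
      push_cast
      rw [← add_assoc c]
      ring
    have e3 := scr62du_parts (fun j : ℕ => u (a + i, c + j) + u (a + i + 1, c + j)) (fun j : ℕ => d (a + i, c + j)) n
      (by
        simp only [Nat.cast_zero, add_zero]
        rw [hbot _ hx1 (by omega), hbot _ (by omega) hx2, CharTwo.add_self_eq_zero])
      (by
        intro k hk
        have := hH (a + i) (c + k) hx1 hx2 (by omega) (by omega)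
        push_cast
        rw [← add_assoc c]
        exact this) n' (le_refl _)
    rw [e3] at e2
    have e4 : u (a + i, c + ((n' + 1 : ℕ) : ℤ)) + u (a + i + 1, c + ((n' + 1 : ℕ) : ℤ)) = 0 := by
      rw [htop _ hx1 (by omega), htop _ (by omega) hx2, add_zero]
    simp only [e4, zero_mul] at e2
    exact CharTwo.add_eq_zero.1 e2
  have hTm : ∀ i : ℕ, i ≤ m → T i = 1 := by
    intro i
    induction i with
    | zero => intro _; exact hT0
    | succ i ih => intro hi; rw [hTs i hi, ih (by omega)]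
  have hfin := hTm m (le_refl _)
  have : ∃ j ∈ Finset.range n, (u (a + m, c + j) + u (a + m, c + j + 1)) * d (a + m, c + j) ≠ 0 := by
    apply Finset.exists_ne_zero_of_sum_ne_zero
    have : T m ≠ 0 := by rw [hfin]; exact one_ne_zero
    exact this
  obtain ⟨j, hj, hne⟩ := this
  have hj' := Finset.mem_range.1 hj
  have hd0 : d (a + m, c + j) ≠ 0 := right_ne_zero_of_mul hne
  have hWj : W (a + m, c + j) := by
    by_contra hcon
    exact hd0 (by simp only [hd, hcon, if_false])
  obtain ⟨y, h1, h2, h3⟩ := hWj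
  exact ⟨y, c + j, h1, h2, by omega, by omega, h3⟩

/-! ## (TUBE)   (order of 99, msg 122625): a circuit of the `K`-annulus crosses its left and its right side from bottom to top -/

/-- **(TUBE)** -/
theorem scr62_tube {F : Finset (ℤ × ℤ)} {ω : RswCfg} {z : ℤ × ℤ} {K n : ℕ} (hn : 1 ≤ n) (hF : rswBox z ((K + 3) * n) ⊆ F)
    (hS : RswSep F true ω (rswBox z ((K + 1) * n)) (F \ rswBox z ((K + 2) * n))) (c : ℤ) (N : ℕ)
    (h1 : z.2 - ((K + 1) * n : ℕ) ≤ c) (h2 : c + N ≤ z.2 + ((K + 1) * n : ℕ)) (a : ℤ)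
    (ha : a = z.1 + ((K + 1) * n : ℕ) ∨ a = z.1 - ((K + 2) * n : ℕ)) :
    ∃ x x' : ℤ, a ≤ x ∧ x ≤ a + n ∧ a ≤ x' ∧ x' ≤ a + n ∧
      Relation.ReflTransGen (ScrDuP (RswGood true ω) a c n N) (x, c) (x', c + N) := by
  have e2 : (K + 2) * n = (K + 1) * n + n := by ring
  have e3 : (K + 3) * n = (K + 1) * n + n + n := by ring
  have e1 : 1 ≤ (K + 1) * n := Nat.mul_pos (Nat.succ_pos K) hn
  rw [e2] at hS ha
  rw [e3] at hF
  generalize (K + 1) * n = m1 at *
  rcases scr62_dual (RswGood true ω) a c n N with h | ⟨y, y', hy1, hy2, hy3, hy4, hp⟩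
  · exact h
  exfalso
  have hmemF : ∀ f, ScrDuF a c n N f → f ∈ F := by
    intro f hf
    apply hF
    obtain ⟨f1, f2, f3, f4⟩ := hf
    simp only [rswBox, Finset.mem_product, Finset.mem_Ico]
    push_cast at ha ⊢
    rcases ha with ha | ha <;> refine ⟨⟨?_, ?_⟩, ?_, ?_⟩ <;> omega
  have hstep : ∀ f g, ScrDuD (RswGood true ω) a c n N f g → RswStep F true ω f g := by
    rintro f g ⟨hf, hg, e, he, _, _, h⟩
    exact ⟨hmemF f hf, hmemF g hg, e, h, he⟩
  have hp1 : Relation.ReflTransGen (RswStep F true ω) (a - 1, y) (a + n, y') := Relation.ReflTransGen.mono hstep _ _ hp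
  have hp2 : Relation.ReflTransGen (RswStep F true ω) (a + n, y') (a - 1, y) :=
    Relation.ReflTransGen.mono hstep _ _ (scr62du_D_rev _ a c n N hp)
  have hL : ((a - 1, y) : ℤ × ℤ) ∈ F := hmemF _ ⟨le_refl _, by simp only; omega, hy1, hy2⟩
  have hR : ((a + n, y') : ℤ × ℤ) ∈ F := hmemF _ ⟨by simp only; omega, le_refl _, hy3, hy4⟩
  push_cast at ha
  rcases ha with ha | ha
  · refine hS (a - 1, y) ?_ (a + n, y') ?_ hp1
    · simp only [rswBox, Finset.mem_product, Finset.mem_Ico]
      refine ⟨⟨?_, ?_⟩, ?_, ?_⟩ <;> omega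
    · rw [Finset.mem_sdiff]
      refine ⟨hR, ?_⟩
      simp only [rswBox, Finset.mem_product, Finset.mem_Ico]
      push_cast
      omega
  · refine hS (a + n, y') ?_ (a - 1, y) ?_ hp2
    · simp only [rswBox, Finset.mem_product, Finset.mem_Ico]
      refine ⟨⟨?_, ?_⟩, ?_, ?_⟩ <;> omega
    · rw [Finset.mem_sdiff]
      refine ⟨hL, ?_⟩
      simp only [rswBox, Finset.mem_product, Finset.mem_Ico]
      push_cast
      omega

end Claimed.Agent.R292
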