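import Claimed.Agent.R292.Screen.Prob142

/-!
# Row 292 (S0540), unit SCREEN : SELECTION, CONTIGUITY + UI, GLUING OF COUPLINGS      (helper99; prefix `scr99`)

Model-free, 0 sorry, on the finite weighted API of `Screen/Prob142` (`scr142_E`, `scr142_P`, `scr142_Law`, `scr142_Coupling`).

* §0  `scr99M S w B` = unnormalised mass of an event; `scr99_atoms` (an inequality on every atom of a history passes to
      every event read in that history); `scr99_P_eq : scr142_P S w B = scr99M S w (· ∈ B) / ∑ w`.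
* §1  **Lemma 5.7 (selection of the first successful trial)**: `Scr99Trials S w H A G M pr η` (histories `H j`, `H (j+1)` refines `H j`,
      `A j` read in `H (j+1)`, on every atom of `H j`: `P(A j | atom) ≥ pr`, `P(A j ∧ ¬ G j | atom) ≤ η P(A j | atom)`) gives
      `Scr99Trials.P_no_success : P(no success) ≤ (1 - pr)^M`, `Scr99Trials.P_bad : P(first success not shielded) ≤ η` (NO factor `M`),
      `scr99_select`, `Scr99Trials.P_select : P(¬ ∃ j < M, first success = j ∧ G j) ≤ (1 - pr)^M + η`.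
* §2  **contiguity + uniform integrability ⇒ L¹**: `scr99_L1_le` (quantitative), `scr99_contig_L1` (the reference law is ANY set function,
      so the plane law is allowed), `scr99_contig_of_ratio`.
* §3  **gluing**: `scr99GlueS`, `scr99GlueW`, `Scr99Mid` (+ `E_fst`, `E_snd`, `P_fst`, `P_snd`, `glue_law`), `scr99_glue`, `scr99_glue_fail`,
      `scr99_glue4` (four adjacent couplings on one space, union bound), `scr99_glue4_agree` (the form fed to `scr142_coupling_le` / `_chain` / `_master`).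
-/

set_option autoImplicit false

namespace Claimed.Agent.R292

open Finset

/-! ### 0. finite weighted spaces -/

section base

variable {Ω : Type*}

open Classical in
/-- the (unnormalised) mass of an event -/
noncomputable def scr99M (S : Finset Ω) (w : Ω → ℝ) (B : Ω → Prop) : ℝ := ∑ p ∈ S, if B p then w p else 0

theorem scr99_M_nonneg {S : Finset Ω} {w : Ω → ℝ} (hw : ∀ p ∈ S, 0 ≤ w p) (B : Ω → Prop) : 0 ≤ scr99M S w B := by
  classical
  unfold scr99M
  refine Finset.sum_nonneg fun p hp => ?_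
  split_ifs
  · exact hw p hp
  · exact le_rfl

theorem scr99_M_mono {S : Finset Ω} {w : Ω → ℝ} (hw : ∀ p ∈ S, 0 ≤ w p) {B C : Ω → Prop} (h : ∀ p ∈ S, B p → C p) :
    scr99M S w B ≤ scr99M S w C := by
  classical
  unfold scr99M
  refine Finset.sum_le_sum fun p hp => ?_
  by_cases hB : B p
  · rw [if_pos hB, if_pos (h p hp hB)]
  · rw [if_neg hB]
    split_ifs
    · exact hw p hp
    · exact le_rfl

theorem scr99_M_true (S : Finset Ω) (w : Ω → ℝ) : scr99M S w (fun _ => True) = ∑ p ∈ S, w p := by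
  classical
  simp [scr99M]

theorem scr99_M_congr {S : Finset Ω} {w : Ω → ℝ} {B C : Ω → Prop} (h : ∀ p ∈ S, (B p ↔ C p)) :
    scr99M S w B = scr99M S w C := by
  classical
  unfold scr99M
  refine Finset.sum_congr rfl fun p hp => ?_
  by_cases hB : B p
  · rw [if_pos hB, if_pos ((h p hp).1 hB)]
  · rw [if_neg hB, if_neg (fun hC => hB ((h p hp).2 hC))]

/-- splitting an event along another one -/
theorem scr99_M_split (S : Finset Ω) (w : Ω → ℝ) (B A : Ω → Prop) :
    scr99M S w B = scr99M S w (fun p => B p ∧ A p) + scr99M S w (fun p => B p ∧ ¬ A p) := by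
  classical
  unfold scr99M
  rw [← Finset.sum_add_distrib]
  refine Finset.sum_congr rfl fun p _ => ?_
  by_cases hB : B p <;> by_cases hA : A p <;> simp [hB, hA]

/-- **from atoms to measurable events.**  If `∑ X ≤ ∑ Y` on every fibre of `H`, then on every event which is a union of fibres. -/
theorem scr99_atoms {τ : Type*} (S : Finset Ω) (H : Ω → τ) (B : Ω → Prop)
    (hB : ∀ p ∈ S, ∀ p' ∈ S, H p = H p' → (B p ↔ B p')) (X Y : Ω → ℝ)
    (h : ∀ t : τ, scr99M S X (fun p => H p = t) ≤ scr99M S Y (fun p => H p = t)) :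
    scr99M S X B ≤ scr99M S Y B := by
  classical
  have key : ∀ Z : Ω → ℝ, scr99M S Z B =
      ∑ t ∈ S.image H, ∑ p ∈ S, if H p = t then (if B p then Z p else 0) else 0 := by
    intro Z
    unfold scr99M
    rw [← Finset.sum_fiberwise_of_maps_to (s := S) (t := S.image H) (g := H)
      (fun p hp => Finset.mem_image_of_mem H hp)]
    refine Finset.sum_congr rfl fun t _ => ?_
    rw [Finset.sum_filter]
  rw [key X, key Y]
  refine Finset.sum_le_sum fun t ht => ?_
  obtain ⟨p0, hp0, rfl⟩ := Finset.mem_image.1 ht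
  by_cases hb : B p0
  · have e : ∀ Z : Ω → ℝ, (∑ p ∈ S, if H p = H p0 then (if B p then Z p else 0) else 0)
        = scr99M S Z (fun p => H p = H p0) := by
      intro Z
      unfold scr99M
      refine Finset.sum_congr rfl fun p hp => ?_
      by_cases hH : H p = H p0
      · rw [if_pos hH, if_pos hH, if_pos ((hB p hp p0 hp0 hH).2 hb)]
      · rw [if_neg hH, if_neg hH]
    rw [e X, e Y]
    exact h _
  · have e : ∀ Z : Ω → ℝ, (∑ p ∈ S, if H p = H p0 then (if B p then Z p else 0) else 0) = 0 := by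
      intro Z
      refine Finset.sum_eq_zero fun p hp => ?_
      by_cases hH : H p = H p0
      · rw [if_pos hH, if_neg (fun hbp => hb ((hB p hp p0 hp0 hH).1 hbp))]
      · rw [if_neg hH]
    rw [e X, e Y]

/-- masses with a weight cut by an event -/
theorem scr99_M_cut (S : Finset Ω) (w : Ω → ℝ) (A B : Ω → Prop) [DecidablePred A] :
    scr99M S (fun p => if A p then w p else 0) B = scr99M S w (fun p => B p ∧ A p) := by
  classical
  unfold scr99M
  refine Finset.sum_congr rfl fun p _ => ?_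
  by_cases hB : B p <;> by_cases hA : A p <;> simp [hB, hA]

theorem scr99_M_smul (S : Finset Ω) (w : Ω → ℝ) (c : ℝ) (B : Ω → Prop) :
    scr99M S (fun p => c * w p) B = c * scr99M S w B := by
  classical
  unfold scr99M
  rw [Finset.mul_sum]
  refine Finset.sum_congr rfl fun p _ => ?_
  split_ifs <;> simp

end base

/-! ### 1. Lemma 5.7: selection of the first successful trial -/

section selection

variable {Ω : Type*} {τ : ℕ → Type*}

/-- no success before trial `j` -/
def scr99No (A : ℕ → Ω → Prop) (j : ℕ) (p : Ω) : Prop := ∀ i < j, ¬ A i p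

/-- the data of the sequential trials -/
structure Scr99Trials (S : Finset Ω) (w : Ω → ℝ) (H : ∀ j, Ω → τ j) (A G : ℕ → Ω → Prop) (M : ℕ) (pr η : ℝ) : Prop where
  wnn : ∀ p ∈ S, 0 ≤ w p
  /-- the history after trial `j` refines the history before it -/
  refine : ∀ j, ∀ p ∈ S, ∀ p' ∈ S, H (j + 1) p = H (j + 1) p' → H j p = H j p'
  /-- the outcome of trial `j` is read in the history after it -/
  meas : ∀ j, ∀ p ∈ S, ∀ p' ∈ S, H (j + 1) p = H (j + 1) p' → (A j p ↔ A j p')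
  /-- conditional success probability -/
  succ : ∀ j < M, ∀ t : τ j, pr * scr99M S w (fun p => H j p = t) ≤ scr99M S w (fun p => H j p = t ∧ A j p)
  /-- relative shielding -/
  shield : ∀ j < M, ∀ t : τ j,
    scr99M S w (fun p => H j p = t ∧ (A j p ∧ ¬ G j p)) ≤ η * scr99M S w (fun p => H j p = t ∧ A j p)

variable {S : Finset Ω} {w : Ω → ℝ} {H : ∀ j, Ω → τ j} {A G : ℕ → Ω → Prop} {M : ℕ} {pr η : ℝ}

theorem Scr99Trials.refine_le (T : Scr99Trials S w H A G M pr η) {i j : ℕ} (hij : i ≤ j) :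
    ∀ p ∈ S, ∀ p' ∈ S, H j p = H j p' → H i p = H i p' := by
  induction hij with
  | refl => intro p _ p' _ h; exact h
  | step _ ih => intro p hp p' hp' h; exact ih p hp p' hp' (T.refine _ p hp p' hp' h)

/-- "no success before `j`" is read in the history before trial `j` -/
theorem Scr99Trials.no_meas (T : Scr99Trials S w H A G M pr η) (j : ℕ) :
    ∀ p ∈ S, ∀ p' ∈ S, H j p = H j p' → (scr99No A j p ↔ scr99No A j p') := by
  intro p hp p' hp' h
  unfold scr99No
  refine forall_congr' fun i => forall_congr' fun hi => not_congr ?_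
  exact T.meas i p hp p' hp' (T.refine_le (Nat.succ_le_of_lt hi) p hp p' hp' h)

theorem scr99_no_succ (A : ℕ → Ω → Prop) (j : ℕ) (p : Ω) : scr99No A (j + 1) p ↔ scr99No A j p ∧ ¬ A j p := by
  unfold scr99No
  constructor
  · intro h
    exact ⟨fun i hi => h i (Nat.lt_succ_of_lt hi), h j (Nat.lt_succ_self j)⟩
  · rintro ⟨h1, h2⟩ i hi
    rcases Nat.lt_succ_iff_lt_or_eq.1 hi with h | rfl
    · exact h1 i h
    · exact h2

/-- one more failure costs a factor `1 - pr` -/
theorem Scr99Trials.no_step (T : Scr99Trials S w H A G M pr η) {j : ℕ} (hj : j < M) :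
    scr99M S w (scr99No A (j + 1)) ≤ (1 - pr) * scr99M S w (scr99No A j) := by
  classical
  have h1 : pr * scr99M S w (scr99No A j) ≤ scr99M S w (fun p => scr99No A j p ∧ A j p) := by
    have := scr99_atoms S (H j) (scr99No A j) (T.no_meas j) (fun p => pr * w p) (fun p => if A j p then w p else 0)
      (fun t => by rw [scr99_M_smul, scr99_M_cut]; exact T.succ j hj t)
    rwa [scr99_M_smul, scr99_M_cut] at this
  have h2 := scr99_M_split S w (scr99No A j) (A j)
  have h3 : scr99M S w (scr99No A (j + 1)) = scr99M S w (fun p => scr99No A j p ∧ ¬ A j p) :=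
    scr99_M_congr fun p _ => scr99_no_succ A j p
  rw [h3]
  linarith

/-- **P(no success) ≤ (1 - p)^M** -/
theorem Scr99Trials.no_success (T : Scr99Trials S w H A G M pr η) (hpr : pr ≤ 1) :
    scr99M S w (scr99No A M) ≤ (1 - pr) ^ M * ∑ p ∈ S, w p := by
  have key : ∀ j ≤ M, scr99M S w (scr99No A j) ≤ (1 - pr) ^ j * ∑ p ∈ S, w p := by
    intro j
    induction j with
    | zero =>
      intro _
      rw [pow_zero, one_mul, ← scr99_M_true]
      exact scr99_M_mono T.wnn fun _ _ _ => trivial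
    | succ j ih =>
      intro hj
      calc scr99M S w (scr99No A (j + 1)) ≤ (1 - pr) * scr99M S w (scr99No A j) := T.no_step hj
        _ ≤ (1 - pr) * ((1 - pr) ^ j * ∑ p ∈ S, w p) :=
          mul_le_mul_of_nonneg_left (ih (Nat.le_of_succ_le hj)) (by linarith)
        _ = (1 - pr) ^ (j + 1) * ∑ p ∈ S, w p := by ring
  exact key M le_rfl

/-- the first success is trial `j` -/
def scr99First (A : ℕ → Ω → Prop) (j : ℕ) (p : Ω) : Prop := scr99No A j p ∧ A j p

/-- the events "first success = j" have total mass at most the total mass -/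
theorem scr99_first_sum (S : Finset Ω) (w : Ω → ℝ) (A : ℕ → Ω → Prop) (m : ℕ) :
    ∑ j ∈ Finset.range m, scr99M S w (scr99First A j) + scr99M S w (scr99No A m) = ∑ p ∈ S, w p := by
  classical
  induction m with
  | zero =>
    rw [Finset.sum_range_zero, zero_add, ← scr99_M_true]
    unfold scr99M
    refine Finset.sum_congr rfl fun p _ => ?_
    have : scr99No A 0 p := fun i hi => absurd hi (Nat.not_lt_zero i)
    simp [this]
  | succ m ih =>
    rw [Finset.sum_range_succ, ← ih]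
    have h2 := scr99_M_split S w (scr99No A m) (A m)
    have h3 : scr99M S w (scr99No A (m + 1)) = scr99M S w (fun p => scr99No A m p ∧ ¬ A m p) :=
      scr99_M_congr fun p _ => scr99_no_succ A m p
    rw [h3, h2]
    unfold scr99First
    ring

/-- the selected trial is not shielded -/
def scr99Bad (A G : ℕ → Ω → Prop) (M : ℕ) (p : Ω) : Prop := ∃ j < M, scr99First A j p ∧ ¬ G j p

/-- **P(a success exists and the selected trial is not shielded) ≤ η**: no factor `M` -/
theorem Scr99Trials.bad (T : Scr99Trials S w H A G M pr η) (hη : 0 ≤ η) :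
    scr99M S w (scr99Bad A G M) ≤ η * ∑ p ∈ S, w p := by
  classical
  have h1 : ∀ j < M, scr99M S w (fun p => scr99First A j p ∧ ¬ G j p) ≤ η * scr99M S w (scr99First A j) := by
    intro j hj
    have := scr99_atoms S (H j) (scr99No A j) (T.no_meas j) (fun p => if A j p ∧ ¬ G j p then w p else 0)
      (fun p => η * (if A j p then w p else 0))
      (fun t => by rw [scr99_M_smul, scr99_M_cut, scr99_M_cut]; exact T.shield j hj t)
    rw [scr99_M_smul, scr99_M_cut, scr99_M_cut] at this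
    refine le_trans (le_of_eq ?_) this
    exact scr99_M_congr fun p _ => by unfold scr99First; exact and_assoc
  have h2 : scr99M S w (scr99Bad A G M) ≤ ∑ j ∈ Finset.range M, scr99M S w (fun p => scr99First A j p ∧ ¬ G j p) := by
    unfold scr99M
    rw [Finset.sum_comm]
    refine Finset.sum_le_sum fun p hp => ?_
    by_cases hb : scr99Bad A G M p
    · rw [if_pos hb]
      obtain ⟨j, hj, hjp⟩ := hb
      refine le_trans (le_of_eq ?_) (Finset.single_le_sum (f := fun i => _) (fun i _ => ?_) (Finset.mem_range.2 hj))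
      · exact (if_pos hjp).symm
      · beta_reduce
        split_ifs
        · exact T.wnn p hp
        · exact le_rfl
    · rw [if_neg hb]
      refine Finset.sum_nonneg fun i _ => ?_
      split_ifs
      · exact T.wnn p hp
      · exact le_rfl
  have h3 : ∑ j ∈ Finset.range M, scr99M S w (scr99First A j) ≤ ∑ p ∈ S, w p := by
    have := scr99_first_sum S w A M
    have h0 := scr99_M_nonneg T.wnn (scr99No A M)
    linarith
  calc scr99M S w (scr99Bad A G M)
      ≤ ∑ j ∈ Finset.range M, scr99M S w (fun p => scr99First A j p ∧ ¬ G j p) := h2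
    _ ≤ ∑ j ∈ Finset.range M, η * scr99M S w (scr99First A j) :=
        Finset.sum_le_sum fun j hj => h1 j (Finset.mem_range.1 hj)
    _ = η * ∑ j ∈ Finset.range M, scr99M S w (scr99First A j) := by rw [Finset.mul_sum]
    _ ≤ η * ∑ p ∈ S, w p := mul_le_mul_of_nonneg_left h3 hη

end selection


/-! ### 1'. the same in the normalised API of `Prob142` -/

section bridge

variable {Ω : Type*}

theorem scr99_M_def (S : Finset Ω) (w : Ω → ℝ) (B : Ω → Prop) [DecidablePred B] :
    scr99M S w B = ∑ p ∈ S, if B p then w p else 0 := by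
  unfold scr99M
  refine Finset.sum_congr rfl fun p _ => ?_
  by_cases h : B p <;> simp [h]

theorem scr99_P_eq (S : Finset Ω) (w : Ω → ℝ) (B : Set Ω) :
    scr142_P S w B = scr99M S w (fun p => p ∈ B) / ∑ p ∈ S, w p := by
  classical
  unfold scr142_P scr142_E
  rw [scr99_M_def]
  congr 1
  refine Finset.sum_congr rfl fun p _ => ?_
  by_cases h : p ∈ B
  · rw [Set.indicator_of_mem h, if_pos h, mul_one]
  · rw [Set.indicator_of_notMem h, if_neg h, mul_zero]

theorem scr99_E_ite (S : Finset Ω) (w : Ω → ℝ) (B : Ω → Prop) [DecidablePred B] :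
    scr142_E S w (fun p => if B p then 1 else 0) = scr99M S w B / ∑ p ∈ S, w p := by
  unfold scr142_E
  rw [scr99_M_def]
  congr 1
  refine Finset.sum_congr rfl fun p _ => ?_
  by_cases h : B p <;> simp [h]

theorem scr99_M_zero {S : Finset Ω} {w : Ω → ℝ} (hw : ∀ p ∈ S, 0 ≤ w p) {B : Ω → Prop} (h0 : scr99M S w B = 0) :
    ∀ p ∈ S, B p → w p = 0 := by
  classical
  intro p hp hB
  rw [scr99_M_def] at h0
  have := (Finset.sum_eq_zero_iff_of_nonneg (fun q hq => by
    split_ifs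
    · exact hw q hq
    · exact le_rfl)).1 h0 p hp
  rwa [if_pos hB] at this

/-- union bound -/
theorem scr99_P_union {S : Finset Ω} {w : Ω → ℝ} (h : scr142_Law S w) (B C : Set Ω) :
    scr142_P S w (B ∪ C) ≤ scr142_P S w B + scr142_P S w C := by
  unfold scr142_P
  rw [← scr142_E_add]
  refine scr142_E_mono h fun p _ => ?_
  by_cases hB : p ∈ B <;> by_cases hC : p ∈ C <;> simp [Set.indicator, hB, hC]

end bridge

section selectionP

variable {Ω : Type*} {τ : ℕ → Type*}
variable {S : Finset Ω} {w : Ω → ℝ} {H : ∀ j, Ω → τ j} {A G : ℕ → Ω → Prop} {M : ℕ} {pr η : ℝ}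

/-- **Lemma 5.7 (i)**: `P(no successful trial) ≤ (1 - p)^M`. -/
theorem Scr99Trials.P_no_success (T : Scr99Trials S w H A G M pr η) (hL : scr142_Law S w) (hpr : pr ≤ 1) :
    scr142_P S w {p | scr99No A M p} ≤ (1 - pr) ^ M := by
  rw [scr99_P_eq, div_le_iff₀ hL.2]
  exact T.no_success hpr

/-- **Lemma 5.7 (ii)**: `P(a trial succeeds and the FIRST successful trial is not shielded) ≤ η`, with no factor `M`. -/
theorem Scr99Trials.P_bad (T : Scr99Trials S w H A G M pr η) (hL : scr142_Law S w) (hη : 0 ≤ η) :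
    scr142_P S w {p | scr99Bad A G M p} ≤ η := by
  rw [scr99_P_eq, div_le_iff₀ hL.2]
  exact T.bad hη

/-- the dichotomy: off the two small events, there is a first successful trial `j < M` and it is shielded. -/
theorem scr99_select (A G : ℕ → Ω → Prop) (M : ℕ) (p : Ω) (h1 : ¬ scr99No A M p) (h2 : ¬ scr99Bad A G M p) :
    ∃ j < M, scr99First A j p ∧ G j p := by
  classical
  have hex : ∃ i, i < M ∧ A i p := by
    by_contra hne
    exact h1 fun i hi hA => hne ⟨i, hi, hA⟩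
  refine ⟨Nat.find hex, (Nat.find_spec hex).1, ⟨?_, (Nat.find_spec hex).2⟩, ?_⟩
  · intro i hi hA
    exact Nat.find_min hex hi ⟨hi.trans (Nat.find_spec hex).1, hA⟩
  · by_contra hG
    refine h2 ⟨Nat.find hex, (Nat.find_spec hex).1, ⟨?_, (Nat.find_spec hex).2⟩, hG⟩
    intro i hi hA
    exact Nat.find_min hex hi ⟨hi.trans (Nat.find_spec hex).1, hA⟩

/-- **Lemma 5.7, packaged**: `P(no shielded first success) ≤ (1 - p)^M + η`. -/
theorem Scr99Trials.P_select (T : Scr99Trials S w H A G M pr η) (hL : scr142_Law S w) (hpr : pr ≤ 1) (hη : 0 ≤ η) :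
    scr142_P S w {p | ¬ ∃ j < M, scr99First A j p ∧ G j p} ≤ (1 - pr) ^ M + η := by
  refine le_trans (scr142_P_mono hL (S' := {p | scr99No A M p} ∪ {p | scr99Bad A G M p}) fun p _ hp => ?_)
    ((scr99_P_union hL _ _).trans (add_le_add (T.P_no_success hL hpr) (T.P_bad hL hη)))
  by_contra hcon
  rw [Set.mem_union, not_or] at hcon
  exact hp (scr99_select A G M p hcon.1 hcon.2)

end selectionP

/-! ### 2. contiguity + uniform integrability ⇒ convergence in `L¹` -/

section contiguity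

open Filter Topology

/-- the quantitative step: `E|g| ≤ a + θ C / 2 + P(|g| > a) / (2 θ)`. -/
theorem scr99_L1_le {Ω : Type*} {s : Finset Ω} {w : Ω → ℝ} (h : scr142_Law s w) (g : Ω → ℝ) {a θ C : ℝ} (ha : 0 ≤ a)
    (hθ : 0 < θ) (hC : scr142_E s w (fun p => g p ^ 2) ≤ C) :
    scr142_E s w (fun p => |g p|) ≤ a + θ * C / 2 + scr142_P s w {p | a < |g p|} / (2 * θ) := by
  have h1 : ∀ p ∈ s, |g p| ≤ (a + (θ / 2) * g p ^ 2)
      + (1 / (2 * θ)) * ({p | a < |g p|}.indicator (fun _ => (1 : ℝ)) p) := by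
    intro p _
    have hsq : 0 ≤ (θ / 2) * g p ^ 2 := by positivity
    by_cases hp : a < |g p|
    · rw [Set.indicator_of_mem (show p ∈ {p | a < |g p|} from hp), mul_one]
      have h2 : |g p| ≤ (θ / 2) * g p ^ 2 + 1 / (2 * θ) := by
        have h3 : 0 ≤ (θ * |g p| - 1) ^ 2 := sq_nonneg _
        have h4 : |g p| ^ 2 = g p ^ 2 := sq_abs _
        rw [← sub_nonneg]
        have : (θ / 2) * g p ^ 2 + 1 / (2 * θ) - |g p| = (θ * |g p| - 1) ^ 2 / (2 * θ) := by
          rw [← h4]; field_simp; ring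
        rw [this]; positivity
      linarith
    · rw [Set.indicator_of_notMem (show p ∉ {p | a < |g p|} from hp), mul_zero, add_zero]
      linarith [not_lt.1 hp]
  have h2 := scr142_E_mono h h1
  rw [scr142_E_add, scr142_E_add, scr142_E_smul, scr142_E_smul, scr142_E_const h] at h2
  have h3 : θ / 2 * scr142_E s w (fun p => g p ^ 2) ≤ θ / 2 * C := mul_le_mul_of_nonneg_left hC (by positivity)
  have h4 : 1 / (2 * θ) * scr142_E s w ({p | a < |g p|}.indicator fun _ => (1 : ℝ))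
      = scr142_P s w {p | a < |g p|} / (2 * θ) := by
    unfold scr142_P; ring
  rw [h4] at h2
  linarith

/-- **contiguity + uniform integrability ⇒ `L¹`** (end of the proof of Prop. 5.1, "Transfer to flat domains").
`Pμ n` is ANY set function (the plane law; it need not be a finite weighted space), the laws `ν n` are finite weighted spaces. -/
theorem scr99_contig_L1 {ι : Type*} {l : Filter ι} {Ω : ι → Type*} (Pμ : ∀ n, Set (Ω n) → ℝ)
    (s : ∀ n, Finset (Ω n)) (w : ∀ n, Ω n → ℝ) (hν : ∀ n, scr142_Law (s n) (w n)) (g : ∀ n, Ω n → ℝ)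
    (hprob : ∀ a > 0, Tendsto (fun n => Pμ n {p | a < |g n p|}) l (𝓝 0))
    (hcont : ∀ ε > 0, ∃ η > 0, ∀ᶠ n in l, ∀ A : Set (Ω n), Pμ n A < η → scr142_P (s n) (w n) A < ε)
    {C : ℝ} (hC : ∀ᶠ n in l, scr142_E (s n) (w n) (fun p => g n p ^ 2) ≤ C) :
    Tendsto (fun n => scr142_E (s n) (w n) (fun p => |g n p|)) l (𝓝 0) := by
  rw [tendsto_order]
  constructor
  · intro b hb
    exact Eventually.of_forall fun n => lt_of_lt_of_le hb (scr142_E_nonneg (hν n) fun p _ => abs_nonneg _)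
  · intro ε hε
    set C' : ℝ := max C 0 + 1 with hC'
    have hC'0 : 0 < C' := by have := le_max_right C 0; linarith
    have hCC' : C ≤ C' := by have := le_max_left C 0; linarith
    set θ : ℝ := 2 * ε / (3 * C') with hθ
    have hθ0 : 0 < θ := by positivity
    obtain ⟨η, hη, hcon⟩ := hcont (2 * θ * (ε / 3)) (by positivity)
    have hp := (tendsto_order.1 (hprob (ε / 3) (by positivity))).2 η hη
    filter_upwards [hcon, hp, hC] with n h1 h2 h3
    have h4 := h1 _ h2
    have h5 := scr99_L1_le (hν n) (g n) (a := ε / 3) (θ := θ) (by positivity) hθ0 (h3.trans hCC')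
    have h6 : θ * C' / 2 = ε / 3 := by rw [hθ]; field_simp
    have h7 : scr142_P (s n) (w n) {p | ε / 3 < |g n p|} / (2 * θ) < ε / 3 := by
      rw [div_lt_iff₀ (by positivity)]; linarith
    linarith

/-- a source of contiguity: a bounded density ratio `ν(A) ≤ K μ(A)`. -/
theorem scr99_contig_of_ratio {ι : Type*} {l : Filter ι} {Ω : ι → Type*} (Pμ Pν : ∀ n, Set (Ω n) → ℝ) {K : ℝ}
    (hμ0 : ∀ n A, 0 ≤ Pμ n A) (hK : ∀ᶠ n in l, ∀ A : Set (Ω n), Pν n A ≤ K * Pμ n A) :
    ∀ ε > 0, ∃ η > 0, ∀ᶠ n in l, ∀ A : Set (Ω n), Pμ n A < η → Pν n A < ε := by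
  intro ε hε
  set K' : ℝ := max K 0 + 1 with hK'
  have hK'0 : 0 < K' := by have := le_max_right K 0; linarith
  refine ⟨ε / K', by positivity, ?_⟩
  filter_upwards [hK] with n h A hA
  rw [lt_div_iff₀ hK'0] at hA
  have : K * Pμ n A ≤ K' * Pμ n A :=
    mul_le_mul_of_nonneg_right (by have := le_max_left K 0; linarith) (hμ0 n A)
  linarith [h A]

end contiguity

/-! ### 3. gluing of couplings -/

section glue

variable {Ωa Ωb Y : Type*}

open Classical in
/-- the support of the glued space: pairs which agree on the middle coordinate -/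
noncomputable def scr99GlueS (sa : Finset Ωa) (sb : Finset Ωb) (f : Ωa → Y) (g : Ωb → Y) : Finset (Ωa × Ωb) :=
  (sa ×ˢ sb).filter fun x => f x.1 = g x.2

/-- the weight of the glued space: conditionally independent given the middle coordinate -/
noncomputable def scr99GlueW (sb : Finset Ωb) (wa : Ωa → ℝ) (wb : Ωb → ℝ) (f : Ωa → Y) (g : Ωb → Y)
    (x : Ωa × Ωb) : ℝ :=
  wa x.1 * wb x.2 / scr99M sb wb (fun q => g q = f x.1)

/-- two finite weighted spaces with the same law of a middle coordinate -/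
structure Scr99Mid (sa : Finset Ωa) (wa : Ωa → ℝ) (sb : Finset Ωb) (wb : Ωb → ℝ) (f : Ωa → Y) (g : Ωb → Y) : Prop where
  la : scr142_Law sa wa
  lb : scr142_Law sb wb
  mid : ∀ A : Y → ℝ, scr142_E sa wa (fun p => A (f p)) = scr142_E sb wb (fun q => A (g q))

variable {sa : Finset Ωa} {wa : Ωa → ℝ} {sb : Finset Ωb} {wb : Ωb → ℝ} {f : Ωa → Y} {g : Ωb → Y}

theorem Scr99Mid.mass (h : Scr99Mid sa wa sb wb f g) (y : Y) :
    scr99M sa wa (fun p => f p = y) * ∑ q ∈ sb, wb q = scr99M sb wb (fun q => g q = y) * ∑ p ∈ sa, wa p := by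
  classical
  have h1 := h.mid (fun y' => if y' = y then 1 else 0)
  rw [scr99_E_ite sa wa (fun p => f p = y), scr99_E_ite sb wb (fun q => g q = y),
    div_eq_div_iff h.la.2.ne' h.lb.2.ne'] at h1
  exact h1

theorem Scr99Mid.wa_zero (h : Scr99Mid sa wa sb wb f g) {p : Ωa} (hp : p ∈ sa)
    (h0 : scr99M sb wb (fun q => g q = f p) = 0) : wa p = 0 := by
  have h1 := h.mass (f p)
  rw [h0, zero_mul] at h1
  have h2 : scr99M sa wa (fun p' => f p' = f p) = 0 := by
    rcases mul_eq_zero.1 h1 with h2 | h2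
    · exact h2
    · exact absurd h2 h.lb.2.ne'
  exact scr99_M_zero h.la.1 h2 p hp rfl

theorem Scr99Mid.sum_fst (h : Scr99Mid sa wa sb wb f g) (F : Ωa → ℝ) :
    ∑ x ∈ scr99GlueS sa sb f g, scr99GlueW sb wa wb f g x * F x.1 = ∑ p ∈ sa, wa p * F p := by
  classical
  unfold scr99GlueS
  rw [Finset.sum_filter, Finset.sum_product]
  refine Finset.sum_congr rfl fun p hp => ?_
  set m := scr99M sb wb (fun q => g q = f p) with hm
  have e : ∀ q ∈ sb, (if f p = g q then scr99GlueW sb wa wb f g (p, q) * F p else 0)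
      = (wa p * F p / m) * (if g q = f p then wb q else 0) := by
    intro q _
    by_cases hq : f p = g q
    · rw [if_pos hq, if_pos hq.symm]
      unfold scr99GlueW
      simp only
      rw [← hm]; ring
    · rw [if_neg hq, if_neg (fun hh => hq hh.symm), mul_zero]
  rw [Finset.sum_congr rfl e, ← Finset.mul_sum, ← scr99_M_def sb wb (fun q => g q = f p), ← hm]
  by_cases h0 : m = 0
  · rw [h.wa_zero hp h0]; simp
  · field_simp

theorem Scr99Mid.sum_snd (h : Scr99Mid sa wa sb wb f g) (F : Ωb → ℝ) :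
    ∑ x ∈ scr99GlueS sa sb f g, scr99GlueW sb wa wb f g x * F x.2
      = (∑ p ∈ sa, wa p) / (∑ q ∈ sb, wb q) * ∑ q ∈ sb, wb q * F q := by
  classical
  unfold scr99GlueS
  rw [Finset.sum_filter, Finset.sum_product_right, Finset.mul_sum]
  refine Finset.sum_congr rfl fun q hq => ?_
  set m := scr99M sb wb (fun q' => g q' = g q) with hm
  have e : ∀ p ∈ sa, (if f p = g q then scr99GlueW sb wa wb f g (p, q) * F q else 0)
      = (wb q * F q / m) * (if f p = g q then wa p else 0) := by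
    intro p _
    by_cases hp : f p = g q
    · rw [if_pos hp, if_pos hp]
      unfold scr99GlueW
      simp only
      rw [hp, ← hm]; ring
    · rw [if_neg hp, if_neg hp, mul_zero]
  rw [Finset.sum_congr rfl e, ← Finset.mul_sum, ← scr99_M_def sa wa (fun p => f p = g q)]
  by_cases h0 : m = 0
  · rw [scr99_M_zero h.lb.1 h0 q hq rfl]; simp
  · have h1 := h.mass (g q)
    rw [← hm] at h1
    have hb := h.lb.2.ne'
    have h2 : scr99M sa wa (fun p => f p = g q) = m * (∑ p ∈ sa, wa p) / ∑ q ∈ sb, wb q := by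
      rw [eq_div_iff hb]; exact h1
    rw [h2]
    field_simp

theorem Scr99Mid.glue_law (h : Scr99Mid sa wa sb wb f g) :
    scr142_Law (scr99GlueS sa sb f g) (scr99GlueW sb wa wb f g) := by
  classical
  constructor
  · intro x hx
    unfold scr99GlueS at hx
    rw [Finset.mem_filter, Finset.mem_product] at hx
    unfold scr99GlueW
    exact div_nonneg (mul_nonneg (h.la.1 _ hx.1.1) (h.lb.1 _ hx.1.2)) (scr99_M_nonneg h.lb.1 _)
  · have := h.sum_fst (fun _ => 1)
    simp only [mul_one] at this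
    rw [this]
    exact h.la.2

/-- the first marginal of the glued space -/
theorem Scr99Mid.E_fst (h : Scr99Mid sa wa sb wb f g) (F : Ωa → ℝ) :
    scr142_E (scr99GlueS sa sb f g) (scr99GlueW sb wa wb f g) (fun x => F x.1) = scr142_E sa wa F := by
  unfold scr142_E
  have := h.sum_fst (fun _ => 1)
  simp only [mul_one] at this
  rw [h.sum_fst F, this]

/-- the second marginal of the glued space -/
theorem Scr99Mid.E_snd (h : Scr99Mid sa wa sb wb f g) (F : Ωb → ℝ) :
    scr142_E (scr99GlueS sa sb f g) (scr99GlueW sb wa wb f g) (fun x => F x.2) = scr142_E sb wb F := by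
  unfold scr142_E
  have := h.sum_fst (fun _ => 1)
  simp only [mul_one] at this
  rw [h.sum_snd F, this]
  have ha := h.la.2.ne'
  have hb := h.lb.2.ne'
  field_simp

theorem scr99_glue_agree {x : Ωa × Ωb} (hx : x ∈ scr99GlueS sa sb f g) : f x.1 = g x.2 := by
  classical
  unfold scr99GlueS at hx
  exact (Finset.mem_filter.1 hx).2

theorem Scr99Mid.P_fst (h : Scr99Mid sa wa sb wb f g) (B : Set Ωa) :
    scr142_P (scr99GlueS sa sb f g) (scr99GlueW sb wa wb f g) {x | x.1 ∈ B} = scr142_P sa wa B := by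
  unfold scr142_P
  rw [← h.E_fst]
  rfl

theorem Scr99Mid.P_snd (h : Scr99Mid sa wa sb wb f g) (B : Set Ωb) :
    scr142_P (scr99GlueS sa sb f g) (scr99GlueW sb wa wb f g) {x | x.2 ∈ B} = scr142_P sb wb B := by
  unfold scr142_P
  rw [← h.E_snd]
  rfl

end glue

section glue2

variable {Ω₁ Ω₂ Ω₃ Ωa Ωb : Type*}
variable {s₁ : Finset Ω₁} {w₁ : Ω₁ → ℝ} {s₂ : Finset Ω₂} {w₂ : Ω₂ → ℝ} {s₃ : Finset Ω₃} {w₃ : Ω₃ → ℝ}
variable {sa : Finset Ωa} {wa : Ωa → ℝ} {sb : Finset Ωb} {wb : Ωb → ℝ}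
variable {π₁ : Ωa → Ω₁} {π₂ : Ωa → Ω₂} {ρ₂ : Ωb → Ω₂} {ρ₃ : Ωb → Ω₃}

theorem scr99_mid_of_couplings (ha : scr142_Coupling s₁ w₁ s₂ w₂ sa wa π₁ π₂)
    (hb : scr142_Coupling s₂ w₂ s₃ w₃ sb wb ρ₂ ρ₃) : Scr99Mid sa wa sb wb π₂ ρ₂ :=
  ⟨ha.1, hb.1, fun A => (ha.2.2 A).trans (hb.2.1 A).symm⟩

/-- **gluing of two couplings** along their common marginal: the glued space couples the two outer laws,
its two coordinates have the laws of the two couplings, they agree on the middle space, and the failure events add up. -/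
theorem scr99_glue (ha : scr142_Coupling s₁ w₁ s₂ w₂ sa wa π₁ π₂) (hb : scr142_Coupling s₂ w₂ s₃ w₃ sb wb ρ₂ ρ₃) :
    scr142_Coupling s₁ w₁ s₃ w₃ (scr99GlueS sa sb π₂ ρ₂) (scr99GlueW sb wa wb π₂ ρ₂)
      (fun x => π₁ x.1) (fun x => ρ₃ x.2) := by
  have h := scr99_mid_of_couplings ha hb
  exact ⟨h.glue_law, fun A => (h.E_fst fun p => A (π₁ p)).trans (ha.2.1 A),
    fun A => (h.E_snd fun q => A (ρ₃ q)).trans (hb.2.2 A)⟩

theorem scr99_glue_fail (ha : scr142_Coupling s₁ w₁ s₂ w₂ sa wa π₁ π₂) (hb : scr142_Coupling s₂ w₂ s₃ w₃ sb wb ρ₂ ρ₃)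
    (Ba : Set Ωa) (Bb : Set Ωb) :
    scr142_P (scr99GlueS sa sb π₂ ρ₂) (scr99GlueW sb wa wb π₂ ρ₂) {x | x.1 ∈ Ba ∨ x.2 ∈ Bb}
      ≤ scr142_P sa wa Ba + scr142_P sb wb Bb := by
  have h := scr99_mid_of_couplings ha hb
  have := scr99_P_union h.glue_law {x : Ωa × Ωb | x.1 ∈ Ba} {x | x.2 ∈ Bb}
  rw [h.P_fst, h.P_snd] at this
  exact this

end glue2

section glue4

theorem scr99_glue_mem {Ωa Ωb Y : Type*} {sa : Finset Ωa} {sb : Finset Ωb} {f : Ωa → Y} {g : Ωb → Y} {x : Ωa × Ωb}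
    (hx : x ∈ scr99GlueS sa sb f g) : x.1 ∈ sa ∧ x.2 ∈ sb ∧ f x.1 = g x.2 := by
  classical
  unfold scr99GlueS at hx
  rw [Finset.mem_filter, Finset.mem_product] at hx
  exact ⟨hx.1.1, hx.1.2, hx.2⟩

variable {Ω₀ Ω₁ Ω₂ Ω₃ Ω₄ Ωa Ωb Ωc Ωd : Type*}
variable {s₀ : Finset Ω₀} {w₀ : Ω₀ → ℝ} {s₁ : Finset Ω₁} {w₁ : Ω₁ → ℝ} {s₂ : Finset Ω₂} {w₂ : Ω₂ → ℝ}
variable {s₃ : Finset Ω₃} {w₃ : Ω₃ → ℝ} {s₄ : Finset Ω₄} {w₄ : Ω₄ → ℝ}
variable {sa : Finset Ωa} {wa : Ωa → ℝ} {sb : Finset Ωb} {wb : Ωb → ℝ}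
variable {sc : Finset Ωc} {wc : Ωc → ℝ} {sd : Finset Ωd} {wd : Ωd → ℝ}
variable {a0 : Ωa → Ω₀} {a1 : Ωa → Ω₁} {b1 : Ωb → Ω₁} {b2 : Ωb → Ω₂} {c2 : Ωc → Ω₂} {c3 : Ωc → Ω₃}
variable {d3 : Ωd → Ω₃} {d4 : Ωd → Ω₄}

/-- **gluing of the four adjacent couplings** (proof of Lemma 5.8: "then glue the four couplings and use a union bound"):
one space carrying the four couplings, consecutive ones agreeing on their common law; its failure events add up. -/
theorem scr99_glue4 (ha : scr142_Coupling s₀ w₀ s₁ w₁ sa wa a0 a1) (hb : scr142_Coupling s₁ w₁ s₂ w₂ sb wb b1 b2)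
    (hc : scr142_Coupling s₂ w₂ s₃ w₃ sc wc c2 c3) (hd : scr142_Coupling s₃ w₃ s₄ w₄ sd wd d3 d4) :
    ∃ (s : Finset (((Ωa × Ωb) × Ωc) × Ωd)) (w : ((Ωa × Ωb) × Ωc) × Ωd → ℝ),
      scr142_Coupling s₀ w₀ s₄ w₄ s w (fun x => a0 x.1.1.1) (fun x => d4 x.2) ∧
      (∀ x ∈ s, (x.1.1.1 ∈ sa ∧ x.1.1.2 ∈ sb ∧ x.1.2 ∈ sc ∧ x.2 ∈ sd) ∧
        a1 x.1.1.1 = b1 x.1.1.2 ∧ b2 x.1.1.2 = c2 x.1.2 ∧ c3 x.1.2 = d3 x.2) ∧
      ∀ (Ba : Set Ωa) (Bb : Set Ωb) (Bc : Set Ωc) (Bd : Set Ωd),
        scr142_P s w {x | x.1.1.1 ∈ Ba ∨ x.1.1.2 ∈ Bb ∨ x.1.2 ∈ Bc ∨ x.2 ∈ Bd}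
          ≤ scr142_P sa wa Ba + scr142_P sb wb Bb + scr142_P sc wc Bc + scr142_P sd wd Bd := by
  have hab := scr99_glue ha hb
  have habc := scr99_glue hab hc
  have habcd := scr99_glue habc hd
  refine ⟨_, _, habcd, ?_, ?_⟩
  · intro x hx
    obtain ⟨m1, m2, m3⟩ := scr99_glue_mem hx
    obtain ⟨m4, m5, m6⟩ := scr99_glue_mem m1
    obtain ⟨m7, m8, m9⟩ := scr99_glue_mem m4
    exact ⟨⟨m7, m8, m5, m2⟩, m9, m6, m3⟩
  · intro Ba Bb Bc Bd
    have f1 := scr99_glue_fail ha hb Ba Bb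
    have f2 := scr99_glue_fail hab hc {x | x.1 ∈ Ba ∨ x.2 ∈ Bb} Bc
    have f3 := scr99_glue_fail habc hd {x | x.1 ∈ {x : Ωa × Ωb | x.1 ∈ Ba ∨ x.2 ∈ Bb} ∨ x.2 ∈ Bc} Bd
    refine le_trans (scr142_P_mono habcd.1 fun x _ hx => ?_) (f3.trans (by linarith))
    simp only [Set.mem_ofPred_eq] at hx ⊢
    tauto

/-- **the form in which it is used**: if each adjacent coupling makes the observed data agree off an event of probability `≤ ε_i`,
the outer laws are coupled with agreement of the data off an event of probability `≤ ε_a + ε_b + ε_c + ε_d`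
(feed it to `scr142_coupling_le`, `scr142_chain`, `scr142_master`). -/
theorem scr99_glue4_agree {β : Type*} (ha : scr142_Coupling s₀ w₀ s₁ w₁ sa wa a0 a1)
    (hb : scr142_Coupling s₁ w₁ s₂ w₂ sb wb b1 b2) (hc : scr142_Coupling s₂ w₂ s₃ w₃ sc wc c2 c3)
    (hd : scr142_Coupling s₃ w₃ s₄ w₄ sd wd d3 d4)
    (X₀ : Ω₀ → β) (X₁ : Ω₁ → β) (X₂ : Ω₂ → β) (X₃ : Ω₃ → β) (X₄ : Ω₄ → β)
    (Ba : Set Ωa) (Bb : Set Ωb) (Bc : Set Ωc) (Bd : Set Ωd)
    (ga : ∀ p ∈ sa, p ∉ Ba → X₀ (a0 p) = X₁ (a1 p)) (gb : ∀ p ∈ sb, p ∉ Bb → X₁ (b1 p) = X₂ (b2 p))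
    (gc : ∀ p ∈ sc, p ∉ Bc → X₂ (c2 p) = X₃ (c3 p)) (gd : ∀ p ∈ sd, p ∉ Bd → X₃ (d3 p) = X₄ (d4 p))
    {εa εb εc εd : ℝ} (ea : scr142_P sa wa Ba ≤ εa) (eb : scr142_P sb wb Bb ≤ εb)
    (ec : scr142_P sc wc Bc ≤ εc) (ed : scr142_P sd wd Bd ≤ εd) :
    ∃ (s : Finset (((Ωa × Ωb) × Ωc) × Ωd)) (w : ((Ωa × Ωb) × Ωc) × Ωd → ℝ) (B : Set (((Ωa × Ωb) × Ωc) × Ωd)),
      scr142_Coupling s₀ w₀ s₄ w₄ s w (fun x => a0 x.1.1.1) (fun x => d4 x.2) ∧
      scr142_P s w B ≤ εa + εb + εc + εd ∧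
      ∀ x ∈ s, x ∉ B → X₀ (a0 x.1.1.1) = X₄ (d4 x.2) := by
  obtain ⟨s, w, hcp, hag, hP⟩ := scr99_glue4 ha hb hc hd
  refine ⟨s, w, {x | x.1.1.1 ∈ Ba ∨ x.1.1.2 ∈ Bb ∨ x.1.2 ∈ Bc ∨ x.2 ∈ Bd}, hcp,
    (hP Ba Bb Bc Bd).trans (by linarith), ?_⟩
  intro x hx hxB
  simp only [Set.mem_ofPred_eq, not_or] at hxB
  obtain ⟨⟨m1, m2, m3, m4⟩, e1, e2, e3⟩ := hag x hx
  rw [ga _ m1 hxB.1, e1, gb _ m2 hxB.2.1, e2, gc _ m3 hxB.2.2.1, e3, gd _ m4 hxB.2.2.2]

end glue4

end Claimed.Agent.R292
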