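import Claimed.Agent.R292.Defs.ScreenSep
import Claimed.Agent.R292.Exit.MODEL
import Claimed.Agent.R292.Rsw.Base31
import Claimed.Agent.R292.Screen.Sel99
import Claimed.Agent.R292.Screen.Dual62

/-!
# Row 292 (S0540), unit SCREEN, Screen/Shield99 : (SHIELD) = LEMMA 5.7 = `scr_cut_shield` VERBATIM      (chief helper99; prefix `scr99s`, records `ScrShArm`, `ScrShCirc`)

TREE      `scr99s_shield (ha : ScrShArm t) (hb : ScrShCirc t)` (= `scr_cut_shield` of Screen/Cut229c, word for word)  ⇐  (a) `ScrShArm t` [pen 25: prove `theorem scr25_arm (t) (ht1 : 1/2 ≤ t) (ht2 : t < 1) : ScrShArm t` in your own file importing this one] + (b) `ScrShCirc t` [pen 256: `scr256_circ`] + (S0) `exit_mdl_cmp` (FKG under pins; Exit/MODEL) + `Scr99Trials` (Screen/Sel99).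
* history before the trial `j` of the gap `k`:   `scrTrH Λ δ k j ω` = complete `(s,W)` pattern of `ω` in `scrTrU Λ k j = ⋃_{i<j} closedBall (cen k i) (Rt/2)`   (at sup-distance `≥ 3 Rt / 2` from `cen k j`)
* `A_j = ScrTrial Λ δ k j (scrPc Λ δ ω)` (read in the history after `j`),   `G_j = ScrShG F Λ δ k j ω` (`ScrCirc F Λ δ k ω = ScrShG F Λ δ k (scrSelJ Λ δ k ω) ω` by `rfl`)
* sec. 1 patterns (`scr99s_pat_eq_iff`, `_pat_mono`, `_out_pat`, `_good_pc`, `_trial_mono`), sec. 2 histories (`scrTrU`, `scrTrH`, `scr99s_cen_dist`, `_U_disj`, `_out_hist`), sec. 3 `rswP t F true L = scr142_P (rsbAll F) (scr99sW t F) {p | L (rsbMk p)}` (`scr99s_P'`),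
  sec. 4 a pattern event is a prescription `scr99sPin` (`_pin_ok`, `_pin_holds`, `_sumK`), `scr99s_inc_trial`, `scr99s_inc_circ`, **`scr99s_fkg`**, sec. 5 **`scr99s_trials`**, sec. 6 **`scr99s_shield`**.   No sorry typed here (owes `exit_mdl_cmp`).
* sec. 7 **(b) IS PROVED: `scr99s_circ : ScrShCirc t`** from (S1) `exit_mdl_circ` with `k = 1` (scales `4^i (⌈wh/δ⌉ + 1)`, `i < Nat.log 4 ⌊1/(30 q)⌋`; `scr99s_stack` abstract stack, `scr99s_first_exit`, `scr99s_sep_local`, `scr99s_ext_sep` a circuit event is exterior data of the later buffers,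
  `scr99s_ext_of_out`, `scr99s_box_ball`, `scr99s_ball_box`, `scr99s_cen_in`);   **`scr99s_shield' (ha : ScrShArm t)` = `scr_cut_shield` from (a) alone.**
* sec. 8 **(a) IS PROVED: `scr99a_arm : ScrShArm t`** from (S1) `exit_mdl_circ` with ratio parameter `K = ⌈2 / q⌉₊`, twice (plan of 229): the tube of each arm is a vertical side of a `K`-annulus (`scr62_tube` of Screen/Dual62, pen 62), `n = ⌊wh / (8 δ)⌋₊`;
  `scr99a_hull`, `_cen_far`, `_blk`, `_core` (geometry), `_arm1` (crossing ⟹ `ScrArm` on `scrPc`), `_two` (successive conditioning), `_rows`, `_box_dist`, `_det` (frame);   **`scr99a_shield` = `scr_cut_shield` VERBATIM, NO HYPOTHESIS** (owes `exit_mdl_cmp`, `exit_mdl_circ` only).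
* `ScrOutSW δ U L` : the event `L` reads only the primal spins at the corners OFF `U` and the `W` edges with both ends OFF `U`, never `D`.   The records (a), (b) are typed for EVERY such `L`, `U = ball (cen k j) (3 Rt / 2)`.
-/

set_option autoImplicit false

namespace Claimed.Agent.R292

open Claims Claims.C0468 Filter Topology

/-- `L` reads only the primal spins at the corners off `U` and the `W` edges with both ends off `U`; never the face spins. -/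
def ScrOutSW (δ : ℝ) (U : Set (ℝ × ℝ)) (L : RswCfg → Prop) : Prop :=
  ∀ ω ω' : RswCfg, (∀ v, scr232P δ v ∉ U → (v ∈ ω.S ↔ v ∈ ω'.S)) →
    (∀ e : (ℤ × ℤ) × Bool, scr232P δ e.1 ∉ U → scr232P δ (rswEnd e) ∉ U → (e ∈ ω.O ↔ e ∈ ω'.O)) → (L ω ↔ L ω')

open Classical in
/-- the shielding circuit of the trial `(k, j)`. -/
def ScrShG (F : Finset (ℤ × ℤ)) (Λ : ScrLay) (δ : ℝ) (k : Fin 4) (j : ℕ) (ω : RswCfg) : Prop :=
  RswSep F true ω (F.filter fun f => scr232P δ f ∈ Metric.closedBall (Λ.cen k j) (2 * Λ.wh))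
    (F.filter fun f => scr232P δ f ∉ Metric.closedBall (Λ.cen k j) (Λ.Rt / 10 - 2 * δ))

theorem scr99s_circ_eq (F : Finset (ℤ × ℤ)) (Λ : ScrLay) (δ : ℝ) (k : Fin 4) (ω : RswCfg) :
    ScrCirc F Λ δ k ω = ScrShG F Λ δ k (scrSelJ Λ δ k ω) ω := rfl

/-- **(a) TWO TUBES** [pen 25]   TEX[lem:screen-shielding] "The tube version of prop:circuits gives p(q)": given ANY `(s,W)` data off the ball of radius `3 Rt / 2`, the trial succeeds with probability `≥ p(q)`. -/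
def ScrShArm (t : ℝ) : Prop :=
    ∃ p : ℝ → ℝ, (∀ q, 0 < q → 0 < p q ∧ p q ≤ 1) ∧ ∀ Λ : ScrLay, Λ.Ok →
      ∃ δ₀ : ℝ, 0 < δ₀ ∧ ∀ δ : ℝ, 0 < δ → δ < δ₀ → ∀ F : Finset (ℤ × ℤ), RswJordan F → ScrFits Λ δ F →
        ∀ (k : Fin 4) (j : ℕ), j < Λ.M → ∀ L : RswCfg → Prop, ScrOutSW δ (Metric.ball (Λ.cen k j) (3 / 2 * Λ.Rt)) L →
          p Λ.q * rswP t F true L ≤ rswP t F true fun ω => L ω ∧ ScrTrial Λ δ k j (scrPc Λ δ ω)

/-- **(b) STACK OF ANNULI** [pen 256]   TEX[lem:screen-shielding] "A stack of separated annuli between Cw and R/10 gives circuit failure probability at most η(q) ≤ C q^α". -/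
def ScrShCirc (t : ℝ) : Prop :=
    ∃ η : ℝ → ℝ, Tendsto η (𝓝[>] 0) (𝓝 0) ∧ ∀ Λ : ScrLay, Λ.Ok →
      ∃ δ₀ : ℝ, 0 < δ₀ ∧ ∀ δ : ℝ, 0 < δ → δ < δ₀ → ∀ F : Finset (ℤ × ℤ), RswJordan F → ScrFits Λ δ F →
        ∀ (k : Fin 4) (j : ℕ), j < Λ.M → ∀ L : RswCfg → Prop, ScrOutSW δ (Metric.ball (Λ.cen k j) (3 / 2 * Λ.Rt)) L →
          rswP t F true (fun ω => L ω ∧ ¬ ScrShG F Λ δ k j ω) ≤ η Λ.q * rswP t F true L

theorem scr99s_defs_cite : True := by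
  have := @ScrOutSW.eq_1
  have := @ScrShG.eq_1
  have := @ScrShArm.eq_1
  have := @ScrShCirc.eq_1
  trivial


/-! ## 1. patterns -/

theorem scr99s_pat_eq_iff (δ : ℝ) (U : Set (ℝ × ℝ)) (ω ω' : RswCfg) :
    scrPat δ U ω = scrPat δ U ω' ↔ (∀ v, scr232P δ v ∈ U → (v ∈ ω.S ↔ v ∈ ω'.S)) ∧
      ∀ e : (ℤ × ℤ) × Bool, scr232P δ e.1 ∈ U → scr232P δ (rswEnd e) ∈ U → (e ∈ ω.O ↔ e ∈ ω'.O) := by
  classical
  unfold scrPat
  rw [Prod.ext_iff, Finset.ext_iff, Finset.ext_iff]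
  simp only [Finset.mem_filter]
  constructor
  · rintro ⟨h1, h2⟩
    refine ⟨fun v hv => ?_, fun e he1 he2 => ?_⟩
    · have := h1 v; tauto
    · have := h2 e; tauto
  · rintro ⟨h1, h2⟩
    refine ⟨fun v => ?_, fun e => ?_⟩
    · have := h1 v; tauto
    · have := h2 e; tauto

theorem scr99s_pat_mono {δ : ℝ} {U V : Set (ℝ × ℝ)} (hUV : U ⊆ V) {ω ω' : RswCfg} (h : scrPat δ V ω = scrPat δ V ω') :
    scrPat δ U ω = scrPat δ U ω' := by
  rw [scr99s_pat_eq_iff] at h ⊢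
  exact ⟨fun v hv => h.1 v (hUV hv), fun e h1 h2 => h.2 e (hUV h1) (hUV h2)⟩

/-- a pattern event in `U` is exterior data of every set disjoint from `U` -/
theorem scr99s_out_pat {δ : ℝ} {U B : Set (ℝ × ℝ)} (hUB : Disjoint U B) (τ : ScrPatT) :
    ScrOutSW δ B (fun ω => scrPat δ U ω = τ) := by
  intro ω ω' h1 h2
  have hd : ∀ p, p ∈ U → p ∉ B := fun p hp hB => Set.disjoint_left.1 hUB hp hB
  have : scrPat δ U ω = scrPat δ U ω' :=
    (scr99s_pat_eq_iff δ U ω ω').2 ⟨fun v hv => h1 v (hd _ hv), fun e he1 he2 => h2 e (hd _ he1) (hd _ he2)⟩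
  show (scrPat δ U ω = τ) ↔ (scrPat δ U ω' = τ)
  rw [this]

/-- the good edges of the rebuilt configuration -/
theorem scr99s_good_pc (Λ : ScrLay) (δ : ℝ) (ω : RswCfg) (e : (ℤ × ℤ) × Bool) :
    RswGood true (scrPc Λ δ ω) e ↔ RswGood true ω e ∧ (∃ i, scr232P δ e.1 ∈ Λ.blk i ∧ scr232P δ (rswEnd e) ∈ Λ.blk i) := by
  classical
  unfold RswGood scrPc scrOfPat scrPats scrPat
  simp only [Finset.mem_biUnion, Finset.mem_univ, true_and, Finset.mem_filter, iff_true]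
  constructor
  · rintro ⟨⟨i, h1, h2, h3⟩, ⟨i1, h4, _⟩, ⟨i2, h5, _⟩⟩
    exact ⟨⟨h1, h4, h5⟩, i, h2, h3⟩
  · rintro ⟨⟨h1, h4, h5⟩, i, h2, h3⟩
    exact ⟨⟨i, h1, h2, h3⟩, ⟨i, h4, h2⟩, ⟨i, h5, h3⟩⟩

/-- **monotonicity / locality of a trial**: it only reads the good edges with both ends in the half trial square -/
theorem scr99s_trial_mono (Λ : ScrLay) (δ : ℝ) (k : Fin 4) (j : ℕ) {ω ω' : RswCfg}
    (h : ∀ e : (ℤ × ℤ) × Bool, scr232P δ e.1 ∈ Metric.closedBall (Λ.cen k j) (Λ.Rt / 2) →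
      scr232P δ (rswEnd e) ∈ Metric.closedBall (Λ.cen k j) (Λ.Rt / 2) → RswGood true ω e → RswGood true ω' e)
    (hT : ScrTrial Λ δ k j (scrPc Λ δ ω)) : ScrTrial Λ δ k j (scrPc Λ δ ω') := by
  intro b
  obtain ⟨a, hp, c, hc, hpath⟩ := hT b
  refine ⟨a, hp, c, hc, Relation.ReflTransGen.mono ?_ a c hpath⟩
  rintro v v' ⟨hv, hv', e, he, hee⟩
  refine ⟨hv, hv', e, ?_, hee⟩
  rw [scr99s_good_pc] at he ⊢
  refine ⟨h e ?_ ?_ he.1, he.2⟩
  · rcases hee with ⟨h1, _⟩ | ⟨h1, _⟩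
    · rw [h1]; exact hv.2
    · rw [h1]; exact hv'.2
  · rcases hee with ⟨_, h2⟩ | ⟨_, h2⟩
    · rw [h2]; exact hv'.2
    · rw [h2]; exact hv.2

theorem scr99s_good_congr {δ : ℝ} {U : Set (ℝ × ℝ)} {ω ω' : RswCfg} (h : scrPat δ U ω = scrPat δ U ω')
    {e : (ℤ × ℤ) × Bool} (h1 : scr232P δ e.1 ∈ U) (h2 : scr232P δ (rswEnd e) ∈ U) (hg : RswGood true ω e) :
    RswGood true ω' e := by
  rw [scr99s_pat_eq_iff] at h
  obtain ⟨g1, g2, g3⟩ := hg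
  exact ⟨(h.2 e h1 h2).1 g1, by rw [← h.1 _ h1]; exact g2, by rw [← h.1 _ h2]; exact g3⟩

/-! ## 2. the histories -/

/-- the region revealed before the trial `j` of the gap `k` -/
noncomputable def scrTrU (Λ : ScrLay) (k : Fin 4) (j : ℕ) : Set (ℝ × ℝ) :=
  ⋃ (i : ℕ) (_ : i < j), Metric.closedBall (Λ.cen k i) (Λ.Rt / 2)

/-- the history before the trial `j` of the gap `k` -/
noncomputable def scrTrH (Λ : ScrLay) (δ : ℝ) (k : Fin 4) (j : ℕ) (ω : RswCfg) : ScrPatT := scrPat δ (scrTrU Λ k j) ω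

theorem scr99s_U_mono (Λ : ScrLay) (k : Fin 4) (j : ℕ) : scrTrU Λ k j ⊆ scrTrU Λ k (j + 1) := by
  intro p hp
  unfold scrTrU at hp ⊢
  simp only [Set.mem_iUnion] at hp ⊢
  obtain ⟨i, hi, h⟩ := hp
  exact ⟨i, Nat.lt_succ_of_lt hi, h⟩

theorem scr99s_U_self (Λ : ScrLay) (k : Fin 4) (j : ℕ) : Metric.closedBall (Λ.cen k j) (Λ.Rt / 2) ⊆ scrTrU Λ k (j + 1) := by
  intro p hp
  unfold scrTrU
  simp only [Set.mem_iUnion]
  exact ⟨j, Nat.lt_succ_self j, hp⟩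

theorem ScrLay.Ok.Rt_pos {Λ : ScrLay} (h : Λ.Ok) : 0 < Λ.Rt := by
  unfold ScrLay.Rt
  have h1 : (0 : ℝ) < Λ.M := by exact_mod_cast h.hM
  have h2 := h.hws
  apply div_pos <;> linarith

/-- two different trials of the same gap have centres at distance `≥ 2 Rt` -/
theorem scr99s_cen_dist {Λ : ScrLay} (h : Λ.Ok) (k : Fin 4) {i j : ℕ} (hij : i < j) :
    2 * Λ.Rt ≤ dist (Λ.cen k i) (Λ.cen k j) := by
  have hR := h.Rt_pos
  have h1 : dist (Λ.cen k i).1 (Λ.cen k j).1 ≤ dist (Λ.cen k i) (Λ.cen k j) := by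
    rw [Prod.dist_eq]; exact le_max_left _ _
  refine le_trans ?_ h1
  rw [Real.dist_eq]
  have hσ : (![-1, 1, -1, 1] k : ℝ) = 1 ∨ (![-1, 1, -1, 1] k : ℝ) = -1 := by
    fin_cases k <;> simp
  have hij' : (i : ℝ) + 1 ≤ j := by exact_mod_cast hij
  have e : (Λ.cen k i).1 - (Λ.cen k j).1 = (![-1, 1, -1, 1] k : ℝ) * (2 * ((i : ℝ) - j) * Λ.Rt) := by
    unfold ScrLay.cen
    simp only
    ring
  rw [e, abs_mul]
  have hσ1 : |(![-1, 1, -1, 1] k : ℝ)| = 1 := by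
    rcases hσ with h | h <;> rw [h] <;> simp
  rw [hσ1, one_mul, abs_mul, abs_of_pos hR]
  have : 2 ≤ |2 * ((i : ℝ) - j)| := by
    rw [abs_of_nonpos (by linarith)]; linarith
  nlinarith

/-- the history before `j` lives off the ball of radius `3 Rt / 2` about the centre of the trial `j` -/
theorem scr99s_U_disj {Λ : ScrLay} (h : Λ.Ok) (k : Fin 4) (j : ℕ) :
    Disjoint (scrTrU Λ k j) (Metric.ball (Λ.cen k j) (3 / 2 * Λ.Rt)) := by
  rw [Set.disjoint_left]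
  intro p hp hB
  unfold scrTrU at hp
  simp only [Set.mem_iUnion] at hp
  obtain ⟨i, hi, hpi⟩ := hp
  have h1 := scr99s_cen_dist h k hi
  rw [Metric.mem_closedBall] at hpi
  rw [Metric.mem_ball] at hB
  have h2 : dist (Λ.cen k i) (Λ.cen k j) ≤ dist p (Λ.cen k i) + dist p (Λ.cen k j) := by
    rw [dist_comm p (Λ.cen k i)]; exact dist_triangle _ _ _
  linarith

theorem scr99s_out_hist {Λ : ScrLay} (h : Λ.Ok) (δ : ℝ) (k : Fin 4) (j : ℕ) (τ : ScrPatT) :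
    ScrOutSW δ (Metric.ball (Λ.cen k j) (3 / 2 * Λ.Rt)) (fun ω => scrTrH Λ δ k j ω = τ) :=
  scr99s_out_pat (scr99s_U_disj h k j) τ

/-! ## 3. the flat law as a finite weighted space -/

/-- the index type of `rswSum` -/
abbrev Scr99sT : Type := Finset (ℤ × ℤ) × Finset (ℤ × ℤ) × Finset ((ℤ × ℤ) × Bool)

/-- the weight on the triples -/
noncomputable def scr99sW (t : ℝ) (F : Finset (ℤ × ℤ)) (p : Scr99sT) : ℝ := rswWt t F true (rsbMk p)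

theorem scr99s_Z (t : ℝ) (F : Finset (ℤ × ℤ)) : rswSum t F true (fun _ => 1) = ∑ p ∈ rsbAll F, scr99sW t F p := by
  rw [rsb_sum_eq]
  simp only [mul_one, scr99sW]

theorem scr99s_law {t : ℝ} (h0 : 0 < t) (h1 : t ≤ 1) (F : Finset (ℤ × ℤ)) : scr142_Law (rsbAll F) (scr99sW t F) :=
  ⟨fun p _ => rsb_wt_nonneg h0.le h1 F true _, by rw [← scr99s_Z]; exact rsb_Z_pos h0 h1 F true⟩

/-- unnormalised mass of an event -/
theorem scr99s_sum_ind (t : ℝ) (F : Finset (ℤ × ℤ)) (L : RswCfg → Prop) [DecidablePred L] :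
    rswSum t F true (fun ω => if L ω then 1 else 0) = scr99M (rsbAll F) (scr99sW t F) (fun p => L (rsbMk p)) := by
  classical
  rw [rsb_sum_eq, scr99_M_def]
  refine Finset.sum_congr rfl fun p _ => ?_
  by_cases h : L (rsbMk p)
  · rw [if_pos h, if_pos h, mul_one]; rfl
  · rw [if_neg h, if_neg h, mul_zero]

theorem scr99s_P (t : ℝ) (F : Finset (ℤ × ℤ)) (L : RswCfg → Prop) :
    rswP t F true L = scr99M (rsbAll F) (scr99sW t F) (fun p => L (rsbMk p)) / ∑ p ∈ rsbAll F, scr99sW t F p := by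
  classical
  unfold rswP rswE
  rw [scr99s_Z, ← scr99s_sum_ind]

theorem scr99s_P' (t : ℝ) (F : Finset (ℤ × ℤ)) (L : RswCfg → Prop) :
    rswP t F true L = scr142_P (rsbAll F) (scr99sW t F) {p | L (rsbMk p)} := by
  rw [scr99s_P, scr99_P_eq]
  rfl

/-- an inequality between probabilities is an inequality between masses -/
theorem scr99s_M_of_P {t : ℝ} (h0 : 0 < t) (h1 : t ≤ 1) {F : Finset (ℤ × ℤ)} {L L' : RswCfg → Prop} {c : ℝ}
    (h : c * rswP t F true L ≤ rswP t F true L') :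
    c * scr99M (rsbAll F) (scr99sW t F) (fun p => L (rsbMk p)) ≤ scr99M (rsbAll F) (scr99sW t F) (fun p => L' (rsbMk p)) := by
  have hZ := (scr99s_law h0 h1 F).2
  rw [scr99s_P, scr99s_P, ← mul_div_assoc] at h
  exact (div_le_div_iff_of_pos_right hZ).1 h

theorem scr99s_M_of_P' {t : ℝ} (h0 : 0 < t) (h1 : t ≤ 1) {F : Finset (ℤ × ℤ)} {L L' : RswCfg → Prop} {c : ℝ}
    (h : rswP t F true L' ≤ c * rswP t F true L) :
    scr99M (rsbAll F) (scr99sW t F) (fun p => L' (rsbMk p)) ≤ c * scr99M (rsbAll F) (scr99sW t F) (fun p => L (rsbMk p)) := by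
  have hZ := (scr99s_law h0 h1 F).2
  rw [scr99s_P, scr99s_P, ← mul_div_assoc] at h
  exact (div_le_div_iff_of_pos_right hZ).1 h

/-! ## 4. a pattern event is a prescription; FKG -/

open Classical in
/-- the prescription "the `(s,W)` pattern in `U` is the one of `ω₀`", inside `F` -/
noncomputable def scr99sPin (F : Finset (ℤ × ℤ)) (δ : ℝ) (U : Set (ℝ × ℝ)) (ω₀ : RswCfg) : MdlPin where
  Sp := (cornersOf F).filter fun v => scr232P δ v ∈ U ∧ v ∈ ω₀.S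
  Sm := (cornersOf F).filter fun v => scr232P δ v ∈ U ∧ v ∉ ω₀.S
  Oo := (rswInt F).filter fun e => (scr232P δ e.1 ∈ U ∧ scr232P δ (rswEnd e) ∈ U) ∧ e ∈ ω₀.O
  Oc := (rswInt F).filter fun e => (scr232P δ e.1 ∈ U ∧ scr232P δ (rswEnd e) ∈ U) ∧ e ∉ ω₀.O

theorem scr99s_pin_ok (F : Finset (ℤ × ℤ)) (δ : ℝ) (U : Set (ℝ × ℝ)) (ω₀ : RswCfg) : (scr99sPin F δ U ω₀).Ok := by
  classical
  intro e he
  have h : e ∈ rswInt F ∧ scr232P δ e.1 ∈ U ∧ scr232P δ (rswEnd e) ∈ U := by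
    unfold scr99sPin at he
    simp only [Finset.mem_union, Finset.mem_filter] at he
    rcases he with ⟨a, b, _⟩ | ⟨a, b, _⟩ <;> exact ⟨a, b⟩
  obtain ⟨h1, h2, h3⟩ := h
  have c1 := rsb_int_fst_corner h1
  have c2 := rsb_int_end_corner h1
  unfold scr99sPin
  simp only [Finset.mem_union, Finset.mem_filter]
  constructor
  · by_cases hh : e.1 ∈ ω₀.S
    · exact Or.inl ⟨c1, h2, hh⟩
    · exact Or.inr ⟨c1, h2, hh⟩
  · by_cases hh : rswEnd e ∈ ω₀.S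
    · exact Or.inl ⟨c2, h3, hh⟩
    · exact Or.inr ⟨c2, h3, hh⟩

theorem scr99s_pin_holds {F : Finset (ℤ × ℤ)} (δ : ℝ) (U : Set (ℝ × ℝ)) {ω₀ ω : RswCfg} (h0 : RsbIn F ω₀) (h : RsbIn F ω) :
    (scr99sPin F δ U ω₀).Holds ω ↔ scrPat δ U ω = scrPat δ U ω₀ := by
  classical
  rw [scr99s_pat_eq_iff]
  unfold MdlPin.Holds scr99sPin
  simp only [Finset.subset_iff, Finset.mem_filter]
  constructor
  · rintro ⟨a1, a2, a3, a4⟩
    refine ⟨fun v hv => ⟨fun hvS => ?_, fun hvS => ?_⟩, fun e he1 he2 => ⟨fun heO => ?_, fun heO => ?_⟩⟩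
    · by_contra hn
      exact a2 v ⟨h.1 hvS, hv, hn⟩ hvS
    · exact a1 ⟨h0.1 hvS, hv, hvS⟩
    · by_contra hn
      exact a4 e ⟨h.2.2 heO, ⟨he1, he2⟩, hn⟩ heO
    · exact a3 ⟨h0.2.2 heO, ⟨he1, he2⟩, heO⟩
  · rintro ⟨b1, b2⟩
    refine ⟨fun v hv => (b1 v hv.2.1).2 hv.2.2, fun v hv hvS => hv.2.2 ((b1 v hv.2.1).1 hvS),
      fun e he => (b2 e he.2.1.1 he.2.1.2).2 he.2.2, fun e he heO => he.2.2 ((b2 e he.2.1.1 he.2.1.2).1 heO)⟩

/-- masses under the prescription -/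
theorem scr99s_sumK (t : ℝ) {F : Finset (ℤ × ℤ)} (δ : ℝ) (U : Set (ℝ × ℝ)) {ω₀ : RswCfg} (h0 : RsbIn F ω₀)
    (B : RswCfg → Prop) [DecidablePred B] :
    mdlSumK t F true (scr99sPin F δ U ω₀) (fun ω => if B ω then 1 else 0)
      = scr99M (rsbAll F) (scr99sW t F) (fun p => scrPat δ U (rsbMk p) = scrPat δ U ω₀ ∧ B (rsbMk p)) := by
  classical
  unfold mdlSumK
  rw [rsb_sum_eq, scr99_M_def]
  refine Finset.sum_congr rfl fun p hp => ?_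
  have hin := rsb_mem_all.1 hp
  have hiff := scr99s_pin_holds δ U h0 hin
  beta_reduce
  by_cases h1 : scrPat δ U (rsbMk p) = scrPat δ U ω₀
  · rw [if_pos (hiff.2 h1)]
    by_cases h2 : B (rsbMk p)
    · rw [if_pos h2, if_pos ⟨h1, h2⟩, mul_one]; rfl
    · rw [if_neg h2, if_neg (fun h => h2 h.2), mul_zero]
  · rw [if_neg (fun h => h1 (hiff.1 h)), if_neg (fun h => h1 h.1), mul_zero]

open Classical in
theorem scr99s_inc_trial (Λ : ScrLay) (δ : ℝ) (k : Fin 4) (j : ℕ) :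
    MdlInc true (fun ω => if ScrTrial Λ δ k j (scrPc Λ δ ω) then (1 : ℝ) else 0) := by
  intro ω ω' hle
  by_cases h : ScrTrial Λ δ k j (scrPc Λ δ ω)
  · have h' := scr99s_trial_mono Λ δ k j (fun e _ _ hg => hle.2.1 e hg) h
    simp only [if_pos h, if_pos h', le_refl]
  · simp only [if_neg h]
    split_ifs <;> norm_num

theorem scr99s_sep_mono {F : Finset (ℤ × ℤ)} {ω ω' : RswCfg} (h : ∀ e, RswGood true ω e → RswGood true ω' e)
    {A B : Finset (ℤ × ℤ)} (hs : RswSep F true ω A B) : RswSep F true ω' A B := by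
  intro f hf g hg hpath
  refine hs f hf g hg (Relation.ReflTransGen.mono ?_ f g hpath)
  rintro x y ⟨hx, hy, e, he, hne⟩
  exact ⟨hx, hy, e, he, fun hg => hne (h e hg)⟩

open Classical in
theorem scr99s_inc_circ (F : Finset (ℤ × ℤ)) (Λ : ScrLay) (δ : ℝ) (k : Fin 4) (j : ℕ) :
    MdlInc true (fun ω => if ScrShG F Λ δ k j ω then (1 : ℝ) else 0) := by
  intro ω ω' hle
  by_cases h : ScrShG F Λ δ k j ω
  · have h' : ScrShG F Λ δ k j ω' := scr99s_sep_mono hle.2.1 h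
    simp only [if_pos h, if_pos h', le_refl]
  · simp only [if_neg h]
    split_ifs <;> norm_num

theorem scr99s_arith {mA mG m1 mAG mAnG mnG : ℝ} (key : mA * mG ≤ m1 * mAG) (s1 : mA = mAG + mAnG) (s2 : m1 = mG + mnG) :
    mAnG * m1 ≤ mA * mnG := by
  subst s1 s2
  nlinarith [key]

theorem scr99s_arith2 {η mA m1 mAnG mnG : ℝ} (h1 : 0 ≤ m1) (hAnG : 0 ≤ mAnG) (hA1 : mA ≤ m1) (hAA : mAnG ≤ mA)
    (hf : mAnG * m1 ≤ mA * mnG) (hc : mnG ≤ η * m1) : mAnG ≤ η * mA := by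
  have hA0 : 0 ≤ mA := hAnG.trans hAA
  rcases h1.eq_or_lt with h | h
  · have e1 : mA = 0 := le_antisymm (hA1.trans h.ge) hA0
    have e2 : mAnG = 0 := le_antisymm (hAA.trans e1.le) hAnG
    rw [e1, e2, mul_zero]
  · have : mAnG * m1 ≤ (η * mA) * m1 := by
      calc mAnG * m1 ≤ mA * mnG := hf
        _ ≤ mA * (η * m1) := mul_le_mul_of_nonneg_left hc hA0
        _ = (η * mA) * m1 := by ring
    exact le_of_mul_le_mul_right this h

/-- **FKG on an atom of a history**, in masses: `m(A ∧ ¬G) m(1) ≤ m(A) m(¬G)`. -/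
theorem scr99s_fkg (t : ℝ) (ht1 : 1 / 2 ≤ t) (ht2 : t < 1) {F : Finset (ℤ × ℤ)} (hF : RswJordan F) (δ : ℝ) (U : Set (ℝ × ℝ))
    {ω₀ : RswCfg} (h0 : RsbIn F ω₀) (A G : RswCfg → Prop)
    (hA : open Classical in MdlInc true (fun ω => if A ω then (1 : ℝ) else 0))
    (hG : open Classical in MdlInc true (fun ω => if G ω then (1 : ℝ) else 0)) :
    scr99M (rsbAll F) (scr99sW t F) (fun p => scrPat δ U (rsbMk p) = scrPat δ U ω₀ ∧ (A (rsbMk p) ∧ ¬ G (rsbMk p))) *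
        scr99M (rsbAll F) (scr99sW t F) (fun p => scrPat δ U (rsbMk p) = scrPat δ U ω₀)
      ≤ scr99M (rsbAll F) (scr99sW t F) (fun p => scrPat δ U (rsbMk p) = scrPat δ U ω₀ ∧ A (rsbMk p)) *
        scr99M (rsbAll F) (scr99sW t F) (fun p => scrPat δ U (rsbMk p) = scrPat δ U ω₀ ∧ ¬ G (rsbMk p)) := by
  classical
  have key := exit_mdl_cmp t ht1 ht2 F hF true true (scr99sPin F δ U ω₀) (scr99s_pin_ok F δ U ω₀) _ _ hA hG
  have e1 := scr99s_sumK t δ U h0 A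
  have e2 := scr99s_sumK t δ U h0 G
  have e3 := scr99s_sumK t δ U h0 (fun _ => True)
  have e4 := scr99s_sumK t δ U h0 (fun ω => A ω ∧ G ω)
  have f3 : (fun ω : RswCfg => if (fun _ : RswCfg => True) ω then (1 : ℝ) else 0) = fun _ => 1 := by
    funext ω; simp
  have f4 : (fun ω : RswCfg => if (A ω ∧ G ω) then (1 : ℝ) else 0)
      = fun ω => (if A ω then (1 : ℝ) else 0) * (if G ω then (1 : ℝ) else 0) := by
    funext ω
    by_cases a : A ω <;> by_cases g : G ω <;> simp [a, g]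
  rw [f3] at e3
  rw [f4] at e4
  rw [e1, e2, e3, e4] at key
  have c3 : scr99M (rsbAll F) (scr99sW t F) (fun p => scrPat δ U (rsbMk p) = scrPat δ U ω₀ ∧ True)
      = scr99M (rsbAll F) (scr99sW t F) (fun p => scrPat δ U (rsbMk p) = scrPat δ U ω₀) :=
    scr99_M_congr fun p _ => ⟨fun h => h.1, fun h => ⟨h, trivial⟩⟩
  rw [c3] at key
  have s1 : scr99M (rsbAll F) (scr99sW t F) (fun p => scrPat δ U (rsbMk p) = scrPat δ U ω₀ ∧ A (rsbMk p))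
      = scr99M (rsbAll F) (scr99sW t F) (fun p => scrPat δ U (rsbMk p) = scrPat δ U ω₀ ∧ (A (rsbMk p) ∧ G (rsbMk p)))
        + scr99M (rsbAll F) (scr99sW t F) (fun p => scrPat δ U (rsbMk p) = scrPat δ U ω₀ ∧ (A (rsbMk p) ∧ ¬ G (rsbMk p))) := by
    rw [scr99_M_split (rsbAll F) (scr99sW t F) (fun p => scrPat δ U (rsbMk p) = scrPat δ U ω₀ ∧ A (rsbMk p))
      (fun p => G (rsbMk p))]
    congr 1 <;> exact scr99_M_congr fun p _ => and_assoc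
  have s2 := scr99_M_split (rsbAll F) (scr99sW t F) (fun p => scrPat δ U (rsbMk p) = scrPat δ U ω₀) (fun p => G (rsbMk p))
  exact scr99s_arith key s1 s2

/-! ## 5. the trials of one gap -/

/-- **the trials of the gap `k` are sequential trials in the sense of `Screen/Sel99`.** -/
theorem scr99s_trials {t : ℝ} (ht1 : 1 / 2 ≤ t) (ht2 : t < 1) {Λ : ScrLay} (hΛ : Λ.Ok) {δ : ℝ} {F : Finset (ℤ × ℤ)}
    (hF : RswJordan F) (k : Fin 4) {pr η : ℝ}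
    (ha : ∀ j : ℕ, j < Λ.M → ∀ L : RswCfg → Prop, ScrOutSW δ (Metric.ball (Λ.cen k j) (3 / 2 * Λ.Rt)) L →
      pr * rswP t F true L ≤ rswP t F true fun ω => L ω ∧ ScrTrial Λ δ k j (scrPc Λ δ ω))
    (hb : ∀ j : ℕ, j < Λ.M → ∀ L : RswCfg → Prop, ScrOutSW δ (Metric.ball (Λ.cen k j) (3 / 2 * Λ.Rt)) L →
      rswP t F true (fun ω => L ω ∧ ¬ ScrShG F Λ δ k j ω) ≤ η * rswP t F true L) :
    Scr99Trials (τ := fun _ => ScrPatT) (rsbAll F) (scr99sW t F) (fun j p => scrTrH Λ δ k j (rsbMk p))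
      (fun j p => ScrTrial Λ δ k j (scrPc Λ δ (rsbMk p))) (fun j p => ScrShG F Λ δ k j (rsbMk p)) Λ.M pr η := by
  have h0 : (0 : ℝ) < t := by linarith
  have hw : ∀ p ∈ rsbAll F, 0 ≤ scr99sW t F p := (scr99s_law h0 ht2.le F).1
  refine ⟨hw, ?_, ?_, ?_, ?_⟩
  · intro j p _ p' _ h
    exact scr99s_pat_mono (scr99s_U_mono Λ k j) h
  · intro j p _ p' _ h
    have h' : scrPat δ (Metric.closedBall (Λ.cen k j) (Λ.Rt / 2)) (rsbMk p)
        = scrPat δ (Metric.closedBall (Λ.cen k j) (Λ.Rt / 2)) (rsbMk p') := scr99s_pat_mono (scr99s_U_self Λ k j) h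
    exact ⟨scr99s_trial_mono Λ δ k j fun e h1 h2 hg => scr99s_good_congr h' h1 h2 hg,
      scr99s_trial_mono Λ δ k j fun e h1 h2 hg => scr99s_good_congr h'.symm h1 h2 hg⟩
  · intro j hj τ
    exact scr99s_M_of_P h0 ht2.le (ha j hj _ (scr99s_out_hist hΛ δ k j τ))
  · intro j hj τ
    -- is the atom met by a configuration of the sum?
    by_cases hex : ∃ p₀ ∈ rsbAll F, scrTrH Λ δ k j (rsbMk p₀) = τ
    · obtain ⟨p₀, hp₀, rfl⟩ := hex
      have hin := rsb_mem_all.1 hp₀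
      have hfkg := scr99s_fkg t ht1 ht2 hF δ (scrTrU Λ k j) hin (fun ω => ScrTrial Λ δ k j (scrPc Λ δ ω))
        (fun ω => ScrShG F Λ δ k j ω) (scr99s_inc_trial Λ δ k j) (scr99s_inc_circ F Λ δ k j)
      have hcirc := scr99s_M_of_P' h0 ht2.le (hb j hj _ (scr99s_out_hist hΛ δ k j (scrTrH Λ δ k j (rsbMk p₀))))
      exact scr99s_arith2 (scr99_M_nonneg hw _) (scr99_M_nonneg hw _)
        (scr99_M_mono hw fun p _ h => h.1) (scr99_M_mono hw fun p _ h => ⟨h.1, h.2.1⟩) hfkg hcirc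
    · have z : ∀ B : Scr99sT → Prop, scr99M (rsbAll F) (scr99sW t F) (fun p => scrTrH Λ δ k j (rsbMk p) = τ ∧ B p) = 0 := by
        intro B
        classical
        rw [scr99_M_def]
        refine Finset.sum_eq_zero fun p hp => if_neg fun h => hex ⟨p, hp, h.1⟩
      rw [z, z, mul_zero]

/-! ## 6. (SHIELD) -/

theorem scr99s_gap_no (Λ : ScrLay) (δ : ℝ) (k : Fin 4) (ω : RswCfg) :
    ¬ ScrGapOk Λ δ k ω ↔ ∀ i < Λ.M, ¬ ScrTrial Λ δ k i (scrPc Λ δ ω) := by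
  unfold ScrGapOk
  constructor
  · intro h i hi hT
    exact h ⟨i, hi, hT⟩
  · rintro h ⟨i, hi, hT⟩
    exact h i hi hT

/-- **(SHIELD) = `scr_cut_shield` of Screen/Cut229c, verbatim**, from the two records. -/
theorem scr99s_shield (t : ℝ) (ht1 : 1 / 2 ≤ t) (ht2 : t < 1) (ha : ScrShArm t) (hb : ScrShCirc t) :
    ∃ p η : ℝ → ℝ, (∀ q, 0 < q → 0 < p q ∧ p q ≤ 1) ∧ Tendsto η (𝓝[>] 0) (𝓝 0) ∧ ∀ Λ : ScrLay, Λ.Ok →
      ∃ δ₀ : ℝ, 0 < δ₀ ∧ ∀ δ : ℝ, 0 < δ → δ < δ₀ → ∀ F : Finset (ℤ × ℤ), RswJordan F → ScrFits Λ δ F → ∀ k : Fin 4,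
        rswP t F true (fun ω => ¬ ScrGapOk Λ δ k ω) ≤ (1 - p Λ.q) ^ Λ.M ∧
        rswP t F true (fun ω => ScrGapOk Λ δ k ω ∧ ¬ ScrCirc F Λ δ k ω) ≤ η Λ.q := by
  classical
  obtain ⟨p, hp, hA⟩ := ha
  obtain ⟨η, hη, hB⟩ := hb
  have h0 : (0 : ℝ) < t := by linarith
  refine ⟨p, fun q => max (η q) 0, hp, ?_, ?_⟩
  · have := hη.max (tendsto_const_nhds (x := (0 : ℝ)))
    simpa using this
  intro Λ hΛ
  obtain ⟨d1, hd1, hA1⟩ := hA Λ hΛ
  obtain ⟨d2, hd2, hB1⟩ := hB Λ hΛ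
  refine ⟨min d1 d2, lt_min hd1 hd2, fun δ hδ hδ' F hF hfit k => ?_⟩
  have hL := scr99s_law h0 ht2.le F
  have T := scr99s_trials ht1 ht2 hΛ hF k (pr := p Λ.q) (η := max (η Λ.q) 0)
    (fun j hj L hLo => hA1 δ hδ (lt_of_lt_of_le hδ' (min_le_left _ _)) F hF hfit k j hj L hLo)
    (fun j hj L hLo => (hB1 δ hδ (lt_of_lt_of_le hδ' (min_le_right _ _)) F hF hfit k j hj L hLo).trans
      (mul_le_mul_of_nonneg_right (le_max_left _ _) (rsb_P_nonneg h0 ht2.le F true L)))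
  constructor
  · rw [scr99s_P']
    refine le_trans (scr142_P_mono hL fun x _ hx => ?_) (T.P_no_success hL (hp Λ.q hΛ.hq).2)
    exact (scr99s_gap_no Λ δ k (rsbMk x)).1 hx
  · rw [scr99s_P']
    refine le_trans (scr142_P_mono hL fun x _ hx => ?_) (T.P_bad hL (le_max_right _ _))
    obtain ⟨hok, hnc⟩ := hx
    have hsel : scrSelJ Λ δ k (rsbMk x) = Nat.find hok := by
      unfold scrSelJ
      rw [dif_pos hok]
    rw [scr99s_circ_eq, hsel] at hnc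
    refine ⟨Nat.find hok, (Nat.find_spec hok).1, ⟨fun i hi hT => ?_, (Nat.find_spec hok).2⟩, hnc⟩
    exact Nat.find_min hok hi ⟨hi.trans (Nat.find_spec hok).1, hT⟩


/-! ## 7. (b) the stack of annuli: `ScrShCirc t` from (S1) `exit_mdl_circ` -/

theorem scr99s_P_split (t : ℝ) (F : Finset (ℤ × ℤ)) (L C : RswCfg → Prop) :
    rswP t F true L = rswP t F true (fun ω => L ω ∧ C ω) + rswP t F true (fun ω => L ω ∧ ¬ C ω) := by
  rw [scr99s_P, scr99s_P, scr99s_P, ← add_div]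
  congr 1
  exact scr99_M_split _ _ (fun p => L (rsbMk p)) (fun p => C (rsbMk p))

theorem scr99s_ext_and {B : Finset (ℤ × ℤ)} {L L' : RswCfg → Prop} (h : MdlExt B L) (h' : MdlExt B L') :
    MdlExt B (fun ω => L ω ∧ L' ω) := fun ω ω' a b => and_congr (h ω ω' a b) (h' ω ω' a b)

theorem scr99s_ext_ball {B : Finset (ℤ × ℤ)} {C : ℕ → RswCfg → Prop} {m : ℕ} (h : ∀ i < m, MdlExt B (C i)) :
    MdlExt B (fun ω => ∀ i < m, ¬ C i ω) :=
  fun ω ω' a b => forall_congr' fun i => forall_congr' fun hi => not_congr (h i hi ω ω' a b)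

/-- **abstract stack**: `m` nested buffers, each circuit event is exterior data of the later buffers. -/
theorem scr99s_stack {t : ℝ} (h0 : 0 < t) (h1 : t ≤ 1) {F : Finset (ℤ × ℤ)} {pr : ℝ} (hpr : pr ≤ 1)
    (B : ℕ → Finset (ℤ × ℤ)) (C : ℕ → RswCfg → Prop) (L : RswCfg → Prop) (m : ℕ)
    (hS1 : ∀ i < m, ∀ L' : RswCfg → Prop, MdlExt (B i) L' → pr * rswP t F true L' ≤ rswP t F true fun ω => L' ω ∧ C i ω)
    (hC : ∀ i < m, ∀ i' < i, MdlExt (B i) (C i')) (hL : ∀ i < m, MdlExt (B i) L) :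
    rswP t F true (fun ω => L ω ∧ ∀ i < m, ¬ C i ω) ≤ (1 - pr) ^ m * rswP t F true L := by
  induction m with
  | zero =>
    rw [pow_zero, one_mul]
    exact rsb_P_mono h0 h1 fun ω _ _ h => h.1
  | succ m ih =>
    have ih' := ih (fun i hi => hS1 i (Nat.lt_succ_of_lt hi)) (fun i hi => hC i (Nat.lt_succ_of_lt hi))
      (fun i hi => hL i (Nat.lt_succ_of_lt hi))
    have hext : MdlExt (B m) (fun ω => L ω ∧ ∀ i < m, ¬ C i ω) :=
      scr99s_ext_and (hL m (Nat.lt_succ_self m)) (scr99s_ext_ball (hC m (Nat.lt_succ_self m)))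
    have hs := hS1 m (Nat.lt_succ_self m) _ hext
    have hsplit := scr99s_P_split t F (fun ω => L ω ∧ ∀ i < m, ¬ C i ω) (C m)
    have hle : rswP t F true (fun ω => L ω ∧ ∀ i < m + 1, ¬ C i ω)
        ≤ rswP t F true (fun ω => (L ω ∧ ∀ i < m, ¬ C i ω) ∧ ¬ C m ω) :=
      rsb_P_mono h0 h1 fun ω _ _ h =>
        ⟨⟨h.1, fun i hi => h.2 i (Nat.lt_succ_of_lt hi)⟩, h.2 m (Nat.lt_succ_self m)⟩
    have hnn : 0 ≤ 1 - pr := by linarith
    calc rswP t F true (fun ω => L ω ∧ ∀ i < m + 1, ¬ C i ω)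
        ≤ rswP t F true (fun ω => (L ω ∧ ∀ i < m, ¬ C i ω) ∧ ¬ C m ω) := hle
      _ ≤ (1 - pr) * rswP t F true (fun ω => L ω ∧ ∀ i < m, ¬ C i ω) := by linarith
      _ ≤ (1 - pr) * ((1 - pr) ^ m * rswP t F true L) := mul_le_mul_of_nonneg_left ih' hnn
      _ = (1 - pr) ^ (m + 1) * rswP t F true L := by ring

/-- first exit from `Q` -/
theorem scr99s_first_exit {α : Type*} {R : α → α → Prop} {Q : α → Prop} {f g : α} (h : Relation.ReflTransGen R f g)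
    (hg : ¬ Q g) : ∃ g', ¬ Q g' ∧ Relation.ReflTransGen (fun x y => R x y ∧ Q x) f g' := by
  induction h using Relation.ReflTransGen.head_induction_on with
  | refl => exact ⟨g, hg, Relation.ReflTransGen.refl⟩
  | @head a c hac _ ih =>
    obtain ⟨g', h1, h2⟩ := ih
    by_cases hQ : Q a
    · exact ⟨g', h1, Relation.ReflTransGen.head ⟨hac, hQ⟩ h2⟩
    · exact ⟨a, hQ, Relation.ReflTransGen.refl⟩

theorem scr99s_reach_mem {F : Finset (ℤ × ℤ)} {a : Bool} {ω : RswCfg} {f g : ℤ × ℤ}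
    (h : Relation.ReflTransGen (RswStep F a ω) f g) (hf : f ∈ F) : g ∈ F := by
  rcases Relation.ReflTransGen.cases_tail h with rfl | ⟨c, _, hc⟩
  · exact hf
  · exact hc.2.1

/-- the separation of `A` from `F \ Q` only reads the edges which have a face in `Q` -/
theorem scr99s_sep_local {F Q A : Finset (ℤ × ℤ)} {a : Bool} {ω ω' : RswCfg} (hA : A ⊆ F)
    (hgood : ∀ e : (ℤ × ℤ) × Bool, (e.1 ∈ Q ∨ rswCo e ∈ Q) → RswGood a ω e → RswGood a ω' e)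
    (hs : RswSep F a ω A (F \ Q)) : RswSep F a ω' A (F \ Q) := by
  intro f hf g hg hpath
  obtain ⟨g', hg', hp'⟩ := scr99s_first_exit (Q := fun x => x ∈ Q) hpath (Finset.mem_sdiff.1 hg).2
  have hp : Relation.ReflTransGen (RswStep F a ω) f g' := by
    refine Relation.ReflTransGen.mono ?_ f g' hp'
    rintro x y ⟨⟨hx, hy, e, he, hne⟩, hxQ⟩
    refine ⟨hx, hy, e, he, fun hgd => hne (hgood e ?_ hgd)⟩
    rcases he with ⟨h1, _⟩ | ⟨_, h2⟩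
    · exact Or.inl (h1 ▸ hxQ)
    · exact Or.inr (h2 ▸ hxQ)
  exact hs f hf g' (Finset.mem_sdiff.2 ⟨scr99s_reach_mem hp (hA hf), hg'⟩) hp

/-- if one of the two faces of `e` is off `B`, both ends of `e` are on the polygon of `B` -/
theorem scr99s_onpoly {B : Finset (ℤ × ℤ)} {e : (ℤ × ℤ) × Bool} (h : e.1 ∉ B ∨ rswCo e ∉ B) :
    OnPolygon B e.1 ∧ OnPolygon B (rswEnd e) := by
  obtain ⟨⟨x, y⟩, d⟩ := e
  cases d
  · simp only [rswCo, rswEnd, OnPolygon, Bool.false_eq_true, if_false] at h ⊢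
    have e1 : x + 1 - 1 = x := by ring
    rw [e1]
    constructor
    · rintro ⟨a1, _, a3, _⟩
      rcases h with h | h
      · exact h a1
      · exact h a3
    · rintro ⟨_, a2, _, a4⟩
      rcases h with h | h
      · exact h a2
      · exact h a4
  · simp only [rswCo, rswEnd, OnPolygon, if_true] at h ⊢
    have e1 : y + 1 - 1 = y := by ring
    rw [e1]
    constructor
    · rintro ⟨a1, a2, _, _⟩
      rcases h with h | h
      · exact h a1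
      · exact h a2
    · rintro ⟨_, _, a3, a4⟩
      rcases h with h | h
      · exact h a3
      · exact h a4

/-- a circuit event inside `Q` is exterior data of every buffer disjoint from `Q` -/
theorem scr99s_ext_sep {F Q A B : Finset (ℤ × ℤ)} (a : Bool) (hA : A ⊆ F) (hBQ : Disjoint B Q) :
    MdlExt B (fun ω => RswSep F a ω A (F \ Q)) := by
  have key : ∀ ω ω' : RswCfg, (∀ v, OnPolygon B v → (v ∈ ω.S ↔ v ∈ ω'.S)) → (∀ e, e ∉ rswInt B → (e ∈ ω.O ↔ e ∈ ω'.O)) →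
      ∀ e : (ℤ × ℤ) × Bool, (e.1 ∈ Q ∨ rswCo e ∈ Q) → RswGood a ω e → RswGood a ω' e := by
    intro ω ω' h1 h2 e he hg
    have hoff : e.1 ∉ B ∨ rswCo e ∉ B := by
      rcases he with h | h
      · exact Or.inl fun hB => Finset.disjoint_left.1 hBQ hB h
      · exact Or.inr fun hB => Finset.disjoint_left.1 hBQ hB h
    have hint : e ∉ rswInt B := by
      intro hi
      have := rsb_mem_int.1 hi
      rcases hoff with h | h
      · exact h this.1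
      · exact h this.2
    obtain ⟨p1, p2⟩ := scr99s_onpoly hoff
    obtain ⟨g1, g2, g3⟩ := hg
    exact ⟨(h2 e hint).1 g1, by rw [← h1 _ p1]; exact g2, by rw [← h1 _ p2]; exact g3⟩
  intro ω ω' h1 h2
  exact ⟨scr99s_sep_local hA (key ω ω' h1 h2),
    scr99s_sep_local hA (key ω' ω (fun v hv => (h1 v hv).symm) (fun e he => (h2 e he).symm))⟩

/-- exterior data of a plane set are exterior data of every buffer inside it -/
theorem scr99s_ext_of_out {δ : ℝ} {U : Set (ℝ × ℝ)} {L : RswCfg → Prop} (hL : ScrOutSW δ U L) {B : Finset (ℤ × ℤ)}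
    (hB : ∀ f ∈ B, scr232P δ f ∈ U) : MdlExt B L := by
  intro ω ω' h1 h2
  refine hL ω ω' (fun v hv => h1 v fun hh => hv (hB v hh.1)) fun e he _ => h2 e fun hi => he (hB _ (rsb_mem_int.1 hi).1)

theorem scr99s_sep_anti {F A B A' B' : Finset (ℤ × ℤ)} {a : Bool} {ω : RswCfg} (hA : A' ⊆ A) (hB : B' ⊆ B)
    (h : RswSep F a ω A B) : RswSep F a ω A' B' := fun f hf g hg => h f (hA hf) g (hB hg)

theorem scr99s_mem_box (z : ℤ × ℤ) (n : ℕ) (f : ℤ × ℤ) :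
    f ∈ rswBox z n ↔ (z.1 - n ≤ f.1 ∧ f.1 < z.1 + n) ∧ (z.2 - n ≤ f.2 ∧ f.2 < z.2 + n) := by
  unfold rswBox
  simp only [Finset.mem_product, Finset.mem_Ico]

theorem scr99s_box_mono (z : ℤ × ℤ) {m n : ℕ} (h : m ≤ n) : rswBox z m ⊆ rswBox z n := by
  intro f hf
  rw [scr99s_mem_box] at hf ⊢
  omega

/-- a lattice box about the rounded centre lies in a ball -/
theorem scr99s_box_ball {δ : ℝ} (hδ : 0 < δ) (c : ℝ × ℝ) (N : ℕ) {f : ℤ × ℤ} (hf : f ∈ rswBox (⌊c.1 / δ⌋, ⌊c.2 / δ⌋) N) :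
    dist (scr232P δ f) c ≤ δ * (N + 1) := by
  rw [scr99s_mem_box] at hf
  obtain ⟨⟨a1, a2⟩, b1, b2⟩ := hf
  simp only at a1 a2 b1 b2
  have key : ∀ (x : ℝ) (y : ℤ), ⌊x / δ⌋ - (N : ℤ) ≤ y → y < ⌊x / δ⌋ + (N : ℤ) → |δ * (y : ℝ) - x| ≤ δ * (N + 1) := by
    intro x y h1 h2
    have f1 := Int.floor_le (x / δ)
    have f2 := Int.lt_floor_add_one (x / δ)
    have h1' : ((⌊x / δ⌋ : ℤ) : ℝ) - N ≤ y := by exact_mod_cast h1
    have h2' : (y : ℝ) < ((⌊x / δ⌋ : ℤ) : ℝ) + N := by exact_mod_cast h2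
    have e : x = δ * (x / δ) := by field_simp
    rw [abs_le]
    constructor
    · have : δ * (x / δ - (N + 1)) ≤ δ * y := mul_le_mul_of_nonneg_left (by linarith) hδ.le
      nlinarith
    · have : δ * y ≤ δ * (x / δ + (N + 1)) := mul_le_mul_of_nonneg_left (by linarith) hδ.le
      nlinarith
  rw [Prod.dist_eq, Real.dist_eq, Real.dist_eq]
  exact max_le (key c.1 f.1 a1 a2) (key c.2 f.2 b1 b2)

/-- the lattice points of a ball lie in a lattice box about the rounded centre -/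
theorem scr99s_ball_box {δ : ℝ} (hδ : 0 < δ) (c : ℝ × ℝ) (N : ℕ) {ρ : ℝ} (hN : ρ / δ + 1 ≤ N) {f : ℤ × ℤ}
    (hf : dist (scr232P δ f) c ≤ ρ) : f ∈ rswBox (⌊c.1 / δ⌋, ⌊c.2 / δ⌋) N := by
  rw [Prod.dist_eq, Real.dist_eq, Real.dist_eq] at hf
  have key : ∀ (x : ℝ) (y : ℤ), |δ * (y : ℝ) - x| ≤ ρ → ⌊x / δ⌋ - (N : ℤ) ≤ y ∧ y < ⌊x / δ⌋ + (N : ℤ) := by
    intro x y h
    have f1 := Int.floor_le (x / δ)
    have f2 := Int.lt_floor_add_one (x / δ)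
    rw [abs_le] at h
    have g1 : x / δ - ρ / δ ≤ y := by
      rw [← sub_div, div_le_iff₀ hδ]; nlinarith [h.1]
    have g2 : (y : ℝ) ≤ x / δ + ρ / δ := by
      rw [← add_div, le_div_iff₀ hδ]; nlinarith [h.2]
    constructor
    · have : ((⌊x / δ⌋ : ℤ) : ℝ) - N ≤ y := by linarith
      exact_mod_cast this
    · have : (y : ℝ) < ((⌊x / δ⌋ : ℤ) : ℝ) + N := by linarith
      exact_mod_cast this
  rw [scr99s_mem_box]
  exact ⟨key c.1 f.1 ((le_max_left _ _).trans hf), key c.2 f.2 ((le_max_right _ _).trans hf)⟩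

/-- the centres of the trials are well inside the big square -/
theorem scr99s_cen_in {Λ : ScrLay} (hΛ : Λ.Ok) (k : Fin 4) {j : ℕ} (hj : j < Λ.M) : dist (Λ.cen k j) Λ.z ≤ Λ.s - Λ.Rt := by
  have hR := hΛ.Rt_pos
  have hM : (0 : ℝ) < Λ.M := by exact_mod_cast hΛ.hM
  have hMR : 2 * (Λ.M : ℝ) * Λ.Rt = Λ.s - Λ.w := by
    unfold ScrLay.Rt; field_simp
  have hj' : (j : ℝ) + 1 ≤ Λ.M := by exact_mod_cast hj
  have hsc := hΛ.sc
  have hh : 0 < Λ.h := by linarith [hsc.hg, hsc.hr0, hsc.hr]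
  have hw : 0 < Λ.w := by linarith [hsc.hw]
  have hσ1 : |(![-1, 1, -1, 1] k : ℝ)| = 1 := by fin_cases k <;> simp
  have hσ2 : |(![1, 1, -1, -1] k : ℝ)| = 1 := by fin_cases k <;> simp
  rw [Prod.dist_eq, Real.dist_eq, Real.dist_eq]
  unfold ScrLay.cen ScrLay.z
  simp only [add_sub_cancel_left]
  rw [abs_mul, abs_mul, hσ1, hσ2, one_mul, one_mul]
  have hj0 : (0 : ℝ) ≤ j := Nat.cast_nonneg j
  refine max_le ?_ ?_
  · rw [abs_of_nonneg (by positivity)]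
    nlinarith
  · rw [abs_of_pos hh]
    linarith [hΛ.hT, hsc.hg]

/-- what the stack needs of one scale `N` -/
structure Scr99sScale (Λ : ScrLay) (δ : ℝ) (N0 N : ℕ) : Prop where
  big : N0 ≤ N
  three : 3 ≤ N
  lo : Λ.wh / δ + 1 ≤ N
  hi : δ * (4 * (N : ℝ)) ≤ Λ.Rt / 10

theorem Scr99sScale.dist4 {Λ : ScrLay} (hΛ : Λ.Ok) {δ : ℝ} (hδ : 0 < δ) {N0 N : ℕ} (h : Scr99sScale Λ δ N0 N) (c : ℝ × ℝ) {f : ℤ × ℤ}
    (hf : f ∈ rswBox (⌊c.1 / δ⌋, ⌊c.2 / δ⌋) ((1 + 3) * N)) : dist (scr232P δ f) c ≤ Λ.Rt / 5 := by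
  have h1 := scr99s_box_ball hδ c _ hf
  have h3 : (3 : ℝ) ≤ N := by exact_mod_cast h.three
  have hR := hΛ.Rt_pos
  have := h.hi
  push_cast at h1
  nlinarith

theorem Scr99sScale.dist3 {Λ : ScrLay} {δ : ℝ} (hδ : 0 < δ) {N0 N : ℕ} (h : Scr99sScale Λ δ N0 N) (c : ℝ × ℝ) {f : ℤ × ℤ}
    (hf : f ∈ rswBox (⌊c.1 / δ⌋, ⌊c.2 / δ⌋) ((1 + 2) * N)) : dist (scr232P δ f) c ≤ Λ.Rt / 10 - 2 * δ := by
  have h1 := scr99s_box_ball hδ c _ hf
  have h3 : (3 : ℝ) ≤ N := by exact_mod_cast h.three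
  have := h.hi
  push_cast at h1
  nlinarith

theorem Scr99sScale.mem2 {Λ : ScrLay} {δ : ℝ} (hδ : 0 < δ) {N0 N : ℕ} (h : Scr99sScale Λ δ N0 N) (c : ℝ × ℝ) {f : ℤ × ℤ}
    (hf : dist (scr232P δ f) c ≤ 2 * Λ.wh) : f ∈ rswBox (⌊c.1 / δ⌋, ⌊c.2 / δ⌋) ((1 + 1) * N) := by
  refine scr99s_ball_box hδ c _ ?_ hf
  have := h.lo
  push_cast
  have e : 2 * Λ.wh / δ = 2 * (Λ.wh / δ) := by ring
  rw [e]
  linarith

/-- the scales `4^i n0`, `n0 = ⌈wh / δ⌉ + 1` -/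
noncomputable def scr99sN (Λ : ScrLay) (δ : ℝ) (i : ℕ) : ℕ := 4 ^ i * (⌈Λ.wh / δ⌉₊ + 1)

theorem scr99s_N_step (Λ : ScrLay) (δ : ℝ) {i' i : ℕ} (h : i' < i) : 4 * scr99sN Λ δ i' ≤ scr99sN Λ δ i := by
  unfold scr99sN
  have : 4 ^ (i' + 1) ≤ 4 ^ i := Nat.pow_le_pow_right (by norm_num) h
  calc 4 * (4 ^ i' * (⌈Λ.wh / δ⌉₊ + 1)) = 4 ^ (i' + 1) * (⌈Λ.wh / δ⌉₊ + 1) := by ring
    _ ≤ 4 ^ i * (⌈Λ.wh / δ⌉₊ + 1) := Nat.mul_le_mul_right _ this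

theorem scr99s_scale {Λ : ScrLay} (hΛ : Λ.Ok) {δ : ℝ} (hδ : 0 < δ) {N0 : ℕ} (hδ1 : δ * (N0 + 2) ≤ Λ.wh) {m : ℕ}
    (hm : (4 : ℝ) ^ m * (30 * Λ.q) ≤ 1) {i : ℕ} (hi : i < m) : Scr99sScale Λ δ N0 (scr99sN Λ δ i) := by
  have hR := hΛ.Rt_pos
  have hwh : 0 < Λ.wh := by unfold ScrLay.wh; exact mul_pos hΛ.hq hR
  have hq : (N0 : ℝ) + 2 ≤ Λ.wh / δ := by rw [le_div_iff₀ hδ]; linarith
  have hN0 : (0 : ℝ) ≤ N0 := Nat.cast_nonneg N0
  have c1 : Λ.wh / δ ≤ (⌈Λ.wh / δ⌉₊ : ℝ) := Nat.le_ceil _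
  have c2 : (⌈Λ.wh / δ⌉₊ : ℝ) < Λ.wh / δ + 1 := Nat.ceil_lt_add_one (by positivity)
  have p1 : (1 : ℝ) ≤ (4 : ℝ) ^ i := one_le_pow₀ (by norm_num)
  have hcast : ((scr99sN Λ δ i : ℕ) : ℝ) = (4 : ℝ) ^ i * ((⌈Λ.wh / δ⌉₊ : ℝ) + 1) := by
    unfold scr99sN; push_cast; ring
  have hge : (⌈Λ.wh / δ⌉₊ : ℝ) + 1 ≤ (scr99sN Λ δ i : ℕ) := by
    rw [hcast]; nlinarith
  refine ⟨?_, ?_, ?_, ?_⟩
  · have : (N0 : ℝ) ≤ (scr99sN Λ δ i : ℕ) := by linarith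
    exact_mod_cast this
  · have : (3 : ℝ) ≤ (scr99sN Λ δ i : ℕ) := by linarith
    exact_mod_cast this
  · linarith
  · rw [hcast]
    have p2 : (4 : ℝ) ^ (i + 1) ≤ (4 : ℝ) ^ m := pow_le_pow_right₀ (by norm_num) hi
    have d1 : δ * ((⌈Λ.wh / δ⌉₊ : ℝ) + 1) ≤ 3 * Λ.wh := by
      have e : δ * (Λ.wh / δ) = Λ.wh := by field_simp
      have d2 : δ * ((⌈Λ.wh / δ⌉₊ : ℝ) + 1) ≤ δ * (Λ.wh / δ + 2) := mul_le_mul_of_nonneg_left (by linarith) hδ.le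
      have d3 : 2 * δ ≤ Λ.wh := by nlinarith
      nlinarith
    have d0 : 0 ≤ δ * ((⌈Λ.wh / δ⌉₊ : ℝ) + 1) := by positivity
    calc δ * (4 * ((4 : ℝ) ^ i * ((⌈Λ.wh / δ⌉₊ : ℝ) + 1))) = (4 : ℝ) ^ (i + 1) * (δ * ((⌈Λ.wh / δ⌉₊ : ℝ) + 1)) := by ring
      _ ≤ (4 : ℝ) ^ m * (δ * ((⌈Λ.wh / δ⌉₊ : ℝ) + 1)) := mul_le_mul_of_nonneg_right p2 d0
      _ ≤ (4 : ℝ) ^ m * (3 * Λ.wh) := mul_le_mul_of_nonneg_left d1 (by positivity)
      _ = ((4 : ℝ) ^ m * (30 * Λ.q)) * (Λ.Rt / 10) := by unfold ScrLay.wh; ring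
      _ ≤ 1 * (Λ.Rt / 10) := mul_le_mul_of_nonneg_right hm (by positivity)
      _ = Λ.Rt / 10 := one_mul _

/-- **the stack of annuli around one hole.** -/
theorem scr99s_circ_stack {t : ℝ} (ht1 : 1 / 2 ≤ t) (ht2 : t < 1) {pr : ℝ} {N0 : ℕ} (hpr1 : pr ≤ 1)
    (hS1 : ∀ n : ℕ, N0 ≤ n → ∀ (F : Finset (ℤ × ℤ)) (z : ℤ × ℤ) (b a : Bool) (L : RswCfg → Prop),
      RswJordan F → rswBox z ((1 + 3) * n) ⊆ F → MdlExt (rswBox z ((1 + 3) * n) \ rswBox z (1 * n)) L →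
      pr * rswP t F b L ≤
        rswP t F b fun ω => L ω ∧ RswSep F a ω (rswBox z ((1 + 1) * n)) (F \ rswBox z ((1 + 2) * n)))
    {Λ : ScrLay} (hΛ : Λ.Ok) {δ : ℝ} (hδ : 0 < δ) (hδ1 : δ * (N0 + 2) ≤ Λ.wh) {F : Finset (ℤ × ℤ)} (hF : RswJordan F)
    (hfit : ScrFits Λ δ F) (k : Fin 4) {j : ℕ} (hj : j < Λ.M) (m : ℕ) (hm : m = 0 ∨ (4 : ℝ) ^ m * (30 * Λ.q) ≤ 1)
    (L : RswCfg → Prop) (hL : ScrOutSW δ (Metric.ball (Λ.cen k j) (3 / 2 * Λ.Rt)) L) :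
    rswP t F true (fun ω => L ω ∧ ¬ ScrShG F Λ δ k j ω) ≤ (1 - pr) ^ m * rswP t F true L := by
  classical
  have h0 : (0 : ℝ) < t := by linarith
  have hR := hΛ.Rt_pos
  set c := Λ.cen k j with hc
  set zc : ℤ × ℤ := (⌊c.1 / δ⌋, ⌊c.2 / δ⌋) with hzc
  have hsc : ∀ i < m, Scr99sScale Λ δ N0 (scr99sN Λ δ i) := by
    intro i hi
    rcases hm with rfl | hm
    · exact absurd hi (Nat.not_lt_zero i)
    · exact scr99s_scale hΛ hδ hδ1 hm hi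
  -- the boxes are inside `F`
  have hboxF : ∀ i < m, rswBox zc ((1 + 3) * scr99sN Λ δ i) ⊆ F := by
    intro i hi f hf
    apply hfit
    rw [Metric.mem_closedBall]
    have d1 := (hsc i hi).dist4 hΛ hδ c hf
    have d2 := scr99s_cen_in hΛ k hj
    have d3 := dist_triangle (scr232P δ f) c Λ.z
    linarith
  have key := scr99s_stack h0 ht2.le hpr1
    (fun i => rswBox zc ((1 + 3) * scr99sN Λ δ i) \ rswBox zc (1 * scr99sN Λ δ i))
    (fun i ω => RswSep F true ω (rswBox zc ((1 + 1) * scr99sN Λ δ i)) (F \ rswBox zc ((1 + 2) * scr99sN Λ δ i))) L m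
    (fun i hi L' hL' => hS1 _ (hsc i hi).big F zc true true L' hF (hboxF i hi) hL') ?_ ?_
  · refine le_trans (rsb_P_mono h0 ht2.le fun ω _ _ h => ⟨h.1, fun i hi hC => h.2 ?_⟩) key
    refine scr99s_sep_anti ?_ ?_ hC
    · intro f hf
      exact (hsc i hi).mem2 hδ c (Metric.mem_closedBall.1 (Finset.mem_filter.1 hf).2)
    · intro f hf
      obtain ⟨hfF, hfn⟩ := Finset.mem_filter.1 hf
      exact Finset.mem_sdiff.2 ⟨hfF, fun hb => hfn (Metric.mem_closedBall.2 ((hsc i hi).dist3 hδ c hb))⟩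
  · intro i hi i' hi'
    refine scr99s_ext_sep true ?_ ?_
    · exact (scr99s_box_mono zc (by omega)).trans (hboxF i' (hi'.trans hi))
    · rw [Finset.disjoint_left]
      intro f hf hf'
      refine (Finset.mem_sdiff.1 hf).2 (scr99s_box_mono zc ?_ hf')
      have := scr99s_N_step Λ δ hi'
      omega
  · intro i hi
    refine scr99s_ext_of_out hL fun f hf => ?_
    rw [Metric.mem_ball]
    have d1 := (hsc i hi).dist4 hΛ hδ c (Finset.mem_sdiff.1 hf).1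
    linarith

/-- the number of scales -/
noncomputable def scr99sM (q : ℝ) : ℕ := Nat.log 4 ⌊1 / (30 * q)⌋₊

theorem scr99s_M_spec {q : ℝ} (hq : 0 < q) : scr99sM q = 0 ∨ (4 : ℝ) ^ scr99sM q * (30 * q) ≤ 1 := by
  by_cases h : ⌊1 / (30 * q)⌋₊ = 0
  · left; unfold scr99sM; rw [h]; simp
  · right
    have h1 : 4 ^ scr99sM q ≤ ⌊1 / (30 * q)⌋₊ := Nat.pow_log_le_self 4 h
    have h2 : ((⌊1 / (30 * q)⌋₊ : ℕ) : ℝ) ≤ 1 / (30 * q) := Nat.floor_le (by positivity)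
    have h3 : ((4 ^ scr99sM q : ℕ) : ℝ) ≤ 1 / (30 * q) := le_trans (by exact_mod_cast h1) h2
    push_cast at h3
    rwa [le_div_iff₀ (by positivity)] at h3

theorem scr99s_M_tendsto : Tendsto scr99sM (𝓝[>] 0) atTop := by
  rw [tendsto_atTop]
  intro K
  have h1 : Tendsto (fun q : ℝ => 1 / (30 * q)) (𝓝[>] 0) atTop := by
    have : Tendsto (fun q : ℝ => (1 / 30) * q⁻¹) (𝓝[>] 0) atTop :=
      Tendsto.const_mul_atTop (by norm_num) tendsto_inv_nhdsGT_zero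
    refine this.congr fun q => ?_
    rw [one_div, one_div, mul_inv]
  have h2 := (tendsto_atTop.1 (tendsto_nat_floor_atTop.comp h1)) (4 ^ K)
  filter_upwards [h2] with q hq
  simp only [Function.comp] at hq
  unfold scr99sM
  have hne : ⌊1 / (30 * q)⌋₊ ≠ 0 := by
    intro h0
    rw [h0] at hq
    have : 0 < 4 ^ K := by positivity
    omega
  exact (Nat.le_log_iff_pow_le (by norm_num) hne).2 hq

/-- **(b) is proved from (S1).** -/
theorem scr99s_circ (t : ℝ) (ht1 : 1 / 2 ≤ t) (ht2 : t < 1) : ScrShCirc t := by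
  obtain ⟨p, hp, N0, hS1⟩ := exit_mdl_circ t ht1 ht2 1
  have h0 : (0 : ℝ) < t := by linarith
  set pr := min p 1 with hpr
  have hpr0 : 0 < pr := lt_min hp one_pos
  have hpr1 : pr ≤ 1 := min_le_right _ _
  refine ⟨fun q => (1 - pr) ^ scr99sM q, ?_, ?_⟩
  · exact (tendsto_pow_atTop_nhds_zero_of_lt_one (by linarith) (by linarith)).comp scr99s_M_tendsto
  intro Λ hΛ
  have hR := hΛ.Rt_pos
  have hwh : 0 < Λ.wh := by unfold ScrLay.wh; exact mul_pos hΛ.hq hR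
  refine ⟨Λ.wh / (N0 + 2), by positivity, fun δ hδ hδ' F hF hfit k j hj L hL => ?_⟩
  refine scr99s_circ_stack (N0 := N0) ht1 ht2 hpr1 (fun n hn F z b a L' h1 h2 h3 => ?_) hΛ hδ ?_ hF hfit k hj _
    (scr99s_M_spec hΛ.hq) L hL
  · exact le_trans (mul_le_mul_of_nonneg_right (min_le_left _ _) (rsb_P_nonneg h0 ht2.le F b L')) (hS1 n hn F z b a L' h1 h2 h3)
  · rw [lt_div_iff₀ (by positivity)] at hδ'
    exact hδ'.le

/-- **(SHIELD) from (a) alone.** -/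
theorem scr99s_shield' (t : ℝ) (ht1 : 1 / 2 ≤ t) (ht2 : t < 1) (ha : ScrShArm t) :
    ∃ p η : ℝ → ℝ, (∀ q, 0 < q → 0 < p q ∧ p q ≤ 1) ∧ Tendsto η (𝓝[>] 0) (𝓝 0) ∧ ∀ Λ : ScrLay, Λ.Ok →
      ∃ δ₀ : ℝ, 0 < δ₀ ∧ ∀ δ : ℝ, 0 < δ → δ < δ₀ → ∀ F : Finset (ℤ × ℤ), RswJordan F → ScrFits Λ δ F → ∀ k : Fin 4,
        rswP t F true (fun ω => ¬ ScrGapOk Λ δ k ω) ≤ (1 - p Λ.q) ^ Λ.M ∧
        rswP t F true (fun ω => ScrGapOk Λ δ k ω ∧ ¬ ScrCirc F Λ δ k ω) ≤ η Λ.q :=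
  scr99s_shield t ht1 ht2 ha (scr99s_circ t ht1 ht2)


/-! ## 8. (a) TWO TUBES: geometry, arm from a crossing, two `K`-annuli, frame, assembly -/

theorem scr99a_X {Λ : ScrLay} (hΛ : Λ.Ok) {j : ℕ} (hj : j < Λ.M) :
    Λ.Rt ≤ (2 * (j : ℝ) + 1) * Λ.Rt ∧ (2 * (j : ℝ) + 1) * Λ.Rt ≤ Λ.s - Λ.w - Λ.Rt := by
  have hR := hΛ.Rt_pos
  have hM : (0 : ℝ) < Λ.M := by exact_mod_cast hΛ.hM
  have hMR : 2 * (Λ.M : ℝ) * Λ.Rt = Λ.s - Λ.w := by
    unfold ScrLay.Rt; field_simp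
  have hj' : (j : ℝ) + 1 ≤ Λ.M := by exact_mod_cast hj
  have hj0 : (0 : ℝ) ≤ j := Nat.cast_nonneg j
  constructor
  · nlinarith
  · nlinarith

/-- (H0) the strip behind the port lies in the hull of the block. -/
theorem scr99a_hull {Λ : ScrLay} (hΛ : Λ.Ok) (k : Fin 4) {j : ℕ} (hj : j < Λ.M) (b : Bool) {σ : ℝ}
    (hσ : σ = (if b then -1 else 1) * (![1, 1, -1, -1] k : ℝ)) {q : ℝ × ℝ}
    (h1 : |q.1 - (Λ.cen k j).1| ≤ Λ.wh / 2 + Λ.Rt / 5) (h2 : Λ.g ≤ σ * (q.2 - (Λ.cen k j).2))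
    (h3 : σ * (q.2 - (Λ.cen k j).2) ≤ 7 / 10 * Λ.Rt) : q ∈ Λ.hull (ScrLay.adj k b) := by
  have hR := hΛ.Rt_pos
  have hw40 : Λ.wh ≤ Λ.Rt / 40 := by
    have := mul_le_mul_of_nonneg_right hΛ.hq' hR.le
    have e : Λ.wh = Λ.q * Λ.Rt := rfl
    linarith
  obtain ⟨X1, X2⟩ := scr99a_X hΛ hj
  have hsc := hΛ.sc
  have hg0 := hsc.hg
  have hr0 := hsc.hr0
  have hK := hΛ.hK
  have hT := hΛ.hT
  have hw := hsc.hw
  rw [abs_le] at h1
  obtain ⟨h1a, h1b⟩ := h1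
  unfold ScrLay.cen at h1a h1b h2 h3
  simp only at h1a h1b h2 h3
  subst hσ
  generalize (2 * (j : ℝ) + 1) * Λ.Rt = X at *
  unfold ScrLay.hull scrHull ScrLay.adj
  fin_cases k <;> cases b <;> simp [scr232Obj] at h1a h1b h2 h3 ⊢
  all_goals (refine ⟨?_, ?_, ?_⟩ <;> (try rw [abs_le]) <;> (try constructor) <;> linarith)

/-- two different centres are `2 Rt` apart. -/
theorem scr99a_cen_far {Λ : ScrLay} (hΛ : Λ.Ok) (k k' : Fin 4) {j j' : ℕ} (hj : j < Λ.M) (hj' : j' < Λ.M) (hne : ¬ (k = k' ∧ j = j')) :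
    2 * Λ.Rt ≤ dist (Λ.cen k j) (Λ.cen k' j') := by
  by_cases hk : k = k'
  · subst hk
    have hjj : j ≠ j' := fun h => hne ⟨rfl, h⟩
    rcases lt_or_gt_of_ne hjj with h | h
    · exact scr99s_cen_dist hΛ k h
    · rw [dist_comm]; exact scr99s_cen_dist hΛ k h
  have hR := hΛ.Rt_pos
  obtain ⟨X1, X2⟩ := scr99a_X hΛ hj
  obtain ⟨Y1, Y2⟩ := scr99a_X hΛ hj'
  have hsc := hΛ.sc
  have hg0 := hsc.hg
  have hr0 := hsc.hr0
  have hK := hΛ.hK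
  have hw := hsc.hw
  rw [Prod.dist_eq, Real.dist_eq, Real.dist_eq]
  unfold ScrLay.cen
  simp only
  generalize (2 * (j : ℝ) + 1) * Λ.Rt = X at *
  generalize (2 * (j' : ℝ) + 1) * Λ.Rt = Y at *
  have a1 : ∀ u : ℝ, 2 * Λ.Rt ≤ u → 2 * Λ.Rt ≤ |u| := fun u h => h.trans (le_abs_self u)
  have a2 : ∀ u : ℝ, 2 * Λ.Rt ≤ -u → 2 * Λ.Rt ≤ |u| := fun u h => h.trans (neg_le_abs u)
  fin_cases k <;> fin_cases k' <;> simp at hk ⊢
  all_goals first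
    | (left; apply a1; linarith)
    | (left; apply a2; linarith)
    | (right; apply a1; linarith)
    | (right; apply a2; linarith)
    | (apply a1; linarith)
    | (apply a2; linarith)

theorem scr99a_blk {Λ : ScrLay} (hΛ : Λ.Ok) (k : Fin 4) {j : ℕ} (hj : j < Λ.M) (b : Bool) {σ : ℝ}
    (hσ : σ = (if b then -1 else 1) * (![1, 1, -1, -1] k : ℝ)) {p : ℝ × ℝ}
    (h1 : |p.1 - (Λ.cen k j).1| ≤ Λ.wh / 2) (h2 : Λ.wh ≤ σ * (p.2 - (Λ.cen k j).2)) (h3 : σ * (p.2 - (Λ.cen k j).2) ≤ Λ.Rt / 2) :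
    p ∈ Λ.blk (ScrLay.adj k b) ∩ Metric.closedBall (Λ.cen k j) (Λ.Rt / 2) := by
  have hR := hΛ.Rt_pos
  have hw40 : Λ.wh ≤ Λ.Rt / 40 := by
    have := mul_le_mul_of_nonneg_right hΛ.hq' hR.le
    have e : Λ.wh = Λ.q * Λ.Rt := rfl
    linarith
  have hwp : 0 < Λ.wh := mul_pos hΛ.hq hR
  have hg := hΛ.hg
  have hσ1 : σ = 1 ∨ σ = -1 := by
    rw [hσ]; fin_cases k <;> cases b <;> simp
  have habs : |p.2 - (Λ.cen k j).2| = σ * (p.2 - (Λ.cen k j).2) := by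
    rcases hσ1 with rfl | rfl
    · rw [one_mul] at h2 ⊢; exact abs_of_nonneg (by linarith)
    · rw [abs_of_nonpos (by linarith)]; ring
  have hd : dist p (Λ.cen k j) ≤ Λ.Rt / 2 := by
    rw [Prod.dist_eq, Real.dist_eq, Real.dist_eq, habs]
    exact max_le (by linarith) h3
  have hd2 : Λ.wh ≤ dist p (Λ.cen k j) := by
    rw [Prod.dist_eq, Real.dist_eq, Real.dist_eq, habs]
    exact h2.trans (le_max_right _ _)
  refine ⟨⟨scr99a_hull hΛ k hj b hσ (by linarith) (by linarith) (by linarith), ?_⟩, Metric.mem_closedBall.2 hd⟩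
  simp only [Set.mem_iUnion, not_exists]
  intro k' j' hj' hmem
  have hmem' : dist p (Λ.cen k' j') < Λ.wh := Metric.mem_ball.1 hmem
  by_cases he : k = k' ∧ j = j'
  · obtain ⟨rfl, rfl⟩ := he
    linarith
  · have := scr99a_cen_far hΛ k k' hj hj' he
    have := dist_triangle (Λ.cen k j) p (Λ.cen k' j')
    rw [dist_comm (Λ.cen k j) p] at this
    linarith

theorem scr99a_core {Λ : ScrLay} (hΛ : Λ.Ok) (k : Fin 4) {j : ℕ} (hj : j < Λ.M) (b : Bool) {σ : ℝ}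
    (hσ : σ = (if b then -1 else 1) * (![1, 1, -1, -1] k : ℝ)) {p : ℝ × ℝ}
    (h1 : |p.1 - (Λ.cen k j).1| ≤ Λ.wh / 2) (h2 : Λ.g + Λ.Rt / 5 ≤ σ * (p.2 - (Λ.cen k j).2)) (h3 : σ * (p.2 - (Λ.cen k j).2) ≤ Λ.Rt / 2) :
    p ∈ Λ.core (ScrLay.adj k b) := by
  have hσ1 : σ = 1 ∨ σ = -1 := by
    rw [hσ]; fin_cases k <;> cases b <;> simp
  intro q hq
  have hq' : dist q p ≤ Λ.Rt / 5 := Metric.mem_closedBall.1 hq
  rw [Prod.dist_eq, Real.dist_eq, Real.dist_eq] at hq'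
  have q1 := abs_le.1 ((le_max_left _ _).trans hq')
  have q2 := abs_le.1 ((le_max_right _ _).trans hq')
  have p1 := abs_le.1 h1
  refine scr99a_hull hΛ k hj b hσ ?_ ?_ ?_
  · rw [abs_le]; constructor <;> linarith [q1.1, q1.2, p1.1, p1.2]
  · rcases hσ1 with rfl | rfl <;> linarith [q2.1, q2.2]
  · rcases hσ1 with rfl | rfl <;> linarith [q2.1, q2.2]

/-- (ARM1) a good crossing of the tube is an arm of the rebuilt configuration. -/
theorem scr99a_arm1 {Λ : ScrLay} (hΛ : Λ.Ok) (k : Fin 4) {j : ℕ} (hj : j < Λ.M) (b : Bool) {σ : ℝ}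
    (hσ : σ = (if b then -1 else 1) * (![1, 1, -1, -1] k : ℝ)) {δ : ℝ} (hδ : 0 < δ) (hδR : δ ≤ Λ.Rt / 20) (ω : RswCfg) (a c : ℤ) (m N : ℕ)
    (hx1 : (Λ.cen k j).1 - Λ.wh / 2 ≤ δ * a) (hx2 : δ * (a + m) ≤ (Λ.cen k j).1 + Λ.wh / 2)
    (yp yc : ℤ) (hrow : (yp = c ∧ yc = c + N) ∨ (yp = c + N ∧ yc = c))
    (hp1 : Λ.wh ≤ σ * (δ * yp - (Λ.cen k j).2)) (hp2 : σ * (δ * yp - (Λ.cen k j).2) < Λ.wh + δ)
    (hc1 : Λ.g + Λ.Rt / 5 ≤ σ * (δ * yc - (Λ.cen k j).2)) (hc2 : σ * (δ * yc - (Λ.cen k j).2) ≤ Λ.Rt / 2)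
    (x x' : ℤ) (hx : a ≤ x ∧ x ≤ a + m) (hx' : a ≤ x' ∧ x' ≤ a + m)
    (hpath : Relation.ReflTransGen (ScrDuP (RswGood true ω) a c m N) (x, c) (x', c + N)) :
    ∃ u, ScrArm Λ δ k j b (scrPc Λ δ ω) u := by
  have hR := hΛ.Rt_pos
  have hw40 : Λ.wh ≤ Λ.Rt / 40 := by
    have := mul_le_mul_of_nonneg_right hΛ.hq' hR.le
    have e : Λ.wh = Λ.q * Λ.Rt := rfl
    linarith
  have hwp : 0 < Λ.wh := mul_pos hΛ.hq hR
  have hg0 := hΛ.sc.hg
  have hσ1 : σ = 1 ∨ σ = -1 := by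
    rw [hσ]; fin_cases k <;> cases b <;> simp
  -- columns
  have hcol : ∀ w : ℤ, a ≤ w → w ≤ a + m → |δ * (w : ℝ) - (Λ.cen k j).1| ≤ Λ.wh / 2 := by
    intro w h1 h2
    have h1' : (a : ℝ) ≤ w := by exact_mod_cast h1
    have h2' : (w : ℝ) ≤ (a : ℝ) + m := by exact_mod_cast h2
    have := mul_le_mul_of_nonneg_left h1' hδ.le
    have := mul_le_mul_of_nonneg_left h2' hδ.le
    rw [abs_le]; constructor <;> linarith
  -- rows
  have hrw : ∀ w : ℤ, c ≤ w → w ≤ c + N → Λ.wh ≤ σ * (δ * (w : ℝ) - (Λ.cen k j).2) ∧ σ * (δ * (w : ℝ) - (Λ.cen k j).2) ≤ Λ.Rt / 2 := by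
    intro w h1 h2
    have h1' : (c : ℝ) ≤ w := by exact_mod_cast h1
    have h2' : (w : ℝ) ≤ (c : ℝ) + N := by exact_mod_cast h2
    have g1 := mul_le_mul_of_nonneg_left h1' hδ.le
    have g2 := mul_le_mul_of_nonneg_left h2' hδ.le
    rcases hσ1 with rfl | rfl <;> rcases hrow with ⟨rfl, rfl⟩ | ⟨rfl, rfl⟩ <;> push_cast at hp1 hp2 hc1 hc2 <;>
      constructor <;> linarith
  have hin : ∀ w : ℤ × ℤ, ScrDuIn a c m N w →
      scr232P δ w ∈ Λ.blk (ScrLay.adj k b) ∩ Metric.closedBall (Λ.cen k j) (Λ.Rt / 2) := by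
    rintro w ⟨w1, w2, w3, w4⟩
    exact scr99a_blk hΛ k hj b hσ (p := scr232P δ w) (hcol w.1 w1 w2) (hrw w.2 w3 w4).1 (hrw w.2 w3 w4).2
  have hstep : ∀ v v' : ℤ × ℤ, ScrDuP (RswGood true ω) a c m N v v' →
      ScrGStep δ (Λ.blk (ScrLay.adj k b) ∩ Metric.closedBall (Λ.cen k j) (Λ.Rt / 2)) (scrPc Λ δ ω) v v' := by
    rintro v v' ⟨h1, h2, e, he, hor⟩
    refine ⟨hin v h1, hin v' h2, e, (scr99s_good_pc Λ δ ω e).2 ⟨he, ScrLay.adj k b, ?_⟩, hor⟩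
    rcases hor with ⟨e1, e2⟩ | ⟨e1, e2⟩
    · rw [e1, e2]; exact ⟨(hin v h1).1, (hin v' h2).1⟩
    · rw [e1, e2]; exact ⟨(hin v' h2).1, (hin v h1).1⟩
  have habs : ∀ y : ℝ, 0 ≤ σ * y → |y| = σ * y := by
    intro y hy
    rcases hσ1 with rfl | rfl
    · rw [one_mul] at hy ⊢; exact abs_of_nonneg hy
    · rw [abs_of_nonpos (by linarith)]; ring
  have hN0 : (0 : ℤ) ≤ N := Int.natCast_nonneg N
  -- the general conclusion from a path port -> core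
  have fin : ∀ u v : ℤ × ℤ, ScrDuIn a c m N u → ScrDuIn a c m N v → u.2 = yp → v.2 = yc →
      Relation.ReflTransGen (ScrDuP (RswGood true ω) a c m N) u v → ∃ u, ScrArm Λ δ k j b (scrPc Λ δ ω) u := by
    intro u v hu hv hu2 hv2 hp
    refine ⟨u, ⟨(hin u hu).1, hcol u.1 hu.1 hu.2.1, ?_⟩, v, ?_, Relation.ReflTransGen.mono hstep u v hp⟩
    · rw [hu2, habs _ (by linarith)]; exact hp2
    · refine scr99a_core hΛ k hj b hσ (p := scr232P δ v) (hcol v.1 hv.1 hv.2.1) ?_ ?_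
      · show Λ.g + Λ.Rt / 5 ≤ σ * (δ * (v.2 : ℝ) - (Λ.cen k j).2)
        rw [hv2]; exact hc1
      · show σ * (δ * (v.2 : ℝ) - (Λ.cen k j).2) ≤ Λ.Rt / 2
        rw [hv2]; exact hc2
  have hA : ScrDuIn a c m N (x, c) := ⟨hx.1, hx.2, le_refl _, by show c ≤ c + N; omega⟩
  have hB : ScrDuIn a c m N (x', c + N) := ⟨hx'.1, hx'.2, by show c ≤ c + N; omega, le_refl _⟩
  rcases hrow with ⟨e1, e2⟩ | ⟨e1, e2⟩
  · exact fin _ _ hA hB e1.symm e2.symm hpath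
  · exact fin _ _ hB hA e1.symm e2.symm (scr62du_P_rev _ a c m N hpath)


/-- (PROB) two `K`-annuli by successive conditioning. -/
theorem scr99a_two {t : ℝ} (h0 : 0 < t) (h1 : t ≤ 1) {K n : ℕ} {pr : ℝ} (hpr : 0 ≤ pr) {F : Finset (ℤ × ℤ)}
    (hS1 : ∀ (z : ℤ × ℤ) (L : RswCfg → Prop), rswBox z ((K + 3) * n) ⊆ F → MdlExt (rswBox z ((K + 3) * n) \ rswBox z (K * n)) L →
      pr * rswP t F true L ≤ rswP t F true fun ω => L ω ∧ RswSep F true ω (rswBox z ((K + 1) * n)) (F \ rswBox z ((K + 2) * n)))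
    {δ : ℝ} {U : Set (ℝ × ℝ)} {L : RswCfg → Prop} (hL : ScrOutSW δ U L) {z z' : ℤ × ℤ}
    (hz : rswBox z ((K + 3) * n) ⊆ F) (hz' : rswBox z' ((K + 3) * n) ⊆ F)
    (hU : ∀ f ∈ rswBox z ((K + 3) * n), scr232P δ f ∈ U) (hU' : ∀ f ∈ rswBox z' ((K + 3) * n), scr232P δ f ∈ U)
    (hd : Disjoint (rswBox z' ((K + 3) * n)) (rswBox z ((K + 2) * n))) :
    pr * pr * rswP t F true L ≤ rswP t F true fun ω => L ω ∧
      RswSep F true ω (rswBox z ((K + 1) * n)) (F \ rswBox z ((K + 2) * n)) ∧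
      RswSep F true ω (rswBox z' ((K + 1) * n)) (F \ rswBox z' ((K + 2) * n)) := by
  have s1 := hS1 z L hz (scr99s_ext_of_out hL fun f hf => hU f (Finset.mem_sdiff.1 hf).1)
  have hA : rswBox z ((K + 1) * n) ⊆ F := (scr99s_box_mono z (Nat.mul_le_mul_right n (by omega))).trans hz
  have s2 := hS1 z' (fun ω => L ω ∧ RswSep F true ω (rswBox z ((K + 1) * n)) (F \ rswBox z ((K + 2) * n))) hz'
    (scr99s_ext_and (scr99s_ext_of_out hL fun f hf => hU' f (Finset.mem_sdiff.1 hf).1)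
      (scr99s_ext_sep true hA (Finset.disjoint_of_subset_left Finset.sdiff_subset hd)))
  calc pr * pr * rswP t F true L = pr * (pr * rswP t F true L) := by ring
    _ ≤ pr * rswP t F true fun ω => L ω ∧ RswSep F true ω (rswBox z ((K + 1) * n)) (F \ rswBox z ((K + 2) * n)) :=
        mul_le_mul_of_nonneg_left s1 hpr
    _ ≤ _ := s2
    _ ≤ _ := rsb_P_mono h0 h1 fun ω _ _ h => ⟨h.1.1, h.1.2, h.2⟩

/-- a lattice box about any lattice centre -/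
theorem scr99a_box_dist {δ : ℝ} (hδ : 0 < δ) (c : ℝ × ℝ) (z : ℤ × ℤ) (N : ℕ) {ρ : ℝ} (h1 : |δ * z.1 - c.1| ≤ ρ) (h2 : |δ * z.2 - c.2| ≤ ρ)
    {f : ℤ × ℤ} (hf : f ∈ rswBox z N) : dist (scr232P δ f) c ≤ ρ + N * δ := by
  rw [scr99s_mem_box] at hf
  obtain ⟨⟨a1, a2⟩, b1, b2⟩ := hf
  have key : ∀ (x : ℝ) (w y : ℤ), |δ * (w : ℝ) - x| ≤ ρ → w - (N : ℤ) ≤ y → y < w + (N : ℤ) → |δ * (y : ℝ) - x| ≤ ρ + N * δ := by
    intro x w y h h1 h2
    have h1' : (w : ℝ) - N ≤ y := by exact_mod_cast h1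
    have h2' : (y : ℝ) < (w : ℝ) + N := by exact_mod_cast h2
    rw [abs_le] at h ⊢
    constructor
    · have : δ * ((w : ℝ) - N) ≤ δ * y := mul_le_mul_of_nonneg_left h1' hδ.le
      nlinarith [h.1]
    · have : δ * y ≤ δ * ((w : ℝ) + N) := mul_le_mul_of_nonneg_left h2'.le hδ.le
      nlinarith [h.2]
  rw [Prod.dist_eq, Real.dist_eq, Real.dist_eq]
  exact max_le (key c.1 z.1 f.1 h1 a1 a2) (key c.2 z.2 f.2 h2 b1 b2)

/-- (ROWS) the rows of a tube: port row `yp`, core row `yc`, height of the centre `zy` of the annulus. -/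
theorem scr99a_rows {δ y0 wh g Rt : ℝ} (hδ : 0 < δ) (hg0 : 0 < g) (hg : g < wh) (hw : wh ≤ Rt / 40) (hδR : δ ≤ Rt / 20) (m : ℕ)
    (hm : Rt / 4 ≤ 2 * (m * δ)) {σ : ℝ} (hσ : σ = 1 ∨ σ = -1) :
    ∃ (zy c : ℤ) (N : ℕ) (yp yc : ℤ), ((yp = c ∧ yc = c + N) ∨ (yp = c + N ∧ yc = c)) ∧ zy - m ≤ c ∧ c + N ≤ zy + m ∧
      wh ≤ σ * (δ * yp - y0) ∧ σ * (δ * yp - y0) < wh + δ ∧ g + Rt / 5 ≤ σ * (δ * yc - y0) ∧ σ * (δ * yc - y0) ≤ Rt / 2 ∧
      |δ * zy - y0| ≤ wh + δ + m * δ := by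
  have hm0 : (0 : ℝ) ≤ m * δ := by positivity
  rcases hσ with rfl | rfl
  · have A1 : y0 + wh ≤ δ * (⌈(y0 + wh) / δ⌉ : ℤ) := by
      have := Int.le_ceil ((y0 + wh) / δ)
      rw [div_le_iff₀ hδ] at this; linarith
    have A2 : δ * (⌈(y0 + wh) / δ⌉ : ℤ) < y0 + wh + δ := by
      have := Int.ceil_lt_add_one ((y0 + wh) / δ)
      have e : (y0 + wh) / δ + 1 = (y0 + wh + δ) / δ := by field_simp
      rw [e, lt_div_iff₀ hδ] at this; linarith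
    have B1 : y0 + g + Rt / 5 ≤ δ * (⌈(y0 + g + Rt / 5) / δ⌉ : ℤ) := by
      have := Int.le_ceil ((y0 + g + Rt / 5) / δ)
      rw [div_le_iff₀ hδ] at this; linarith
    have B2 : δ * (⌈(y0 + g + Rt / 5) / δ⌉ : ℤ) < y0 + g + Rt / 5 + δ := by
      have := Int.ceil_lt_add_one ((y0 + g + Rt / 5) / δ)
      have e : (y0 + g + Rt / 5) / δ + 1 = (y0 + g + Rt / 5 + δ) / δ := by field_simp
      rw [e, lt_div_iff₀ hδ] at this; linarith
    set yp : ℤ := ⌈(y0 + wh) / δ⌉ with hyp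
    set yc : ℤ := ⌈(y0 + g + Rt / 5) / δ⌉ with hyc
    have hle : yp ≤ yc := Int.ceil_le_ceil (div_le_div_of_nonneg_right (by linarith) hδ.le)
    have hN : ((yc - yp).toNat : ℤ) = yc - yp := Int.toNat_of_nonneg (by omega)
    have hlt : yc < yp + 2 * m := by
      have : δ * (yc : ℝ) < δ * ((yp : ℝ) + 2 * m) := by nlinarith
      have := lt_of_mul_lt_mul_left this hδ.le
      exact_mod_cast this
    refine ⟨yp + m, yp, (yc - yp).toNat, yp, yc, Or.inl ⟨rfl, by omega⟩, by omega, by omega, by linarith, by linarith, by linarith,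
      by linarith, ?_⟩
    push_cast
    rw [abs_le]
    constructor <;> nlinarith
  · have A1 : δ * (⌊(y0 - wh) / δ⌋ : ℤ) ≤ y0 - wh := by
      have := Int.floor_le ((y0 - wh) / δ)
      rw [le_div_iff₀ hδ] at this; linarith
    have A2 : y0 - wh - δ < δ * (⌊(y0 - wh) / δ⌋ : ℤ) := by
      have := Int.lt_floor_add_one ((y0 - wh) / δ)
      rw [div_lt_iff₀ hδ] at this; linarith
    have B1 : δ * (⌊(y0 - g - Rt / 5) / δ⌋ : ℤ) ≤ y0 - g - Rt / 5 := by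
      have := Int.floor_le ((y0 - g - Rt / 5) / δ)
      rw [le_div_iff₀ hδ] at this; linarith
    have B2 : y0 - g - Rt / 5 - δ < δ * (⌊(y0 - g - Rt / 5) / δ⌋ : ℤ) := by
      have := Int.lt_floor_add_one ((y0 - g - Rt / 5) / δ)
      rw [div_lt_iff₀ hδ] at this; linarith
    set yp : ℤ := ⌊(y0 - wh) / δ⌋ with hyp
    set yc : ℤ := ⌊(y0 - g - Rt / 5) / δ⌋ with hyc
    have hle : yc ≤ yp := Int.floor_le_floor (div_le_div_of_nonneg_right (by linarith) hδ.le)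
    have hN : ((yp - yc).toNat : ℤ) = yp - yc := Int.toNat_of_nonneg (by omega)
    have hlt : yp - 2 * m < yc := by
      have : δ * ((yp : ℝ) - 2 * m) < δ * (yc : ℝ) := by nlinarith
      have := lt_of_mul_lt_mul_left this hδ.le
      exact_mod_cast this
    refine ⟨yp - m, yc, (yp - yc).toNat, yp, yc, Or.inr ⟨by omega, rfl⟩, by omega, by omega, by linarith, by linarith, by linarith,
      by linarith, ?_⟩
    push_cast
    rw [abs_le]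
    constructor <;> nlinarith

/-- (DET) the frame of the two tubes: two `K`-annuli, `K = ⌈2 / q⌉₊`, whose circuits force the trial. -/
theorem scr99a_det {Λ : ScrLay} (hΛ : Λ.Ok) (n0 : ℕ) :
    ∃ δ₀ : ℝ, 0 < δ₀ ∧ ∀ δ : ℝ, 0 < δ → δ < δ₀ → ∀ F : Finset (ℤ × ℤ), ScrFits Λ δ F → ∀ (k : Fin 4) (j : ℕ), j < Λ.M →
      ∃ (n : ℕ) (z z' : ℤ × ℤ), n0 ≤ n ∧ rswBox z ((⌈2 / Λ.q⌉₊ + 3) * n) ⊆ F ∧ rswBox z' ((⌈2 / Λ.q⌉₊ + 3) * n) ⊆ F ∧
        (∀ f ∈ rswBox z ((⌈2 / Λ.q⌉₊ + 3) * n), scr232P δ f ∈ Metric.ball (Λ.cen k j) (3 / 2 * Λ.Rt)) ∧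
        (∀ f ∈ rswBox z' ((⌈2 / Λ.q⌉₊ + 3) * n), scr232P δ f ∈ Metric.ball (Λ.cen k j) (3 / 2 * Λ.Rt)) ∧
        Disjoint (rswBox z' ((⌈2 / Λ.q⌉₊ + 3) * n)) (rswBox z ((⌈2 / Λ.q⌉₊ + 2) * n)) ∧
        ∀ ω : RswCfg, RswSep F true ω (rswBox z ((⌈2 / Λ.q⌉₊ + 1) * n)) (F \ rswBox z ((⌈2 / Λ.q⌉₊ + 2) * n)) →
          RswSep F true ω (rswBox z' ((⌈2 / Λ.q⌉₊ + 1) * n)) (F \ rswBox z' ((⌈2 / Λ.q⌉₊ + 2) * n)) →
          ScrTrial Λ δ k j (scrPc Λ δ ω) := by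
  set K : ℕ := ⌈2 / Λ.q⌉₊ with hKdef
  have hR := hΛ.Rt_pos
  have hq := hΛ.hq
  have hq' := hΛ.hq'
  have hwh : Λ.wh = Λ.q * Λ.Rt := rfl
  have hwp : 0 < Λ.wh := mul_pos hq hR
  have hqR : Λ.q * Λ.Rt ≤ Λ.Rt / 40 := by
    have := mul_le_mul_of_nonneg_right hq' hR.le
    linarith
  have hw40 : Λ.wh ≤ Λ.Rt / 40 := hqR
  have hg0 := hΛ.sc.hg
  have hg := hΛ.hg
  have hn0 : (0 : ℝ) ≤ n0 := Nat.cast_nonneg n0
  refine ⟨Λ.wh / (16 * (n0 + 1)), by positivity, fun δ hδ hδ' F hfit k j hj => ?_⟩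
  rw [lt_div_iff₀ (by positivity)] at hδ'
  have hδn0 := mul_nonneg hδ.le hn0
  have hδ16 : 16 * δ < Λ.wh := by linarith
  have hδR : δ ≤ Λ.Rt / 20 := by linarith
  set n : ℕ := ⌊Λ.wh / (8 * δ)⌋₊ with hn
  have hn1 : (n : ℝ) * δ ≤ Λ.wh / 8 := by
    have := Nat.floor_le (a := Λ.wh / (8 * δ)) (by positivity)
    rw [le_div_iff₀ (by positivity)] at this
    linarith
  have hn2 : Λ.wh / 16 ≤ (n : ℝ) * δ := by
    have := Nat.lt_floor_add_one (Λ.wh / (8 * δ))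
    rw [div_lt_iff₀ (by positivity)] at this
    rw [← hn] at this
    linarith
  have hn3 : n0 + 1 ≤ n := by
    refine Nat.le_floor ?_
    rw [le_div_iff₀ (by positivity)]
    push_cast
    linarith
  have hK1 : 2 * Λ.Rt ≤ (K : ℝ) * Λ.wh := by
    have := Nat.le_ceil (2 / Λ.q)
    rw [div_le_iff₀ hq] at this
    have := mul_le_mul_of_nonneg_right this hR.le
    rw [hwh]; linarith
  have hK2 : (K : ℝ) * Λ.wh ≤ (2 + Λ.q) * Λ.Rt := by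
    have := (Nat.ceil_lt_add_one (a := 2 / Λ.q) (by positivity)).le
    have e : 2 / Λ.q + 1 = (2 + Λ.q) / Λ.q := by field_simp
    rw [e, le_div_iff₀ hq] at this
    have := mul_le_mul_of_nonneg_right this hR.le
    rw [hwh]; linarith
  have hK0 : (0 : ℝ) ≤ K := Nat.cast_nonneg K
  have hKX1 : Λ.Rt / 8 ≤ (K : ℝ) * ((n : ℝ) * δ) := by
    have := mul_le_mul_of_nonneg_left hn2 hK0
    linarith
  have hKX2 : (K : ℝ) * ((n : ℝ) * δ) ≤ (2 + Λ.q) * Λ.Rt / 8 := by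
    have := mul_le_mul_of_nonneg_left hn1 hK0
    linarith
  set m : ℕ := (K + 1) * n with hm
  have hmδ : (m : ℝ) * δ = (K : ℝ) * ((n : ℝ) * δ) + (n : ℝ) * δ := by rw [hm]; push_cast; ring
  have hm4 : Λ.Rt / 4 ≤ 2 * ((m : ℝ) * δ) := by rw [hmδ]; linarith
  have hm0 : (0 : ℝ) ≤ (m : ℝ) * δ := by positivity
  have h3δ : (((K + 3) * n : ℕ) : ℝ) * δ = (K : ℝ) * ((n : ℝ) * δ) + 3 * ((n : ℝ) * δ) := by push_cast; ring
  have hs : (![1, 1, -1, -1] k : ℝ) = 1 ∨ (![1, 1, -1, -1] k : ℝ) = -1 := by fin_cases k <;> simp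
  have hσf : ((if false then -1 else 1) * (![1, 1, -1, -1] k : ℝ) : ℝ) = 1 ∨ ((if false then -1 else 1) * (![1, 1, -1, -1] k : ℝ) : ℝ) = -1 := by
    rcases hs with h | h <;> rw [h] <;> simp
  have hσt : ((if true then -1 else 1) * (![1, 1, -1, -1] k : ℝ) : ℝ) = 1 ∨ ((if true then -1 else 1) * (![1, 1, -1, -1] k : ℝ) : ℝ) = -1 := by
    rcases hs with h | h <;> rw [h] <;> simp
  obtain ⟨zy, c, N, yp, yc, hrow, r1, r2, p1, p2, c1, c2, hzy⟩ := scr99a_rows (y0 := (Λ.cen k j).2) hδ hg0 hg hw40 hδR m hm4 hσf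
  obtain ⟨zy', c', N', yp', yc', hrow', r1', r2', p1', p2', c1', c2', hzy'⟩ :=
    scr99a_rows (y0 := (Λ.cen k j).2) hδ hg0 hg hw40 hδR m hm4 hσt
  -- columns
  have A1 : (Λ.cen k j).1 - Λ.wh / 2 ≤ δ * (⌈((Λ.cen k j).1 - Λ.wh / 2) / δ⌉ : ℤ) := by
    have := Int.le_ceil (((Λ.cen k j).1 - Λ.wh / 2) / δ)
    rw [div_le_iff₀ hδ] at this; linarith
  have A2 : δ * (⌈((Λ.cen k j).1 - Λ.wh / 2) / δ⌉ : ℤ) < (Λ.cen k j).1 - Λ.wh / 2 + δ := by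
    have := Int.ceil_lt_add_one (((Λ.cen k j).1 - Λ.wh / 2) / δ)
    have e : ((Λ.cen k j).1 - Λ.wh / 2) / δ + 1 = ((Λ.cen k j).1 - Λ.wh / 2 + δ) / δ := by field_simp
    rw [e, lt_div_iff₀ hδ] at this; linarith
  have E1 : δ * (⌊((Λ.cen k j).1 + Λ.wh / 2) / δ⌋ : ℤ) ≤ (Λ.cen k j).1 + Λ.wh / 2 := by
    have := Int.floor_le (((Λ.cen k j).1 + Λ.wh / 2) / δ)
    rw [le_div_iff₀ hδ] at this; linarith
  have E2 : (Λ.cen k j).1 + Λ.wh / 2 - δ < δ * (⌊((Λ.cen k j).1 + Λ.wh / 2) / δ⌋ : ℤ) := by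
    have := Int.lt_floor_add_one (((Λ.cen k j).1 + Λ.wh / 2) / δ)
    rw [div_lt_iff₀ hδ] at this; linarith
  set a : ℤ := ⌈((Λ.cen k j).1 - Λ.wh / 2) / δ⌉ with ha
  set e : ℤ := ⌊((Λ.cen k j).1 + Λ.wh / 2) / δ⌋ with he
  have hae : a + 3 * n ≤ e := by
    have : δ * ((a : ℝ) + 3 * n) ≤ δ * (e : ℝ) := by linarith
    have := le_of_mul_le_mul_left this hδ
    exact_mod_cast this
  have hzx : |δ * ((a - m : ℤ) : ℝ) - (Λ.cen k j).1| ≤ Λ.wh + δ + m * δ := by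
    push_cast
    rw [abs_le]
    constructor <;> linarith
  have hzx' : |δ * ((e + m : ℤ) : ℝ) - (Λ.cen k j).1| ≤ Λ.wh + δ + m * δ := by
    push_cast
    rw [abs_le]
    constructor <;> linarith
  have hdist : ∀ z : ℤ × ℤ, |δ * (z.1 : ℝ) - (Λ.cen k j).1| ≤ Λ.wh + δ + m * δ → |δ * (z.2 : ℝ) - (Λ.cen k j).2| ≤ Λ.wh + δ + m * δ →
      ∀ f ∈ rswBox z ((K + 3) * n), dist (scr232P δ f) (Λ.cen k j) < Λ.Rt := by
    intro z h1 h2 f hf
    have := scr99a_box_dist hδ (Λ.cen k j) z ((K + 3) * n) h1 h2 hf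
    rw [h3δ, hmδ] at this
    linarith
  have hinF : ∀ z : ℤ × ℤ, (∀ f ∈ rswBox z ((K + 3) * n), dist (scr232P δ f) (Λ.cen k j) < Λ.Rt) → rswBox z ((K + 3) * n) ⊆ F := by
    intro z h f hf
    refine hfit f (Metric.mem_closedBall.2 ?_)
    have := dist_triangle (scr232P δ f) (Λ.cen k j) Λ.z
    have := scr99s_cen_in hΛ k hj
    have := h f hf
    linarith
  have hinU : ∀ z : ℤ × ℤ, (∀ f ∈ rswBox z ((K + 3) * n), dist (scr232P δ f) (Λ.cen k j) < Λ.Rt) →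
      ∀ f ∈ rswBox z ((K + 3) * n), scr232P δ f ∈ Metric.ball (Λ.cen k j) (3 / 2 * Λ.Rt) := by
    intro z h f hf
    refine Metric.mem_ball.2 ?_
    have := h f hf
    linarith
  have hd1 := hdist (a - m, zy) hzx hzy
  have hd2 := hdist (e + m, zy') hzx' hzy'
  refine ⟨n, (a - m, zy), (e + m, zy'), by omega, hinF _ hd1, hinF _ hd2, hinU _ hd1, hinU _ hd2, ?_, ?_⟩
  · rw [Finset.disjoint_left]
    intro f hf hf'
    rw [scr99s_mem_box] at hf hf'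
    have u1 := hf.1.1
    have u2 := hf'.1.2
    simp only at u1 u2
    rw [hm] at u1 u2
    push_cast at u1 u2
    linarith
  · intro ω hS hS' b
    cases b
    · obtain ⟨x, x', x1, x2, x3, x4, hpath⟩ := scr62_tube (by omega) (hinF _ hd1) hS c N r1 r2 a (Or.inl (by show a = a - m + m; ring))
      refine scr99a_arm1 hΛ k hj false rfl hδ hδR ω a c n N A1 ?_ yp yc hrow p1 p2 c1 c2 x x' ⟨x1, x2⟩ ⟨x3, x4⟩ hpath
      linarith
    · obtain ⟨x, x', x1, x2, x3, x4, hpath⟩ := scr62_tube (by omega) (hinF _ hd2) hS' c' N' r1' r2' (e - n)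
        (Or.inr (by show e - n = e + m - ((K + 2) * n : ℕ); rw [hm]; push_cast; ring))
      refine scr99a_arm1 hΛ k hj true rfl hδ hδR ω (e - n) c' n N' ?_ ?_ yp' yc' hrow' p1' p2' c1' c2' x x' ⟨x1, x2⟩ ⟨x3, x4⟩ hpath
      · push_cast; linarith
      · push_cast; linarith

/-- **(a) TWO TUBES IS PROVED** from (S1) `exit_mdl_circ` with the ratio parameter `K = ⌈2 / q⌉₊`, twice. -/
theorem scr99a_arm (t : ℝ) (ht1 : 1 / 2 ≤ t) (ht2 : t < 1) : ScrShArm t := by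
  classical
  have h0 : (0 : ℝ) < t := by linarith
  choose pK hpK n0 hS1 using fun K : ℕ => exit_mdl_circ t ht1 ht2 K
  refine ⟨fun q => min 1 (pK ⌈2 / q⌉₊ * pK ⌈2 / q⌉₊), fun q _ => ⟨lt_min one_pos (mul_pos (hpK _) (hpK _)), min_le_left _ _⟩, ?_⟩
  intro Λ hΛ
  obtain ⟨δ₀, hδ₀, hdet⟩ := scr99a_det hΛ (n0 ⌈2 / Λ.q⌉₊)
  refine ⟨δ₀, hδ₀, fun δ hδ hδ' F hF hfit k j hj L hL => ?_⟩
  obtain ⟨n, z, z', hn, hz, hz', hU, hU', hd, htr⟩ := hdet δ hδ hδ' F hfit k j hj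
  have h2 := scr99a_two h0 ht2.le (K := ⌈2 / Λ.q⌉₊) (n := n) (hpK ⌈2 / Λ.q⌉₊).le (F := F)
    (fun z L hz hL => hS1 ⌈2 / Λ.q⌉₊ n hn F z true true L hF hz hL) hL hz hz' hU hU' hd
  calc min 1 (pK ⌈2 / Λ.q⌉₊ * pK ⌈2 / Λ.q⌉₊) * rswP t F true L ≤ pK ⌈2 / Λ.q⌉₊ * pK ⌈2 / Λ.q⌉₊ * rswP t F true L :=
        mul_le_mul_of_nonneg_right (min_le_right _ _) (rsb_P_nonneg h0 ht2.le F true L)
    _ ≤ _ := h2
    _ ≤ _ := rsb_P_mono h0 ht2.le fun ω _ _ h => ⟨h.1, htr ω h.2.1 h.2.2⟩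

/-- **(SHIELD) = `scr_cut_shield` of Screen/Cut229c, VERBATIM, no hypothesis** (owes only the exits (S0) `exit_mdl_cmp`, (S1) `exit_mdl_circ`). -/
theorem scr99a_shield (t : ℝ) (ht1 : 1 / 2 ≤ t) (ht2 : t < 1) :
    ∃ p η : ℝ → ℝ, (∀ q, 0 < q → 0 < p q ∧ p q ≤ 1) ∧ Tendsto η (𝓝[>] 0) (𝓝 0) ∧ ∀ Λ : ScrLay, Λ.Ok →
      ∃ δ₀ : ℝ, 0 < δ₀ ∧ ∀ δ : ℝ, 0 < δ → δ < δ₀ → ∀ F : Finset (ℤ × ℤ), RswJordan F → ScrFits Λ δ F → ∀ k : Fin 4,
        rswP t F true (fun ω => ¬ ScrGapOk Λ δ k ω) ≤ (1 - p Λ.q) ^ Λ.M ∧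
        rswP t F true (fun ω => ScrGapOk Λ δ k ω ∧ ¬ ScrCirc F Λ δ k ω) ≤ η Λ.q :=
  scr99s_shield' t ht1 ht2 (scr99a_arm t ht1 ht2)

end Claimed.Agent.R292
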