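import Claimed.Agent.R292.Rsw.Cut91
import Claimed.Agent.R292.Rsw.Expl107
import Claimed.Agent.R291.Tool.Online

/-!
# Row 292 (S0540), Screen/Tv91 : (TV) THE BRIDGE PINS ARE NOT FELT BEYOND A PLUS CIRCUIT      (pen helper91; prefix `scr91_`, `Scr91`)

TEX 05-screening, lem:screen-bridge-coupling, first paragraph ("monotone stopping coupling, searching outward from the newly pinned hole"), WITHOUT coupling:
`ol_main` of R291/Tool/Online on joint records.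

* `Scr91Rec` a record `(VS, VO, π)`: revealed sites, revealed edges, their values; `Ev` its event.
* `scr91U F H r` the faces reached from the hole `H` across edges which the record KNOWS to be not good (plus).
* `Scr91Cmp t F P` THE ONLY INPUT FROM (CMP): ordered legal records, the upper one with the plus pins `P`: increasing functions are ordered.
* **`scr91_tv_chain`** (§K) several holes: `|μ(A | ξ) - μ(A | ξ, all pins)| ≤ 2 Σ_k μ(no plus circuit around hole k | ξ)`; earlier pins are absorbed in the record (`Scr91Rec.pin`).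
* **`scr91_tv_one`** one hole: `|μ(A | ξ, pins) - μ(A | ξ)| ≤ 2 μ(no plus circuit between H and the complement of B | ξ)`, `A` reading off `B`.
-/

set_option autoImplicit false
set_option linter.unusedSimpArgs false
set_option linter.unusedVariables false

namespace Claimed.Agent.R292

open Claims Claims.C0468
open Claimed.Agent.R291

/-! ## §A `rswSum` as a positive linear functional -/

theorem scr91_sum_add (t : ℝ) (F : Finset (ℤ × ℤ)) (b : Bool) (X Y : RswCfg → ℝ) :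
    rswSum t F b (fun ω => X ω + Y ω) = rswSum t F b X + rswSum t F b Y := by
  unfold rswSum
  simp only [mul_add, Finset.sum_add_distrib]

theorem scr91_sum_neg (t : ℝ) (F : Finset (ℤ × ℤ)) (b : Bool) (X : RswCfg → ℝ) :
    rswSum t F b (fun ω => - X ω) = - rswSum t F b X := by
  unfold rswSum
  simp only [mul_neg, Finset.sum_neg_distrib]

/-! ## §B records -/

/-- a record: revealed sites, revealed edges, their values -/
structure Scr91Rec where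
  VS : Finset (ℤ × ℤ)
  VO : Finset ((ℤ × ℤ) × Bool)
  π : RswCfg

/-- the event of a record -/
def Scr91Rec.Ev (r : Scr91Rec) (ω : RswCfg) : Prop :=
  (∀ v ∈ r.VS, (v ∈ ω.S ↔ v ∈ r.π.S)) ∧ ∀ e ∈ r.VO, (e ∈ ω.O ↔ e ∈ r.π.O)

/-- an edge is revealed only after its two ends -/
def Scr91Rec.Legal (r : Scr91Rec) : Prop := ∀ e ∈ r.VO, e.1 ∈ r.VS ∧ rswEnd e ∈ r.VS

/-- reveal the site `v` with the value `k` -/
def Scr91Rec.addS (r : Scr91Rec) (v : ℤ × ℤ) (k : Bool) : Scr91Rec :=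
  ⟨insert v r.VS, r.VO, ⟨if k = true then insert v r.π.S else r.π.S.erase v, r.π.D, r.π.O⟩⟩

/-- reveal the edge `e` with the value `k` -/
def Scr91Rec.addO (r : Scr91Rec) (e : (ℤ × ℤ) × Bool) (k : Bool) : Scr91Rec :=
  ⟨r.VS, insert e r.VO, ⟨r.π.S, r.π.D, if k = true then insert e r.π.O else r.π.O.erase e⟩⟩

theorem scr91_addS_mem (r : Scr91Rec) (v : ℤ × ℤ) (k : Bool) : (v ∈ (r.addS v k).π.S ↔ k = true) := by
  unfold Scr91Rec.addS
  cases k <;> simp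

theorem scr91_addS_mem_ne (r : Scr91Rec) {v u : ℤ × ℤ} (k : Bool) (h : u ≠ v) :
    (u ∈ (r.addS v k).π.S ↔ u ∈ r.π.S) := by
  unfold Scr91Rec.addS
  cases k <;> simp [h]

theorem scr91_addO_mem (r : Scr91Rec) (e : (ℤ × ℤ) × Bool) (k : Bool) :
    (e ∈ (r.addO e k).π.O ↔ k = true) := by
  unfold Scr91Rec.addO
  cases k <;> simp

theorem scr91_addO_mem_ne (r : Scr91Rec) {e u : (ℤ × ℤ) × Bool} (k : Bool) (h : u ≠ e) :
    (u ∈ (r.addO e k).π.O ↔ u ∈ r.π.O) := by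
  unfold Scr91Rec.addO
  cases k <;> simp [h]

theorem scr91_ev_addS (r : Scr91Rec) {v : ℤ × ℤ} (hv : v ∉ r.VS) (k : Bool) (ω : RswCfg) :
    ((r.addS v k).Ev ω ↔ r.Ev ω ∧ (v ∈ ω.S ↔ k = true)) := by
  have hne : ∀ u ∈ r.VS, u ≠ v := fun u hu h => hv (h ▸ hu)
  constructor
  · rintro ⟨h1, h2⟩
    refine ⟨⟨fun u hu => ?_, h2⟩, ?_⟩
    · rw [h1 u (Finset.mem_insert_of_mem hu), scr91_addS_mem_ne r k (hne u hu)]
    · rw [h1 v (Finset.mem_insert_self v _), scr91_addS_mem]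
  · rintro ⟨⟨h1, h2⟩, h3⟩
    refine ⟨fun u hu => ?_, h2⟩
    rcases Finset.mem_insert.1 hu with rfl | hu
    · rw [h3, scr91_addS_mem]
    · rw [h1 u hu, scr91_addS_mem_ne r k (hne u hu)]

theorem scr91_ev_addO (r : Scr91Rec) {e : (ℤ × ℤ) × Bool} (he : e ∉ r.VO) (k : Bool) (ω : RswCfg) :
    ((r.addO e k).Ev ω ↔ r.Ev ω ∧ (e ∈ ω.O ↔ k = true)) := by
  have hne : ∀ u ∈ r.VO, u ≠ e := fun u hu h => he (h ▸ hu)
  constructor
  · rintro ⟨h1, h2⟩
    refine ⟨⟨h1, fun u hu => ?_⟩, ?_⟩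
    · rw [h2 u (Finset.mem_insert_of_mem hu), scr91_addO_mem_ne r k (hne u hu)]
    · rw [h2 e (Finset.mem_insert_self e _), scr91_addO_mem]
  · rintro ⟨⟨h1, h2⟩, h3⟩
    refine ⟨h1, fun u hu => ?_⟩
    rcases Finset.mem_insert.1 hu with rfl | hu
    · rw [h3, scr91_addO_mem]
    · rw [h2 u hu, scr91_addO_mem_ne r k (hne u hu)]

/-! ## §C conditional expectations given a record, under a mask -/

/-- unnormalised: mask `m`, record `r`, observable `A` -/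
noncomputable def scr91N (t : ℝ) (F : Finset (ℤ × ℤ)) (m : RswCfg → ℝ) (r : Scr91Rec) (A : RswCfg → ℝ) : ℝ :=
  rswSum t F true (fun ω => m ω * rsxInd (r.Ev ω) * A ω)

/-- normalised -/
noncomputable def scr91e (t : ℝ) (F : Finset (ℤ × ℤ)) (m : RswCfg → ℝ) (A : RswCfg → ℝ) (r : Scr91Rec) : ℝ :=
  scr91N t F m r A / scr91N t F m r (fun _ => 1)

theorem scr91_N_nonneg {t : ℝ} (h0 : 0 ≤ t) (h1 : t ≤ 1) (F : Finset (ℤ × ℤ)) {m : RswCfg → ℝ}
    (hm : ∀ ω, 0 ≤ m ω) (r : Scr91Rec) {A : RswCfg → ℝ} (hA : ∀ ω, 0 ≤ A ω) : 0 ≤ scr91N t F m r A :=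
  rsx_sum_nonneg h0 h1 F true (fun ω => mul_nonneg (mul_nonneg (hm ω) (rsx_ind_nonneg _)) (hA ω))

theorem scr91_N_abs_le {t : ℝ} (h0 : 0 ≤ t) (h1 : t ≤ 1) (F : Finset (ℤ × ℤ)) {m : RswCfg → ℝ}
    (hm : ∀ ω, 0 ≤ m ω) (r : Scr91Rec) {A : RswCfg → ℝ} (hA : ∀ ω, |A ω| ≤ 1) :
    |scr91N t F m r A| ≤ scr91N t F m r (fun _ => 1) := by
  have hnn : ∀ ω, 0 ≤ m ω * rsxInd (r.Ev ω) := fun ω => mul_nonneg (hm ω) (rsx_ind_nonneg _)
  rw [abs_le]
  constructor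
  · unfold scr91N
    rw [← scr91_sum_neg]
    refine rsx_sum_mono h0 h1 F true (fun ω => ?_)
    have := (abs_le.1 (hA ω)).1
    nlinarith [hnn ω]
  · refine rsx_sum_mono h0 h1 F true (fun ω => ?_)
    have := (abs_le.1 (hA ω)).2
    nlinarith [hnn ω]

theorem scr91_e_abs_le {t : ℝ} (h0 : 0 ≤ t) (h1 : t ≤ 1) (F : Finset (ℤ × ℤ)) {m : RswCfg → ℝ}
    (hm : ∀ ω, 0 ≤ m ω) (r : Scr91Rec) {A : RswCfg → ℝ} (hA : ∀ ω, |A ω| ≤ 1) :
    |scr91e t F m A r| ≤ 1 := by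
  unfold scr91e
  have h := scr91_N_abs_le h0 h1 F hm r hA
  have hn : 0 ≤ scr91N t F m r (fun _ => 1) := (abs_nonneg _).trans h
  rw [abs_div, abs_of_nonneg hn]
  exact div_le_one_of_le₀ h hn

/-- a Bool valued query `T` splits the record `r` into `c true`, `c false` -/
def Scr91Split (r : Scr91Rec) (c : Bool → Scr91Rec) (T : RswCfg → Prop) : Prop :=
  ∀ k ω, ((c k).Ev ω ↔ r.Ev ω ∧ (T ω ↔ k = true))

theorem scr91_split_ind {r : Scr91Rec} {c : Bool → Scr91Rec} {T : RswCfg → Prop} (h : Scr91Split r c T)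
    (ω : RswCfg) : rsxInd (r.Ev ω) = rsxInd ((c true).Ev ω) + rsxInd ((c false).Ev ω) := by
  by_cases hr : r.Ev ω
  · by_cases hT : T ω
    · rw [rsx_ind_pos hr, rsx_ind_pos ((h true ω).2 ⟨hr, by simp [hT]⟩),
        rsx_ind_neg (fun h' => by have := ((h false ω).1 h').2; simp [hT] at this)]
      norm_num
    · rw [rsx_ind_pos hr, rsx_ind_neg (fun h' => by have := ((h true ω).1 h').2; simp [hT] at this),
        rsx_ind_pos ((h false ω).2 ⟨hr, by simp [hT]⟩)]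
      norm_num
  · rw [rsx_ind_neg hr, rsx_ind_neg (fun h' => hr ((h true ω).1 h').1),
      rsx_ind_neg (fun h' => hr ((h false ω).1 h').1)]
    norm_num

theorem scr91_N_split (t : ℝ) (F : Finset (ℤ × ℤ)) (m : RswCfg → ℝ) {r : Scr91Rec} {c : Bool → Scr91Rec}
    {T : RswCfg → Prop} (h : Scr91Split r c T) (A : RswCfg → ℝ) :
    scr91N t F m r A = scr91N t F m (c true) A + scr91N t F m (c false) A := by
  unfold scr91N
  rw [← scr91_sum_add]
  refine rsx_sum_congr t F true (fun ω => ?_)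
  rw [scr91_split_ind h ω]
  ring

/-- the tower property -/
theorem scr91_tower {t : ℝ} (h0 : 0 ≤ t) (h1 : t ≤ 1) (F : Finset (ℤ × ℤ)) {m : RswCfg → ℝ}
    (hm : ∀ ω, 0 ≤ m ω) {r : Scr91Rec} {c : Bool → Scr91Rec} {T : RswCfg → Prop} (h : Scr91Split r c T)
    {A : RswCfg → ℝ} (hA : ∀ ω, |A ω| ≤ 1) :
    scr91e t F m A r = ∑ k : Bool,
      (scr91N t F m (c k) (fun _ => 1) / scr91N t F m r (fun _ => 1)) * scr91e t F m A (c k) := by
  have key : ∀ k, (scr91N t F m (c k) (fun _ => 1) / scr91N t F m r (fun _ => 1)) * scr91e t F m A (c k)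
      = scr91N t F m (c k) A / scr91N t F m r (fun _ => 1) := by
    intro k
    unfold scr91e
    by_cases hz : scr91N t F m (c k) (fun _ => 1) = 0
    · have := scr91_N_abs_le h0 h1 F hm (c k) hA
      rw [hz] at this
      have h2 : scr91N t F m (c k) A = 0 := abs_eq_zero.1 (le_antisymm this (abs_nonneg _))
      rw [hz, h2]; simp
    · field_simp
  rw [Fintype.sum_bool, key, key, ← add_div, ← scr91_N_split t F m h A]
  rfl

/-! ## §D the faces reached from the hole -/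

/-- the record knows that `e` is not a good plus edge -/
def Scr91Rec.Bad (r : Scr91Rec) (e : (ℤ × ℤ) × Bool) : Prop :=
  (e ∈ r.VO ∧ e ∉ r.π.O) ∨ (e.1 ∈ r.VS ∧ e.1 ∉ r.π.S) ∨ (rswEnd e ∈ r.VS ∧ rswEnd e ∉ r.π.S)

/-- a dual step across an edge known to be not good -/
def scr91Step (F : Finset (ℤ × ℤ)) (r : Scr91Rec) (f g : ℤ × ℤ) : Prop :=
  f ∈ F ∧ g ∈ F ∧ ∃ e : (ℤ × ℤ) × Bool, ((f = e.1 ∧ g = rswCo e) ∨ (g = e.1 ∧ f = rswCo e)) ∧ r.Bad e

/-- the faces reached from `H` -/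
noncomputable def scr91U (F H : Finset (ℤ × ℤ)) (r : Scr91Rec) : Finset (ℤ × ℤ) :=
  @Finset.filter _ (fun g => ∃ f ∈ H, Relation.ReflTransGen (scr91Step F r) f g)
    (fun _ => Classical.propDecidable _) F

theorem scr91_mem_U {F H : Finset (ℤ × ℤ)} {r : Scr91Rec} {g : ℤ × ℤ} :
    g ∈ scr91U F H r ↔ g ∈ F ∧ ∃ f ∈ H, Relation.ReflTransGen (scr91Step F r) f g := by
  unfold scr91U
  exact @Finset.mem_filter _ _ (fun _ => Classical.propDecidable _) _ _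

theorem scr91_U_sub (F H : Finset (ℤ × ℤ)) (r : Scr91Rec) : scr91U F H r ⊆ F :=
  fun _ hg => (scr91_mem_U.1 hg).1

theorem scr91_H_sub_U {F H : Finset (ℤ × ℤ)} (hH : H ⊆ F) (r : Scr91Rec) : H ⊆ scr91U F H r :=
  fun f hf => scr91_mem_U.2 ⟨hH hf, f, hf, Relation.ReflTransGen.refl⟩

theorem scr91_U_step {F H : Finset (ℤ × ℤ)} {r : Scr91Rec} {f g : ℤ × ℤ} (hf : f ∈ scr91U F H r)
    (h : scr91Step F r f g) : g ∈ scr91U F H r := by
  obtain ⟨_, f0, hf0, hr⟩ := scr91_mem_U.1 hf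
  exact scr91_mem_U.2 ⟨h.2.1, f0, hf0, hr.tail h⟩

theorem scr91_U_mono {F H : Finset (ℤ × ℤ)} {r r' : Scr91Rec} (h : ∀ e, r.Bad e → r'.Bad e) :
    scr91U F H r ⊆ scr91U F H r' := by
  intro g hg
  obtain ⟨hgF, f0, hf0, hr⟩ := scr91_mem_U.1 hg
  refine scr91_mem_U.2 ⟨hgF, f0, hf0, hr.lift id ?_⟩
  rintro a b ⟨h1, h2, e, h3, h4⟩
  exact ⟨h1, h2, e, h3, h e h4⟩

theorem scr91_bad_not_good {r : Scr91Rec} {ω : RswCfg} (hω : r.Ev ω) {e : (ℤ × ℤ) × Bool}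
    (h : r.Bad e) : ¬ RswGood true ω e := by
  rintro ⟨g1, g2, g3⟩
  rcases h with ⟨h1, h2⟩ | ⟨h1, h2⟩ | ⟨h1, h2⟩
  · exact h2 ((hω.2 e h1).1 g1)
  · exact h2 ((hω.1 _ h1).1 (g2.2 rfl))
  · exact h2 ((hω.1 _ h1).1 (g3.2 rfl))

/-- a reached face off `B` kills the separation -/
theorem scr91_U_fail {F H B' : Finset (ℤ × ℤ)} {r : Scr91Rec} {ω : RswCfg} (hω : r.Ev ω) {g : ℤ × ℤ}
    (hg : g ∈ scr91U F H r) (hgB : g ∈ B') : ¬ RswSep F true ω H B' := by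
  intro hsep
  obtain ⟨_, f0, hf0, hr⟩ := scr91_mem_U.1 hg
  refine hsep f0 hf0 g hgB (hr.lift id ?_)
  rintro a b ⟨h1, h2, e, h3, h4⟩
  exact ⟨h1, h2, e, h3, scr91_bad_not_good hω h4⟩

theorem scr91_bad_addS {r : Scr91Rec} {v : ℤ × ℤ} (hv : v ∉ r.VS) (k : Bool) {e : (ℤ × ℤ) × Bool}
    (h : r.Bad e) : (r.addS v k).Bad e := by
  rcases h with ⟨h1, h2⟩ | ⟨h1, h2⟩ | ⟨h1, h2⟩
  · exact Or.inl ⟨h1, h2⟩
  · refine Or.inr (Or.inl ⟨Finset.mem_insert_of_mem h1, ?_⟩)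
    rw [scr91_addS_mem_ne r (v := v) (u := e.1) k (fun h => hv (h ▸ h1))]; exact h2
  · refine Or.inr (Or.inr ⟨Finset.mem_insert_of_mem h1, ?_⟩)
    rw [scr91_addS_mem_ne r (v := v) (u := rswEnd e) k (fun h => hv (h ▸ h1))]; exact h2

theorem scr91_bad_addO {r : Scr91Rec} {e0 : (ℤ × ℤ) × Bool} (he0 : e0 ∉ r.VO) (k : Bool)
    {e : (ℤ × ℤ) × Bool} (h : r.Bad e) : (r.addO e0 k).Bad e := by
  rcases h with ⟨h1, h2⟩ | ⟨h1, h2⟩ | ⟨h1, h2⟩
  · refine Or.inl ⟨Finset.mem_insert_of_mem h1, ?_⟩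
    rw [scr91_addO_mem_ne r (e := e0) (u := e) k (fun h => he0 (h ▸ h1))]; exact h2
  · exact Or.inr (Or.inl ⟨h1, h2⟩)
  · exact Or.inr (Or.inr ⟨h1, h2⟩)

/-! ## §E the order of records, the input from (CMP), admissible joint records -/

/-- ordered records on the same revealed sets, order `(s, W⁺, -W⁻)` -/
def Scr91Le (r₁ r₂ : Scr91Rec) : Prop :=
  r₁.VS = r₂.VS ∧ r₁.VO = r₂.VO ∧ (∀ v ∈ r₁.VS, v ∈ r₁.π.S → v ∈ r₂.π.S) ∧
    (∀ e ∈ r₁.VO, RswGood true r₁.π e → RswGood true r₂.π e) ∧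
    (∀ e ∈ r₁.VO, RswGood false r₂.π e → RswGood false r₁.π e)

/-- increasing in the order `(s, W⁺, -W⁻)` -/
def Scr91Inc (f : RswCfg → ℝ) : Prop :=
  ∀ ω ω' : RswCfg, ω.S ⊆ ω'.S → (∀ e, RswGood true ω e → RswGood true ω' e) →
    (∀ e, RswGood false ω' e → RswGood false ω e) → f ω ≤ f ω'

/-- the mask of the plus pins `P` -/
noncomputable def scr91Pin (P : Finset ((ℤ × ℤ) × Bool)) (ω : RswCfg) : ℝ :=
  rsxInd (∀ e ∈ P, RswGood true ω e)

theorem scr91_pin_nonneg (P : Finset ((ℤ × ℤ) × Bool)) (ω : RswCfg) : 0 ≤ scr91Pin P ω := rsx_ind_nonneg _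

/-- **THE INPUT FROM (CMP)** (TEX prop:comparison): legal ordered records, plus pins in the upper law -/
def Scr91Cmp (t : ℝ) (F : Finset (ℤ × ℤ)) (P : Finset ((ℤ × ℤ) × Bool)) : Prop :=
  ∀ r₁ r₂ : Scr91Rec, r₁.Legal → r₂.Legal → Scr91Le r₁ r₂ → ∀ f : RswCfg → ℝ, Scr91Inc f → (∀ ω, 0 ≤ f ω) →
    scr91N t F (fun _ => 1) r₁ f * scr91N t F (scr91Pin P) r₂ (fun _ => 1) ≤
      scr91N t F (scr91Pin P) r₂ f * scr91N t F (fun _ => 1) r₁ (fun _ => 1)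

/-- admissible joint records -/
structure Scr91Adm (t : ℝ) (F H : Finset (ℤ × ℤ)) (P : Finset ((ℤ × ℤ) × Bool)) (r₁ r₂ : Scr91Rec) : Prop where
  leg₁ : r₁.Legal
  leg₂ : r₂.Legal
  le : Scr91Le r₁ r₂
  invS : ∀ v ∈ r₁.VS, (v ∈ r₁.π.S ↔ v ∈ r₂.π.S) ∨ v ∈ cornersOf (scr91U F H r₁)
  invO : ∀ e ∈ r₁.VO, (e ∈ r₁.π.O ↔ e ∈ r₂.π.O) ∨ e.1 ∈ scr91U F H r₁ ∨ rswCo e ∈ scr91U F H r₁
  pos₁ : 0 < scr91N t F (fun _ => 1) r₁ (fun _ => 1)
  pos₂ : 0 < scr91N t F (scr91Pin P) r₂ (fun _ => 1)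

/-- the rank: what is left to reveal -/
def scr91Rk (F : Finset (ℤ × ℤ)) (r : Scr91Rec) : ℕ :=
  (cornersOf F \ r.VS).card + (rswInt F \ r.VO).card

theorem scr91_rk_addS {F : Finset (ℤ × ℤ)} {r : Scr91Rec} {v : ℤ × ℤ} (hv : v ∉ r.VS)
    (hvF : v ∈ cornersOf F) (k : Bool) : scr91Rk F (r.addS v k) < scr91Rk F r := by
  unfold scr91Rk
  have : (cornersOf F \ (r.addS v k).VS).card < (cornersOf F \ r.VS).card := by
    apply Finset.card_lt_card
    rw [Finset.ssubset_iff_of_subset]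
    · exact ⟨v, Finset.mem_sdiff.2 ⟨hvF, hv⟩, fun h => (Finset.mem_sdiff.1 h).2 (Finset.mem_insert_self v _)⟩
    · exact Finset.sdiff_subset_sdiff le_rfl (Finset.subset_insert v _)
  have h2 : (r.addS v k).VO = r.VO := rfl
  rw [h2]
  omega

theorem scr91_rk_addO {F : Finset (ℤ × ℤ)} {r : Scr91Rec} {e : (ℤ × ℤ) × Bool} (he : e ∉ r.VO)
    (heF : e ∈ rswInt F) (k : Bool) : scr91Rk F (r.addO e k) < scr91Rk F r := by
  unfold scr91Rk
  have : (rswInt F \ (r.addO e k).VO).card < (rswInt F \ r.VO).card := by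
    apply Finset.card_lt_card
    rw [Finset.ssubset_iff_of_subset]
    · exact ⟨e, Finset.mem_sdiff.2 ⟨heF, he⟩, fun h => (Finset.mem_sdiff.1 h).2 (Finset.mem_insert_self e _)⟩
    · exact Finset.sdiff_subset_sdiff le_rfl (Finset.subset_insert e _)
  have h2 : (r.addO e k).VS = r.VS := rfl
  rw [h2]
  omega

/-! ## §F the stop at a revealed plus cut -/

/-- the part of the record strictly inside `U` -/
noncomputable def scr91X (U : Finset (ℤ × ℤ)) (r : Scr91Rec) (ω : RswCfg) : ℝ :=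
  rsxInd ((∀ v ∈ r.VS, v ∈ rskCore U → (v ∈ ω.S ↔ v ∈ r.π.S)) ∧
    ∀ e ∈ r.VO, e ∈ rswInt U → (e ∈ ω.O ↔ e ∈ r.π.O))

/-- the rest of the record -/
noncomputable def scr91Y (U : Finset (ℤ × ℤ)) (r : Scr91Rec) (ω : RswCfg) : ℝ :=
  rsxInd ((∀ v ∈ r.VS, v ∉ rskCore U → (v ∈ ω.S ↔ v ∈ r.π.S)) ∧
    ∀ e ∈ r.VO, e ∉ rswInt U → (e ∈ ω.O ↔ e ∈ r.π.O))

theorem scr91_ind_and (p q : Prop) : rsxInd (p ∧ q) = rsxInd p * rsxInd q := by
  by_cases hp : p <;> by_cases hq : q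
  · rw [rsx_ind_pos hp, rsx_ind_pos hq, rsx_ind_pos ⟨hp, hq⟩]; norm_num
  · rw [rsx_ind_neg hq, rsx_ind_neg (fun h => hq h.2)]; norm_num
  · rw [rsx_ind_neg hp, rsx_ind_neg (fun h => hp h.1)]; norm_num
  · rw [rsx_ind_neg hp, rsx_ind_neg (fun h => hp h.1)]; norm_num

theorem scr91_ev_XY (U : Finset (ℤ × ℤ)) (r : Scr91Rec) (ω : RswCfg) :
    rsxInd (r.Ev ω) = scr91X U r ω * scr91Y U r ω := by
  unfold scr91X scr91Y
  rw [← scr91_ind_and]
  refine rsx_ind_congr ⟨fun h => ⟨⟨fun v hv _ => h.1 v hv, fun e he _ => h.2 e he⟩,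
    ⟨fun v hv _ => h.1 v hv, fun e he _ => h.2 e he⟩⟩, fun h => ⟨fun v hv => ?_, fun e he => ?_⟩⟩
  · by_cases hc : v ∈ rskCore U
    · exact h.1.1 v hv hc
    · exact h.2.1 v hv hc
  · by_cases hc : e ∈ rswInt U
    · exact h.1.2 e he hc
    · exact h.2.2 e he hc

theorem scr91_in_S {U : Finset (ℤ × ℤ)} {ω : RswCfg} {v : ℤ × ℤ} (hv : v ∈ cornersOf U) :
    (v ∈ (rskIn U ω).S ↔ v ∈ ω.S) := by
  simp only [rskIn, Finset.mem_inter]
  exact ⟨fun h => h.1, fun h => ⟨h, hv⟩⟩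

theorem scr91_in_O {U : Finset (ℤ × ℤ)} {ω : RswCfg} {e : (ℤ × ℤ) × Bool} (he : e ∈ rswInt U) :
    (e ∈ (rskIn U ω).O ↔ e ∈ ω.O) := by
  simp only [rskIn, Finset.mem_inter]
  exact ⟨fun h => h.1, fun h => ⟨h, he⟩⟩

theorem scr91_X_inside (U : Finset (ℤ × ℤ)) (r : Scr91Rec) : RskInside U (scr91X U r) := by
  intro ω
  unfold scr91X
  refine rsx_ind_congr (and_congr (forall_congr' fun v => imp_congr_right fun _ => imp_congr_right fun hc => ?_)
    (forall_congr' fun e => imp_congr_right fun _ => imp_congr_right fun hc => ?_))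
  · rw [scr91_in_S (rsk_core_sub U hc)]
  · rw [scr91_in_O hc]

theorem scr91_Y_outside (U : Finset (ℤ × ℤ)) (r : Scr91Rec) : RskOutside U (scr91Y U r) := by
  intro ω
  unfold scr91Y
  refine rsx_ind_congr (and_congr (forall_congr' fun v => imp_congr_right fun _ => imp_congr_right fun hc => ?_)
    (forall_congr' fun e => imp_congr_right fun _ => imp_congr_right fun hc => ?_))
  · rw [rsk_out_S hc]
  · rw [rsk_out_O hc]

theorem scr91_good_in {U : Finset (ℤ × ℤ)} {ω : RswCfg} {e : (ℤ × ℤ) × Bool} (he : e ∈ rswInt U) (a : Bool) :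
    (RswGood a (rskIn U ω) e ↔ RswGood a ω e) := by
  unfold RswGood
  rw [scr91_in_O he, scr91_in_S (rsk_int_fst he), scr91_in_S (rsk_int_end he)]

theorem scr91_pin_inside {U : Finset (ℤ × ℤ)} {P : Finset ((ℤ × ℤ) × Bool)} (hP : P ⊆ rswInt U) :
    RskInside U (scr91Pin P) := by
  intro ω
  unfold scr91Pin
  exact rsx_ind_congr (forall_congr' fun e => imp_congr_right fun he => scr91_good_in (hP he) true)

/-- the record reveals a plus cut along the polygon of `U` -/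
def Scr91Sealed (U : Finset (ℤ × ℤ)) (r : Scr91Rec) : Prop :=
  ∀ e, RskBd U e → e ∈ r.VO ∧ RswGood true r.π e

theorem scr91_sealed_cut {U : Finset (ℤ × ℤ)} {r : Scr91Rec} (hl : r.Legal) (hs : Scr91Sealed U r)
    {ω : RswCfg} (hω : r.Ev ω) : RswCut U true ω := by
  intro e he
  obtain ⟨h1, g1, g2, g3⟩ := hs e he
  obtain ⟨l1, l2⟩ := hl e h1
  exact ⟨(hω.2 e h1).2 g1, by rw [hω.1 _ l1]; exact g2, by rw [hω.1 _ l2]; exact g3⟩

theorem scr91_ev_cut {U : Finset (ℤ × ℤ)} {r : Scr91Rec} (hl : r.Legal) (hs : Scr91Sealed U r)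
    (ω : RswCfg) : rsxInd (r.Ev ω) = rskInd U true ω * scr91X U r ω * scr91Y U r ω := by
  classical
  by_cases hω : r.Ev ω
  · have hc := scr91_sealed_cut hl hs hω
    unfold rskInd
    rw [if_pos hc, one_mul]
    exact scr91_ev_XY U r ω
  · have := scr91_ev_XY U r ω
    rw [rsx_ind_neg hω] at this ⊢
    rw [mul_assoc, ← this, mul_zero]

theorem scr91_cut_prod' (t : ℝ) {F' F : Finset (ℤ × ℤ)} (hF : F' ⊆ F) (a b : Bool) {X Y : RswCfg → ℝ}
    (hX : RskInside F' X) (hY : RskOutside F' Y) :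
    rswSum t F b (fun ω => rskInd F' a ω * X ω * Y ω) = rswSum t F' a X * rskG t F F' a b Y := by
  have h := rsk_cut_prod t hF a b X Y
  simp only [hX _, hY _] at h
  exact h

/-- the unnormalised sum of a sealed record factorises -/
theorem scr91_N_sealed (t : ℝ) {U F : Finset (ℤ × ℤ)} (hU : U ⊆ F) {m : RswCfg → ℝ} (hm : RskInside U m)
    {r : Scr91Rec} (hl : r.Legal) (hs : Scr91Sealed U r) {A : RswCfg → ℝ} (hA : RskOutside U A) :
    scr91N t F m r A =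
      rswSum t U true (fun ω => m ω * scr91X U r ω) *
        rskG t F U true true (fun ω => scr91Y U r ω * A ω) := by
  rw [← scr91_cut_prod' t hU true true (rsk_inside_mul hm (scr91_X_inside U r))
    (rsk_outside_mul (scr91_Y_outside U r) hA)]
  unfold scr91N
  refine rsx_sum_congr t F true (fun ω => ?_)
  rw [scr91_ev_cut hl hs ω]
  ring

/-- at a revealed plus cut the two conditional expectations agree -/
theorem scr91_stop_eq (t : ℝ) {U F : Finset (ℤ × ℤ)} (hU : U ⊆ F) {m₁ m₂ : RswCfg → ℝ}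
    (hm₁ : RskInside U m₁) (hm₂ : RskInside U m₂) {r₁ r₂ : Scr91Rec} (hl₁ : r₁.Legal) (hl₂ : r₂.Legal)
    (hs₁ : Scr91Sealed U r₁) (hs₂ : Scr91Sealed U r₂) (hY : scr91Y U r₁ = scr91Y U r₂)
    (hp₁ : scr91N t F m₁ r₁ (fun _ => 1) ≠ 0) (hp₂ : scr91N t F m₂ r₂ (fun _ => 1) ≠ 0)
    {A : RswCfg → ℝ} (hA : RskOutside U A) :
    scr91e t F m₁ A r₁ = scr91e t F m₂ A r₂ := by
  unfold scr91e
  rw [scr91_N_sealed t hU hm₁ hl₁ hs₁ (rsk_outside_const U 1)] at hp₁ ⊢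
  rw [scr91_N_sealed t hU hm₂ hl₂ hs₂ (rsk_outside_const U 1)] at hp₂ ⊢
  rw [scr91_N_sealed t hU hm₁ hl₁ hs₁ hA, scr91_N_sealed t hU hm₂ hl₂ hs₂ hA, hY]
  rw [hY] at hp₁
  rw [mul_div_mul_left _ _ (left_ne_zero_of_mul hp₁), mul_div_mul_left _ _ (left_ne_zero_of_mul hp₂)]

/-! ## §G admissible records at a revealed cut -/

theorem scr91_adm_sealed {t : ℝ} {F H : Finset (ℤ × ℤ)} {P : Finset ((ℤ × ℤ) × Bool)} {r₁ r₂ : Scr91Rec}
    (h : Scr91Adm t F H P r₁ r₂) (hs : Scr91Sealed (scr91U F H r₁) r₁) :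
    Scr91Sealed (scr91U F H r₁) r₂ ∧ scr91Y (scr91U F H r₁) r₁ = scr91Y (scr91U F H r₁) r₂ := by
  obtain ⟨hVS, hVO, _, hg, _⟩ := h.le
  have hs₂ : Scr91Sealed (scr91U F H r₁) r₂ := fun e he =>
    ⟨hVO ▸ (hs e he).1, hg e (hs e he).1 (hs e he).2⟩
  refine ⟨hs₂, ?_⟩
  have hc₁ : RswCut (scr91U F H r₁) true r₁.π := fun e he => (hs e he).2
  have hc₂ : RswCut (scr91U F H r₁) true r₂.π := fun e he => (hs₂ e he).2
  have hagS : ∀ v ∈ r₁.VS, v ∉ rskCore (scr91U F H r₁) → (v ∈ r₁.π.S ↔ v ∈ r₂.π.S) := by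
    intro v hv hc
    rcases h.invS v hv with h1 | h1
    · exact h1
    · rw [rsk_cut_rim hc₁ h1 hc, rsk_cut_rim hc₂ h1 hc]
  have hagO : ∀ e ∈ r₁.VO, e ∉ rswInt (scr91U F H r₁) → (e ∈ r₁.π.O ↔ e ∈ r₂.π.O) := by
    intro e he hc
    rcases h.invO e he with h1 | h1
    · exact h1
    · have hb : RskBd (scr91U F H r₁) e := by
        rw [rsk_mem_int] at hc
        unfold RskBd
        by_cases hx : e.1 ∈ scr91U F H r₁ <;> by_cases hy : rswCo e ∈ scr91U F H r₁ <;> simp_all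
      exact ⟨fun _ => (hs₂ e hb).2.1, fun _ => (hs e hb).2.1⟩
  funext ω
  unfold scr91Y
  rw [← hVS, ← hVO]
  refine rsx_ind_congr (and_congr (forall_congr' fun v => imp_congr_right fun hv => imp_congr_right fun hc => ?_)
    (forall_congr' fun e => imp_congr_right fun he => imp_congr_right fun hc => ?_))
  · rw [hagS v hv hc]
  · rw [hagO e he hc]

/-! ## §H one query -/

/-- the indicator of the failure -/
noncomputable def scr91Fail (F H B' : Finset (ℤ × ℤ)) (ω : RswCfg) : ℝ := rsxInd (¬ RswSep F true ω H B')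

theorem scr91_fail_abs (F H B' : Finset (ℤ × ℤ)) (ω : RswCfg) : |scr91Fail F H B' ω| ≤ 1 := by
  unfold scr91Fail
  rw [abs_of_nonneg (rsx_ind_nonneg _)]
  exact rsx_ind_le_one _

theorem scr91_branch {t : ℝ} (h0 : 0 ≤ t) (h1 : t ≤ 1) (F H B' : Finset (ℤ × ℤ))
    (P : Finset ((ℤ × ℤ) × Bool)) {A : RswCfg → ℝ} (hA : ∀ ω, |A ω| ≤ 1) {r₁ r₂ : Scr91Rec}
    (hadm : Scr91Adm t F H P r₁ r₂) {c₁ c₂ : Bool → Scr91Rec} {T : RswCfg → Prop}
    (hs₁ : Scr91Split r₁ c₁ T) (hs₂ : Scr91Split r₂ c₂ T)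
    (hdom : scr91N t F (fun _ => 1) (c₁ true) (fun _ => 1) * scr91N t F (scr91Pin P) r₂ (fun _ => 1) ≤
      scr91N t F (scr91Pin P) (c₂ true) (fun _ => 1) * scr91N t F (fun _ => 1) r₁ (fun _ => 1))
    (hnext : ∀ k k' : Bool, k ≤ k' → 0 < scr91N t F (fun _ => 1) (c₁ k) (fun _ => 1) →
      0 < scr91N t F (scr91Pin P) (c₂ k') (fun _ => 1) →
      Scr91Adm t F H P (c₁ k) (c₂ k') ∧ scr91Rk F (c₁ k) < scr91Rk F r₁) :
    OlBranch.{0} (Scr91Adm t F H P) (scr91Rk F) (scr91e t F (fun _ => 1) A)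
      (fun r => 2 * scr91e t F (fun _ => 1) (scr91Fail F H B') r) (scr91e t F (scr91Pin P) A) r₁ r₂ := by
  have hone : ∀ ω : RswCfg, (0 : ℝ) ≤ (fun _ : RswCfg => (1 : ℝ)) ω := fun _ => zero_le_one
  have hnn₁ : ∀ r, 0 ≤ scr91N t F (fun _ => 1) r (fun _ => 1) := fun r =>
    scr91_N_nonneg h0 h1 F hone r hone
  have hnn₂ : ∀ r, 0 ≤ scr91N t F (scr91Pin P) r (fun _ => 1) := fun r =>
    scr91_N_nonneg h0 h1 F (scr91_pin_nonneg P) r hone
  refine ⟨Bool, inferInstance, inferInstance,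
    fun k => scr91N t F (fun _ => 1) (c₁ k) (fun _ => 1) / scr91N t F (fun _ => 1) r₁ (fun _ => 1),
    fun k => scr91N t F (scr91Pin P) (c₂ k) (fun _ => 1) / scr91N t F (scr91Pin P) r₂ (fun _ => 1),
    c₁, c₂, fun k => div_nonneg (hnn₁ _) (hnn₁ _), fun k => div_nonneg (hnn₂ _) (hnn₂ _), ?_,
    scr91_tower h0 h1 F hone hs₁ hA, scr91_tower h0 h1 F (scr91_pin_nonneg P) hs₂ hA, ?_, ?_⟩
  · intro g hg
    rw [Fintype.sum_bool, Fintype.sum_bool]
    have e1 := scr91_N_split t F (fun _ => 1) hs₁ (fun _ => 1)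
    have e2 := scr91_N_split t F (scr91Pin P) hs₂ (fun _ => 1)
    have hgm : g false ≤ g true := hg (Bool.false_le true)
    set n1 := scr91N t F (fun _ => 1) r₁ (fun _ => 1)
    set n2 := scr91N t F (scr91Pin P) r₂ (fun _ => 1)
    set a := scr91N t F (fun _ => 1) (c₁ true) (fun _ => 1)
    set a' := scr91N t F (fun _ => 1) (c₁ false) (fun _ => 1)
    set b := scr91N t F (scr91Pin P) (c₂ true) (fun _ => 1)
    set b' := scr91N t F (scr91Pin P) (c₂ false) (fun _ => 1)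
    have hp1 : 0 < n1 := hadm.pos₁
    have hp2 : 0 < n2 := hadm.pos₂
    have hab : a / n1 ≤ b / n2 := by
      rw [div_le_div_iff₀ hp1 hp2]; exact hdom
    have s1 : a' / n1 = 1 - a / n1 := by
      rw [eq_sub_iff_add_eq, ← add_div, add_comm, ← e1, div_self hp1.ne']
    have s2 : b' / n2 = 1 - b / n2 := by
      rw [eq_sub_iff_add_eq, ← add_div, add_comm, ← e2, div_self hp2.ne']
    show a / n1 * g true + a' / n1 * g false ≤ b / n2 * g true + b' / n2 * g false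
    rw [s1, s2]
    nlinarith [mul_nonneg (sub_nonneg.2 hab) (sub_nonneg.2 hgm)]
  · have := scr91_tower h0 h1 F hone hs₁ (scr91_fail_abs F H B')
    simp only
    rw [this, Finset.mul_sum]
    refine le_of_eq (Finset.sum_congr rfl fun k _ => ?_)
    ring
  · intro k k' hk hp hq
    exact hnext k k' hk ((div_pos_iff_of_pos_right hadm.pos₁).1 hp)
      ((div_pos_iff_of_pos_right hadm.pos₂).1 hq)

/-- the sum of the indicator of the answer `true` -/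
theorem scr91_N_query (t : ℝ) (F : Finset (ℤ × ℤ)) (m : RswCfg → ℝ) {r : Scr91Rec} {c : Bool → Scr91Rec}
    {T E : RswCfg → Prop} (h : Scr91Split r c T) (hE : ∀ ω, r.Ev ω → (E ω ↔ T ω)) :
    scr91N t F m r (fun ω => rsxInd (E ω)) = scr91N t F m (c true) (fun _ => 1) := by
  unfold scr91N
  refine rsx_sum_congr t F true (fun ω => ?_)
  rw [mul_assoc, mul_assoc, mul_one, ← scr91_ind_and]
  congr 1
  refine rsx_ind_congr ?_
  rw [h true ω]
  constructor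
  · rintro ⟨a, b⟩
    exact ⟨a, by simp [(hE ω a).1 b]⟩
  · rintro ⟨a, b⟩
    exact ⟨a, (hE ω a).2 (b.2 rfl)⟩

/-! ## §I the two kinds of queries keep the joint record admissible -/

theorem scr91_good_addS {r : Scr91Rec} {v : ℤ × ℤ} (hv : v ∉ r.VS) (k : Bool) {e : (ℤ × ℤ) × Bool}
    (h1 : e.1 ∈ r.VS) (h2 : rswEnd e ∈ r.VS) (a : Bool) :
    (RswGood a (r.addS v k).π e ↔ RswGood a r.π e) := by
  unfold RswGood
  rw [scr91_addS_mem_ne r (v := v) (u := e.1) k (fun h => hv (h ▸ h1)),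
    scr91_addS_mem_ne r (v := v) (u := rswEnd e) k (fun h => hv (h ▸ h2))]
  exact Iff.rfl

theorem scr91_good_addO {r : Scr91Rec} {e0 : (ℤ × ℤ) × Bool} (k : Bool) {e : (ℤ × ℤ) × Bool}
    (h : e ≠ e0) (a : Bool) : (RswGood a (r.addO e0 k).π e ↔ RswGood a r.π e) := by
  unfold RswGood
  rw [scr91_addO_mem_ne r (e := e0) (u := e) k h]
  exact Iff.rfl

theorem scr91_adm_addS {t : ℝ} {F H : Finset (ℤ × ℤ)} {P : Finset ((ℤ × ℤ) × Bool)} {r₁ r₂ : Scr91Rec}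
    (h : Scr91Adm t F H P r₁ r₂) {v : ℤ × ℤ} (hv : v ∉ r₁.VS) (hvU : v ∈ cornersOf (scr91U F H r₁))
    {k k' : Bool} (hk : k ≤ k')
    (hp₁ : 0 < scr91N t F (fun _ => 1) (r₁.addS v k) (fun _ => 1))
    (hp₂ : 0 < scr91N t F (scr91Pin P) (r₂.addS v k') (fun _ => 1)) :
    Scr91Adm t F H P (r₁.addS v k) (r₂.addS v k') := by
  obtain ⟨hVS, hVO, hS, hgp, hgm⟩ := h.le
  have hv₂ : v ∉ r₂.VS := hVS ▸ hv
  have hmono : scr91U F H r₁ ⊆ scr91U F H (r₁.addS v k) := scr91_U_mono (fun e he => scr91_bad_addS hv k he)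
  refine ⟨fun e he => ⟨Finset.mem_insert_of_mem (h.leg₁ e he).1, Finset.mem_insert_of_mem (h.leg₁ e he).2⟩,
    fun e he => ⟨Finset.mem_insert_of_mem (h.leg₂ e he).1, Finset.mem_insert_of_mem (h.leg₂ e he).2⟩,
    ⟨?_, hVO, ?_, ?_, ?_⟩, ?_, ?_, hp₁, hp₂⟩
  · show insert v r₁.VS = insert v r₂.VS
    rw [hVS]
  · intro u hu hu1
    rcases Finset.mem_insert.1 hu with rfl | hu
    · rw [scr91_addS_mem] at hu1 ⊢
      rw [hu1] at hk
      exact Bool.eq_true_of_true_le hk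
    · have hne : u ≠ v := fun h' => hv (h' ▸ hu)
      rw [scr91_addS_mem_ne r₁ k hne] at hu1
      rw [scr91_addS_mem_ne r₂ k' hne]
      exact hS u hu hu1
  · intro e he hg
    have he₂ : e ∈ r₂.VO := hVO ▸ he
    rw [scr91_good_addS hv k (h.leg₁ e he).1 (h.leg₁ e he).2] at hg
    rw [scr91_good_addS hv₂ k' (h.leg₂ e he₂).1 (h.leg₂ e he₂).2]
    exact hgp e he hg
  · intro e he hg
    have he₂ : e ∈ r₂.VO := hVO ▸ he
    rw [scr91_good_addS hv₂ k' (h.leg₂ e he₂).1 (h.leg₂ e he₂).2] at hg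
    rw [scr91_good_addS hv k (h.leg₁ e he).1 (h.leg₁ e he).2]
    exact hgm e he hg
  · intro u hu
    rcases Finset.mem_insert.1 hu with rfl | hu
    · exact Or.inr (rsk_corners_mono hmono hvU)
    · have hne : u ≠ v := fun h' => hv (h' ▸ hu)
      rcases h.invS u hu with h1 | h1
      · left
        rw [scr91_addS_mem_ne r₁ k hne, scr91_addS_mem_ne r₂ k' hne]
        exact h1
      · exact Or.inr (rsk_corners_mono hmono h1)
  · intro e he
    rcases h.invO e he with h1 | h1 | h1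
    · exact Or.inl h1
    · exact Or.inr (Or.inl (hmono h1))
    · exact Or.inr (Or.inr (hmono h1))

theorem scr91_adm_addO {t : ℝ} {F H : Finset (ℤ × ℤ)} {P : Finset ((ℤ × ℤ) × Bool)} {r₁ r₂ : Scr91Rec}
    (h : Scr91Adm t F H P r₁ r₂) {e0 : (ℤ × ℤ) × Bool} (he0 : e0 ∉ r₁.VO)
    (hU : e0.1 ∈ scr91U F H r₁ ∨ rswCo e0 ∈ scr91U F H r₁)
    (h1 : e0.1 ∈ r₁.VS) (h2 : rswEnd e0 ∈ r₁.VS) (p1 : e0.1 ∈ r₁.π.S) (p2 : rswEnd e0 ∈ r₁.π.S)
    {k k' : Bool} (hk : k ≤ k')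
    (hp₁ : 0 < scr91N t F (fun _ => 1) (r₁.addO e0 k) (fun _ => 1))
    (hp₂ : 0 < scr91N t F (scr91Pin P) (r₂.addO e0 k') (fun _ => 1)) :
    Scr91Adm t F H P (r₁.addO e0 k) (r₂.addO e0 k') := by
  obtain ⟨hVS, hVO, hS, hgp, hgm⟩ := h.le
  have hmono : scr91U F H r₁ ⊆ scr91U F H (r₁.addO e0 k) := scr91_U_mono (fun e he => scr91_bad_addO he0 k he)
  refine ⟨?_, ?_, ⟨hVS, ?_, hS, ?_, ?_⟩, ?_, ?_, hp₁, hp₂⟩
  · intro e he
    rcases Finset.mem_insert.1 he with rfl | he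
    · exact ⟨h1, h2⟩
    · exact h.leg₁ e he
  · intro e he
    rcases Finset.mem_insert.1 he with rfl | he
    · exact ⟨hVS ▸ h1, hVS ▸ h2⟩
    · exact h.leg₂ e he
  · show insert e0 r₁.VO = insert e0 r₂.VO
    rw [hVO]
  · intro e he hg
    rcases Finset.mem_insert.1 he with rfl | he
    · have hk1 : k = true := (scr91_addO_mem r₁ e k).1 hg.1
      rw [hk1] at hk
      have hk2 : k' = true := Bool.eq_true_of_true_le hk
      exact ⟨(scr91_addO_mem r₂ e k').2 hk2, ⟨fun _ => rfl, fun _ => hS _ h1 p1⟩,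
        ⟨fun _ => rfl, fun _ => hS _ h2 p2⟩⟩
    · have hne : e ≠ e0 := fun h' => he0 (h' ▸ he)
      rw [scr91_good_addO k hne] at hg
      rw [scr91_good_addO k' hne]
      exact hgp e he hg
  · intro e he hg
    rcases Finset.mem_insert.1 he with rfl | he
    · exact absurd (hg.2.1.1 (hS _ h1 p1)) (by simp)
    · have hne : e ≠ e0 := fun h' => he0 (h' ▸ he)
      rw [scr91_good_addO k' hne] at hg
      rw [scr91_good_addO k hne]
      exact hgm e he hg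
  · intro u hu
    rcases h.invS u hu with h3 | h3
    · exact Or.inl h3
    · exact Or.inr (rsk_corners_mono hmono h3)
  · intro e he
    rcases Finset.mem_insert.1 he with rfl | he
    · rcases hU with h3 | h3
      · exact Or.inr (Or.inl (hmono h3))
      · exact Or.inr (Or.inr (hmono h3))
    · have hne : e ≠ e0 := fun h' => he0 (h' ▸ he)
      rcases h.invO e he with h3 | h3 | h3
      · left
        rw [scr91_addO_mem_ne r₁ k hne, scr91_addO_mem_ne r₂ k' hne]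
        exact h3
      · exact Or.inr (Or.inl (hmono h3))
      · exact Or.inr (Or.inr (hmono h3))

theorem scr91_inc_site (v : ℤ × ℤ) : Scr91Inc (fun ω => rsxInd (v ∈ ω.S)) := by
  intro ω ω' hS _ _
  show rsxInd (v ∈ ω.S) ≤ rsxInd (v ∈ ω'.S)
  by_cases h : v ∈ ω.S
  · rw [rsx_ind_pos h, rsx_ind_pos (hS h)]
  · rw [rsx_ind_neg h]; exact rsx_ind_nonneg _

theorem scr91_inc_good (e : (ℤ × ℤ) × Bool) : Scr91Inc (fun ω => rsxInd (RswGood true ω e)) := by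
  intro ω ω' _ hg _
  show rsxInd (RswGood true ω e) ≤ rsxInd (RswGood true ω' e)
  by_cases h : RswGood true ω e
  · rw [rsx_ind_pos h, rsx_ind_pos (hg e h)]
  · rw [rsx_ind_neg h]; exact rsx_ind_nonneg _

/-! ## §J the stopping comparison -/

theorem scr91_core_mono {U B : Finset (ℤ × ℤ)} (h : U ⊆ B) : rskCore U ⊆ rskCore B := by
  intro v hv
  rw [rsk_mem_core] at hv ⊢
  exact ⟨h hv.1, h hv.2.1, h hv.2.2.1, h hv.2.2.2⟩

theorem scr91_sdiff_sdiff {α : Type*} [DecidableEq α] {a U B : Finset α} (h : U ⊆ B) : (a \ U) \ B = a \ B := by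
  ext x
  simp only [Finset.mem_sdiff]
  exact ⟨fun hx => ⟨hx.1.1, hx.2⟩, fun hx => ⟨⟨hx.1, fun h' => hx.2 (h h')⟩, hx.2⟩⟩

theorem scr91_outside_mono {U B : Finset (ℤ × ℤ)} (h : U ⊆ B) {A : RswCfg → ℝ} (hA : RskOutside B A) :
    RskOutside U A := by
  intro ω
  rw [← hA (rskOut U ω), ← hA ω]
  congr 1
  unfold rskOut
  simp only [scr91_sdiff_sdiff (scr91_core_mono h), scr91_sdiff_sdiff h, scr91_sdiff_sdiff (rsk_int_mono h)]

theorem scr91_splitS (r : Scr91Rec) {v : ℤ × ℤ} (hv : v ∉ r.VS) :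
    Scr91Split r (r.addS v) (fun ω => v ∈ ω.S) := fun k ω => scr91_ev_addS r hv k ω

theorem scr91_splitO (r : Scr91Rec) {e : (ℤ × ℤ) × Bool} (he : e ∉ r.VO) :
    Scr91Split r (r.addO e) (fun ω => e ∈ ω.O) := fun k ω => scr91_ev_addO r he k ω

/-- the branch at an unrevealed site attached to the reached set -/
theorem scr91_branch_site {t : ℝ} (h0 : 0 ≤ t) (h1 : t ≤ 1) (F H B' : Finset (ℤ × ℤ))
    {P : Finset ((ℤ × ℤ) × Bool)} (hcmp : Scr91Cmp t F P) {A : RswCfg → ℝ} (hA : ∀ ω, |A ω| ≤ 1)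
    {r₁ r₂ : Scr91Rec} (hadm : Scr91Adm t F H P r₁ r₂) {v : ℤ × ℤ} (hv : v ∉ r₁.VS)
    (hvU : v ∈ cornersOf (scr91U F H r₁)) :
    OlBranch.{0} (Scr91Adm t F H P) (scr91Rk F) (scr91e t F (fun _ => 1) A)
      (fun r => 2 * scr91e t F (fun _ => 1) (scr91Fail F H B') r) (scr91e t F (scr91Pin P) A) r₁ r₂ := by
  have hv₂ : v ∉ r₂.VS := hadm.le.1 ▸ hv
  have hvF : v ∈ cornersOf F := rsk_corners_mono (scr91_U_sub F H r₁) hvU
  refine scr91_branch h0 h1 F H B' P hA hadm (scr91_splitS r₁ hv) (scr91_splitS r₂ hv₂) ?_ ?_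
  · have := hcmp r₁ r₂ hadm.leg₁ hadm.leg₂ hadm.le _ (scr91_inc_site v) (fun ω => rsx_ind_nonneg _)
    rw [scr91_N_query t F _ (scr91_splitS r₁ hv) (fun ω _ => Iff.rfl),
      scr91_N_query t F _ (scr91_splitS r₂ hv₂) (fun ω _ => Iff.rfl)] at this
    exact this
  · intro k k' hk hp hq
    exact ⟨scr91_adm_addS hadm hv hvU hk hp hq, scr91_rk_addS hv hvF k⟩

/-- **THE STOPPING COMPARISON** on admissible joint records -/
theorem scr91_tv_rec {t : ℝ} (h0 : 0 ≤ t) (h1 : t ≤ 1) {F H B : Finset (ℤ × ℤ)} (hH : H ⊆ B) (hBF : B ⊆ F)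
    (hB : ∀ e : (ℤ × ℤ) × Bool, (e.1 ∈ B ∨ rswCo e ∈ B) → e ∈ rswInt F)
    {P : Finset ((ℤ × ℤ) × Bool)} (hP : P ⊆ rswInt H) (hcmp : Scr91Cmp t F P)
    {A : RswCfg → ℝ} (hA1 : ∀ ω, |A ω| ≤ 1) (hA : RskOutside B A) :
    ∀ r₁ r₂, Scr91Adm t F H P r₁ r₂ →
      |scr91e t F (fun _ => 1) A r₁ - scr91e t F (scr91Pin P) A r₂| ≤
        2 * scr91e t F (fun _ => 1) (scr91Fail F H (F \ B)) r₁ := by
  have hone : ∀ ω : RswCfg, (0 : ℝ) ≤ (fun _ : RswCfg => (1 : ℝ)) ω := fun _ => zero_le_one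
  refine ol_main.{0} (Scr91Adm t F H P) (scr91Rk F) (scr91e t F (fun _ => 1) A)
    (fun r => 2 * scr91e t F (fun _ => 1) (scr91Fail F H (F \ B)) r) (scr91e t F (scr91Pin P) A) ?_
  intro r₁ r₂ hadm
  by_cases hfail : ∃ g ∈ scr91U F H r₁, g ∉ B
  · left
    obtain ⟨g, hg, hgB⟩ := hfail
    have hgB' : g ∈ F \ B := Finset.mem_sdiff.2 ⟨scr91_U_sub F H r₁ hg, hgB⟩
    have hN : scr91N t F (fun _ => 1) r₁ (scr91Fail F H (F \ B)) = scr91N t F (fun _ => 1) r₁ (fun _ => 1) := by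
      unfold scr91N
      refine rsx_sum_congr t F true (fun ω => ?_)
      by_cases hω : r₁.Ev ω
      · unfold scr91Fail
        rw [rsx_ind_pos (scr91_U_fail hω hg hgB')]
      · rw [rsx_ind_neg hω]; ring
    have hΦ : scr91e t F (fun _ => 1) (scr91Fail F H (F \ B)) r₁ = 1 := by
      unfold scr91e
      rw [hN, div_self hadm.pos₁.ne']
    simp only [hΦ]
    have a1 := scr91_e_abs_le h0 h1 F hone r₁ hA1
    have a2 := scr91_e_abs_le h0 h1 F (scr91_pin_nonneg P) r₂ hA1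
    have := abs_sub (scr91e t F (fun _ => 1) A r₁) (scr91e t F (scr91Pin P) A r₂)
    linarith
  · push Not at hfail
    have hUB : scr91U F H r₁ ⊆ B := hfail
    by_cases hs : Scr91Sealed (scr91U F H r₁) r₁
    · left
      obtain ⟨hs₂, hY⟩ := scr91_adm_sealed hadm hs
      have hPU : P ⊆ rswInt (scr91U F H r₁) :=
        hP.trans (rsk_int_mono (scr91_H_sub_U (hH.trans hBF) r₁))
      rw [scr91_stop_eq t (scr91_U_sub F H r₁) (rsk_inside_const _ 1) (scr91_pin_inside hPU) hadm.leg₁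
        hadm.leg₂ hs hs₂ hY hadm.pos₁.ne' hadm.pos₂.ne' (scr91_outside_mono hUB hA), sub_self, abs_zero]
      have : 0 ≤ scr91e t F (fun _ => 1) (scr91Fail F H (F \ B)) r₁ :=
        div_nonneg (scr91_N_nonneg h0 h1 F hone r₁ (fun ω => rsx_ind_nonneg _))
          (scr91_N_nonneg h0 h1 F hone r₁ hone)
      linarith
    · right
      unfold Scr91Sealed at hs
      push Not at hs
      obtain ⟨e, hb, hne⟩ := hs
      have hface : e.1 ∈ scr91U F H r₁ ∨ rswCo e ∈ scr91U F H r₁ := by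
        rcases hb with hb | hb
        · exact Or.inl hb.1
        · exact Or.inr hb.2
      have heF : e ∈ rswInt F := hB e (hface.imp (fun h => hUB h) (fun h => hUB h))
      have heF' := rsk_mem_int.1 heF
      have hnb : ¬ r₁.Bad e := by
        intro hbad
        rcases hb with hb | hb
        · exact hb.2 (scr91_U_step hb.1 ⟨heF'.1, heF'.2, e, Or.inl ⟨rfl, rfl⟩, hbad⟩)
        · exact hb.1 (scr91_U_step hb.2 ⟨heF'.2, heF'.1, e, Or.inr ⟨rfl, rfl⟩, hbad⟩)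
      by_cases hv1 : e.1 ∈ r₁.VS
      · by_cases hv2 : rswEnd e ∈ r₁.VS
        · have p1 : e.1 ∈ r₁.π.S := by
            by_contra h; exact hnb (Or.inr (Or.inl ⟨hv1, h⟩))
          have p2 : rswEnd e ∈ r₁.π.S := by
            by_contra h; exact hnb (Or.inr (Or.inr ⟨hv2, h⟩))
          have heO : e ∉ r₁.VO := by
            intro h
            refine hne h ⟨?_, ⟨fun _ => rfl, fun _ => p1⟩, ⟨fun _ => rfl, fun _ => p2⟩⟩
            by_contra h'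
            exact hnb (Or.inl ⟨h, h'⟩)
          obtain ⟨hVS, hVO, hS, _, _⟩ := hadm.le
          have heO₂ : e ∉ r₂.VO := hVO ▸ heO
          have hE : ∀ (r : Scr91Rec), e.1 ∈ r.VS → rswEnd e ∈ r.VS → e.1 ∈ r.π.S → rswEnd e ∈ r.π.S →
              ∀ ω, r.Ev ω → (RswGood true ω e ↔ e ∈ ω.O) := by
            intro r a1 a2 a3 a4 ω hω
            exact ⟨fun h => h.1, fun h => ⟨h, ⟨fun _ => rfl, fun _ => (hω.1 _ a1).2 a3⟩,
              ⟨fun _ => rfl, fun _ => (hω.1 _ a2).2 a4⟩⟩⟩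
          refine scr91_branch h0 h1 F H (F \ B) P hA1 hadm (scr91_splitO r₁ heO) (scr91_splitO r₂ heO₂) ?_ ?_
          · have := hcmp r₁ r₂ hadm.leg₁ hadm.leg₂ hadm.le _ (scr91_inc_good e) (fun ω => rsx_ind_nonneg _)
            rw [scr91_N_query t F _ (scr91_splitO r₁ heO) (hE r₁ hv1 hv2 p1 p2),
              scr91_N_query t F _ (scr91_splitO r₂ heO₂)
                (hE r₂ (hVS ▸ hv1) (hVS ▸ hv2) (hS _ hv1 p1) (hS _ hv2 p2))] at this
            exact this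
          · intro k k' hk hp hq
            exact ⟨scr91_adm_addO hadm heO hface hv1 hv2 p1 p2 hk hp hq, scr91_rk_addO heO heF k⟩
        · exact scr91_branch_site h0 h1 F H (F \ B) hcmp hA1 hadm hv2 (rsx_end_corner2 hface)
      · exact scr91_branch_site h0 h1 F H (F \ B) hcmp hA1 hadm hv1 (rsx_end_corner1 hface)

/-- **(TV), ONE HOLE**: `ξ` any legal record (block patterns, earlier pins), `P` plus pins inside the hole `H`, `A` reads off `B ⊇ H`: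
`|μ(A | ξ) - μ(A | ξ, P)| ≤ 2 μ(the good plus edges do not separate H from F \ B | ξ)` -/
theorem scr91_tv_one {t : ℝ} (h0 : 0 ≤ t) (h1 : t ≤ 1) {F H B : Finset (ℤ × ℤ)} (hH : H ⊆ B) (hBF : B ⊆ F)
    (hB : ∀ e : (ℤ × ℤ) × Bool, (e.1 ∈ B ∨ rswCo e ∈ B) → e ∈ rswInt F)
    {P : Finset ((ℤ × ℤ) × Bool)} (hP : P ⊆ rswInt H) (hcmp : Scr91Cmp t F P)
    {A : RswCfg → ℝ} (hA1 : ∀ ω, |A ω| ≤ 1) (hA : RskOutside B A) {ξ : Scr91Rec} (hξ : ξ.Legal)
    (hpos : 0 < scr91N t F (scr91Pin P) ξ (fun _ => 1)) :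
    |scr91e t F (fun _ => 1) A ξ - scr91e t F (scr91Pin P) A ξ| ≤
      2 * scr91e t F (fun _ => 1) (scr91Fail F H (F \ B)) ξ := by
  refine scr91_tv_rec h0 h1 hH hBF hB hP hcmp hA1 hA ξ ξ
    ⟨hξ, hξ, ⟨rfl, rfl, fun _ _ h => h, fun _ _ h => h, fun _ _ h => h⟩, fun _ _ => Or.inl Iff.rfl,
      fun _ _ => Or.inl Iff.rfl, lt_of_lt_of_le hpos ?_, hpos⟩
  refine rsx_sum_mono h0 h1 F true (fun ω => ?_)
  have := rsx_ind_le_one (∀ e ∈ P, RswGood true ω e)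
  have h2 := rsx_ind_nonneg (ξ.Ev ω)
  unfold scr91Pin
  nlinarith

/-! ## §K the chain over several holes: earlier pins are absorbed in the record -/

/-- the ends of the pins -/
noncomputable def scr91Ends (Q : Finset ((ℤ × ℤ) × Bool)) : Finset (ℤ × ℤ) :=
  Q.image (fun e => e.1) ∪ Q.image rswEnd

/-- the record `ξ` with the pins `Q` revealed; all the values are read on `ω₀` -/
noncomputable def Scr91Rec.pin (ξ : Scr91Rec) (Q : Finset ((ℤ × ℤ) × Bool)) (ω₀ : RswCfg) : Scr91Rec :=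
  ⟨ξ.VS ∪ scr91Ends Q, ξ.VO ∪ Q, ω₀⟩

theorem scr91_pin_legal {ξ : Scr91Rec} (hξ : ξ.Legal) (Q : Finset ((ℤ × ℤ) × Bool)) (ω₀ : RswCfg) :
    (ξ.pin Q ω₀).Legal := by
  intro e he
  rcases Finset.mem_union.1 he with he | he
  · exact ⟨Finset.mem_union_left _ (hξ e he).1, Finset.mem_union_left _ (hξ e he).2⟩
  · exact ⟨Finset.mem_union_right _ (Finset.mem_union_left _ (Finset.mem_image_of_mem _ he)),
      Finset.mem_union_right _ (Finset.mem_union_right _ (Finset.mem_image_of_mem _ he))⟩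

theorem scr91_pin_ev {ξ : Scr91Rec} {Q : Finset ((ℤ × ℤ) × Bool)} {ω₀ : RswCfg} (h₀ : ξ.Ev ω₀)
    (hQ : ∀ e ∈ Q, RswGood true ω₀ e) (ω : RswCfg) :
    ((ξ.pin Q ω₀).Ev ω ↔ ξ.Ev ω ∧ ∀ e ∈ Q, RswGood true ω e) := by
  constructor
  · rintro ⟨h1, h2⟩
    refine ⟨⟨fun v hv => ?_, fun e he => ?_⟩, fun e he => ⟨?_, ?_, ?_⟩⟩
    · rw [h1 v (Finset.mem_union_left _ hv)]; exact h₀.1 v hv
    · rw [h2 e (Finset.mem_union_left _ he)]; exact h₀.2 e he
    · exact (h2 e (Finset.mem_union_right _ he)).2 (hQ e he).1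
    · rw [h1 e.1 (Finset.mem_union_right _ (Finset.mem_union_left _ (Finset.mem_image_of_mem _ he)))]
      exact (hQ e he).2.1
    · rw [h1 (rswEnd e) (Finset.mem_union_right _ (Finset.mem_union_right _ (Finset.mem_image_of_mem _ he)))]
      exact (hQ e he).2.2
  · rintro ⟨⟨h1, h2⟩, h3⟩
    refine ⟨fun v hv => ?_, fun e he => ?_⟩
    · rcases Finset.mem_union.1 hv with hv | hv
      · rw [h1 v hv]; exact (h₀.1 v hv).symm
      · rcases Finset.mem_union.1 hv with hv | hv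
        · obtain ⟨e, he, rfl⟩ := Finset.mem_image.1 hv
          exact (h3 e he).2.1.trans (hQ e he).2.1.symm
        · obtain ⟨e, he, rfl⟩ := Finset.mem_image.1 hv
          exact (h3 e he).2.2.trans (hQ e he).2.2.symm
    · rcases Finset.mem_union.1 he with he | he
      · rw [h2 e he]; exact (h₀.2 e he).symm
      · exact ⟨fun _ => (hQ e he).1, fun _ => (h3 e he).1⟩

theorem scr91_pin_empty : scr91Pin ∅ = fun _ => (1 : ℝ) := by
  funext ω
  unfold scr91Pin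
  exact rsx_ind_pos (fun e he => absurd he (Finset.notMem_empty e))

theorem scr91_pin_union' (P₀ P : Finset ((ℤ × ℤ) × Bool)) (ω : RswCfg) :
    scr91Pin (P₀ ∪ P) ω = scr91Pin P₀ ω * scr91Pin P ω := by
  unfold scr91Pin
  rw [← scr91_ind_and]
  refine rsx_ind_congr ⟨fun h => ⟨fun e he => h e (Finset.mem_union_left _ he),
    fun e he => h e (Finset.mem_union_right _ he)⟩, fun h e he => ?_⟩
  rcases Finset.mem_union.1 he with he | he
  · exact h.1 e he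
  · exact h.2 e he

/-- pins in the record = pins in the mask -/
theorem scr91_N_pin (t : ℝ) (F : Finset (ℤ × ℤ)) {ξ : Scr91Rec} {Q : Finset ((ℤ × ℤ) × Bool)} {ω₀ : RswCfg}
    (h₀ : ξ.Ev ω₀) (hQ : ∀ e ∈ Q, RswGood true ω₀ e) (P : Finset ((ℤ × ℤ) × Bool)) (A : RswCfg → ℝ) :
    scr91N t F (scr91Pin P) (ξ.pin Q ω₀) A = scr91N t F (scr91Pin (Q ∪ P)) ξ A := by
  unfold scr91N
  refine rsx_sum_congr t F true (fun ω => ?_)
  rw [rsx_ind_congr (scr91_pin_ev h₀ hQ ω), scr91_ind_and, scr91_pin_union']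
  unfold scr91Pin
  ring

theorem scr91_e_pin (t : ℝ) (F : Finset (ℤ × ℤ)) {ξ : Scr91Rec} {Q : Finset ((ℤ × ℤ) × Bool)} {ω₀ : RswCfg}
    (h₀ : ξ.Ev ω₀) (hQ : ∀ e ∈ Q, RswGood true ω₀ e) (P : Finset ((ℤ × ℤ) × Bool)) (A : RswCfg → ℝ) :
    scr91e t F (scr91Pin P) A (ξ.pin Q ω₀) = scr91e t F (scr91Pin (Q ∪ P)) A ξ := by
  unfold scr91e
  rw [scr91_N_pin t F h₀ hQ, scr91_N_pin t F h₀ hQ]

theorem scr91_e_pin_one (t : ℝ) (F : Finset (ℤ × ℤ)) {ξ : Scr91Rec} {Q : Finset ((ℤ × ℤ) × Bool)} {ω₀ : RswCfg}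
    (h₀ : ξ.Ev ω₀) (hQ : ∀ e ∈ Q, RswGood true ω₀ e) (A : RswCfg → ℝ) :
    scr91e t F (fun _ => 1) A (ξ.pin Q ω₀) = scr91e t F (scr91Pin Q) A ξ := by
  have h := scr91_e_pin t F h₀ hQ ∅ A
  rwa [scr91_pin_empty, Finset.union_empty] at h

/-- a positive mass has a witness -/
theorem scr91_N_witness {t : ℝ} {F : Finset (ℤ × ℤ)} {Q : Finset ((ℤ × ℤ) × Bool)} {ξ : Scr91Rec}
    (hpos : 0 < scr91N t F (scr91Pin Q) ξ (fun _ => 1)) :
    ∃ ω₀ : RswCfg, ξ.Ev ω₀ ∧ ∀ e ∈ Q, RswGood true ω₀ e := by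
  by_contra hno
  have hz : scr91N t F (scr91Pin Q) ξ (fun _ => 1) = rswSum t F true (fun _ => 0) := by
    unfold scr91N
    refine rsx_sum_congr t F true (fun ω => ?_)
    by_cases h1 : ξ.Ev ω
    · have h2 : ¬ ∀ e ∈ Q, RswGood true ω e := fun h2 => hno ⟨ω, h1, h2⟩
      unfold scr91Pin
      rw [rsx_ind_neg h2]; ring
    · rw [rsx_ind_neg h1]; ring
  have hz2 : rswSum t F true (fun _ => 0) = 0 := by
    unfold rswSum
    simp
  rw [hz, hz2] at hpos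
  exact lt_irrefl _ hpos

/-- fewer pins, more mass -/
theorem scr91_N_pin_mono {t : ℝ} (h0 : 0 ≤ t) (h1 : t ≤ 1) (F : Finset (ℤ × ℤ))
    {Q Q' : Finset ((ℤ × ℤ) × Bool)} (h : Q ⊆ Q') (ξ : Scr91Rec) :
    scr91N t F (scr91Pin Q') ξ (fun _ => 1) ≤ scr91N t F (scr91Pin Q) ξ (fun _ => 1) := by
  refine rsx_sum_mono h0 h1 F true (fun ω => ?_)
  have h2 := rsx_ind_nonneg (ξ.Ev ω)
  have h3 : scr91Pin Q' ω ≤ scr91Pin Q ω := by
    unfold scr91Pin
    by_cases hq : ∀ e ∈ Q, RswGood true ω e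
    · rw [rsx_ind_pos hq]; exact rsx_ind_le_one _
    · rw [rsx_ind_neg hq, rsx_ind_neg (fun h' => hq (fun e he => h' e (h he)))]
  nlinarith

/-- the separation is increasing -/
theorem scr91_sep_inc (F H B' : Finset (ℤ × ℤ)) : Scr91Inc (fun ω => rsxInd (RswSep F true ω H B')) := by
  intro ω ω' _ hg _
  by_cases hs : RswSep F true ω H B'
  · have hs' : RswSep F true ω' H B' := by
      intro f hf g hgB hr
      refine hs f hf g hgB (hr.lift id ?_)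
      rintro a b ⟨h1, h2, e, h3, h4⟩
      exact ⟨h1, h2, e, h3, fun h5 => h4 (hg e h5)⟩
    show rsxInd _ ≤ rsxInd _
    rw [rsx_ind_pos hs, rsx_ind_pos hs']
  · show rsxInd _ ≤ rsxInd _
    rw [rsx_ind_neg hs]; exact rsx_ind_nonneg _

theorem scr91_N_fail (t : ℝ) (F : Finset (ℤ × ℤ)) (m : RswCfg → ℝ) (ξ : Scr91Rec) (H B' : Finset (ℤ × ℤ)) :
    scr91N t F m ξ (scr91Fail F H B') =
      scr91N t F m ξ (fun _ => 1) - scr91N t F m ξ (fun ω => rsxInd (RswSep F true ω H B')) := by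
  rw [eq_sub_iff_add_eq]
  unfold scr91N
  rw [← scr91_sum_add]
  refine rsx_sum_congr t F true (fun ω => ?_)
  unfold scr91Fail
  beta_reduce
  by_cases hs : RswSep F true ω H B'
  · rw [rsx_ind_pos hs, rsx_ind_neg (not_not.2 hs)]; ring
  · rw [rsx_ind_neg hs, rsx_ind_pos hs]; ring

/-- plus pins make the failure less likely -/
theorem scr91_fail_mono {t : ℝ} (h0 : 0 ≤ t) (h1 : t ≤ 1) {F : Finset (ℤ × ℤ)}
    {Q : Finset ((ℤ × ℤ) × Bool)} (hcmp : Scr91Cmp t F Q) {ξ : Scr91Rec} (hξ : ξ.Legal)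
    (hpos : 0 < scr91N t F (scr91Pin Q) ξ (fun _ => 1)) (H B' : Finset (ℤ × ℤ)) :
    scr91e t F (scr91Pin Q) (scr91Fail F H B') ξ ≤ scr91e t F (fun _ => 1) (scr91Fail F H B') ξ := by
  have hpos1 : 0 < scr91N t F (fun _ => 1) ξ (fun _ => 1) := by
    have := scr91_N_pin_mono h0 h1 F (Finset.empty_subset Q) ξ
    rw [scr91_pin_empty] at this
    exact lt_of_lt_of_le hpos this
  have h := hcmp ξ ξ hξ hξ ⟨rfl, rfl, fun _ _ h => h, fun _ _ h => h, fun _ _ h => h⟩ _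
    (scr91_sep_inc F H B') (fun ω => rsx_ind_nonneg _)
  unfold scr91e
  rw [scr91_N_fail, scr91_N_fail, div_le_div_iff₀ hpos hpos1]
  nlinarith

/-- **THE CHAIN**, over a finite set of holes -/
theorem scr91_tv_chain_fs {t : ℝ} (h0 : 0 ≤ t) (h1 : t ≤ 1) {F : Finset (ℤ × ℤ)} {ι : Type} [DecidableEq ι]
    (H B : ι → Finset (ℤ × ℤ)) (P : ι → Finset ((ℤ × ℤ) × Bool))
    (hH : ∀ k, H k ⊆ B k) (hBF : ∀ k, B k ⊆ F)
    (hB : ∀ k, ∀ e : (ℤ × ℤ) × Bool, (e.1 ∈ B k ∨ rswCo e ∈ B k) → e ∈ rswInt F)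
    (hP : ∀ k, P k ⊆ rswInt (H k))
    (hcmp : ∀ Q : Finset ((ℤ × ℤ) × Bool), Q ⊆ rswInt F → Scr91Cmp t F Q)
    {A : RswCfg → ℝ} (hA1 : ∀ ω, |A ω| ≤ 1) (hA : ∀ k, RskOutside (B k) A) {ξ : Scr91Rec} (hξ : ξ.Legal)
    (s : Finset ι) :
    0 < scr91N t F (scr91Pin (s.biUnion P)) ξ (fun _ => 1) →
    |scr91e t F (fun _ => 1) A ξ - scr91e t F (scr91Pin (s.biUnion P)) A ξ| ≤
      2 * ∑ k ∈ s, scr91e t F (fun _ => 1) (scr91Fail F (H k) (F \ B k)) ξ := by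
  have hPF : ∀ k, P k ⊆ rswInt F := fun k => (hP k).trans (rsk_int_mono ((hH k).trans (hBF k)))
  induction s using Finset.induction_on with
  | empty =>
    intro _
    rw [Finset.biUnion_empty, scr91_pin_empty]
    simp
  | insert k s hk ih =>
    intro hpos
    have hun : (insert k s).biUnion P = s.biUnion P ∪ P k := by
      rw [Finset.biUnion_insert, Finset.union_comm]
    rw [hun] at hpos ⊢
    have hQF : s.biUnion P ⊆ rswInt F := Finset.biUnion_subset.2 (fun j _ => hPF j)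
    have hposQ : 0 < scr91N t F (scr91Pin (s.biUnion P)) ξ (fun _ => 1) :=
      lt_of_lt_of_le hpos (scr91_N_pin_mono h0 h1 F Finset.subset_union_left ξ)
    obtain ⟨ω₀, hev, hgood⟩ := scr91_N_witness hpos
    have hQ : ∀ e ∈ s.biUnion P, RswGood true ω₀ e := fun e he => hgood e (Finset.mem_union_left _ he)
    have hstep := scr91_tv_one h0 h1 (hH k) (hBF k) (hB k) (hP k) (hcmp _ (hPF k)) hA1 (hA k)
      (scr91_pin_legal hξ (s.biUnion P) ω₀) (by rw [scr91_N_pin t F hev hQ]; exact hpos)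
    rw [scr91_e_pin_one t F hev hQ, scr91_e_pin t F hev hQ, scr91_e_pin_one t F hev hQ] at hstep
    have hmono := scr91_fail_mono h0 h1 (hcmp _ hQF) hξ hposQ (H k) (F \ B k)
    have hih := ih hposQ
    rw [Finset.sum_insert hk]
    have htri := abs_sub_le (scr91e t F (fun _ => 1) A ξ) (scr91e t F (scr91Pin (s.biUnion P)) A ξ)
      (scr91e t F (scr91Pin (s.biUnion P ∪ P k)) A ξ)
    linarith

/-- **THE CHAIN** (the form asked by 142) -/
theorem scr91_tv_chain {t : ℝ} (h0 : 0 ≤ t) (h1 : t ≤ 1) {F : Finset (ℤ × ℤ)} {n : ℕ}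
    (H B : Fin n → Finset (ℤ × ℤ)) (P : Fin n → Finset ((ℤ × ℤ) × Bool))
    (hH : ∀ k, H k ⊆ B k) (hBF : ∀ k, B k ⊆ F)
    (hB : ∀ k, ∀ e : (ℤ × ℤ) × Bool, (e.1 ∈ B k ∨ rswCo e ∈ B k) → e ∈ rswInt F)
    (hP : ∀ k, P k ⊆ rswInt (H k))
    (hcmp : ∀ Q : Finset ((ℤ × ℤ) × Bool), Q ⊆ rswInt F → Scr91Cmp t F Q)
    {A : RswCfg → ℝ} (hA1 : ∀ ω, |A ω| ≤ 1) (hA : ∀ k, RskOutside (B k) A) {ξ : Scr91Rec} (hξ : ξ.Legal)
    (hpos : 0 < scr91N t F (scr91Pin (Finset.univ.biUnion P)) ξ (fun _ => 1)) :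
    |scr91e t F (fun _ => 1) A ξ - scr91e t F (scr91Pin (Finset.univ.biUnion P)) A ξ| ≤
      2 * ∑ k, scr91e t F (fun _ => 1) (scr91Fail F (H k) (F \ B k)) ξ :=
  scr91_tv_chain_fs h0 h1 H B P hH hBF hB hP hcmp hA1 hA hξ Finset.univ hpos

end Claimed.Agent.R292
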