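import Claimed.Agent.R292.Defs.ScreenSep
import Claimed.Agent.R292.Screen.Tv91
import Claimed.Agent.R292.Rsw.Base31
import Claimed.Agent.R292.Rsw.Holley12
import Claimed.Agent.R292.Screen.Pos260

/-!
# Row 292 (S0540), Screen/Tv142 : (TV) THE FRAME AROUND THE ONE-HOLE COMPARISON      (helper142, unit SCREEN; prefix `scr142v_`)

AT paper Sec 5.3, lem:screen-bridge-coupling in total variation (design D1 of 229).  The leaf `scr_cut_tv` of `Screen/Cut229c.lean`.   0 sorry, axioms clean.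
**`scr142v_cut_tv t ht1 ht2 hcmp hpos Λ hΛ` = `scr_cut_tv` VERBATIM**; hypotheses: `hpos` = (POS) `scr_cut_pos t ht1 ht2`, `hcmp : ∀ F, RswJordan F → ∀ Q ⊆ rswInt F, Scr91Cmp t F Q` (prop:comparison in 91's form).
* sec. 1  `scr142v_fiber` (a bound on every fibre of a map `p` bounds the whole `rswSum`), `scr142v_null`
* sec. 2  everything selected is a function of the block patterns: `scr142v_pc _gapOk _succ _selJ _selA _bridge _br`; `scr142v_sel` (on success: `selJ < M`, the selected ports are ports)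
* sec. 3  geometry: `scr142v_mem_cb`, `_between`, `_Rt_pos`, `_Rt_mul`, `_wh_pos`, `_wh_le`, `_cen`, `_nb`, `_inF`; `scr142vH`, `scr142vB` (the two filters of `ScrCirc`), `scr142v_circ`,
          `scr142v_H_sub_B`, `_B_sub_F`, `_B_int`, **`scr142v_bridge_cb`** (both faces of a bridge edge lie in `closedBall cen (2 wh)`), `scr142v_bridge_int`, `_B_shield`
* sec. 4  `scr142v_pats_iff` (equality of patterns, pointwise), `scr142vMix` (`ω` off the shield, `ω₀` in it), `scr142v_mix_eq` (`ScrOff` observables do not see it on the pattern), `scr142v_mix_out`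
* sec. 5  `scr142vXi` the block patterns as a legal record of 91, `scr142v_xi_ev`
* sec. 6  **`scr142v_pattern`** one successful pattern, from `scr91_tv_chain` of 91
* sec. 7  `scr142v_rho`, **`scr142v_tv_fixed`** the mixture over the patterns at fixed `δ`, `F`
* sec. 8  `scr142v_cut_tv`;  **`scr142v_cut_tv_full t ht1 ht2 Λ hΛ` = `scr_cut_tv` VERBATIM WITHOUT ANY HYPOTHESIS** (`hol12_scr91cmp` of 12, `scr260_cut_pos` of 260): (TV) is closed in the kernel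
-/

set_option autoImplicit false

namespace Claimed.Agent.R292

open Claims Claims.C0468 Filter Topology

/-! ## 1. fibre sums -/

/-- a bound on every fibre of `p` gives the bound of the whole sum. -/
theorem scr142v_fiber {β : Type*} (t : ℝ) (F : Finset (ℤ × ℤ)) (b : Bool) (p : RswCfg → β) (X Y : RswCfg → ℝ)
    (H : ∀ ω₀, RsbIn F ω₀ → |rswSum t F b (fun ω => rsxInd (p ω = p ω₀) * X ω)| ≤
      rswSum t F b (fun ω => rsxInd (p ω = p ω₀) * Y ω)) :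
    |rswSum t F b X| ≤ rswSum t F b Y := by
  classical
  have key : ∀ Z : RswCfg → ℝ, rswSum t F b Z =
      ∑ c ∈ (rsxCfgs F).image p, ∑ ω ∈ (rsxCfgs F).filter (fun ω => p ω = c), rswWt t F b ω * Z ω := by
    intro Z
    rw [rsx_sum_eq, Finset.sum_fiberwise_of_maps_to (fun x hx => Finset.mem_image_of_mem p hx)]
  have key2 : ∀ (Z : RswCfg → ℝ) (ω₀ : RswCfg), rswSum t F b (fun ω => rsxInd (p ω = p ω₀) * Z ω) =
      ∑ ω ∈ (rsxCfgs F).filter (fun ω => p ω = p ω₀), rswWt t F b ω * Z ω := by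
    intro Z ω₀
    rw [rsx_sum_eq, Finset.sum_filter]
    refine Finset.sum_congr rfl fun ω _ => ?_
    by_cases h : p ω = p ω₀
    · rw [if_pos h, rsx_ind_pos h, one_mul]
    · rw [if_neg h, rsx_ind_neg h, zero_mul, mul_zero]
  rw [key X, key Y]
  refine (Finset.abs_sum_le_sum_abs _ _).trans (Finset.sum_le_sum ?_)
  intro c hc
  obtain ⟨ω₀, h0, rfl⟩ := Finset.mem_image.1 hc
  rw [← key2, ← key2]
  exact H ω₀ (rsx_mem_cfgs.1 h0)

/-- a null event carries no mass. -/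
theorem scr142v_null {t : ℝ} (h0 : 0 ≤ t) (h1 : t ≤ 1) {F : Finset (ℤ × ℤ)} {b : Bool} {L : RswCfg → Prop}
    (hL : rswSum t F b (fun ω => rsxInd (L ω)) = 0) (X : RswCfg → ℝ) :
    rswSum t F b (fun ω => rsxInd (L ω) * X ω) = 0 := by
  rw [rsx_sum_eq] at hL ⊢
  have h := (Finset.sum_eq_zero_iff_of_nonneg
    (fun ω _ => mul_nonneg (rsx_wt_nonneg h0 h1 F b ω) (rsx_ind_nonneg (L ω)))).1 hL
  refine Finset.sum_eq_zero fun ω hω => ?_
  rw [← mul_assoc, h ω hω, zero_mul]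

/-! ## 2. everything selected is a function of the block patterns -/

section meas

variable {Λ : ScrLay} {δ : ℝ} {ω ω₀ : RswCfg}

theorem scr142v_pc (h : scrPats δ Λ.blk ω = scrPats δ Λ.blk ω₀) : scrPc Λ δ ω = scrPc Λ δ ω₀ := by
  unfold scrPc; rw [h]

theorem scr142v_gapOk (h : scrPats δ Λ.blk ω = scrPats δ Λ.blk ω₀) (k : Fin 4) :
    ScrGapOk Λ δ k ω ↔ ScrGapOk Λ δ k ω₀ := by
  unfold ScrGapOk; rw [scr142v_pc h]

theorem scr142v_succ (h : scrPats δ Λ.blk ω = scrPats δ Λ.blk ω₀) : ScrSucc Λ δ ω ↔ ScrSucc Λ δ ω₀ :=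
  forall_congr' fun k => scr142v_gapOk h k

theorem scr142v_selJ (h : scrPats δ Λ.blk ω = scrPats δ Λ.blk ω₀) (k : Fin 4) :
    scrSelJ Λ δ k ω = scrSelJ Λ δ k ω₀ := by
  unfold scrSelJ ScrGapOk; rw [scr142v_pc h]

theorem scr142v_selA (h : scrPats δ Λ.blk ω = scrPats δ Λ.blk ω₀) (k : Fin 4) (b : Bool) :
    scrSelA Λ δ k b ω = scrSelA Λ δ k b ω₀ := by
  unfold scrSelA; rw [scr142v_pc h, scr142v_selJ h]

theorem scr142v_bridge (h : scrPats δ Λ.blk ω = scrPats δ Λ.blk ω₀) (k : Fin 4) :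
    scrBridge Λ δ k ω = scrBridge Λ δ k ω₀ := by
  unfold scrBridge; rw [scr142v_selA h, scr142v_selA h]

theorem scr142v_br (h : scrPats δ Λ.blk ω = scrPats δ Λ.blk ω₀) (ω' : RswCfg) :
    ScrBr Λ δ ω ω' ↔ ScrBr Λ δ ω₀ ω' := by
  unfold ScrBr; simp only [scr142v_bridge h]

open Classical in
/-- on a successful pattern the selected trial is a trial and the selected ports are ports. -/
theorem scr142v_sel (h : ScrSucc Λ δ ω₀) (k : Fin 4) :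
    scrSelJ Λ δ k ω₀ < Λ.M ∧ ∀ b, ScrPort Λ δ k (scrSelJ Λ δ k ω₀) b (scrSelA Λ δ k b ω₀) := by
  have hk := h k
  have hj : scrSelJ Λ δ k ω₀ = Nat.find hk := by unfold scrSelJ; rw [dif_pos hk]
  have hs := Nat.find_spec hk
  rw [← hj] at hs
  refine ⟨hs.1, fun b => ?_⟩
  have ha := hs.2 b
  have : scrSelA Λ δ k b ω₀ = Classical.choose ha := by unfold scrSelA; rw [dif_pos ha]
  rw [this]; exact (Classical.choose_spec ha).1

end meas

/-! ## 3. geometry -/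

theorem scr142v_mem_cb (δ : ℝ) (v : ℤ × ℤ) (z : ℝ × ℝ) (ρ : ℝ) :
    scr232P δ v ∈ Metric.closedBall z ρ ↔ |δ * (v.1 : ℝ) - z.1| ≤ ρ ∧ |δ * (v.2 : ℝ) - z.2| ≤ ρ := by
  rw [Metric.mem_closedBall, Prod.dist_eq, max_le_iff, Real.dist_eq, Real.dist_eq]
  rfl

theorem scr142v_between {δ c ρ : ℝ} (hδ : 0 < δ) {a b x : ℤ} (ha : |δ * (a : ℝ) - c| ≤ ρ) (hb : |δ * (b : ℝ) - c| ≤ ρ)
    (h1 : min a b ≤ x) (h2 : x ≤ max a b) : |δ * (x : ℝ) - c| ≤ ρ := by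
  rw [abs_le] at *
  have h1' : ((min a b : ℤ) : ℝ) ≤ x := by exact_mod_cast h1
  have h2' : (x : ℝ) ≤ ((max a b : ℤ) : ℝ) := by exact_mod_cast h2
  have m1 : δ * ((min a b : ℤ) : ℝ) ≤ δ * x := mul_le_mul_of_nonneg_left h1' hδ.le
  have m2 : δ * (x : ℝ) ≤ δ * ((max a b : ℤ) : ℝ) := mul_le_mul_of_nonneg_left h2' hδ.le
  constructor
  · rcases le_total a b with h | h
    · rw [min_eq_left h] at m1; linarith [ha.1]
    · rw [min_eq_right h] at m1; linarith [hb.1]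
  · rcases le_total a b with h | h
    · rw [max_eq_right h] at m2; linarith [hb.2]
    · rw [max_eq_left h] at m2; linarith [ha.2]

theorem scr142v_Rt_pos {Λ : ScrLay} (hΛ : Λ.Ok) : 0 < Λ.Rt := by
  unfold ScrLay.Rt
  have hM : (0 : ℝ) < Λ.M := by exact_mod_cast hΛ.hM
  have := hΛ.hws
  exact div_pos (by linarith) (by linarith)

theorem scr142v_Rt_mul {Λ : ScrLay} (hΛ : Λ.Ok) : 2 * (Λ.M : ℝ) * Λ.Rt = Λ.s - Λ.w := by
  unfold ScrLay.Rt
  have hM : (0 : ℝ) < Λ.M := by exact_mod_cast hΛ.hM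
  field_simp

theorem scr142v_wh_pos {Λ : ScrLay} (hΛ : Λ.Ok) : 0 < Λ.wh := mul_pos hΛ.hq (scr142v_Rt_pos hΛ)

theorem scr142v_wh_le {Λ : ScrLay} (hΛ : Λ.Ok) : Λ.wh ≤ Λ.Rt / 40 := by
  unfold ScrLay.wh
  have := mul_le_mul_of_nonneg_right hΛ.hq' (scr142v_Rt_pos hΛ).le
  linarith

/-- the centres: distance to the centre of the layout. -/
theorem scr142v_cen {Λ : ScrLay} (hΛ : Λ.Ok) (k : Fin 4) {j : ℕ} (hj : j < Λ.M) :
    |(Λ.cen k j).1 - Λ.x0| ≤ Λ.s - Λ.Rt ∧ |(Λ.cen k j).2 - Λ.y0| ≤ Λ.s - Λ.Rt := by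
  have hR := scr142v_Rt_pos hΛ
  have hm := scr142v_Rt_mul hΛ
  have hj' : (j : ℝ) + 1 ≤ Λ.M := by exact_mod_cast hj
  have hsc := hΛ.sc
  have hh : 0 < Λ.h := by linarith [hsc.hr, hsc.hr0, hsc.hg]
  have hw : 0 < Λ.w := by linarith [hsc.hw]
  have h1 : (2 * (j : ℝ) + 1) * Λ.Rt ≤ Λ.s - Λ.w - Λ.Rt := by nlinarith
  have h2 : 0 ≤ (2 * (j : ℝ) + 1) * Λ.Rt := by positivity
  have hT := hΛ.hT
  have hg := hsc.hg
  unfold ScrLay.cen
  constructor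
  · fin_cases k <;> simp <;> rw [abs_le] <;> constructor <;> linarith
  · fin_cases k <;> simp <;> rw [abs_le] <;> constructor <;> linarith

theorem scr142v_cen_snd (Λ : ScrLay) (k : Fin 4) (j : ℕ) : (Λ.cen k j).2 = (Λ.cen k 0).2 := rfl

theorem scr142v_nb {δ : ℝ} (hδ : 0 < δ) {c : ℝ × ℝ} {ρ : ℝ} {f f' : ℤ × ℤ} (hf : scr232P δ f ∈ Metric.closedBall c ρ)
    (h1 : |f'.1 - f.1| ≤ 1) (h2 : |f'.2 - f.2| ≤ 1) : scr232P δ f' ∈ Metric.closedBall c (ρ + δ) := by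
  rw [scr142v_mem_cb] at hf ⊢
  have c1 : |((f'.1 : ℤ) : ℝ) - f.1| ≤ 1 := by exact_mod_cast h1
  have c2 : |((f'.2 : ℤ) : ℝ) - f.2| ≤ 1 := by exact_mod_cast h2
  rw [abs_le] at c1 c2
  obtain ⟨a1, a2⟩ := hf
  rw [abs_le] at a1 a2
  constructor <;> rw [abs_le] <;> constructor <;> nlinarith

/-- what lies in a trial square is a face of `F`. -/
theorem scr142v_inF {Λ : ScrLay} (hΛ : Λ.Ok) {δ : ℝ} {F : Finset (ℤ × ℤ)} (hF : ScrFits Λ δ F) (k : Fin 4) {j : ℕ}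
    (hj : j < Λ.M) {f : ℤ × ℤ} (hf : scr232P δ f ∈ Metric.closedBall (Λ.cen k j) Λ.Rt) : f ∈ F := by
  refine hF f ?_
  rw [scr142v_mem_cb] at hf ⊢
  obtain ⟨c1, c2⟩ := scr142v_cen hΛ k hj
  obtain ⟨a1, a2⟩ := hf
  rw [abs_le] at c1 c2 a1 a2
  show |δ * (f.1 : ℝ) - Λ.x0| ≤ Λ.s + 1 ∧ |δ * (f.2 : ℝ) - Λ.y0| ≤ Λ.s + 1
  rw [abs_le, abs_le]
  refine ⟨⟨?_, ?_⟩, ?_, ?_⟩ <;> linarith [c1.1, c1.2, c2.1, c2.2, a1.1, a1.2, a2.1, a2.2]

open Classical in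
/-- the faces of the hole (inner set of `ScrCirc`). -/
noncomputable def scr142vH (F : Finset (ℤ × ℤ)) (Λ : ScrLay) (δ : ℝ) (ω₀ : RswCfg) (k : Fin 4) : Finset (ℤ × ℤ) :=
  F.filter fun f => scr232P δ f ∈ Metric.closedBall (Λ.cen k (scrSelJ Λ δ k ω₀)) (2 * Λ.wh)

open Classical in
/-- the faces of the shielding square (the complement of the outer set of `ScrCirc`). -/
noncomputable def scr142vB (F : Finset (ℤ × ℤ)) (Λ : ScrLay) (δ : ℝ) (ω₀ : RswCfg) (k : Fin 4) : Finset (ℤ × ℤ) :=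
  F.filter fun f => scr232P δ f ∈ Metric.closedBall (Λ.cen k (scrSelJ Λ δ k ω₀)) (Λ.Rt / 10 - 2 * δ)

theorem scr142v_mem_H {F : Finset (ℤ × ℤ)} {Λ : ScrLay} {δ : ℝ} {ω₀ : RswCfg} {k : Fin 4} {f : ℤ × ℤ} :
    f ∈ scr142vH F Λ δ ω₀ k ↔ f ∈ F ∧ scr232P δ f ∈ Metric.closedBall (Λ.cen k (scrSelJ Λ δ k ω₀)) (2 * Λ.wh) := by
  classical
  unfold scr142vH; rw [Finset.mem_filter]

theorem scr142v_mem_B {F : Finset (ℤ × ℤ)} {Λ : ScrLay} {δ : ℝ} {ω₀ : RswCfg} {k : Fin 4} {f : ℤ × ℤ} :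
    f ∈ scr142vB F Λ δ ω₀ k ↔
      f ∈ F ∧ scr232P δ f ∈ Metric.closedBall (Λ.cen k (scrSelJ Λ δ k ω₀)) (Λ.Rt / 10 - 2 * δ) := by
  classical
  unfold scr142vB; rw [Finset.mem_filter]

theorem scr142v_circ {F : Finset (ℤ × ℤ)} {Λ : ScrLay} {δ : ℝ} {ω ω₀ : RswCfg}
    (h : scrPats δ Λ.blk ω = scrPats δ Λ.blk ω₀) (k : Fin 4) :
    ScrCirc F Λ δ k ω ↔ RswSep F true ω (scr142vH F Λ δ ω₀ k) (F \ scr142vB F Λ δ ω₀ k) := by
  classical
  have e : (F.filter fun f => scr232P δ f ∉ Metric.closedBall (Λ.cen k (scrSelJ Λ δ k ω₀)) (Λ.Rt / 10 - 2 * δ))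
      = F \ scr142vB F Λ δ ω₀ k := by
    ext f
    rw [Finset.mem_filter, Finset.mem_sdiff, scr142v_mem_B]
    tauto
  unfold ScrCirc
  rw [scr142v_selJ h, ← e]
  unfold scr142vH
  exact Iff.rfl

section geo

variable {Λ : ScrLay} (hΛ : Λ.Ok) {δ : ℝ} (hδ : 0 < δ) (hδ2 : δ ≤ Λ.wh / 2) {F : Finset (ℤ × ℤ)} {ω₀ : RswCfg}

include hΛ hδ2 in
theorem scr142v_H_sub_B (k : Fin 4) : scr142vH F Λ δ ω₀ k ⊆ scr142vB F Λ δ ω₀ k := by
  intro f hf
  rw [scr142v_mem_H] at hf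
  rw [scr142v_mem_B]
  refine ⟨hf.1, Metric.closedBall_subset_closedBall ?_ hf.2⟩
  have := scr142v_wh_le hΛ
  have := scr142v_Rt_pos hΛ
  linarith

theorem scr142v_B_sub_F (k : Fin 4) : scr142vB F Λ δ ω₀ k ⊆ F := fun _ hf => (scr142v_mem_B.1 hf).1

include hΛ hδ in
theorem scr142v_B_int (hF : ScrFits Λ δ F) (hs : ScrSucc Λ δ ω₀) (k : Fin 4) (e : (ℤ × ℤ) × Bool)
    (he : e.1 ∈ scr142vB F Λ δ ω₀ k ∨ rswCo e ∈ scr142vB F Λ δ ω₀ k) : e ∈ rswInt F := by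
  have hj := (scr142v_sel hs k).1
  have hR := scr142v_Rt_pos hΛ
  have key : ∀ f f' : ℤ × ℤ, f ∈ scr142vB F Λ δ ω₀ k → |f'.1 - f.1| ≤ 1 → |f'.2 - f.2| ≤ 1 → f' ∈ F := by
    intro f f' hf h1 h2
    refine scr142v_inF hΛ hF k hj (Metric.closedBall_subset_closedBall ?_ (scr142v_nb hδ (scr142v_mem_B.1 hf).2 h1 h2))
    linarith
  obtain ⟨⟨x, y⟩, c⟩ := e
  rw [rsk_mem_int]
  rcases he with he | he
  · refine ⟨(scr142v_mem_B.1 he).1, key _ _ he ?_ ?_⟩ <;> cases c <;> simp [rswCo]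
  · refine ⟨key _ _ he ?_ ?_, (scr142v_mem_B.1 he).1⟩ <;> cases c <;> simp [rswCo]

include hΛ hδ hδ2 in
/-- the bridge lies in the hole. -/
theorem scr142v_bridge_cb (hs : ScrSucc Λ δ ω₀) (k : Fin 4) {e : (ℤ × ℤ) × Bool} (he : e ∈ scrBridge Λ δ k ω₀) :
    scr232P δ e.1 ∈ Metric.closedBall (Λ.cen k (scrSelJ Λ δ k ω₀)) (2 * Λ.wh) ∧
      scr232P δ (rswCo e) ∈ Metric.closedBall (Λ.cen k (scrSelJ Λ δ k ω₀)) (2 * Λ.wh) := by
  obtain ⟨_, hp⟩ := scr142v_sel hs k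
  have hw := scr142v_wh_pos hΛ
  set j := scrSelJ Λ δ k ω₀ with hjdef
  set c := Λ.cen k j with hc
  obtain ⟨_, p1, p2⟩ := hp false
  obtain ⟨_, q1, q2⟩ := hp true
  set a := scrSelA Λ δ k false ω₀ with ha
  set a' := scrSelA Λ δ k true ω₀ with ha'
  have hc2 : (Λ.cen k 0).2 = c.2 := rfl
  set Y : ℤ := ⌊(Λ.cen k 0).2 / δ⌋ with hY
  have y1 : (Y : ℝ) ≤ c.2 / δ := by rw [hY, hc2]; exact Int.floor_le _
  have y2 : c.2 / δ < (Y : ℝ) + 1 := by rw [hY, hc2]; exact Int.lt_floor_add_one _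
  rw [le_div_iff₀ hδ] at y1
  rw [div_lt_iff₀ hδ] at y2
  have hYc : |δ * (Y : ℝ) - c.2| ≤ δ := by rw [abs_le]; constructor <;> nlinarith
  have hV : ∀ (u : ℤ × ℤ), |δ * (u.1 : ℝ) - c.1| ≤ Λ.wh / 2 → |δ * (u.2 : ℝ) - c.2| < Λ.wh + δ → ∀ y : ℤ,
      min u.2 Y ≤ y → y ≤ max u.2 Y →
      scr232P δ (u.1, y) ∈ Metric.closedBall c (2 * Λ.wh) ∧ scr232P δ (u.1 - 1, y) ∈ Metric.closedBall c (2 * Λ.wh) := by
    intro u u1 u2 y h1 h2
    have hb := scr142v_between hδ u2.le (hYc.trans (by linarith)) h1 h2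
    rw [scr142v_mem_cb, scr142v_mem_cb]
    simp only [Int.cast_sub, Int.cast_one]
    rw [abs_le] at u1 hb
    refine ⟨⟨?_, ?_⟩, ?_, ?_⟩ <;> rw [abs_le] <;> constructor <;> nlinarith [u1.1, u1.2, hb.1, hb.2]
  unfold scrBridge at he
  rw [Finset.mem_union, Finset.mem_union] at he
  rcases he with (he | he) | he
  · unfold scrVseg at he
    obtain ⟨y, hy, rfl⟩ := Finset.mem_image.1 he
    rw [Finset.mem_Ico] at hy
    exact hV a p1 p2 y hy.1 hy.2.le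
  · unfold scrHseg at he
    obtain ⟨x, hx, rfl⟩ := Finset.mem_image.1 he
    rw [Finset.mem_Ico] at hx
    have hb := scr142v_between hδ p1 q1 hx.1 hx.2.le
    show scr232P δ (x, Y) ∈ _ ∧ scr232P δ (x, Y - 1) ∈ _
    rw [scr142v_mem_cb, scr142v_mem_cb]
    simp only [Int.cast_sub, Int.cast_one]
    rw [abs_le] at hb hYc
    refine ⟨⟨?_, ?_⟩, ?_, ?_⟩ <;> rw [abs_le] <;> constructor <;> nlinarith [hb.1, hb.2, hYc.1, hYc.2]
  · unfold scrVseg at he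
    obtain ⟨y, hy, rfl⟩ := Finset.mem_image.1 he
    rw [Finset.mem_Ico] at hy
    exact hV a' q1 q2 y (by rw [min_comm]; exact hy.1) (by rw [max_comm]; exact hy.2.le)

include hΛ hδ hδ2 in
theorem scr142v_bridge_int (hF : ScrFits Λ δ F) (hs : ScrSucc Λ δ ω₀) (k : Fin 4) :
    scrBridge Λ δ k ω₀ ⊆ rswInt (scr142vH F Λ δ ω₀ k) := by
  intro e he
  obtain ⟨h1, h2⟩ := scr142v_bridge_cb hΛ hδ hδ2 hs k he
  have hj := (scr142v_sel hs k).1
  have hle : 2 * Λ.wh ≤ Λ.Rt := by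
    have := scr142v_wh_le hΛ
    have := scr142v_Rt_pos hΛ
    linarith
  rw [rsk_mem_int, scr142v_mem_H, scr142v_mem_H]
  exact ⟨⟨scr142v_inF hΛ hF k hj (Metric.closedBall_subset_closedBall hle h1), h1⟩,
    scr142v_inF hΛ hF k hj (Metric.closedBall_subset_closedBall hle h2), h2⟩

include hδ in
/-- the faces of the shielding square lie in the shield. -/
theorem scr142v_B_shield (hs : ScrSucc Λ δ ω₀) (k : Fin 4) {f : ℤ × ℤ} (hf : f ∈ scr142vB F Λ δ ω₀ k) :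
    scr232P δ f ∈ Λ.shield := by
  have hj := (scr142v_sel hs k).1
  unfold ScrLay.shield
  simp only [Set.mem_iUnion]
  exact ⟨k, _, hj, Metric.closedBall_subset_closedBall (by linarith) (scr142v_mem_B.1 hf).2⟩

end geo

/-! ## 4. patterns; the observable with the shield frozen -/

theorem scr142v_pats_iff {δ : ℝ} {blk : Fin 4 → Set (ℝ × ℝ)} {ω ω' : RswCfg} :
    scrPats δ blk ω = scrPats δ blk ω' ↔
      (∀ i v, scr232P δ v ∈ blk i → (v ∈ ω.S ↔ v ∈ ω'.S)) ∧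
      (∀ i (e : (ℤ × ℤ) × Bool), scr232P δ e.1 ∈ blk i → scr232P δ (rswEnd e) ∈ blk i → (e ∈ ω.O ↔ e ∈ ω'.O)) := by
  classical
  constructor
  · intro h
    refine ⟨fun i v hv => ?_, fun i e h1 h2 => ?_⟩
    · have := congrArg Prod.fst (congrFun h i)
      have := Finset.ext_iff.1 this v
      simp only [scrPats, scrPat, Finset.mem_filter, hv, and_true] at this
      exact this
    · have := congrArg Prod.snd (congrFun h i)
      have := Finset.ext_iff.1 this e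
      simp only [scrPats, scrPat, Finset.mem_filter, h1, h2, and_true] at this
      exact this
  · rintro ⟨hS, hO⟩
    funext i
    refine Prod.ext (Finset.ext fun v => ?_) (Finset.ext fun e => ?_)
    · simp only [scrPats, scrPat, Finset.mem_filter]
      exact ⟨fun h => ⟨(hS i v h.2).1 h.1, h.2⟩, fun h => ⟨(hS i v h.2).2 h.1, h.2⟩⟩
    · simp only [scrPats, scrPat, Finset.mem_filter]
      exact ⟨fun h => ⟨(hO i e h.2.1 h.2.2).1 h.1, h.2⟩, fun h => ⟨(hO i e h.2.1 h.2.2).2 h.1, h.2⟩⟩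

open Classical in
/-- `ω` off the shield, `ω₀` (spins, edges) in the shield. -/
noncomputable def scr142vMix (Λ : ScrLay) (δ : ℝ) (ω₀ ω : RswCfg) : RswCfg :=
  ⟨(ω.S.filter fun v => scr232P δ v ∉ Λ.shield) ∪ (ω₀.S.filter fun v => scr232P δ v ∈ Λ.shield),
   ω.D.filter fun f => scr232P δ f ∉ Λ.shield,
   (ω.O.filter fun e => scr232P δ e.1 ∉ Λ.shield ∧ scr232P δ (rswEnd e) ∉ Λ.shield) ∪
     (ω₀.O.filter fun e => ¬ (scr232P δ e.1 ∉ Λ.shield ∧ scr232P δ (rswEnd e) ∉ Λ.shield))⟩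

section mix

variable {Λ : ScrLay} {δ : ℝ} {ω₀ ω : RswCfg}

theorem scr142v_mix_S {v : ℤ × ℤ} : v ∈ (scr142vMix Λ δ ω₀ ω).S ↔
    (v ∈ ω.S ∧ scr232P δ v ∉ Λ.shield) ∨ (v ∈ ω₀.S ∧ scr232P δ v ∈ Λ.shield) := by
  classical
  simp only [scr142vMix, Finset.mem_union, Finset.mem_filter]

theorem scr142v_mix_D {f : ℤ × ℤ} : f ∈ (scr142vMix Λ δ ω₀ ω).D ↔ (f ∈ ω.D ∧ scr232P δ f ∉ Λ.shield) := by
  classical
  simp only [scr142vMix, Finset.mem_filter]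

theorem scr142v_mix_O {e : (ℤ × ℤ) × Bool} : e ∈ (scr142vMix Λ δ ω₀ ω).O ↔
    (e ∈ ω.O ∧ (scr232P δ e.1 ∉ Λ.shield ∧ scr232P δ (rswEnd e) ∉ Λ.shield)) ∨
      (e ∈ ω₀.O ∧ ¬ (scr232P δ e.1 ∉ Λ.shield ∧ scr232P δ (rswEnd e) ∉ Λ.shield)) := by
  classical
  simp only [scr142vMix, Finset.mem_union, Finset.mem_filter]

/-- on the pattern of `ω₀` the observable does not see the freezing. -/
theorem scr142v_mix_eq {A : RswCfg → ℝ} (hA : ScrOff Λ δ A) (h : scrPats δ Λ.blk ω = scrPats δ Λ.blk ω₀) :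
    A ω = A (scr142vMix Λ δ ω₀ ω) := by
  obtain ⟨hS, hO⟩ := scr142v_pats_iff.1 h
  refine hA ω _ (scr142v_pats_iff.2 ⟨fun i v hv => ?_, fun i e h1 h2 => ?_⟩) (fun v hv => ?_) (fun f hf => ?_)
    (fun e h1 h2 => ?_)
  · rw [scr142v_mix_S, ← hS i v hv]; tauto
  · rw [scr142v_mix_O, ← hO i e h1 h2]; tauto
  · rw [scr142v_mix_S]; tauto
  · rw [scr142v_mix_D]; tauto
  · rw [scr142v_mix_O]; tauto

/-- the frozen observable reads nothing strictly inside a set of faces of the shield. -/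
theorem scr142v_mix_out {B : Finset (ℤ × ℤ)} (hB : ∀ f ∈ B, scr232P δ f ∈ Λ.shield) :
    scr142vMix Λ δ ω₀ (rskOut B ω) = scr142vMix Λ δ ω₀ ω := by
  refine rsx_cfg_ext (Finset.ext fun v => ?_) (Finset.ext fun f => ?_) (Finset.ext fun e => ?_)
  · rw [scr142v_mix_S, scr142v_mix_S]
    have : v ∈ rskCore B → scr232P δ v ∈ Λ.shield := fun h => hB v (rsk_mem_core.1 h).1
    simp only [rskOut, Finset.mem_sdiff]
    tauto
  · rw [scr142v_mix_D, scr142v_mix_D]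
    have := hB f
    simp only [rskOut, Finset.mem_sdiff]
    tauto
  · rw [scr142v_mix_O, scr142v_mix_O]
    have : e ∈ rswInt B → scr232P δ e.1 ∈ Λ.shield := fun h => hB _ (rsk_mem_int.1 h).1
    simp only [rskOut, Finset.mem_sdiff]
    tauto

end mix

/-! ## 5. the block patterns as a record of 91 -/

open Classical in
/-- the record: all corners of `F` in a block, all interior edges with both ends in one block, values of `ω₀`. -/
noncomputable def scr142vXi (F : Finset (ℤ × ℤ)) (Λ : ScrLay) (δ : ℝ) (ω₀ : RswCfg) : Scr91Rec :=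
  ⟨(cornersOf F).filter fun v => ∃ i, scr232P δ v ∈ Λ.blk i,
   (rswInt F).filter fun e => ∃ i, scr232P δ e.1 ∈ Λ.blk i ∧ scr232P δ (rswEnd e) ∈ Λ.blk i, ω₀⟩

theorem scr142v_xi_legal (F : Finset (ℤ × ℤ)) (Λ : ScrLay) (δ : ℝ) (ω₀ : RswCfg) : (scr142vXi F Λ δ ω₀).Legal := by
  classical
  intro e he
  simp only [scr142vXi, Finset.mem_filter] at he ⊢
  obtain ⟨h1, i, h2, h3⟩ := he
  exact ⟨⟨rsk_int_fst h1, i, h2⟩, rsk_int_end h1, i, h3⟩

theorem scr142v_xi_ev {F : Finset (ℤ × ℤ)} {Λ : ScrLay} {δ : ℝ} {ω₀ ω : RswCfg} (hω : RsbIn F ω) (hω₀ : RsbIn F ω₀) :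
    (scr142vXi F Λ δ ω₀).Ev ω ↔ scrPats δ Λ.blk ω = scrPats δ Λ.blk ω₀ := by
  classical
  rw [scr142v_pats_iff]
  unfold Scr91Rec.Ev
  simp only [scr142vXi, Finset.mem_filter]
  constructor
  · rintro ⟨hS, hO⟩
    refine ⟨fun i v hv => ?_, fun i e h1 h2 => ?_⟩
    · by_cases hc : v ∈ cornersOf F
      · exact hS v ⟨hc, i, hv⟩
      · exact ⟨fun h => absurd (hω.1 h) hc, fun h => absurd (hω₀.1 h) hc⟩
    · by_cases hc : e ∈ rswInt F
      · exact hO e ⟨hc, i, h1, h2⟩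
      · exact ⟨fun h => absurd (hω.2.2 h) hc, fun h => absurd (hω₀.2.2 h) hc⟩
  · rintro ⟨hS, hO⟩
    exact ⟨fun v ⟨_, i, hv⟩ => hS i v hv, fun e ⟨_, i, h1, h2⟩ => hO i e h1 h2⟩

/-! ## 6. one pattern: the four pins -/

theorem scr142v_ind_and (p q : Prop) : rsxInd (p ∧ q) = rsxInd p * rsxInd q := by
  by_cases hp : p
  · by_cases hq : q
    · rw [rsx_ind_pos hp, rsx_ind_pos hq, rsx_ind_pos ⟨hp, hq⟩, one_mul]
    · rw [rsx_ind_neg hq, rsx_ind_neg (fun h => hq h.2), mul_zero]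
  · rw [rsx_ind_neg hp, rsx_ind_neg (fun h => hp h.1), zero_mul]

section pattern

variable {t : ℝ} {Λ : ScrLay} {δ : ℝ} {F : Finset (ℤ × ℤ)} {ω₀ : RswCfg}

theorem scr142v_N_one (hω₀ : RsbIn F ω₀) (X : RswCfg → ℝ) :
    scr91N t F (fun _ => 1) (scr142vXi F Λ δ ω₀) X =
      rswSum t F true (fun ω => rsxInd (scrPats δ Λ.blk ω = scrPats δ Λ.blk ω₀) * X ω) := by
  unfold scr91N
  refine rsb_sum_congr fun ω hω _ => ?_
  rw [one_mul, rsx_ind_congr (scr142v_xi_ev hω hω₀)]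

theorem scr142v_N_pin (hω₀ : RsbIn F ω₀) (X : RswCfg → ℝ) :
    scr91N t F (scr91Pin (Finset.univ.biUnion fun k => scrBridge Λ δ k ω₀)) (scr142vXi F Λ δ ω₀) X =
      rswSum t F true (fun ω => rsxInd (scrPats δ Λ.blk ω = scrPats δ Λ.blk ω₀ ∧ ScrBr Λ δ ω₀ ω) * X ω) := by
  unfold scr91N scr91Pin
  refine rsb_sum_congr fun ω hω _ => ?_
  have e : (∀ e ∈ Finset.univ.biUnion fun k => scrBridge Λ δ k ω₀, RswGood true ω e) ↔ ScrBr Λ δ ω₀ ω := by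
    unfold ScrBr
    simp only [Finset.mem_biUnion, Finset.mem_univ, true_and]
    exact ⟨fun h k e he => h e ⟨k, he⟩, fun h e ⟨k, he⟩ => h k e he⟩
  rw [rsx_ind_congr (scr142v_xi_ev hω hω₀), rsx_ind_congr e, scr142v_ind_and, mul_comm (rsxInd (ScrBr Λ δ ω₀ ω))]

/-- **one successful pattern**: `|μ(A | π) - μ(A | π, bridges)| ≤ 2 ∑_k μ(no shielding circuit at k | π)`. -/
theorem scr142v_pattern (h0 : 0 ≤ t) (h1 : t ≤ 1) (hΛ : Λ.Ok) (hδ : 0 < δ) (hδ2 : δ ≤ Λ.wh / 2) (hF : ScrFits Λ δ F)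
    (hcmp : ∀ Q : Finset ((ℤ × ℤ) × Bool), Q ⊆ rswInt F → Scr91Cmp t F Q) (hω₀ : RsbIn F ω₀) (hs : ScrSucc Λ δ ω₀)
    {A : RswCfg → ℝ} (hA1 : ∀ ω, |A ω| ≤ 1) (hA : ScrOff Λ δ A)
    (hpos : 0 < rswSum t F true (fun ω => rsxInd (scrPats δ Λ.blk ω = scrPats δ Λ.blk ω₀ ∧ ScrBr Λ δ ω₀ ω))) :
    |rswSum t F true (fun ω => rsxInd (scrPats δ Λ.blk ω = scrPats δ Λ.blk ω₀) * A ω) /
          rswSum t F true (fun ω => rsxInd (scrPats δ Λ.blk ω = scrPats δ Λ.blk ω₀)) -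
        rswSum t F true (fun ω => rsxInd (scrPats δ Λ.blk ω = scrPats δ Λ.blk ω₀ ∧ ScrBr Λ δ ω₀ ω) * A ω) /
          rswSum t F true (fun ω => rsxInd (scrPats δ Λ.blk ω = scrPats δ Λ.blk ω₀ ∧ ScrBr Λ δ ω₀ ω))| ≤
      2 * ∑ k : Fin 4,
        rswSum t F true (fun ω => rsxInd (scrPats δ Λ.blk ω = scrPats δ Λ.blk ω₀) * rsxInd (¬ ScrCirc F Λ δ k ω)) /
          rswSum t F true (fun ω => rsxInd (scrPats δ Λ.blk ω = scrPats δ Λ.blk ω₀)) := by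
  have hpos' : 0 < scr91N t F (scr91Pin (Finset.univ.biUnion fun k => scrBridge Λ δ k ω₀)) (scr142vXi F Λ δ ω₀)
      (fun _ => 1) := by
    rw [scr142v_N_pin hω₀]; simpa only [mul_one] using hpos
  have key := scr91_tv_chain h0 h1 (scr142vH F Λ δ ω₀) (scr142vB F Λ δ ω₀) (fun k => scrBridge Λ δ k ω₀)
    (scr142v_H_sub_B hΛ hδ2) scr142v_B_sub_F (scr142v_B_int hΛ hδ hF hs) (scr142v_bridge_int hΛ hδ hδ2 hF hs) hcmp
    (A := fun ω => A (scr142vMix Λ δ ω₀ ω)) (fun ω => hA1 _)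
    (fun k ω => by
      show A (scr142vMix Λ δ ω₀ (rskOut _ ω)) = A (scr142vMix Λ δ ω₀ ω)
      rw [scr142v_mix_out (fun f hf => scr142v_B_shield hδ hs k hf)])
    (scr142v_xi_legal F Λ δ ω₀) hpos'
  unfold scr91e at key
  simp only [scr142v_N_one hω₀, scr142v_N_pin hω₀, mul_one] at key
  have e1 : rswSum t F true (fun ω => rsxInd (scrPats δ Λ.blk ω = scrPats δ Λ.blk ω₀) * A (scr142vMix Λ δ ω₀ ω)) =
      rswSum t F true (fun ω => rsxInd (scrPats δ Λ.blk ω = scrPats δ Λ.blk ω₀) * A ω) := by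
    refine rsx_sum_congr t F true fun ω => ?_
    by_cases h : scrPats δ Λ.blk ω = scrPats δ Λ.blk ω₀
    · rw [← scr142v_mix_eq hA h]
    · rw [rsx_ind_neg h, zero_mul, zero_mul]
  have e2 : rswSum t F true (fun ω => rsxInd (scrPats δ Λ.blk ω = scrPats δ Λ.blk ω₀ ∧ ScrBr Λ δ ω₀ ω) *
        A (scr142vMix Λ δ ω₀ ω)) =
      rswSum t F true (fun ω => rsxInd (scrPats δ Λ.blk ω = scrPats δ Λ.blk ω₀ ∧ ScrBr Λ δ ω₀ ω) * A ω) := by
    refine rsx_sum_congr t F true fun ω => ?_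
    by_cases h : scrPats δ Λ.blk ω = scrPats δ Λ.blk ω₀
    · rw [← scr142v_mix_eq hA h]
    · rw [rsx_ind_neg (fun h' => h h'.1), zero_mul, zero_mul]
  have e3 : ∀ k : Fin 4, rswSum t F true (fun ω => rsxInd (scrPats δ Λ.blk ω = scrPats δ Λ.blk ω₀) *
        scr91Fail F (scr142vH F Λ δ ω₀ k) (F \ scr142vB F Λ δ ω₀ k) ω) =
      rswSum t F true (fun ω => rsxInd (scrPats δ Λ.blk ω = scrPats δ Λ.blk ω₀) * rsxInd (¬ ScrCirc F Λ δ k ω)) := by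
    intro k
    refine rsx_sum_congr t F true fun ω => ?_
    by_cases h : scrPats δ Λ.blk ω = scrPats δ Λ.blk ω₀
    · unfold scr91Fail
      rw [rsx_ind_congr (not_congr (scr142v_circ h k))]
    · rw [rsx_ind_neg h, zero_mul, zero_mul]
  rw [e1, e2] at key
  simp only [e3] at key
  exact key

end pattern

/-! ## 7. the mixture over the patterns -/

theorem scr142v_rho {t : ℝ} {F : Finset (ℤ × ℤ)} {Λ : ScrLay} {δ : ℝ} {ω ω₀ : RswCfg}
    (h : scrPats δ Λ.blk ω = scrPats δ Λ.blk ω₀) (hs : ScrSucc Λ δ ω₀) :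
    scrRho t F Λ δ ω = rsxInd (ScrBr Λ δ ω₀ ω) *
      (rswP t F true (fun ω' => scrPats δ Λ.blk ω' = scrPats δ Λ.blk ω₀) /
        rswP t F true (fun ω' => scrPats δ Λ.blk ω' = scrPats δ Λ.blk ω₀ ∧ ScrBr Λ δ ω₀ ω')) := by
  classical
  unfold scrRho
  rw [if_pos ((scr142v_succ h).2 hs)]
  simp only [h, scr142v_br h]
  by_cases hb : ScrBr Λ δ ω₀ ω
  · rw [if_pos hb, rsx_ind_pos hb, one_mul]
  · rw [if_neg hb, rsx_ind_neg hb, zero_mul]

/-- **(TV) at fixed mesh and volume.** -/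
theorem scr142v_tv_fixed {t : ℝ} (h0 : 0 < t) (h1 : t ≤ 1) {Λ : ScrLay} (hΛ : Λ.Ok) {δ : ℝ} (hδ : 0 < δ)
    (hδ2 : δ ≤ Λ.wh / 2) {F : Finset (ℤ × ℤ)} (hF : ScrFits Λ δ F)
    (hcmp : ∀ Q : Finset ((ℤ × ℤ) × Bool), Q ⊆ rswInt F → Scr91Cmp t F Q)
    (hpos : ∀ ω₀ : RswCfg, ScrSucc Λ δ ω₀ →
      0 < rswP t F true (fun ω => scrPats δ Λ.blk ω = scrPats δ Λ.blk ω₀) →
      0 < rswP t F true (fun ω => scrPats δ Λ.blk ω = scrPats δ Λ.blk ω₀ ∧ ScrBr Λ δ ω₀ ω))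
    {A : RswCfg → ℝ} (hA1 : ∀ ω, |A ω| ≤ 1) (hA : ScrOff Λ δ A) :
    |rswE t F true A - scrQ t F Λ δ A| ≤
      2 * ∑ k : Fin 4, rswP t F true (fun ω => ScrSucc Λ δ ω ∧ ¬ ScrCirc F Λ δ k ω) := by
  have hZ := rsb_Z_pos h0 h1 F true
  have e1 : rswE t F true A - scrQ t F Λ δ A =
      rswSum t F true (fun ω => A ω * (1 - scrRho t F Λ δ ω)) / rswSum t F true (fun _ => 1) := by
    unfold scrQ rswE
    rw [← sub_div, ← rsb_sum_sub]
    congr 1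
    exact rsx_sum_congr t F true fun ω => by ring
  have e2 : 2 * ∑ k : Fin 4, rswP t F true (fun ω => ScrSucc Λ δ ω ∧ ¬ ScrCirc F Λ δ k ω) =
      rswSum t F true (fun ω => 2 * ∑ k : Fin 4, rsxInd (ScrSucc Λ δ ω ∧ ¬ ScrCirc F Λ δ k ω)) /
        rswSum t F true (fun _ => 1) := by
    rw [rsb_sum_const_mul, rsb_sum_finset_sum, mul_div_assoc, Finset.sum_div]
    rfl
  rw [e1, e2, abs_div, abs_of_pos hZ]
  refine div_le_div_of_nonneg_right ?_ hZ.le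
  refine scr142v_fiber t F true (scrPats δ Λ.blk) _ _ fun ω₀ hω₀ => ?_
  have hRnn : 0 ≤ rswSum t F true (fun ω => rsxInd (scrPats δ Λ.blk ω = scrPats δ Λ.blk ω₀) *
      (2 * ∑ k : Fin 4, rsxInd (ScrSucc Λ δ ω ∧ ¬ ScrCirc F Λ δ k ω))) :=
    rsx_sum_nonneg h0.le h1 F true fun ω => mul_nonneg (rsx_ind_nonneg _)
      (mul_nonneg (by norm_num) (Finset.sum_nonneg fun k _ => rsx_ind_nonneg _))
  by_cases hs : ScrSucc Λ δ ω₀
  · by_cases hN : rswSum t F true (fun ω => rsxInd (scrPats δ Λ.blk ω = scrPats δ Λ.blk ω₀)) = 0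
    · rw [scr142v_null h0.le h1 hN, abs_zero]; exact hRnn
    · have hN0 : 0 < rswSum t F true (fun ω => rsxInd (scrPats δ Λ.blk ω = scrPats δ Λ.blk ω₀)) :=
        lt_of_le_of_ne (rsx_sum_nonneg h0.le h1 F true fun ω => rsx_ind_nonneg _) (Ne.symm hN)
      have hP0 : 0 < rswP t F true (fun ω => scrPats δ Λ.blk ω = scrPats δ Λ.blk ω₀) := div_pos hN0 hZ
      have hPB := hpos ω₀ hs hP0
      have hNB : 0 < rswSum t F true (fun ω => rsxInd (scrPats δ Λ.blk ω = scrPats δ Λ.blk ω₀ ∧ ScrBr Λ δ ω₀ ω)) := by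
        have : rswP t F true (fun ω => scrPats δ Λ.blk ω = scrPats δ Λ.blk ω₀ ∧ ScrBr Λ δ ω₀ ω) =
          rswSum t F true (fun ω => rsxInd (scrPats δ Λ.blk ω = scrPats δ Λ.blk ω₀ ∧ ScrBr Λ δ ω₀ ω)) /
            rswSum t F true (fun _ => 1) := rfl
        rw [this] at hPB
        exact (div_pos_iff_of_pos_right hZ).1 hPB
      have key := scr142v_pattern h0.le h1 hΛ hδ hδ2 hF hcmp hω₀ hs hA1 hA hNB
      set N0 := rswSum t F true (fun ω => rsxInd (scrPats δ Λ.blk ω = scrPats δ Λ.blk ω₀)) with hN0def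
      set NB := rswSum t F true (fun ω => rsxInd (scrPats δ Λ.blk ω = scrPats δ Λ.blk ω₀ ∧ ScrBr Λ δ ω₀ ω)) with hNBdef
      set NA := rswSum t F true (fun ω => rsxInd (scrPats δ Λ.blk ω = scrPats δ Λ.blk ω₀) * A ω) with hNAdef
      set NBA := rswSum t F true (fun ω => rsxInd (scrPats δ Λ.blk ω = scrPats δ Λ.blk ω₀ ∧ ScrBr Λ δ ω₀ ω) * A ω)
        with hNBAdef
      have hc : rswP t F true (fun ω' => scrPats δ Λ.blk ω' = scrPats δ Λ.blk ω₀) /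
          rswP t F true (fun ω' => scrPats δ Λ.blk ω' = scrPats δ Λ.blk ω₀ ∧ ScrBr Λ δ ω₀ ω') = N0 / NB := by
        show (N0 / rswSum t F true (fun _ => 1)) / (NB / rswSum t F true (fun _ => 1)) = N0 / NB
        field_simp
      have hL : rswSum t F true (fun ω => rsxInd (scrPats δ Λ.blk ω = scrPats δ Λ.blk ω₀) *
          (A ω * (1 - scrRho t F Λ δ ω))) = NA - N0 / NB * NBA := by
        rw [hNAdef, hNBAdef, ← rsb_sum_const_mul, ← rsb_sum_sub]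
        refine rsx_sum_congr t F true fun ω => ?_
        by_cases h : scrPats δ Λ.blk ω = scrPats δ Λ.blk ω₀
        · rw [scr142v_rho h hs, hc, scr142v_ind_and]; ring
        · rw [rsx_ind_neg h, rsx_ind_neg (fun h' => h h'.1)]; ring
      have hR : rswSum t F true (fun ω => rsxInd (scrPats δ Λ.blk ω = scrPats δ Λ.blk ω₀) *
          (2 * ∑ k : Fin 4, rsxInd (ScrSucc Λ δ ω ∧ ¬ ScrCirc F Λ δ k ω))) =
          2 * ∑ k : Fin 4, rswSum t F true (fun ω => rsxInd (scrPats δ Λ.blk ω = scrPats δ Λ.blk ω₀) *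
            rsxInd (¬ ScrCirc F Λ δ k ω)) := by
        rw [← rsb_sum_finset_sum, ← rsb_sum_const_mul]
        refine rsx_sum_congr t F true fun ω => ?_
        by_cases h : scrPats δ Λ.blk ω = scrPats δ Λ.blk ω₀
        · have hsω := (scr142v_succ h).2 hs
          rw [rsx_ind_pos h, one_mul]
          congr 1
          refine Finset.sum_congr rfl fun k _ => ?_
          rw [one_mul, scr142v_ind_and, rsx_ind_pos hsω, one_mul]
        · rw [rsx_ind_neg h]; simp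
      rw [hL, hR]
      have e : NA - N0 / NB * NBA = N0 * (NA / N0 - NBA / NB) := by field_simp
      rw [e, abs_mul, abs_of_pos hN0]
      calc N0 * |NA / N0 - NBA / NB| ≤ N0 * (2 * ∑ k : Fin 4,
            rswSum t F true (fun ω => rsxInd (scrPats δ Λ.blk ω = scrPats δ Λ.blk ω₀) * rsxInd (¬ ScrCirc F Λ δ k ω)) / N0) :=
            mul_le_mul_of_nonneg_left key hN0.le
        _ = _ := by rw [← Finset.sum_div]; field_simp
  · have : rswSum t F true (fun ω => rsxInd (scrPats δ Λ.blk ω = scrPats δ Λ.blk ω₀) *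
        (A ω * (1 - scrRho t F Λ δ ω))) = rswSum t F true (fun _ => 0) := by
      refine rsx_sum_congr t F true fun ω => ?_
      by_cases h : scrPats δ Λ.blk ω = scrPats δ Λ.blk ω₀
      · have : scrRho t F Λ δ ω = 1 := by
          unfold scrRho
          rw [if_neg (fun h' => hs ((scr142v_succ h).1 h'))]
        rw [this]; ring
      · rw [rsx_ind_neg h, zero_mul]
    rw [this, rsb_sum_zero, abs_zero]
    exact hRnn

/-! ## 8. the leaf -/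

/-- **(TV) = the statement of `scr_cut_tv`, verbatim**, from (POS) `scr_cut_pos` (hypothesis `hpos`, verbatim after `t ht1 ht2`) and
the comparison `Scr91Cmp` of 91 / 291 (hypothesis `hcmp`). -/
theorem scr142v_cut_tv (t : ℝ) (ht1 : 1 / 2 ≤ t) (ht2 : t < 1)
    (hcmp : ∀ F : Finset (ℤ × ℤ), RswJordan F → ∀ Q : Finset ((ℤ × ℤ) × Bool), Q ⊆ rswInt F → Scr91Cmp t F Q)
    (hpos : ∀ (Λ : ScrLay) (_ : Λ.Ok),
      ∃ δ₀ : ℝ, 0 < δ₀ ∧ ∀ δ : ℝ, 0 < δ → δ < δ₀ → ∀ F : Finset (ℤ × ℤ), ScrFits Λ δ F → ∀ ω₀ : RswCfg, ScrSucc Λ δ ω₀ →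
        0 < rswP t F true (fun ω => scrPats δ Λ.blk ω = scrPats δ Λ.blk ω₀) →
        0 < rswP t F true (fun ω => scrPats δ Λ.blk ω = scrPats δ Λ.blk ω₀ ∧ ScrBr Λ δ ω₀ ω))
    (Λ : ScrLay) (hΛ : Λ.Ok) :
    ∃ δ₀ : ℝ, 0 < δ₀ ∧ ∀ δ : ℝ, 0 < δ → δ < δ₀ → ∀ F : Finset (ℤ × ℤ), RswJordan F → ScrFits Λ δ F →
      ∀ A : RswCfg → ℝ, (∀ ω, |A ω| ≤ 1) → ScrOff Λ δ A →
      |rswE t F true A - scrQ t F Λ δ A| ≤ 2 * ∑ k : Fin 4, rswP t F true (fun ω => ScrSucc Λ δ ω ∧ ¬ ScrCirc F Λ δ k ω) := by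
  obtain ⟨δ₁, hδ₁, H⟩ := hpos Λ hΛ
  have hw := scr142v_wh_pos hΛ
  refine ⟨min δ₁ (Λ.wh / 2), lt_min hδ₁ (by linarith), fun δ hδ hδlt F hJ hF A hA1 hA => ?_⟩
  exact scr142v_tv_fixed (by linarith) ht2.le hΛ hδ (hδlt.trans_le (min_le_right _ _)).le hF (hcmp F hJ)
    (H δ hδ (hδlt.trans_le (min_le_left _ _)) F hF) hA1 hA

/-- **(TV) CLOSED: the statement of `scr_cut_tv`, verbatim, no hypothesis** (comparison: `hol12_scr91cmp` of 12; (POS): `scr260_cut_pos` of 260). -/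
theorem scr142v_cut_tv_full (t : ℝ) (ht1 : 1 / 2 ≤ t) (ht2 : t < 1) (Λ : ScrLay) (hΛ : Λ.Ok) :
    ∃ δ₀ : ℝ, 0 < δ₀ ∧ ∀ δ : ℝ, 0 < δ → δ < δ₀ → ∀ F : Finset (ℤ × ℤ), RswJordan F → ScrFits Λ δ F →
      ∀ A : RswCfg → ℝ, (∀ ω, |A ω| ≤ 1) → ScrOff Λ δ A →
      |rswE t F true A - scrQ t F Λ δ A| ≤ 2 * ∑ k : Fin 4, rswP t F true (fun ω => ScrSucc Λ δ ω ∧ ¬ ScrCirc F Λ δ k ω) :=
  scr142v_cut_tv t ht1 ht2 (fun _ hF Q _ => hol12_scr91cmp (by linarith) ht2.le hF Q) (scr260_cut_pos t ht1 ht2) Λ hΛ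

end Claimed.Agent.R292
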