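import Claimed.Agent.R292.Defs.ScreenSep
import Claimed.Agent.R292.Exit.RSW
import Claimed.Agent.R292.Screen.Pos260
import Claimed.Agent.R292.Screen.Shield99
import Claimed.Agent.R292.Screen.Ci239
import Claimed.Agent.R292.Screen.Tv142

/-!
# Row 292 (S0540), Screen/Cut229c : TYPED LEAVES OF THE UNIT "SCREEN", PART 3 = INSIDE (SEP)      (typed by helper229; prefix `scr_cut_`)

Design: `origin/helper229:notes/R292_SEP_DESIGN_229.md`.    `scr_cut_sep (Cut229b) ⇐ (ASM) ⇐ (CI) + (POS) + (TV) + (SHIELD)`.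
* (CI)     `scr_cut_ci`      exact separation on a successful pattern: product form, event `Ev = {Y = Y(ω₀)} ∩ bridge pins`      [product lemma + parity function (TOPO)]
* (POS)    `scr_cut_pos`     the pinned pattern has positive probability                                                        [explicit filling]
* (TV)     `scr_cut_tv`      `|μ A - ℚ A| ≤ 2 ∑_k μ(success, no shielding circuit at k)`                                          [stopping comparison, `ol_main` of R291/Tool/Online]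
* (SHIELD) `scr_cut_shield`  Lemma 5.7                                                                                          [Sel99 + S1 + FKG]
ALL FOUR CLOSED (22:05Z Oct 15): (CI) = 239 `scr239_cut_ci` (parity function; product lemma 199 `MixCut199`);  (POS) = 260 `scr260_cut_pos`;  (TV) = 142 `scr142v_cut_tv_full` (one hole + chain 91 `Tv91`, Holley 12 `Holley12`);
(SHIELD) = 99 `scr99a_shield` (duality 62 `Dual62`).   Owes only the exits (S0) `exit_mdl_cmp`, (S1) `exit_mdl_circ`.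
-/

set_option autoImplicit false

namespace Claimed.Agent.R292

open Claims Claims.C0468 Filter Topology

open Classical in
/-- (CI) exact separation. -/
theorem scr_cut_ci (t : ℝ) (ht1 : 1 / 2 ≤ t) (ht2 : t < 1) (Λ : ScrLay) (hΛ : Λ.Ok) :
    ∃ δ₀ : ℝ, 0 < δ₀ ∧ ∀ δ : ℝ, 0 < δ → δ < δ₀ → ∀ F : Finset (ℤ × ℤ), ScrFits Λ δ F → ∀ ω₀ : RswCfg, ScrSucc Λ δ ω₀ →
      ∀ X G : RswCfg → ℝ, ScrIn δ (Metric.closedBall Λ.z Λ.r) X → ScrIn δ (Metric.closedBall Λ.z Λ.s)ᶜ G →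
      rswE t F true (fun ω => if scrYL Λ δ ω = scrYL Λ δ ω₀ ∧ ScrBr Λ δ ω₀ ω then X ω * G ω else 0) *
          rswE t F true (fun ω => if scrYL Λ δ ω = scrYL Λ δ ω₀ ∧ ScrBr Λ δ ω₀ ω then 1 else 0)
        = rswE t F true (fun ω => if scrYL Λ δ ω = scrYL Λ δ ω₀ ∧ ScrBr Λ δ ω₀ ω then X ω else 0) *
          rswE t F true (fun ω => if scrYL Λ δ ω = scrYL Λ δ ω₀ ∧ ScrBr Λ δ ω₀ ω then G ω else 0) :=
  scr239_cut_ci t ht1 ht2 Λ hΛ

/-- (POS) the bridge pins are compatible with every successful pattern of positive probability. -/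
theorem scr_cut_pos (t : ℝ) (ht1 : 1 / 2 ≤ t) (ht2 : t < 1) (Λ : ScrLay) (hΛ : Λ.Ok) :
    ∃ δ₀ : ℝ, 0 < δ₀ ∧ ∀ δ : ℝ, 0 < δ → δ < δ₀ → ∀ F : Finset (ℤ × ℤ), ScrFits Λ δ F → ∀ ω₀ : RswCfg, ScrSucc Λ δ ω₀ →
      0 < rswP t F true (fun ω => scrPats δ Λ.blk ω = scrPats δ Λ.blk ω₀) →
      0 < rswP t F true (fun ω => scrPats δ Λ.blk ω = scrPats δ Λ.blk ω₀ ∧ ScrBr Λ δ ω₀ ω) :=
  scr260_cut_pos t ht1 ht2 Λ hΛ

/-- (TV) the bridge pins are not felt off the shielding squares. -/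
theorem scr_cut_tv (t : ℝ) (ht1 : 1 / 2 ≤ t) (ht2 : t < 1) (Λ : ScrLay) (hΛ : Λ.Ok) :
    ∃ δ₀ : ℝ, 0 < δ₀ ∧ ∀ δ : ℝ, 0 < δ → δ < δ₀ → ∀ F : Finset (ℤ × ℤ), RswJordan F → ScrFits Λ δ F →
      ∀ A : RswCfg → ℝ, (∀ ω, |A ω| ≤ 1) → ScrOff Λ δ A →
      |rswE t F true A - scrQ t F Λ δ A| ≤ 2 * ∑ k : Fin 4, rswP t F true (fun ω => ScrSucc Λ δ ω ∧ ¬ ScrCirc F Λ δ k ω) :=
  scr142v_cut_tv_full t ht1 ht2 Λ hΛ

/-- (SHIELD) Lemma 5.7: the constants depend on `t` and on the ratio `q` only. -/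
theorem scr_cut_shield (t : ℝ) (ht1 : 1 / 2 ≤ t) (ht2 : t < 1) :
    ∃ p η : ℝ → ℝ, (∀ q, 0 < q → 0 < p q ∧ p q ≤ 1) ∧ Tendsto η (𝓝[>] 0) (𝓝 0) ∧ ∀ Λ : ScrLay, Λ.Ok →
      ∃ δ₀ : ℝ, 0 < δ₀ ∧ ∀ δ : ℝ, 0 < δ → δ < δ₀ → ∀ F : Finset (ℤ × ℤ), RswJordan F → ScrFits Λ δ F → ∀ k : Fin 4,
        rswP t F true (fun ω => ¬ ScrGapOk Λ δ k ω) ≤ (1 - p Λ.q) ^ Λ.M ∧
        rswP t F true (fun ω => ScrGapOk Λ δ k ω ∧ ¬ ScrCirc F Λ δ k ω) ≤ η Λ.q :=
  scr99a_shield t ht1 ht2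

end Claimed.Agent.R292
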