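import Claimed.Agent.R292.Defs.ScreenIns
import Claimed.Agent.R292.Screen.Ring32
import Claimed.Agent.R292.Rsw.Base31
import Claimed.Agent.R292.Rsw.Cut91

/-!
# Row 292 (S0540), Screen/Flat252 : TOOLS BELOW (FLAT) `scr_cut_flat`      (pen helper252; unit SCREEN, head helper229; prefix `scr252f_`, `Scr252f`, `scr252f*`)      0 sorry

The test function `G` of `scr_cut_flat` is `ScrIn δ (scrSq z r)ᶜ`: it reads the two spins AND the open edges `O` off the square; the Markov property of `Screen/Ring32` is for spin observables.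
* sec. 1  (A) THE OPEN EDGES ARE INTEGRATED OUT.  `Scr252fT Ic If e` (the quad of `e` touches `In`), `Scr252fNR Ic If G` (`G` reads neither the sites of `In` nor the edges that touch `In`),
          `scr252fM`, `scr252fG t F Ic If G` = conditional mean of `G` given the spins, summed over the edges that do NOT touch `In` only: `scr252f_G_in` (does not read `In`), `scr252f_G_out` (reads only `F`),
          `scr252f_G_abs` (`≤ 1`), `scr252f_E_edges` (`E[X(spins) G] = E[X(spins) G~(spins)]`), **`scr252f_bound`** : `|E_F[X G]| ≤ E_F |ker X|`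
* sec. 2  squares: `scr252f_NR_of_in` (`ScrIn δ (scrSq z r)ᶜ G`, `r1 + δ / 2 ≤ r` ⟹ `Scr252fNR` of the sites of `scrSq z r1`), **`scr252f_bound_sq`**
-/

set_option autoImplicit false

namespace Claimed.Agent.R292

open Claims Claims.C0468 Filter Topology

/-! ## 1. the open edges read by `G` are integrated out, given the two spins -/

/-- the edge `e` touches `In = (Ic, If)`: one of the four sites of its quad is in `In`. -/
def Scr252fT (Ic If : Finset (ℤ × ℤ)) (e : (ℤ × ℤ) × Bool) : Prop :=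
  e.1 ∈ Ic ∨ rswEnd e ∈ Ic ∨ e.1 ∈ If ∨ rswCo e ∈ If

/-- `G` reads neither the sites of `In` nor the edges that touch `In`. -/
def Scr252fNR (Ic If : Finset (ℤ × ℤ)) (G : RswCfg → ℝ) : Prop :=
  ∀ ω ω' : RswCfg, (∀ v, v ∉ Ic → (v ∈ ω.S ↔ v ∈ ω'.S)) → (∀ f, f ∉ If → (f ∈ ω.D ↔ f ∈ ω'.D)) →
    (∀ e, ¬ Scr252fT Ic If e → (e ∈ ω.O ↔ e ∈ ω'.O)) → G ω = G ω'

open Classical in
/-- the interior edges of `F` that touch `In`. -/
noncomputable def scr252fE1 (F Ic If : Finset (ℤ × ℤ)) : Finset ((ℤ × ℤ) × Bool) :=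
  (rswInt F).filter fun e => Scr252fT Ic If e

/-- the conditional mean of `G` given the two spins `(S, D)`: only the edges of `E` are summed. -/
noncomputable def scr252fM (t : ℝ) (E : Finset ((ℤ × ℤ) × Bool)) (G : RswCfg → ℝ) (S D : Finset (ℤ × ℤ)) : ℝ :=
  (∑ O ∈ E.powerset, (∏ e ∈ E, rswFac t ⟨S, D, O⟩ e) * G ⟨S, D, O⟩) / ∑ O ∈ E.powerset, ∏ e ∈ E, rswFac t ⟨S, D, O⟩ e

theorem scr252f_fac_congr (t : ℝ) {ω ω' : RswCfg} {e : (ℤ × ℤ) × Bool} (h1 : e.1 ∈ ω.S ↔ e.1 ∈ ω'.S)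
    (h2 : rswEnd e ∈ ω.S ↔ rswEnd e ∈ ω'.S) (h3 : e.1 ∈ ω.D ↔ e.1 ∈ ω'.D) (h4 : rswCo e ∈ ω.D ↔ rswCo e ∈ ω'.D)
    (h5 : e ∈ ω.O ↔ e ∈ ω'.O) : rswFac t ω e = rswFac t ω' e := by
  unfold rswFac
  simp only [h1, h2, h3, h4, h5]

theorem scr252f_M_abs {t : ℝ} (h0 : 0 ≤ t) (h1 : t ≤ 1) (E : Finset ((ℤ × ℤ) × Bool)) {G : RswCfg → ℝ}
    (hG : ∀ ω, |G ω| ≤ 1) (S D : Finset (ℤ × ℤ)) : |scr252fM t E G S D| ≤ 1 := by
  unfold scr252fM
  have hw : ∀ O, 0 ≤ ∏ e ∈ E, rswFac t ⟨S, D, O⟩ e := fun O => Finset.prod_nonneg fun e _ => rsb_fac_nonneg h0 h1 _ e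
  have hB : 0 ≤ ∑ O ∈ E.powerset, ∏ e ∈ E, rswFac t ⟨S, D, O⟩ e := Finset.sum_nonneg fun O _ => hw O
  rw [abs_div, abs_of_nonneg hB]
  refine div_le_one_of_le₀ ?_ hB
  refine (Finset.abs_sum_le_sum_abs _ _).trans (Finset.sum_le_sum fun O _ => ?_)
  rw [abs_mul, abs_of_nonneg (hw O)]
  exact mul_le_of_le_one_right (hw O) (hG _)

/-- the sum over the open edges, `G` replaced by its conditional mean. -/
theorem scr252f_sum_O {t : ℝ} (h0 : 0 ≤ t) (h1 : t ≤ 1) (F Ic If : Finset (ℤ × ℤ)) (b : Bool) {G : RswCfg → ℝ}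
    (hG : Scr252fNR Ic If G) (S D : Finset (ℤ × ℤ)) (x : ℝ) :
    ∑ O ∈ (rswInt F).powerset, rswWt t F b ⟨S, D, O⟩ * (x * G ⟨S, D, O⟩) =
      ∑ O ∈ (rswInt F).powerset, rswWt t F b ⟨S, D, O⟩ * (x * scr252fM t (rswInt F \ scr252fE1 F Ic If) G S D) := by
  classical
  have hbc : ∀ O, RswBc F b ⟨S, D, O⟩ ↔ RswBc F b ⟨S, D, ∅⟩ := fun O => Iff.rfl
  by_cases hb : RswBc F b ⟨S, D, ∅⟩
  swap
  · have hz : ∀ O, rswWt t F b ⟨S, D, O⟩ = 0 := fun O => by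
      unfold rswWt
      rw [if_neg fun h => hb ((hbc O).1 h)]
    simp only [hz, zero_mul]
  have hwt : ∀ O, rswWt t F b ⟨S, D, O⟩ = ∏ e ∈ rswInt F, rswFac t ⟨S, D, O⟩ e := fun O => by
    unfold rswWt
    rw [if_pos ((hbc O).2 hb)]
  simp only [hwt]
  set E := rswInt F with hE
  set E1 := scr252fE1 F Ic If with hE1
  have hsub : E1 ⊆ E := Finset.filter_subset _ _
  have hT : ∀ e ∈ E1, Scr252fT Ic If e := fun e he => (Finset.mem_filter.1 he).2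
  have hprod : ∀ O1 ∈ E1.powerset, ∀ O2 ∈ (E \ E1).powerset,
      ∏ e ∈ E, rswFac t ⟨S, D, O1 ∪ O2⟩ e =
        (∏ e ∈ E1, rswFac t ⟨S, D, O1⟩ e) * ∏ e ∈ E \ E1, rswFac t ⟨S, D, O2⟩ e := by
    intro O1 hO1 O2 hO2
    rw [Finset.mem_powerset] at hO1 hO2
    rw [← Finset.prod_sdiff hsub, mul_comm]
    congr 1
    · refine Finset.prod_congr rfl fun e he => scr252f_fac_congr t Iff.rfl Iff.rfl Iff.rfl Iff.rfl ?_
      show e ∈ O1 ∪ O2 ↔ e ∈ O1
      rw [Finset.mem_union]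
      exact ⟨fun h => h.resolve_right fun h2 => (Finset.mem_sdiff.1 (hO2 h2)).2 he, Or.inl⟩
    · refine Finset.prod_congr rfl fun e he => scr252f_fac_congr t Iff.rfl Iff.rfl Iff.rfl Iff.rfl ?_
      show e ∈ O1 ∪ O2 ↔ e ∈ O2
      rw [Finset.mem_union]
      exact ⟨fun h => h.resolve_left fun h2 => (Finset.mem_sdiff.1 he).2 (hO1 h2), Or.inr⟩
  have hGG : ∀ O1 ∈ E1.powerset, ∀ O2, G ⟨S, D, O1 ∪ O2⟩ = G ⟨S, D, O2⟩ := by
    intro O1 hO1 O2
    rw [Finset.mem_powerset] at hO1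
    refine hG _ _ (fun _ _ => Iff.rfl) (fun _ _ => Iff.rfl) fun e he => ?_
    show e ∈ O1 ∪ O2 ↔ e ∈ O2
    rw [Finset.mem_union]
    exact ⟨fun h => h.resolve_left fun h2 => he (hT e (hO1 h2)), Or.inr⟩
  rw [rsk_sum_powerset_split hsub, rsk_sum_powerset_split hsub]
  refine Finset.sum_congr rfl fun O1 hO1 => ?_
  have e1 : ∑ O2 ∈ (E \ E1).powerset, (∏ e ∈ E, rswFac t ⟨S, D, O1 ∪ O2⟩ e) * (x * G ⟨S, D, O1 ∪ O2⟩) =
      (∏ e ∈ E1, rswFac t ⟨S, D, O1⟩ e) * x *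
        ∑ O2 ∈ (E \ E1).powerset, (∏ e ∈ E \ E1, rswFac t ⟨S, D, O2⟩ e) * G ⟨S, D, O2⟩ := by
    rw [Finset.mul_sum]
    refine Finset.sum_congr rfl fun O2 hO2 => ?_
    rw [hprod O1 hO1 O2 hO2, hGG O1 hO1 O2]
    ring
  have e2 : ∑ O2 ∈ (E \ E1).powerset, (∏ e ∈ E, rswFac t ⟨S, D, O1 ∪ O2⟩ e) * (x * scr252fM t (E \ E1) G S D) =
      (∏ e ∈ E1, rswFac t ⟨S, D, O1⟩ e) * x *
        ((∑ O2 ∈ (E \ E1).powerset, ∏ e ∈ E \ E1, rswFac t ⟨S, D, O2⟩ e) * scr252fM t (E \ E1) G S D) := by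
    rw [Finset.sum_mul, Finset.mul_sum]
    refine Finset.sum_congr rfl fun O2 hO2 => ?_
    rw [hprod O1 hO1 O2 hO2]
    ring
  rw [e1, e2]
  congr 1
  unfold scr252fM
  exact (scr32_mul_div _ _ _ fun O _ => Finset.prod_nonneg fun e _ => rsb_fac_nonneg h0 h1 _ e).symm

open Classical in
/-- the plus corners of `F` of a pair of spins of the whole lattice. -/
noncomputable def scr252fS (F : Finset (ℤ × ℤ)) (c : scr32G) : Finset (ℤ × ℤ) := (cornersOf F).filter fun v => c.1 v = true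

open Classical in
/-- the plus faces of `F` of a pair of spins of the whole lattice. -/
noncomputable def scr252fD (F : Finset (ℤ × ℤ)) (c : scr32G) : Finset (ℤ × ℤ) := F.filter fun f => c.2 f = true

/-- the conditional mean of `G` given the spins, as a spin observable of the whole lattice. -/
noncomputable def scr252fG (t : ℝ) (F Ic If : Finset (ℤ × ℤ)) (G : RswCfg → ℝ) (c : scr32G) : ℝ :=
  scr252fM t (rswInt F \ scr252fE1 F Ic If) G (scr252fS F c) (scr252fD F c)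

theorem scr252f_S_of {F S : Finset (ℤ × ℤ)} (hS : S ⊆ cornersOf F) (D : Finset (ℤ × ℤ)) (O : Finset ((ℤ × ℤ) × Bool)) :
    scr252fS F (scr32p_of ⟨S, D, O⟩) = S := by
  ext v
  simp only [scr252fS, scr32p_of, Finset.mem_filter, decide_eq_true_eq]
  exact ⟨fun h => h.2, fun h => ⟨hS h, h⟩⟩

theorem scr252f_D_of {F D : Finset (ℤ × ℤ)} (hD : D ⊆ F) (S : Finset (ℤ × ℤ)) (O : Finset ((ℤ × ℤ) × Bool)) :
    scr252fD F (scr32p_of ⟨S, D, O⟩) = D := by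
  ext v
  simp only [scr252fD, scr32p_of, Finset.mem_filter, decide_eq_true_eq]
  exact ⟨fun h => h.2, fun h => ⟨hD h, h⟩⟩

theorem scr252f_mem_S {F : Finset (ℤ × ℤ)} {c c' : scr32G} {v : ℤ × ℤ} (h : c.1 v = c'.1 v) :
    v ∈ scr252fS F c ↔ v ∈ scr252fS F c' := by
  simp only [scr252fS, Finset.mem_filter, h]

theorem scr252f_mem_D {F : Finset (ℤ × ℤ)} {c c' : scr32G} {v : ℤ × ℤ} (h : c.2 v = c'.2 v) :
    v ∈ scr252fD F c ↔ v ∈ scr252fD F c' := by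
  simp only [scr252fD, Finset.mem_filter, h]

/-- the conditional mean reads only sites of `F`. -/
theorem scr252f_G_out (t : ℝ) (F Ic If : Finset (ℤ × ℤ)) (G : RswCfg → ℝ) :
    scr32_NRg (↑(cornersOf F))ᶜ (↑F)ᶜ (scr252fG t F Ic If G) := by
  intro c c' h
  have hS : scr252fS F c = scr252fS F c' := by
    ext v
    by_cases hv : v ∈ cornersOf F
    · exact scr252f_mem_S (h.1 v (by simpa using hv))
    · simp only [scr252fS, Finset.mem_filter, hv, false_and]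
  have hD : scr252fD F c = scr252fD F c' := by
    ext v
    by_cases hv : v ∈ F
    · exact scr252f_mem_D (h.2 v (by simpa using hv))
    · simp only [scr252fD, Finset.mem_filter, hv, false_and]
  unfold scr252fG
  rw [hS, hD]

/-- the conditional mean does not read `In`. -/
theorem scr252f_G_in (t : ℝ) (F Ic If : Finset (ℤ × ℤ)) {G : RswCfg → ℝ} (hG : Scr252fNR Ic If G) :
    scr32_NRg (↑Ic) (↑If) (scr252fG t F Ic If G) := by
  classical
  intro c c' h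
  have hS : ∀ v, v ∉ Ic → (v ∈ scr252fS F c ↔ v ∈ scr252fS F c') := fun v hv =>
    scr252f_mem_S (h.1 v (by simpa using hv))
  have hD : ∀ v, v ∉ If → (v ∈ scr252fD F c ↔ v ∈ scr252fD F c') := fun v hv =>
    scr252f_mem_D (h.2 v (by simpa using hv))
  have hfac : ∀ O, ∏ e ∈ rswInt F \ scr252fE1 F Ic If, rswFac t ⟨scr252fS F c, scr252fD F c, O⟩ e =
      ∏ e ∈ rswInt F \ scr252fE1 F Ic If, rswFac t ⟨scr252fS F c', scr252fD F c', O⟩ e := by
    intro O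
    refine Finset.prod_congr rfl fun e he => ?_
    obtain ⟨he1, he2⟩ := Finset.mem_sdiff.1 he
    have hT : ¬ Scr252fT Ic If e := fun hT => he2 (Finset.mem_filter.2 ⟨he1, hT⟩)
    exact scr252f_fac_congr t (hS _ fun h => hT (Or.inl h)) (hS _ fun h => hT (Or.inr (Or.inl h)))
      (hD _ fun h => hT (Or.inr (Or.inr (Or.inl h)))) (hD _ fun h => hT (Or.inr (Or.inr (Or.inr h)))) Iff.rfl
  have hGG : ∀ O, G ⟨scr252fS F c, scr252fD F c, O⟩ = G ⟨scr252fS F c', scr252fD F c', O⟩ := fun O =>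
    hG _ _ hS hD fun _ _ => Iff.rfl
  unfold scr252fG scr252fM
  simp only [hfac, hGG]

theorem scr252f_G_abs {t : ℝ} (h0 : 0 ≤ t) (h1 : t ≤ 1) (F Ic If : Finset (ℤ × ℤ)) {G : RswCfg → ℝ}
    (hG : ∀ ω, |G ω| ≤ 1) (c : scr32G) : |scr252fG t F Ic If G c| ≤ 1 :=
  scr252f_M_abs h0 h1 _ hG _ _

/-- **the open edges are integrated out**: against a spin observable, `G` may be replaced by its conditional mean given the spins. -/
theorem scr252f_E_edges {t : ℝ} (h0 : 0 ≤ t) (h1 : t ≤ 1) (F Ic If : Finset (ℤ × ℤ)) (b : Bool) {G : RswCfg → ℝ}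
    (hG : Scr252fNR Ic If G) (X : scr32G → ℝ) :
    rswE t F b (fun ω => X (scr32p_of ω) * G ω) =
      rswE t F b (fun ω => X (scr32p_of ω) * scr252fG t F Ic If G (scr32p_of ω)) := by
  unfold rswE
  congr 1
  unfold rswSum
  refine Finset.sum_congr rfl fun S hS => Finset.sum_congr rfl fun D hD => ?_
  rw [Finset.mem_powerset] at hS hD
  have h := scr252f_sum_O h0 h1 F Ic If b hG S D (X (scr32p_of ⟨S, D, ∅⟩))
  refine h.trans (Finset.sum_congr rfl fun O _ => ?_)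
  have e : scr252fG t F Ic If G (scr32p_of ⟨S, D, O⟩) = scr252fM t (rswInt F \ scr252fE1 F Ic If) G S D := by
    unfold scr252fG
    rw [scr252f_S_of hS, scr252f_D_of hD]
  show _ = rswWt t F b ⟨S, D, O⟩ * (X (scr32p_of ⟨S, D, O⟩) * scr252fG t F Ic If G (scr32p_of ⟨S, D, O⟩))
  rw [e]
  rfl

/-- **(A) DUALITY BOUND WITH EDGES**: `In` deep in `F`, `X` a spin observable of `F`, `|G| ≤ 1`, `G` reads neither the sites of `In` nor the
edges that touch `In` (it may read all the other open edges). -/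
theorem scr252f_bound {t : ℝ} (h0 : 0 < t) (h1 : t ≤ 1) {F Ic If : Finset (ℤ × ℤ)} (hd : scr32_Deep F (↑Ic) (↑If))
    {X : scr32G → ℝ} (hX : scr32_NRg (↑(cornersOf F))ᶜ (↑F)ᶜ X) {G : RswCfg → ℝ} (hG : Scr252fNR Ic If G)
    (hG1 : ∀ ω, |G ω| ≤ 1) :
    |rswE t F true (fun ω => X (scr32p_of ω) * G ω)| ≤ rswE t F true (fun ω => |scr32_ker t Ic If X (scr32p_of ω)|) := by
  rw [scr252f_E_edges h0.le h1 F Ic If true hG X,
    scr32p_markov_rsw h0.le hd hX (scr252f_G_out t F Ic If G) (scr252f_G_in t F Ic If hG)]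
  refine (rsb_abs_E_le h0 h1 F true _).trans (rsb_E_mono h0 h1 fun ω _ _ => ?_)
  rw [abs_mul]
  exact mul_le_of_le_one_right (abs_nonneg _) (scr252f_G_abs h0.le h1 F Ic If hG1 _)

/-! ## 2. squares -/

theorem scr252f_mem_sqc {δ : ℝ} (hδ : 0 < δ) {z : ℝ × ℝ} {r : ℝ} {v : ℤ × ℤ} :
    v ∈ scr32_sqc δ z r ↔ scr32_pc δ v ∈ scrSq z r := by
  have h := scr32_coe_sqc hδ z r
  have h2 : v ∈ (↑(scr32_sqc δ z r) : Set (ℤ × ℤ)) ↔ v ∈ scr32_Qc δ (scrSq z r) := by rw [h]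
  exact h2

theorem scr252f_mem_sqf {δ : ℝ} (hδ : 0 < δ) {z : ℝ × ℝ} {r : ℝ} {v : ℤ × ℤ} :
    v ∈ scr32_sqf δ z r ↔ scr32_pf δ v ∈ scrSq z r := by
  have h := scr32_coe_sqf hδ z r
  have h2 : v ∈ (↑(scr32_sqf δ z r) : Set (ℤ × ℤ)) ↔ v ∈ scr32_Qf δ (scrSq z r) := by rw [h]
  exact h2

/-- an observable that reads (sites AND open edges) off `scrSq z r` reads neither the sites of the smaller square nor the edges that touch them. -/
theorem scr252f_NR_of_in {δ : ℝ} (hδ : 0 < δ) {z : ℝ × ℝ} {r1 r : ℝ} (h : r1 + δ / 2 ≤ r) {G : RswCfg → ℝ}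
    (hG : ScrIn δ (scrSq z r)ᶜ G) : Scr252fNR (scr32_sqc δ z r1) (scr32_sqf δ z r1) G := by
  have hc : ∀ v, scr232P δ v ∈ (scrSq z r)ᶜ → v ∉ scr32_sqc δ z r1 := by
    intro v hv hv'
    rw [scr252f_mem_sqc hδ] at hv'
    exact hv (scr32_sq_mono z (by linarith) hv')
  have hf : ∀ v, scr232P δ v ∈ (scrSq z r)ᶜ → v ∉ scr32_sqf δ z r1 := by
    intro v hv hv'
    rw [scr252f_mem_sqf hδ, scr32_mem_sq] at hv'
    refine hv ?_
    rw [scr32_mem_sq]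
    simp only [scr32_pf, scr232P] at hv' ⊢
    obtain ⟨⟨a1, a2⟩, a3, a4⟩ := hv'
    refine ⟨⟨?_, ?_⟩, ?_, ?_⟩ <;> nlinarith
  have hco : ∀ e : (ℤ × ℤ) × Bool, scr232P δ e.1 ∈ (scrSq z r)ᶜ → rswCo e ∉ scr32_sqf δ z r1 := by
    intro e hv hv'
    rw [scr252f_mem_sqf hδ, scr32_mem_sq] at hv'
    refine hv ?_
    rw [scr32_mem_sq]
    obtain ⟨⟨x, y⟩, d⟩ := e
    cases d <;> simp only [rswCo, scr32_pf, scr232P, if_true, Bool.false_eq_true, if_false] at hv' ⊢ <;>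
      push_cast at hv' <;> obtain ⟨⟨a1, a2⟩, a3, a4⟩ := hv' <;> refine ⟨⟨?_, ?_⟩, ?_, ?_⟩ <;> nlinarith
  intro ω ω' h1 h2 h3
  refine hG ω ω' (fun v hv => h1 v (hc v hv)) (fun f hv => h2 f (hf f hv)) fun e he he' => h3 e ?_
  rintro (hT | hT | hT | hT)
  · exact hc _ he hT
  · exact hc _ he' hT
  · exact hf _ he hT
  · exact hco e he hT

/-- **(A), squares**: `G` reads sites and open edges off `scrSq z r`; `In` = the sites of `scrSq z r1`, `r1 + δ / 2 ≤ r`; the region of `F` contains `scrSq z r2`,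
`r1 + δ ≤ r2`; `X` a spin observable of `F`. -/
theorem scr252f_bound_sq {t : ℝ} (h0 : 0 < t) (h1 : t ≤ 1) {δ : ℝ} (hδ : 0 < δ) {F : Finset (ℤ × ℤ)} {z : ℝ × ℝ} {r1 r2 r : ℝ}
    (h12 : r1 + δ ≤ r2) (hF : scrSq z r2 ⊆ faceRegionSq δ F) (hr : r1 + δ / 2 ≤ r)
    {X : scr32G → ℝ} (hX : scr32_NRg (↑(cornersOf F))ᶜ (↑F)ᶜ X) {G : RswCfg → ℝ} (hG : ScrIn δ (scrSq z r)ᶜ G)
    (hG1 : ∀ ω, |G ω| ≤ 1) :
    |rswE t F true (fun ω => X (scr32p_of ω) * G ω)| ≤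
      rswE t F true (fun ω => |scr32_ker t (scr32_sqc δ z r1) (scr32_sqf δ z r1) X (scr32p_of ω)|) := by
  refine scr252f_bound h0 h1 ?_ hX (scr252f_NR_of_in hδ hr hG) hG1
  rw [scr32_coe_sqc hδ, scr32_coe_sqf hδ]
  exact scr32_deep_of_sq hδ h12 hF

end Claimed.Agent.R292
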