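import Claimed.Agent.R292.Screen.Col32
import Claimed.Agent.R292.Screen.Plane262
import Claimed.Agent.R292.Screen.Sym99
import Claimed.Agent.R292.Exit.MODEL
import Claimed.Agent.R292.Jordan.Scale19
import Claimed.Agent.R292.Screen.Flat252

/-!
# Row 292 (S0540), Screen/Flat32 : (FLAT) PROP 5.1 IN FLAT DOMAINS      (owner helper32; prefix `scr32f_`, `Scr32f`, `scr32fX`)

No `sorry` in this file.   TARGET = the statement of `scr_cut_flat` (Cut229b).   A file of its own (not an appendix of Col32) so that the closure of (COL) does not grow.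
ROAD: `X = scrIns δ z φ`, `In` = the sites of `scrSq z r1`, `rp < r1 < r`, `g = scr32_ker t In X` (universal kernel of Ring32, the same in every domain and in the plane).
* duality in `F` (252: `scr252f_bound_sq`, `G` may read the `W` edges):   `|E_F[X G]| ≤ E_F |g|`
* plane (`scr32p_pl_abs`):   `E_pl |g| = E_pl[X sgn g] ≤ ε_pl`  by (PL) at the SMALLER radius `rp` (`scr32f_shrink`: the support of `φ` is compact in the ball of radius `r / 900`)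
* Markov in the plane + contiguity `exit_mdl_contig` (`L = True`, box `k m ≥ r / δ + 1`, buffer `(k + 1) m` inside `scrSq z r'`):   `P_F(|g| > a) ≤ ε_c`
* `L²`:  `E_F g² ≤ E_F X² ≤ C` (`scr32_ker_L2`, record),   `|x| ≤ a + θ x² / 2 + 1_{|x| > a} / (2 θ)`
7. squares (`scr32fX`, `scr32f_X_of`, `scr32f_in_of_NR`, `scr32f_sep`, `scr32f_deep`, `scr32f_window_F`, `scr32f_mdlIn`)
8. **`scr32f_mesh`**  one mesh
9. boxes and radii (`scr32f_box_in`, `scr32f_box_F`, `scr32f_arith`, `scr32f_shrink`), **`scr32f_flat`** = the statement of `scr_cut_flat` from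
   * `hplane`      = the statement of `scr_cut_plane` after `t ht1 ht2`, verbatim
   * `Scr32fMom`   RECORD: `∃ C, ∀ᶠ n, ∀ F flat with scrSq z r' in its region, E_F[(scrIns (δ n) z φ)²] ≤ C`      (= `scp262_flat_mom` of 262)
   **`scr32f_cut_flat`** = the same with the ONLY hypothesis `hplane`
   contracts cited: `exit_mdl_contig`, `exit_rsw_plane` (through Sym99), `exit_rsw_mom_plane`, `exit_rsw_mom_smear`
-/

set_option autoImplicit false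

namespace Claimed.Agent.R292

open Claims Claims.C0468 Filter Topology

/-! ## 7. (FLAT) squares: from `ScrIn` to the vocabulary of the ring -/

theorem scr32f_pf_pc {δ : ℝ} (hδ : 0 ≤ δ) {z : ℝ × ℝ} {ρ ρ' : ℝ} (h : ρ + δ ≤ ρ') {f : ℤ × ℤ}
    (hf : scr32_pf δ f ∈ scrSq z ρ) : scr32_pc δ f ∈ scrSq z ρ' := by
  simp only [scr32_mem_sq, scr32_pc, scr32_pf] at hf ⊢
  obtain ⟨⟨h1, h2⟩, h3, h4⟩ := hf
  refine ⟨⟨?_, ?_⟩, ?_, ?_⟩ <;> linarith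

theorem scr32f_pc_pf {δ : ℝ} (hδ : 0 ≤ δ) {z : ℝ × ℝ} {ρ ρ' : ℝ} (h : ρ + δ ≤ ρ') {f : ℤ × ℤ}
    (hf : scr32_pc δ f ∈ scrSq z ρ) : scr32_pf δ f ∈ scrSq z ρ' := by
  simp only [scr32_mem_sq, scr32_pc, scr32_pf] at hf ⊢
  obtain ⟨⟨h1, h2⟩, h3, h4⟩ := hf
  refine ⟨⟨?_, ?_⟩, ?_, ?_⟩ <;> linarith

theorem scr32f_mem_sqc {δ : ℝ} (hδ : 0 < δ) {z : ℝ × ℝ} {r : ℝ} {v : ℤ × ℤ} :
    v ∈ scr32_sqc δ z r ↔ scr32_pc δ v ∈ scrSq z r := by
  have h : v ∈ (↑(scr32_sqc δ z r) : Set (ℤ × ℤ)) ↔ v ∈ scr32_Qc δ (scrSq z r) := by rw [scr32_coe_sqc hδ]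
  exact h

theorem scr32f_mem_sqf {δ : ℝ} (hδ : 0 < δ) {z : ℝ × ℝ} {r : ℝ} {v : ℤ × ℤ} :
    v ∈ scr32_sqf δ z r ↔ scr32_pf δ v ∈ scrSq z r := by
  have h : v ∈ (↑(scr32_sqf δ z r) : Set (ℤ × ℤ)) ↔ v ∈ scr32_Qf δ (scrSq z r) := by rw [scr32_coe_sqf hδ]
  exact h

/-- a function of `(S, D)` with window `R`, as a function of the two spins of the whole lattice. -/
def scr32fX (R : Finset (ℤ × ℤ)) (X : RswCfg → ℝ) (c : scr32G) : ℝ :=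
  X ⟨R.filter fun v => c.1 v = true, R.filter fun f => c.2 f = true, ∅⟩

theorem scr32f_X_window (R : Finset (ℤ × ℤ)) (X : RswCfg → ℝ) : scr32_NRg (↑R)ᶜ (↑R)ᶜ (scr32fX R X) := by
  intro c c' h
  unfold scr32fX
  have e1 : R.filter (fun v => c.1 v = true) = R.filter (fun v => c'.1 v = true) :=
    Finset.filter_congr fun v hv => by rw [h.1 v (by simpa using hv)]
  have e2 : R.filter (fun v => c.2 v = true) = R.filter (fun v => c'.2 v = true) :=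
    Finset.filter_congr fun v hv => by rw [h.2 v (by simpa using hv)]
  rw [e1, e2]

theorem scr32f_X_of {δ : ℝ} {U : Set (ℝ × ℝ)} {X : RswCfg → ℝ} (hX : ScrIn δ U X)
    (hO : ∀ S D O O', X ⟨S, D, O⟩ = X ⟨S, D, O'⟩) {R : Finset (ℤ × ℤ)} (hR : ∀ v, scr232P δ v ∈ U → v ∈ R)
    (ω : RswCfg) : scr32fX R X (scr32p_of ω) = X ω := by
  unfold scr32fX
  rw [show X ω = X ⟨ω.S, ω.D, ∅⟩ from hO ω.S ω.D ω.O ∅]
  refine hX _ _ (fun v hv => ?_) (fun f hf => ?_) (fun _ _ _ => Iff.rfl)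
  · simp only [Finset.mem_filter, scr32p_of, decide_eq_true_eq, hR v hv, true_and]
  · simp only [Finset.mem_filter, scr32p_of, decide_eq_true_eq, hR f hf, true_and]

/-- a spin observable that does not read the sites of `scrSq z r1` is an exterior test function of `scrSq z rp`. -/
theorem scr32f_in_of_NR {δ : ℝ} (hδ : 0 < δ) {z : ℝ × ℝ} {rp r1 : ℝ} (h : rp + δ ≤ r1) {A : scr32G → ℝ}
    (hA : scr32_NRg (↑(scr32_sqc δ z r1)) (↑(scr32_sqf δ z r1)) A) :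
    ScrIn δ (scrSq z rp)ᶜ (fun ω => A (scr32p_of ω)) := by
  intro ω ω' hS hD _
  refine hA _ _ ⟨fun v hv => ?_, fun f hf => ?_⟩
  · have h1 : scr232P δ v ∈ (scrSq z rp)ᶜ := fun h' =>
      hv (Finset.mem_coe.2 ((scr32f_mem_sqc hδ).2 (scr32_sq_mono z (by linarith) h')))
    simp only [scr32p_of, hS v h1]
  · have h1 : scr232P δ f ∈ (scrSq z rp)ᶜ := fun h' =>
      hf (Finset.mem_coe.2 ((scr32f_mem_sqf hδ).2 (scr32f_pc_pf hδ.le h h')))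
    simp only [scr32p_of, hD f h1]

/-- no quad meets both the sites of `scrSq z r1` and a site whose index is not a corner of `scrSq z r`. -/
theorem scr32f_sep {δ : ℝ} (hδ : 0 < δ) (z : ℝ × ℝ) {r1 r : ℝ} (h : r1 + 2 * δ ≤ r) :
    scr32_Sep (↑(scr32_sqc δ z r1)) (↑(scr32_sqf δ z r1)) (↑(scr32_sqc δ z r))ᶜ (↑(scr32_sqc δ z r))ᶜ := by
  have hc : ∀ v, scr32_pc δ v ∈ scrSq z (r1 + δ) → v ∉ ((↑(scr32_sqc δ z r))ᶜ : Set (ℤ × ℤ)) := fun v hv h' =>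
    h' (Finset.mem_coe.2 ((scr32f_mem_sqc hδ).2 (scr32_sq_mono z (by linarith) hv)))
  have hf : ∀ v, scr32_pf δ v ∈ scrSq z (r1 + δ) → v ∉ ((↑(scr32_sqc δ z r))ᶜ : Set (ℤ × ℤ)) := fun v hv h' =>
    h' (Finset.mem_coe.2 ((scr32f_mem_sqc hδ).2 (scr32f_pf_pc hδ.le (by linarith) hv)))
  rw [scr32_coe_sqc hδ z r1, scr32_coe_sqf hδ z r1]
  refine ⟨fun v hv hO => ?_, fun v hv hO => ?_⟩
  · obtain ⟨h1, h2, h3, h4⟩ := scr32_H_sites hδ.le hv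
    rcases hO with h' | h' | h' | h'
    · exact hc _ h1 h'
    · exact hc _ h2 h'
    · exact hf _ h3 h'
    · exact hf _ h4 h'
  · obtain ⟨h1, h2, h3, h4⟩ := scr32_V_sites hδ.le hv
    rcases hO with h' | h' | h' | h'
    · exact hc _ h1 h'
    · exact hc _ h2 h'
    · exact hf _ h3 h'
    · exact hf _ h4 h'

theorem scr32f_deep {δ : ℝ} (hδ : 0 < δ) {F : Finset (ℤ × ℤ)} {z : ℝ × ℝ} {r1 r2 : ℝ} (h12 : r1 + δ ≤ r2)
    (hF : scrSq z r2 ⊆ faceRegionSq δ F) : scr32_Deep F (↑(scr32_sqc δ z r1)) (↑(scr32_sqf δ z r1)) := by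
  rw [scr32_coe_sqc hδ, scr32_coe_sqf hδ]
  exact scr32_deep_of_sq hδ h12 hF

/-- the window, as a set of faces, lies in `F`. -/
theorem scr32f_window_F {δ : ℝ} (hδ : 0 < δ) {F : Finset (ℤ × ℤ)} {z : ℝ × ℝ} {r r' : ℝ} (h : r + δ ≤ r')
    (hF : scrSq z r' ⊆ faceRegionSq δ F) : scr32_sqc δ z r ⊆ F := fun _ hv =>
  scr32_face_mem hδ (hF (scr32f_pc_pf hδ.le h ((scr32f_mem_sqc hδ).1 hv)))

theorem scr32f_mdlIn {R Q : Finset (ℤ × ℤ)} (hRQ : R ⊆ Q) {A : scr32G → ℝ} (hA : scr32_NRg (↑R)ᶜ (↑R)ᶜ A)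
    (P : ℝ → Prop) : MdlIn Q (fun ω => P (A (scr32p_of ω))) := by
  intro ω ω' hS hD _
  have e : A (scr32p_of ω) = A (scr32p_of ω') := by
    refine hA _ _ ⟨fun v hv => ?_, fun f hf => ?_⟩
    · have hv' : v ∈ R := by simpa using hv
      simp only [scr32p_of, hS v (scr32_face_corner (hRQ hv'))]
    · have hf' : f ∈ R := by simpa using hf
      simp only [scr32p_of, hD f (hRQ hf')]
  show P _ ↔ P _
  rw [e]

/-! ## 8. (FLAT) one mesh -/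

theorem scr32f_split3 {a θ x i : ℝ} (ha : 0 ≤ a) (hθ : 0 < θ) (hi0 : 0 ≤ i) (hi : a < x → i = 1) :
    x ≤ a + θ / 2 * x ^ 2 + 1 / (2 * θ) * i := by
  by_cases h : a < x
  · rw [hi h, mul_one]
    have h2 : 0 ≤ θ / 2 * x ^ 2 + 1 / (2 * θ) - x := by
      have e : θ / 2 * x ^ 2 + 1 / (2 * θ) - x = (θ * x - 1) ^ 2 / (2 * θ) := by
        field_simp
        ring
      rw [e]
      positivity
    linarith
  · have h1 := not_lt.1 h
    have h2 : 0 ≤ θ / 2 * x ^ 2 := by positivity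
    have h3 : 0 ≤ 1 / (2 * θ) * i := by positivity
    linarith

/-- `L¹ ≤ level + L² + probability of the level set`. -/
theorem scr32f_E_split {t : ℝ} (h0 : 0 < t) (h1 : t ≤ 1) (F : Finset (ℤ × ℤ)) (b : Bool) {a θ : ℝ} (ha : 0 ≤ a)
    (hθ : 0 < θ) (Y : RswCfg → ℝ) (L : RswCfg → Prop) (hL : ∀ ω, a < |Y ω| → L ω) :
    rswE t F b (fun ω => |Y ω|) ≤ a + θ / 2 * rswE t F b (fun ω => Y ω ^ 2) + 1 / (2 * θ) * rswP t F b L := by
  classical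
  rw [rsz_P_def, ← rsz_E_smul, ← rsz_E_smul, ← rsz_E_const h0 h1 F b a, ← rsz_E_add, ← rsz_E_add]
  refine rsz_E_mono h0.le h1 F b fun ω => ?_
  rw [← sq_abs (Y ω)]
  exact scr32f_split3 ha hθ (by split_ifs <;> norm_num) (fun h => if_pos (hL ω h))

/-- Markov's inequality in the plane. -/
theorem scr32f_pl_markov {t : ℝ} (ht1 : 1 / 2 ≤ t) (ht2 : t < 1) {a : ℝ} (ha : 0 < a) {Y : RswCfg → ℝ} (hY : ScrLoc Y) :
    mdlPiP t (fun ω => a < |Y ω|) ≤ a⁻¹ * scrPl t (fun ω => |Y ω|) := by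
  classical
  rw [← scr99_pl_smul ht1 ht2 (scr99_loc_abs hY)]
  unfold mdlPiP
  show scrPl t _ ≤ _
  refine scr99_pl_mono ht1 ht2 ?_ (scr99_loc_smul (scr99_loc_abs hY) _) fun ω => ?_
  · obtain ⟨R, R', h⟩ := hY
    exact ⟨R, R', fun ω ω' h1 h2 h3 => by simp only [h ω ω' h1 h2 h3]⟩
  · split_ifs with h
    · rw [inv_mul_eq_div, le_div_iff₀ ha]
      linarith
    · positivity

/-- **(FLAT) at one mesh**: plane screening at the radius `rp`, contiguity on the window and a flat second moment give flat screening. -/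
theorem scr32f_mesh {t : ℝ} (ht1 : 1 / 2 ≤ t) (ht2 : t < 1) {δ : ℝ} (hδ : 0 < δ) {z : ℝ × ℝ} {rp r1 r r' : ℝ}
    (h1 : rp + δ ≤ r1) (h2 : r1 + 2 * δ ≤ r) (h3 : r + δ ≤ r')
    {X : RswCfg → ℝ} (hXin : ScrIn δ (scrSq z r) X) (hXO : ∀ S D O O', X ⟨S, D, O⟩ = X ⟨S, D, O'⟩)
    {a θ C εc εp ζ : ℝ} (ha : 0 < a) (hθ : 0 < θ) (hεp : εp < a * ζ)
    (hpl : ∀ G : RswCfg → ℝ, ScrLoc G → (∀ ω, |G ω| ≤ 1) → ScrIn δ (scrSq z rp)ᶜ G →
      |scrPl t fun ω => X ω * G ω| ≤ εp)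
    {F : Finset (ℤ × ℤ)} (hF : scrSq z r' ⊆ faceRegionSq δ F)
    (hcont : ∀ A : scr32G → ℝ, scr32_NRg (↑(scr32_sqc δ z r))ᶜ (↑(scr32_sqc δ z r))ᶜ A →
      mdlPiP t (fun ω => a < |A (scr32p_of ω)|) < ζ → rswP t F true (fun ω => a < |A (scr32p_of ω)|) ≤ εc)
    (hmom : rswE t F true (fun ω => X ω ^ 2) ≤ C)
    {G : RswCfg → ℝ} (hG1 : ∀ ω, |G ω| ≤ 1) (hG : ScrIn δ (scrSq z r)ᶜ G) :
    |rswE t F true fun ω => X ω * G ω| ≤ a + θ / 2 * C + 1 / (2 * θ) * εc := by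
  have h0 : 0 ≤ t := by linarith
  have h0' : 0 < t := by linarith
  have ht1' : t ≤ 1 := ht2.le
  have hXs : ∀ ω, scr32fX (scr32_sqc δ z r) X (scr32p_of ω) = X ω :=
    scr32f_X_of hXin hXO (fun v hv => (scr32f_mem_sqc hδ).2 hv)
  have hXw := scr32f_X_window (scr32_sqc δ z r) X
  have hsep := scr32f_sep hδ z h2
  have hd : scr32_Deep F (↑(scr32_sqc δ z r1)) (↑(scr32_sqf δ z r1)) := scr32f_deep hδ (r2 := r') (by linarith) hF
  have hRF : scr32_sqc δ z r ⊆ F := scr32f_window_F hδ h3 hF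
  have hXF := scr32p_NRg_window hRF hXw
  have hgw := scr32p_ker_out t hsep hXw
  have hgF := scr32p_NRg_window hRF hgw
  generalize hXsd : scr32fX (scr32_sqc δ z r) X = Xs at *
  generalize hgd : scr32_ker t (scr32_sqc δ z r1) (scr32_sqf δ z r1) Xs = g at *
  -- the duality bound
  have s1 : |rswE t F true fun ω => X ω * G ω| ≤ rswE t F true (fun ω => |g (scr32p_of ω)|) := by
    have := scr252f_bound_sq h0' ht1' hδ (r1 := r1) (r2 := r') (r := r) (by linarith) hF (by linarith) hXF hG hG1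
    rw [hgd] at this
    simpa only [hXs] using this
  -- the plane
  have hloc : ScrLoc (fun ω => g (scr32p_of ω)) := ⟨scr32_sqc δ z r, ∅, scr32p_loc ∅ hgw⟩
  have s2 : scrPl t (fun ω => |g (scr32p_of ω)|) ≤ εp := by
    have e := scr32p_pl_abs h0 (scr32_sqc δ z r1) (scr32_sqf δ z r1) hsep hXw
    rw [hgd] at e
    rw [e]
    have hNR : scr32_NRg (↑(scr32_sqc δ z r1)) (↑(scr32_sqf δ z r1)) (fun c => scr32p_sgn (g c)) := by
      intro c c' h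
      have := scr32_ker_NR_in t (scr32_sqc δ z r1) (scr32_sqf δ z r1) Xs c c' h
      rw [hgd] at this
      exact congrArg scr32p_sgn this
    have := hpl (fun ω => scr32p_sgn (g (scr32p_of ω))) (scr99_loc_comp hloc scr32p_sgn) (fun ω => scr32p_sgn_abs _)
      (scr32f_in_of_NR hδ h1 hNR)
    simp only [hXs]
    exact (le_abs_self _).trans this
  have s3 : mdlPiP t (fun ω => a < |g (scr32p_of ω)|) < ζ := by
    refine (scr32f_pl_markov ht1 ht2 ha hloc).trans_lt ?_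
    rw [inv_mul_eq_div, div_lt_iff₀ ha]
    linarith
  have s4 := hcont g hgw s3
  have s5 : rswE t F true (fun ω => g (scr32p_of ω) ^ 2) ≤ C := by
    rw [scr32p_rswE t F (A := fun c => g c ^ 2) (fun c c' h => by show g c ^ 2 = g c' ^ 2; rw [hgF c c' h])]
    have := scr32_ker_L2 h0 hd Xs
    rw [hgd] at this
    refine this.trans ?_
    rw [← scr32p_rswE t F (A := fun c => Xs c ^ 2) (fun c c' h => by show Xs c ^ 2 = Xs c' ^ 2; rw [hXF c c' h])]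
    simpa only [hXs] using hmom
  have s6 := scr32f_E_split h0' ht1' F true ha.le hθ (fun ω => g (scr32p_of ω)) (fun ω => a < |g (scr32p_of ω)|)
    (fun _ h => h)
  have p1 : θ / 2 * rswE t F true (fun ω => g (scr32p_of ω) ^ 2) ≤ θ / 2 * C :=
    mul_le_mul_of_nonneg_left s5 (by positivity)
  have p2 : 1 / (2 * θ) * rswP t F true (fun ω => a < |g (scr32p_of ω)|) ≤ 1 / (2 * θ) * εc :=
    mul_le_mul_of_nonneg_left s4 (by positivity)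
  linarith

/-! ## 9. (FLAT) boxes, radii, the theorem -/

/-- the window lies in the lattice box of half side `N` around `⌊z / δ⌋`. -/
theorem scr32f_box_in {δ : ℝ} (hδ : 0 < δ) (z : ℝ × ℝ) {r : ℝ} {N : ℕ} (hN : r + δ ≤ δ * (N : ℝ)) :
    scr32_sqc δ z r ⊆ rswBox (⌊z.1 / δ⌋, ⌊z.2 / δ⌋) N := by
  intro v hv
  have hv' := scr32_mem_sq.1 ((scr32f_mem_sqc hδ).1 hv)
  simp only [scr32_pc] at hv'
  obtain ⟨⟨a1, a2⟩, a3, a4⟩ := hv'
  have f1 : (⌊z.1 / δ⌋ : ℝ) * δ ≤ z.1 := (le_div_iff₀ hδ).1 (Int.floor_le _)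
  have f2 : z.1 < ((⌊z.1 / δ⌋ : ℝ) + 1) * δ := (div_lt_iff₀ hδ).1 (Int.lt_floor_add_one _)
  have f3 : (⌊z.2 / δ⌋ : ℝ) * δ ≤ z.2 := (le_div_iff₀ hδ).1 (Int.floor_le _)
  have f4 : z.2 < ((⌊z.2 / δ⌋ : ℝ) + 1) * δ := (div_lt_iff₀ hδ).1 (Int.lt_floor_add_one _)
  unfold rswBox
  simp only [Finset.mem_product, Finset.mem_Ico]
  refine ⟨⟨?_, ?_⟩, ?_, ?_⟩
  · have : δ * ((⌊z.1 / δ⌋ : ℝ) - N) < δ * (v.1 : ℝ) := by linarith
    have h2 : ((⌊z.1 / δ⌋ : ℝ) - N) < (v.1 : ℝ) := lt_of_mul_lt_mul_left this hδ.le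
    have h3 : ⌊z.1 / δ⌋ - (N : ℤ) < v.1 := by exact_mod_cast h2
    exact h3.le
  · have : δ * (v.1 : ℝ) < δ * ((⌊z.1 / δ⌋ : ℝ) + N) := by linarith
    have h2 : (v.1 : ℝ) < ((⌊z.1 / δ⌋ : ℝ) + N) := lt_of_mul_lt_mul_left this hδ.le
    exact_mod_cast h2
  · have : δ * ((⌊z.2 / δ⌋ : ℝ) - N) < δ * (v.2 : ℝ) := by linarith
    have h2 : ((⌊z.2 / δ⌋ : ℝ) - N) < (v.2 : ℝ) := lt_of_mul_lt_mul_left this hδ.le
    have h3 : ⌊z.2 / δ⌋ - (N : ℤ) < v.2 := by exact_mod_cast h2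
    exact h3.le
  · have : δ * (v.2 : ℝ) < δ * ((⌊z.2 / δ⌋ : ℝ) + N) := by linarith
    have h2 : (v.2 : ℝ) < ((⌊z.2 / δ⌋ : ℝ) + N) := lt_of_mul_lt_mul_left this hδ.le
    exact_mod_cast h2

/-- the lattice box of half side `N` around `⌊z / δ⌋` lies in `F`. -/
theorem scr32f_box_F {δ : ℝ} (hδ : 0 < δ) {z : ℝ × ℝ} {r' : ℝ} {N : ℕ} (hN : δ * ((N : ℝ) + 1 / 2) ≤ r')
    {F : Finset (ℤ × ℤ)} (hF : scrSq z r' ⊆ faceRegionSq δ F) : rswBox (⌊z.1 / δ⌋, ⌊z.2 / δ⌋) N ⊆ F := by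
  intro f hf
  unfold rswBox at hf
  simp only [Finset.mem_product, Finset.mem_Ico] at hf
  obtain ⟨⟨a1, a2⟩, a3, a4⟩ := hf
  have f1 : (⌊z.1 / δ⌋ : ℝ) * δ ≤ z.1 := (le_div_iff₀ hδ).1 (Int.floor_le _)
  have f2 : z.1 < ((⌊z.1 / δ⌋ : ℝ) + 1) * δ := (div_lt_iff₀ hδ).1 (Int.lt_floor_add_one _)
  have f3 : (⌊z.2 / δ⌋ : ℝ) * δ ≤ z.2 := (le_div_iff₀ hδ).1 (Int.floor_le _)
  have f4 : z.2 < ((⌊z.2 / δ⌋ : ℝ) + 1) * δ := (div_lt_iff₀ hδ).1 (Int.lt_floor_add_one _)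
  have b1 : (⌊z.1 / δ⌋ : ℝ) - N ≤ (f.1 : ℝ) := by exact_mod_cast a1
  have b2 : (f.1 : ℝ) + 1 ≤ (⌊z.1 / δ⌋ : ℝ) + N := by exact_mod_cast Int.add_one_le_of_lt a2
  have b3 : (⌊z.2 / δ⌋ : ℝ) - N ≤ (f.2 : ℝ) := by exact_mod_cast a3
  have b4 : (f.2 : ℝ) + 1 ≤ (⌊z.2 / δ⌋ : ℝ) + N := by exact_mod_cast Int.add_one_le_of_lt a4
  have c1 := mul_le_mul_of_nonneg_left b1 hδ.le
  have c2 := mul_le_mul_of_nonneg_left b2 hδ.le
  have c3 := mul_le_mul_of_nonneg_left b3 hδ.le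
  have c4 := mul_le_mul_of_nonneg_left b4 hδ.le
  refine scr32_face_mem hδ (hF ?_)
  rw [scr32_mem_sq]
  simp only [scr32_pf]
  refine ⟨⟨?_, ?_⟩, ?_, ?_⟩ <;> linarith

theorem scr32f_arith {δ r r' : ℝ} (hδ : 0 < δ) (hr : 0 < r) {k : ℕ} (hk1 : 1 ≤ k) (hk : 2 * r ≤ k * (r' - r)) (n0 : ℕ)
    (hδ1 : δ * (k + 4) ≤ (r' - r) / 2) (hδ2 : δ * k * n0 ≤ r) :
    ∃ m : ℕ, n0 ≤ m ∧ r + δ ≤ δ * ((k * m : ℕ) : ℝ) ∧ δ * ((((k + 1) * m : ℕ) : ℝ) + 1 / 2) ≤ r' := by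
  have hK : (1 : ℝ) ≤ k := by exact_mod_cast hk1
  have hK0 : (0 : ℝ) < k := by linarith
  have hdk : 0 < δ * k := by positivity
  obtain ⟨x, hx⟩ : ∃ x : ℝ, x = (r + δ) / (δ * k) := ⟨_, rfl⟩
  have hxm : x * (δ * k) = r + δ := by
    rw [hx]
    field_simp
  have hx0 : 0 ≤ x := by
    rw [hx]
    positivity
  have g1 : x * (δ * k) ≤ (⌈x⌉₊ : ℝ) * (δ * k) := mul_le_mul_of_nonneg_right (Nat.le_ceil x) hdk.le
  have g2 : (⌈x⌉₊ : ℝ) * (δ * k) < (x + 1) * (δ * k) := mul_lt_mul_of_pos_right (Nat.ceil_lt_add_one hx0) hdk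
  refine ⟨⌈x⌉₊, ?_, ?_, ?_⟩
  · have h1 : (n0 : ℝ) * (δ * k) ≤ x * (δ * k) := by linarith
    have h2 : (n0 : ℝ) ≤ x := le_of_mul_le_mul_right h1 hdk
    exact_mod_cast h2.trans (Nat.le_ceil x)
  · push_cast
    linarith
  · have h1 : δ * 1 ≤ δ * k := mul_le_mul_of_nonneg_left hK hδ.le
    have h2 : δ * (⌈x⌉₊ : ℝ) * k < ((r' - r) / 2 + 2 * δ) * k := by linarith
    have h3 : δ * (⌈x⌉₊ : ℝ) < (r' - r) / 2 + 2 * δ := lt_of_mul_lt_mul_right h2 hK0.le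
    push_cast
    linarith

theorem scr32f_shrink {φ : ℝ × ℝ → ℝ} {z : ℝ × ℝ} {r : ℝ} (hr : 0 < r) (h : tsupport φ ⊆ Metric.ball z (r / 900)) :
    ∃ rp : ℝ, 0 < rp ∧ rp < r ∧ tsupport φ ⊆ Metric.ball z (rp / 900) := by
  have hK : IsCompact (tsupport φ) :=
    Metric.isCompact_of_isClosed_isBounded (isClosed_tsupport φ) (Metric.isBounded_ball.subset h)
  rcases (tsupport φ).eq_empty_or_nonempty with he | hne
  · exact ⟨r / 2, by linarith, by linarith, by rw [he]; exact Set.empty_subset _⟩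
  · obtain ⟨x0, hx0, hmax⟩ := hK.exists_isMaxOn hne
      (continuous_id.dist continuous_const : Continuous fun x : ℝ × ℝ => dist x z).continuousOn
    have hd : dist x0 z < r / 900 := Metric.mem_ball.1 (h hx0)
    have hd0 : 0 ≤ dist x0 z := dist_nonneg
    refine ⟨450 * dist x0 z + r / 2, by linarith, by linarith, fun x hx => ?_⟩
    have h1 : dist x z ≤ dist x0 z := hmax hx
    rw [Metric.mem_ball]
    linarith

theorem scr32f_ball_sq {z : ℝ × ℝ} {ρ r : ℝ} (h : ρ ≤ r) : Metric.closedBall z ρ ⊆ scrSq z r := by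
  intro x hx
  rw [Metric.mem_closedBall, Prod.dist_eq, max_le_iff, Real.dist_eq, Real.dist_eq, abs_le, abs_le] at hx
  rw [scr32_mem_sq]
  obtain ⟨⟨a1, a2⟩, a3, a4⟩ := hx
  exact ⟨⟨by linarith, by linarith⟩, by linarith, by linarith⟩

/-- RECORD: a second moment of the insertion, uniform in the flat domains whose region contains the square. -/
def Scr32fMom (t : ℝ) (z : ℝ × ℝ) (r' : ℝ) (φ : ℝ × ℝ → ℝ) (δ : ℕ → ℝ) : Prop :=
  ∃ C : ℝ, ∀ᶠ n in atTop, ∀ F : Finset (ℤ × ℤ), ScrFlat (δ n) F → scrSq z r' ⊆ faceRegionSq (δ n) F →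
    rswE t F true (fun ω => scrIns (δ n) z φ ω ^ 2) ≤ C

/-- **(FLAT)** = the statement of `scr_cut_flat`, from the statement of `scr_cut_plane` (hypothesis `hplane`), the contract
`exit_mdl_contig` and the record `Scr32fMom`. -/
theorem scr32f_flat (t : ℝ) (ht1 : 1 / 2 ≤ t) (ht2 : t < 1)
    (hplane : ∀ (z : ℝ × ℝ) (r : ℝ) (_ : 0 < r)
      (φ : ℝ × ℝ → ℝ) (_ : ContDiff ℝ ((⊤ : ℕ∞) : WithTop ℕ∞) φ) (_ : tsupport φ ⊆ Metric.ball z (r / 900))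
      (δ : ℕ → ℝ) (_ : ∀ n, 0 < δ n) (_ : Tendsto δ atTop (𝓝 0)) (ε : ℝ) (_ : 0 < ε),
      ∀ᶠ n in atTop, ∀ G : RswCfg → ℝ, ScrLoc G → (∀ ω, |G ω| ≤ 1) → ScrIn (δ n) (scrSq z r)ᶜ G →
        |scrPl t fun ω => scrIns (δ n) z φ ω * G ω| ≤ ε)
    (z : ℝ × ℝ) (r r' : ℝ) (hr : 0 < r) (hrr : r < r')
    (φ : ℝ × ℝ → ℝ) (hφ : ContDiff ℝ ((⊤ : ℕ∞) : WithTop ℕ∞) φ) (hφs : tsupport φ ⊆ Metric.ball z (r / 900))
    (δ : ℕ → ℝ) (hδ : ∀ n, 0 < δ n) (hδ0 : Tendsto δ atTop (𝓝 0)) (hmom : Scr32fMom t z r' φ δ) (ε : ℝ) (hε : 0 < ε) :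
    ∀ᶠ n in atTop, ∀ F : Finset (ℤ × ℤ), ScrFlat (δ n) F → scrSq z r' ⊆ faceRegionSq (δ n) F →
      ∀ G : RswCfg → ℝ, (∀ ω, |G ω| ≤ 1) → ScrIn (δ n) (scrSq z r)ᶜ G →
      |rswE t F true fun ω => scrIns (δ n) z φ ω * G ω| ≤ ε := by
  have h0' : 0 < t := by linarith
  obtain ⟨rp, hrp0, hrpr, hsupp⟩ := scr32f_shrink hr hφs
  obtain ⟨C0, hC0⟩ := hmom
  obtain ⟨C, hC, hC1⟩ : ∃ C : ℝ, C0 ≤ C ∧ 0 < C := ⟨max C0 1, le_max_left _ _, lt_of_lt_of_le one_pos (le_max_right _ _)⟩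
  have hθ : 0 < ε / (2 * C) := by positivity
  have hεc : 0 < ε / (2 * C) * ε / 2 := by positivity
  have ha : 0 < ε / 4 := by positivity
  have hd : 0 < r' - r := by linarith
  obtain ⟨k, hk⟩ := exists_nat_ge (max 1 (2 * r / (r' - r)))
  have hk1 : 1 ≤ k := by exact_mod_cast (le_max_left _ _).trans hk
  have hk2 : 2 * r ≤ k * (r' - r) := (div_le_iff₀ hd).1 ((le_max_right _ _).trans hk)
  obtain ⟨ζ, hζ, n0, hcont⟩ := exit_mdl_contig t ht1 ht2 k (ε / (2 * C) * ε / 2) hεc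
  have hpl := hplane z rp hrp0 φ hφ hsupp δ hδ hδ0 (ε / 4 * ζ / 2) (by positivity)
  have e1 : ∀ᶠ n in atTop, δ n < (r - rp) / 4 := hδ0.eventually (gt_mem_nhds (by linarith))
  have e2 : ∀ᶠ n in atTop, δ n < (r' - r) / 2 / (k + 4) := hδ0.eventually (gt_mem_nhds (by positivity))
  have e3 : ∀ᶠ n in atTop, δ n < r / (k * n0 + 1) := hδ0.eventually (gt_mem_nhds (by positivity))
  have e4 : ∀ᶠ n in atTop, δ n < r / 2 := hδ0.eventually (gt_mem_nhds (by positivity))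
  filter_upwards [hpl, hC0, e1, e2, e3, e4] with n hpln hCn d1 d2 d3 d4 F hflat hF G hG1 hG
  have hδn := hδ n
  have d2' : δ n * (k + 4) ≤ (r' - r) / 2 := ((lt_div_iff₀ (by positivity)).1 d2).le
  have d3' : δ n * k * n0 ≤ r := by
    have := (lt_div_iff₀ (by positivity)).1 d3
    linarith
  obtain ⟨m, hm0, hm1, hm2⟩ := scr32f_arith hδn hr hk1 hk2 n0 d2' d3'
  have hJ : RswJordan F := (jd19_rswJordan_iff hδn F).2 hflat
  have hc : ∀ A : scr32G → ℝ, scr32_NRg (↑(scr32_sqc (δ n) z r))ᶜ (↑(scr32_sqc (δ n) z r))ᶜ A →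
      mdlPiP t (fun ω => ε / 4 < |A (scr32p_of ω)|) < ζ →
      rswP t F true (fun ω => ε / 4 < |A (scr32p_of ω)|) ≤ ε / (2 * C) * ε / 2 := by
    intro A hA hP
    have := hcont m hm0 F (⌊z.1 / δ n⌋, ⌊z.2 / δ n⌋) true (fun _ => True) (fun ω => ε / 4 < |A (scr32p_of ω)|) hJ
      (scr32f_box_F hδn hm2 hF) (fun _ _ _ _ => Iff.rfl)
      (scr32f_mdlIn (scr32f_box_in hδn z hm1) hA (fun x => ε / 4 < |x|)) hP
    rw [rsz_P_true h0' ht2.le, mul_one] at this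
    simpa only [true_and] using this
  have hk0 : (0 : ℝ) ≤ k := Nat.cast_nonneg k
  have d5 : r + δ n ≤ r' := by nlinarith
  have hin : ScrIn (δ n) (scrSq z r) (scrIns (δ n) z φ) :=
    scr32c_in_mono (scr32f_ball_sq (by linarith)) (scp262_in_ins hδn (by positivity) hφs)
  have key := scr32f_mesh ht1 ht2 hδn (rp := rp) (r1 := (rp + r) / 2) (r := r) (r' := r') (by linarith) (by linarith) d5
    hin (fun _ _ _ _ => rfl) ha hθ (εp := ε / 4 * ζ / 2) (ζ := ζ) (by nlinarith [mul_pos ha hζ]) hpln hF hc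
    ((hCn F hflat hF).trans hC) hG1 hG
  refine key.trans ?_
  have q1 : ε / (2 * C) / 2 * C = ε / 4 := by
    field_simp
    ring
  have q2 : 1 / (2 * (ε / (2 * C))) * (ε / (2 * C) * ε / 2) = ε / 4 := by
    field_simp
    ring
  rw [q1, q2]
  linarith

/-- **(FLAT), final form** = the statement of `scr_cut_flat` from the statement of `scr_cut_plane` ALONE (the record is `scp262_flat_mom` of 262, from the
contracts `exit_rsw_mom_plane` and `exit_rsw_mom_smear`). -/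
theorem scr32f_cut_flat (t : ℝ) (ht1 : 1 / 2 ≤ t) (ht2 : t < 1)
    (hplane : ∀ (z : ℝ × ℝ) (r : ℝ) (_ : 0 < r)
      (φ : ℝ × ℝ → ℝ) (_ : ContDiff ℝ ((⊤ : ℕ∞) : WithTop ℕ∞) φ) (_ : tsupport φ ⊆ Metric.ball z (r / 900))
      (δ : ℕ → ℝ) (_ : ∀ n, 0 < δ n) (_ : Tendsto δ atTop (𝓝 0)) (ε : ℝ) (_ : 0 < ε),
      ∀ᶠ n in atTop, ∀ G : RswCfg → ℝ, ScrLoc G → (∀ ω, |G ω| ≤ 1) → ScrIn (δ n) (scrSq z r)ᶜ G →
        |scrPl t fun ω => scrIns (δ n) z φ ω * G ω| ≤ ε)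
    (z : ℝ × ℝ) (r r' : ℝ) (hr : 0 < r) (hrr : r < r')
    (φ : ℝ × ℝ → ℝ) (hφ : ContDiff ℝ ((⊤ : ℕ∞) : WithTop ℕ∞) φ) (hφs : tsupport φ ⊆ Metric.ball z (r / 900))
    (δ : ℕ → ℝ) (hδ : ∀ n, 0 < δ n) (hδ0 : Tendsto δ atTop (𝓝 0)) (ε : ℝ) (hε : 0 < ε) :
    ∀ᶠ n in atTop, ∀ F : Finset (ℤ × ℤ), ScrFlat (δ n) F → scrSq z r' ⊆ faceRegionSq (δ n) F →
      ∀ G : RswCfg → ℝ, (∀ ω, |G ω| ≤ 1) → ScrIn (δ n) (scrSq z r)ᶜ G →
      |rswE t F true fun ω => scrIns (δ n) z φ ω * G ω| ≤ ε :=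
  scr32f_flat t ht1 ht2 hplane z r r' hr hrr φ hφ hφs δ hδ hδ0
    (scp262_flat_mom (exit_rsw_mom_plane t ht1 ht2) (exit_rsw_mom_smear t ht1 ht2) z hr hrr.le hφ hφs δ hδ hδ0) ε hε

end Claimed.Agent.R292
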