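import Claimed.Agent.R292.Screen.Col32
import Claimed.Agent.R292.Screen.Sym99
import Claimed.Agent.R292.Screen.Plane262
import Claimed.Agent.R292.Exit.MODEL
import Claimed.Agent.R292.Model.Pattern141
import Claimed.Agent.R292.Model.CircGeo61
import Claimed.Agent.R292.Rsw.Search122
import Claimed.Agent.R291.Wick.Green

/-!
# Row 292 (S0540), unit SCREEN, Screen/Col176 : THE FOUR RECORDS OF LEMMA 5.6 "ADDING CORE COLOURS"      (helper176; prefix `col176`, `Col176`)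

No `sorry` typed here.   The assembly of Lemma 5.6 is `scr32c_col` of 32 (Screen/Col32) with four records; this file proves them (from the contracts of the units RSW and MODEL).
* sec. 1  (WIN)  `col176_ins_in : ScrIn δ (closedBall z r) (scrIns δ z φ)` for `δ ≤ r / 4`, `tsupport φ ⊆ ball z (r / 2)`;  `col176_inc_congr` (an increment reads the
          rectangle spanned by its ends), `col176_W_supp`, `col176_win`, `col176_loc_of_in` (`ScrIn` a bounded set ⟹ `ScrLoc`);   **`col176_ins : Scr32cIns z r φ δ`**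
* sec. 2  deterministic: `Col176In δ U Λ` (the faces of `Λ` are full in `U`), `col176_conn` (`MdlNConn Λ ω` ⟹ `Scr32cConn` of the pattern of `ω`),
          `col176_reach` (a class which is not sealed reaches `rswLayer Λ`: else it is closed under the steps of the pattern graph and all its edges are prescribed),
          **`col176_trans`** (the terminals of `Λ₀ ⊆ Λ` give `MdlTrans Λ₀ Λ k ω`)
* sec. 3  tiles `rswBox (col176C m a) m` of the plane, `col176_mem_tile`, `col176_tile_range` (boundedly many tiles meet the blocks), `col176_box_in`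
* sec. 4  `col176_bad_le` (pigeonhole, pointwise), **`col176_tail : Scr32cTail t c0 blk δ`** from the contract (S2) `exit_mdl_trans` (`k = 1`, `L = True`), union bound in the
          boxes `rswBox 0 N`, limit by `scr99_pl_tendsto`
* sec. 5  `col176_lim : Scr32cLim t`, `col176_col` = the statement of `scr_cut_col` from (GAP) and `Scr32cMom`; `col176_mom : Scr32cMom t z φ δ` (from `scp262_mom` of 262);
          **`col176_cut_col` = `scr_cut_col` from (GAP) ALONE**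
* sec. 6  (REC-PAT) `pat176_decomp` (a window pattern = sum of its completions in a region `Q`), `pat176_mesh` (the upper bound for complete patterns passes to windows; `Finset.prod_univ_sum`)
* sec. 7  squares ↦ boxes `rswBox ⌊c / δ⌋ (k n)`, `pat176_N`, `pat176_mem`, `pat176_disj`;   **`pat176_main`** = prop:pattern-comparison (upper bound) for windows inside pairwise
          separated SQUARES (statement typed by 229 for 232's (GAP)), from the contract (S3) `exit_mdl_pattern` at the ratio `k = ⌈3 M / c0⌉ + 3`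
* sec. 8  (SEAL) lattice rectangles `seal176Rc x1 x2 y1 y2 j`; `seal176_det` (deterministic moat: cuts in the tiles of the ring at depth `4 n + 2` seal the rectangle, no Jordan),
          `seal176_atom_ext`, `seal176_card`;   **`seal176_main`** = the hypothesis `hseal` of `mdl141p_four_batches` (141) for RECTANGLES with sides `≤ J n`, constant `p ^ (J + 12) ^ 2`,
          from (S1) `exit_mdl_circ` at `k = 0`, (S0) `exit_mdl_cmp` (`mdl_fkg_prod` under atoms), `mdl_P_of_atoms` (191)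
-/

set_option autoImplicit false

namespace Claimed.Agent.R292

open Claims Claims.C0468 Filter Topology

/-! ## 1. (WIN) the window of the Laplace insertion -/

theorem col176_mem_ball (δ ρ : ℝ) (z : ℝ × ℝ) (v : ℤ × ℤ) :
    scr232P δ v ∈ Metric.closedBall z ρ ↔ |δ * v.1 - z.1| ≤ ρ ∧ |δ * v.2 - z.2| ≤ ρ := by
  simp [scr232P, Prod.dist_eq, Real.dist_eq]

theorem col176_between {δ ρ c : ℝ} (hδ : 0 < δ) {a b x : ℤ} (ha : |δ * a - c| ≤ ρ) (hb : |δ * b - c| ≤ ρ)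
    (h1 : min a b ≤ x) (h2 : x ≤ max a b) : |δ * x - c| ≤ ρ := by
  rw [abs_le] at *
  have h1' : ((min a b : ℤ) : ℝ) ≤ x := by exact_mod_cast h1
  have h2' : (x : ℝ) ≤ ((max a b : ℤ) : ℝ) := by exact_mod_cast h2
  rcases le_total a b with h | h
  · rw [min_eq_left h] at h1'
    rw [max_eq_right h] at h2'
    constructor <;> nlinarith
  · rw [min_eq_right h] at h1'
    rw [max_eq_left h] at h2'
    constructor <;> nlinarith

theorem col176_W_supp {δ : ℝ} {f : ℝ × ℝ → ℝ} {v : ℤ × ℤ} (h : aspW δ f v ≠ 0) : ∃ p ∈ aspCell δ v, f p ≠ 0 := by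
  have h1 : aspWt δ f v ≠ 0 := by
    unfold aspW at h
    split_ifs at h with hf
    · exact h
    · exact absurd rfl h
  by_contra hn
  push Not at hn
  exact h1 (MeasureTheory.setIntegral_eq_zero_of_forall_eq_zero hn)

theorem col176_osum_congr {a b : ℤ} {g g' : ℤ → ℝ} (h : ∀ x, min a b ≤ x → x < max a b → g x = g' x) :
    scrOsum a b g = scrOsum a b g' := by
  unfold scrOsum
  split_ifs with hab
  · refine Finset.sum_congr rfl fun x hx => ?_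
    rw [Finset.mem_Ico] at hx
    exact h x (by rw [min_eq_left hab]; exact hx.1) (by rw [max_eq_right hab]; exact hx.2)
  · have hba : b ≤ a := le_of_not_ge hab
    congr 1
    refine Finset.sum_congr rfl fun x hx => ?_
    rw [Finset.mem_Ico] at hx
    exact h x (by rw [min_eq_right hba]; exact hx.1) (by rw [max_eq_left hba]; exact hx.2)

theorem col176_step_congr {ω ω' : RswCfg} {e : (ℤ × ℤ) × Bool} (h1 : e.1 ∈ ω.S ↔ e.1 ∈ ω'.S)
    (h2 : rswEnd e ∈ ω.S ↔ rswEnd e ∈ ω'.S) (h3 : e.1 ∈ ω.D ↔ e.1 ∈ ω'.D) : scrStep ω e = scrStep ω' e := by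
  unfold scrStep scrS scrD
  simp only [h1, h2, h3]

/-- the increment reads `S` and `D` only in the rectangle spanned by its two ends. -/
theorem col176_inc_congr {ω ω' : RswCfg} {v₀ v : ℤ × ℤ}
    (hS : ∀ u : ℤ × ℤ, min v₀.1 v.1 ≤ u.1 → u.1 ≤ max v₀.1 v.1 → min v₀.2 v.2 ≤ u.2 → u.2 ≤ max v₀.2 v.2 → (u ∈ ω.S ↔ u ∈ ω'.S))
    (hD : ∀ u : ℤ × ℤ, min v₀.1 v.1 ≤ u.1 → u.1 ≤ max v₀.1 v.1 → min v₀.2 v.2 ≤ u.2 → u.2 ≤ max v₀.2 v.2 → (u ∈ ω.D ↔ u ∈ ω'.D)) :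
    scrInc ω v₀ v = scrInc ω' v₀ v := by
  unfold scrInc
  congr 1
  · refine col176_osum_congr fun x h1 h2 => col176_step_congr ?_ ?_ ?_
    · exact hS _ h1 h2.le (min_le_left _ _) (le_max_left _ _)
    · exact hS _ (by simp only [rswEnd]; simp; omega) (by simp only [rswEnd]; simp; omega)
        (by simp [rswEnd]) (by simp [rswEnd])
    · exact hD _ h1 h2.le (min_le_left _ _) (le_max_left _ _)
  · refine col176_osum_congr fun y h1 h2 => col176_step_congr ?_ ?_ ?_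
    · exact hS _ (min_le_right _ _) (le_max_right _ _) h1 h2.le
    · exact hS _ (by simp [rswEnd]) (by simp [rswEnd]) (by simp only [rswEnd]; simp; omega)
        (by simp only [rswEnd]; simp; omega)
    · exact hD _ (min_le_right _ _) (le_max_right _ _) h1 h2.le

/-- **(WIN)** the Laplace insertion reads only the square of half side `r` around its centre. -/
theorem col176_ins_in {δ r : ℝ} (hδ : 0 < δ) (hδr : δ ≤ r / 4) (z : ℝ × ℝ) (φ : ℝ × ℝ → ℝ)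
    (hφs : tsupport φ ⊆ Metric.ball z (r / 2)) : ScrIn δ (Metric.closedBall z r) (scrIns δ z φ) := by
  intro ω ω' hS hD _
  unfold scrIns scrArr
  refine Finsupp.sum_congr fun v hv => ?_
  congr 1
  have hv0 : ∀ c : ℝ, |δ * ((⌊c / δ⌋ : ℤ) : ℝ) - c| ≤ r := by
    intro c
    have h1 := Int.floor_le (c / δ)
    have h2 := Int.lt_floor_add_one (c / δ)
    rw [le_div_iff₀ hδ] at h1
    rw [div_lt_iff₀ hδ] at h2
    rw [abs_le]
    constructor <;> nlinarith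
  obtain ⟨p, hp, hp0⟩ := col176_W_supp (Finsupp.mem_support_iff.1 hv)
  have hpt : p ∈ tsupport φ := by
    have e : (lap2 φ) = Claims.C0467.lap2 φ := rfl
    rw [e] at hp0
    exact Claimed.Agent.R291.wkg_lap_tsupport φ (subset_tsupport _ hp0)
  have hpz := hφs hpt
  rw [Metric.mem_ball, Prod.dist_eq, max_lt_iff, Real.dist_eq, Real.dist_eq] at hpz
  obtain ⟨⟨a1, a2⟩, ⟨b1, b2⟩⟩ := hp
  have hv1 : |δ * (v.1 : ℝ) - z.1| ≤ r := by
    have := abs_lt.1 hpz.1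
    rw [abs_le]
    constructor <;> nlinarith
  have hv2 : |δ * (v.2 : ℝ) - z.2| ≤ r := by
    have := abs_lt.1 hpz.2
    rw [abs_le]
    constructor <;> nlinarith
  refine col176_inc_congr (fun u h1 h2 h3 h4 => hS u ?_) (fun u h1 h2 h3 h4 => hD u ?_) <;>
  · rw [col176_mem_ball]
    exact ⟨col176_between hδ (hv0 z.1) hv1 h1 h2, col176_between hδ (hv0 z.2) hv2 h3 h4⟩

/-- a finite window of lattice points for a bounded set. -/
theorem col176_win {δ : ℝ} (hδ : 0 < δ) {U : Set (ℝ × ℝ)} (hU : Bornology.IsBounded U) :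
    ∃ R : Finset (ℤ × ℤ), ∀ v, scr232P δ v ∈ U → v ∈ R := by
  obtain ⟨ρ, hρ⟩ := hU.subset_closedBall (0 : ℝ × ℝ)
  obtain ⟨N, hN⟩ := exists_nat_ge (ρ / δ)
  refine ⟨Finset.Icc (-(N : ℤ)) N ×ˢ Finset.Icc (-(N : ℤ)) N, fun v hv => ?_⟩
  have h := (col176_mem_ball δ ρ 0 v).1 (hρ hv)
  rw [div_le_iff₀ hδ] at hN
  have key : ∀ x : ℤ, |δ * (x : ℝ) - 0| ≤ ρ → -(N : ℤ) ≤ x ∧ x ≤ N := by
    intro x hx
    rw [sub_zero, abs_le] at hx
    constructor
    · have : (-(N : ℝ)) ≤ x := by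
        by_contra hc
        push Not at hc
        nlinarith
      exact_mod_cast this
    · have : (x : ℝ) ≤ N := by
        by_contra hc
        push Not at hc
        nlinarith
      exact_mod_cast this
  simp only [Finset.mem_product, Finset.mem_Icc]
  exact ⟨key _ h.1, key _ h.2⟩

/-- an observable which reads only in a bounded set is local. -/
theorem col176_loc_of_in {δ : ℝ} (hδ : 0 < δ) {U : Set (ℝ × ℝ)} (hU : Bornology.IsBounded U) {X : RswCfg → ℝ}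
    (hX : ScrIn δ U X) : ScrLoc X := by
  obtain ⟨R, hR⟩ := col176_win hδ hU
  refine ⟨R, R ×ˢ Finset.univ, fun ω ω' h1 h2 h3 => hX ω ω' (fun v hv => ?_) (fun v hv => ?_) (fun e he _ => ?_)⟩
  · have := Finset.ext_iff.1 h1 v
    simpa [hR v hv] using this
  · have := Finset.ext_iff.1 h2 v
    simpa [hR v hv] using this
  · have := Finset.ext_iff.1 h3 e
    simpa [hR e.1 he] using this

/-- **RECORD `Scr32cIns` of 32's assembly, proved.** -/
theorem col176_ins {z : ℝ × ℝ} {r : ℝ} (hr : 0 < r) (φ : ℝ × ℝ → ℝ) (hφs : tsupport φ ⊆ Metric.ball z (r / 2))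
    (δ : ℕ → ℝ) (hδ : ∀ n, 0 < δ n) (hδ0 : Tendsto δ atTop (𝓝 0)) : Scr32cIns z r φ δ := by
  have hev : ∀ᶠ n in atTop, δ n < r / 4 := hδ0.eventually (gt_mem_nhds (by positivity))
  filter_upwards [hev] with n hn
  have h := col176_ins_in (hδ n) hn.le z φ hφs
  refine scr32c_in_mono (fun p hp => ?_) h
  rw [Metric.mem_closedBall, Prod.dist_eq, max_le_iff, Real.dist_eq, Real.dist_eq, abs_le, abs_le] at hp
  rw [scr32_mem_sq]
  exact ⟨⟨by linarith [hp.1.1], by linarith [hp.1.2]⟩, by linarith [hp.2.1], by linarith [hp.2.2]⟩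

/-! ## 2. (TAIL) deterministic part: the terminals of one tile transmit -/

section det

variable {δ : ℝ} {blk : Fin 4 → Set (ℝ × ℝ)}

/-- all the corners of the faces of `Λ` lie in `U`. -/
def Col176In (δ : ℝ) (U : Set (ℝ × ℝ)) (Λ : Finset (ℤ × ℤ)) : Prop :=
  ∀ q ∈ Λ, scr232P δ q ∈ U ∧ scr232P δ (q.1 + 1, q.2) ∈ U ∧ scr232P δ (q.1, q.2 + 1) ∈ U ∧
    scr232P δ (q.1 + 1, q.2 + 1) ∈ U

/-- the four edges of a face of `Λ` are prescribed. -/
theorem col176_pre {i : Fin 4} {Λ : Finset (ℤ × ℤ)} (hΛ : Col176In δ (blk i) Λ) {e : (ℤ × ℤ) × Bool} {q : ℤ × ℤ}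
    (hq : q ∈ Λ) (he : e.1 = q ∨ rswCo e = q) : Scr32cPre δ blk i e := by
  obtain ⟨h1, h2, h3, h4⟩ := hΛ q hq
  obtain ⟨⟨x, y⟩, b⟩ := e
  unfold Scr32cPre
  cases b
  · rcases he with rfl | rfl
    · exact ⟨h1, by simpa [rswEnd] using h2⟩
    · simp only [rswCo, Bool.false_eq_true, if_false, sub_add_cancel] at h3 h4
      exact ⟨h3, by simpa [rswEnd] using h4⟩
  · rcases he with rfl | rfl
    · exact ⟨h1, by simpa [rswEnd] using h3⟩
    · simp only [rswCo, if_true, sub_add_cancel] at h2 h4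
      exact ⟨h2, by simpa [rswEnd] using h4⟩

/-- the open edges of the pattern of `ω`. -/
theorem col176_mem_pat (ω : RswCfg) (i : Fin 4) (e : (ℤ × ℤ) × Bool) :
    e ∈ (scrPats δ blk ω i).2 ↔ e ∈ ω.O ∧ Scr32cPre δ blk i e := by
  classical
  unfold scrPats scrPat Scr32cPre
  simp only [Finset.mem_filter]

theorem col176_step {i : Fin 4} {Λ : Finset (ℤ × ℤ)} (hΛ : Col176In δ (blk i) Λ) {ω : RswCfg} {a b : ℤ × ℤ}
    (h : MdlNStep Λ ω a b) : Scr32cStep δ blk (scrPats δ blk ω) a b := by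
  obtain ⟨ha, hb, e, hab, heO⟩ := h
  refine ⟨e, i, ?_, fun hc => heO ((col176_mem_pat ω i e).1 hc).1, hab⟩
  rcases hab with ⟨h1, -⟩ | ⟨h1, -⟩
  · exact col176_pre hΛ ha (Or.inl h1.symm)
  · exact col176_pre hΛ hb (Or.inl h1.symm)

theorem col176_conn {i : Fin 4} {Λ : Finset (ℤ × ℤ)} (hΛ : Col176In δ (blk i) Λ) {ω : RswCfg} {a b : ℤ × ℤ}
    (h : MdlNConn Λ ω a b) : Scr32cConn δ blk (scrPats δ blk ω) a b := by
  induction h with
  | refl => exact Relation.EqvGen.refl _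
  | tail _ hs ih => exact Relation.EqvGen.trans _ _ _ ih (Relation.EqvGen.rel _ _ (col176_step hΛ hs))

theorem col176_conn_mem {Λ : Finset (ℤ × ℤ)} {ω : RswCfg} {a b : ℤ × ℤ} (ha : a ∈ Λ) (h : MdlNConn Λ ω a b) : b ∈ Λ := by
  induction h with
  | refl => exact ha
  | tail _ hs _ => exact hs.2.1

/-- a class which does not reach the layer of `Λ` is closed under the steps of the pattern graph. -/
theorem col176_closed {Λ : Finset (ℤ × ℤ)} {ω : RswCfg} {f : ℤ × ℤ} (hf : f ∈ Λ)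
    (hno : ∀ g ∈ rswLayer Λ, ¬ MdlNConn Λ ω f g) {a b : ℤ × ℤ} (h : Scr32cStep δ blk (scrPats δ blk ω) a b)
    (ha : MdlNConn Λ ω f a) : MdlNConn Λ ω f b := by
  obtain ⟨e, i, hpre, hne, hab⟩ := h
  have heO : e ∉ ω.O := fun hc => hne ((col176_mem_pat ω i e).2 ⟨hc, hpre⟩)
  have haΛ : a ∈ Λ := col176_conn_mem hf ha
  have hbΛ : b ∈ Λ := by
    by_contra hb
    rcases hab with ⟨h1, h2⟩ | ⟨h1, h2⟩
    · subst h1 h2
      exact hno _ (rs122_layer_fst haΛ hb) ha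
    · subst h1 h2
      exact hno _ (rs122_layer_co hb haΛ) ha
  exact Relation.ReflTransGen.tail ha ⟨haΛ, hbΛ, e, hab, heO⟩

theorem col176_step_symm {P : Fin 4 → ScrPatT} {a b : ℤ × ℤ} (h : Scr32cStep δ blk P a b) : Scr32cStep δ blk P b a := by
  obtain ⟨e, i, h1, h2, h3⟩ := h
  exact ⟨e, i, h1, h2, h3.symm⟩

/-- **a class which is not sealed reaches the layer of every box whose faces are full in one block.** -/
theorem col176_reach {i : Fin 4} {Λ : Finset (ℤ × ℤ)} (hΛ : Col176In δ (blk i) Λ) {ω : RswCfg} {f : ℤ × ℤ} (hf : f ∈ Λ)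
    (hs : ¬ Scr32cSeal δ blk (scrPats δ blk ω) f) : ∃ g ∈ rswLayer Λ, MdlNConn Λ ω f g := by
  by_contra hno
  push Not at hno
  have hK : ∀ a b, Scr32cConn δ blk (scrPats δ blk ω) a b → (MdlNConn Λ ω f a ↔ MdlNConn Λ ω f b) := by
    intro a b hab
    induction hab with
    | rel a b h => exact ⟨col176_closed hf hno h, col176_closed hf hno (col176_step_symm h)⟩
    | refl a => exact Iff.rfl
    | symm a b _ ih => exact ih.symm
    | trans a b c _ _ ih1 ih2 => exact ih1.trans ih2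
  refine hs fun g hg e he => ⟨i, col176_pre hΛ ?_ he⟩
  exact col176_conn_mem hf ((hK f g hg).1 Relation.ReflTransGen.refl)

/-- **the terminals of the inner box transmit.** -/
theorem col176_trans {Λ₀ Λ : Finset (ℤ × ℤ)} (h0 : Λ₀ ⊆ Λ) {ω : RswCfg} {A : Finset (ℤ × ℤ)}
    (hin : ∀ f ∈ scr32cT δ blk (scrPats δ blk ω) A, f ∈ Λ₀ → ∃ i, Col176In δ (blk i) Λ) {k : ℕ}
    (hk : k ≤ ((scr32cT δ blk (scrPats δ blk ω) A).filter fun f => f ∈ Λ₀).card) : MdlTrans Λ₀ Λ k ω := by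
  obtain ⟨T', hT', hcard⟩ := Finset.exists_subset_card_eq hk
  have hmem : ∀ f ∈ T', f ∈ scr32cT δ blk (scrPats δ blk ω) A ∧ f ∈ Λ₀ := fun f hf => Finset.mem_filter.1 (hT' hf)
  refine ⟨T', fun f hf => (hmem f hf).2, hcard, fun f hf => ?_, fun f hf g hg hne hc => ?_⟩
  · obtain ⟨i, hi⟩ := hin f (hmem f hf).1 (hmem f hf).2
    exact col176_reach hi (h0 (hmem f hf).2) (scr32c_mem_T.1 (hmem f hf).1).2
  · obtain ⟨i, hi⟩ := hin f (hmem f hf).1 (hmem f hf).2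
    exact hne (scr32c_R_inj (scr32c_mem_T.1 (hmem f hf).1).1 (scr32c_mem_T.1 (hmem g hg).1).1 (col176_conn hi hc))

end det

/-! ## 3. (TAIL) tiles -/

theorem col176_mem_box {z f : ℤ × ℤ} {n : ℕ} :
    f ∈ rswBox z n ↔ (z.1 - n ≤ f.1 ∧ f.1 < z.1 + n) ∧ (z.2 - n ≤ f.2 ∧ f.2 < z.2 + n) := by
  unfold rswBox
  simp only [Finset.mem_product, Finset.mem_Ico]

theorem col176_close {δ c0 : ℝ} (hδ : 0 < δ) {m : ℕ} (h3 : 3 * (m : ℝ) * δ ≤ c0) {a b : ℤ} (h1 : a - b ≤ 3 * m)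
    (h2 : b - a ≤ 3 * m) : |δ * (a : ℝ) - δ * (b : ℝ)| ≤ c0 := by
  have h1' : (a : ℝ) - b ≤ 3 * m := by exact_mod_cast h1
  have h2' : (b : ℝ) - a ≤ 3 * m := by exact_mod_cast h2
  rw [abs_le]
  constructor <;> nlinarith

/-- the faces of the double box around a core face are full in the block of that face. -/
theorem col176_box_in {δ c0 : ℝ} (hδ : 0 < δ) {m : ℕ} (h3 : 3 * (m : ℝ) * δ ≤ c0) {U : Set (ℝ × ℝ)} {z f : ℤ × ℤ}
    (hf : f ∈ rswBox z m) (hU : Metric.closedBall (scr232P δ f) c0 ⊆ U) : Col176In δ U (rswBox z (2 * m)) := by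
  intro q hq
  rw [col176_mem_box] at hf hq
  push_cast at hq
  obtain ⟨⟨a1, a2⟩, a3, a4⟩ := hf
  obtain ⟨⟨b1, b2⟩, b3, b4⟩ := hq
  have key : ∀ u : ℤ × ℤ, u.1 - f.1 ≤ 3 * m → f.1 - u.1 ≤ 3 * m → u.2 - f.2 ≤ 3 * m → f.2 - u.2 ≤ 3 * m →
      scr232P δ u ∈ U := by
    intro u c1 c2 c3 c4
    refine hU ((col176_mem_ball δ c0 _ u).2 ⟨?_, ?_⟩)
    · exact col176_close hδ h3 c1 c2
    · exact col176_close hδ h3 c3 c4
  refine ⟨key _ ?_ ?_ ?_ ?_, key _ ?_ ?_ ?_ ?_, key _ ?_ ?_ ?_ ?_, key _ ?_ ?_ ?_ ?_⟩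
  all_goals omega

/-- the centre of the tile `a` at scale `m`. -/
def col176C (m : ℕ) (a : ℤ × ℤ) : ℤ × ℤ := (2 * m * a.1 + m, 2 * m * a.2 + m)

/-- the tile of the face `f` at scale `m`. -/
def col176Tile (m : ℕ) (f : ℤ × ℤ) : ℤ × ℤ := (f.1 / (2 * m), f.2 / (2 * m))

theorem col176_div {w x : ℤ} (hw : 0 < w) : w * (x / w) ≤ x ∧ x < w * (x / w) + w := by
  have h1 := Int.mul_ediv_add_emod x w
  have h2 := Int.emod_nonneg x hw.ne'
  have h3 := Int.emod_lt_of_pos x hw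
  constructor <;> linarith

theorem col176_mem_tile {m : ℕ} (hm : 0 < m) (f : ℤ × ℤ) : f ∈ rswBox (col176C m (col176Tile m f)) m := by
  have hw : (0 : ℤ) < 2 * m := by positivity
  have h1 := col176_div (x := f.1) hw
  have h2 := col176_div (x := f.2) hw
  rw [col176_mem_box]
  unfold col176C col176Tile
  simp only
  refine ⟨⟨by linarith [h1.1], by linarith [h1.2]⟩, by linarith [h2.1], by linarith [h2.2]⟩

theorem col176_tile_range {δ ρ c0 : ℝ} (hδ : 0 < δ) (hc0 : 0 < c0) {m A : ℕ} (hm0 : 0 < m) (hm : c0 / 6 ≤ m * δ)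
    (hA : 3 * ρ / c0 ≤ A) {x : ℤ} (hx : |δ * (x : ℝ)| ≤ ρ) : -(A : ℤ) ≤ x / (2 * m) ∧ x / (2 * m) ≤ A := by
  have hw : (0 : ℤ) < 2 * m := by positivity
  rw [div_le_iff₀ hc0] at hA
  rw [abs_le] at hx
  have hA0 : (0 : ℝ) ≤ A := Nat.cast_nonneg A
  have hb : ρ ≤ (A : ℝ) * (2 * m) * δ := by nlinarith
  have h1 : (x : ℝ) ≤ (A : ℝ) * (2 * m) := by
    by_contra hc
    push Not at hc
    nlinarith
  have h2 : -((A : ℝ) * (2 * m)) ≤ x := by
    by_contra hc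
    push Not at hc
    nlinarith
  have h1' : x ≤ (A : ℤ) * (2 * m) := by exact_mod_cast h1
  have h2' : -((A : ℤ) * (2 * m)) ≤ x := by exact_mod_cast h2
  constructor
  · rw [Int.le_ediv_iff_mul_le hw]
    linarith
  · have : x / (2 * m) < (A : ℤ) + 1 := by
      rw [Int.ediv_lt_iff_lt_mul hw]
      nlinarith
    omega

/-! ## 4. (TAIL) pigeonhole, union bound, plane limit -/

open Classical in
/-- pointwise: more than `#I * k` terminals force `k` transmissions in one of the tiles. -/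
theorem col176_bad_le {δ c0 ρ : ℝ} (hδ : 0 < δ) (hc0 : 0 < c0) {blk : Fin 4 → Set (ℝ × ℝ)}
    (hρ : ∀ i, ∀ v : ℤ × ℤ, scr232P δ v ∈ blk i → |δ * (v.1 : ℝ)| ≤ ρ ∧ |δ * (v.2 : ℝ)| ≤ ρ)
    {m A : ℕ} (hm0 : 0 < m) (h3 : 3 * (m : ℝ) * δ ≤ c0) (hm : c0 / 6 ≤ m * δ) (hA : 3 * ρ / c0 ≤ A)
    {sel : (Fin 4 → ScrPatT) → Finset (ℤ × ℤ)} (hsel : ScrCore δ c0 blk sel) (k : ℕ) (ω : RswCfg) :
    scr32cBad δ blk sel ((Finset.Icc (-(A : ℤ)) A ×ˢ Finset.Icc (-(A : ℤ)) A).card * k) ω ≤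
      ∑ a ∈ Finset.Icc (-(A : ℤ)) A ×ˢ Finset.Icc (-(A : ℤ)) A,
        if MdlTrans (rswBox (col176C m a) m) (rswBox (col176C m a) (2 * m)) k ω then (1 : ℝ) else 0 := by
  set I := Finset.Icc (-(A : ℤ)) A ×ˢ Finset.Icc (-(A : ℤ)) A with hI
  have hnn : ∀ a ∈ I, (0 : ℝ) ≤
      if MdlTrans (rswBox (col176C m a) m) (rswBox (col176C m a) (2 * m)) k ω then (1 : ℝ) else 0 :=
    fun a _ => by split_ifs <;> norm_num
  unfold scr32cBad
  split_ifs with h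
  · set T := scr32cT δ blk (scrPats δ blk ω) (sel (scrPats δ blk ω)) with hT
    have hcore : ∀ f ∈ T, ∃ i, Metric.closedBall (scr232P δ f) c0 ⊆ blk i := fun f hf =>
      hsel _ f (scr32c_R_sub _ _ (scr32c_T_sub _ _ hf))
    have hmaps : ∀ f ∈ T, col176Tile m f ∈ I := by
      intro f hf
      obtain ⟨i, hi⟩ := hcore f hf
      have := hρ i f (hi (Metric.mem_closedBall_self hc0.le))
      have h1 := col176_tile_range hδ hc0 hm0 hm hA this.1
      have h2 := col176_tile_range hδ hc0 hm0 hm hA this.2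
      simp only [hI, Finset.mem_product, Finset.mem_Icc, col176Tile]
      exact ⟨h1, h2⟩
    obtain ⟨a, ha, hka⟩ := Finset.exists_lt_card_fiber_of_mul_lt_card_of_maps_to hmaps h
    have htr : MdlTrans (rswBox (col176C m a) m) (rswBox (col176C m a) (2 * m)) k ω := by
      refine col176_trans (δ := δ) (blk := blk) (scr99_box_mono _ (by omega)) (A := sel (scrPats δ blk ω))
        (fun f hf hfΛ => ?_) ?_
      · obtain ⟨i, hi⟩ := hcore f hf
        exact ⟨i, col176_box_in hδ h3 hfΛ hi⟩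
      · refine hka.le.trans (Finset.card_le_card fun f hf => ?_)
        rw [Finset.mem_filter] at hf ⊢
        refine ⟨hf.1, ?_⟩
        rw [← hf.2]
        exact col176_mem_tile hm0 f
    calc (1 : ℝ) = if MdlTrans (rswBox (col176C m a) m) (rswBox (col176C m a) (2 * m)) k ω then (1 : ℝ) else 0 := by
          rw [if_pos htr]
      _ ≤ _ := Finset.single_le_sum hnn ha
  · exact Finset.sum_nonneg hnn

/-- the indicator of "more than `M` terminals" is local. -/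
theorem col176_bad_loc {δ : ℝ} (hδ : 0 < δ) {blk : Fin 4 → Set (ℝ × ℝ)} {z0 : ℝ × ℝ} {s : ℝ}
    (hblk : ∀ i, blk i ⊆ scrSq z0 s) (sel : (Fin 4 → ScrPatT) → Finset (ℤ × ℤ)) (M : ℕ) :
    ScrLoc (scr32cBad δ blk sel M) := by
  refine scr32c_loc hδ (z := z0) (r := s) fun ω ω' hS _ hO => ?_
  unfold scr32cBad
  rw [scr32c_pats_agree hblk hS hO]

/-- **RECORD `Scr32cTail` of 32's assembly, from the contract (S2) `exit_mdl_trans`** (and `exit_rsw_plane` through `scr99_pl_tendsto`). -/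
theorem col176_tail (t : ℝ) (ht1 : 1 / 2 ≤ t) (ht2 : t < 1) (z0 : ℝ × ℝ) (s c0 : ℝ) (hc0 : 0 < c0)
    (blk : Fin 4 → Set (ℝ × ℝ)) (hblk : ∀ i, blk i ⊆ scrSq z0 s)
    (δ : ℕ → ℝ) (hδ : ∀ n, 0 < δ n) (hδ0 : Tendsto δ atTop (𝓝 0)) : Scr32cTail t c0 blk δ := by
  classical
  have ht0 : 0 < t := by linarith
  obtain ⟨C, q, hC, hq0, hq1, n0, H⟩ := exit_mdl_trans t ht1 ht2 1
  intro η hη
  set ρ : ℝ := |z0.1| + |z0.2| + |s| with hρdef
  obtain ⟨A, hA⟩ := exists_nat_ge (3 * ρ / c0)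
  set I := Finset.Icc (-(A : ℤ)) A ×ˢ Finset.Icc (-(A : ℤ)) A with hI
  obtain ⟨k, hk⟩ : ∃ k : ℕ, (I.card : ℝ) * (C * q ^ k) ≤ η := by
    have hlim : Tendsto (fun k : ℕ => (I.card : ℝ) * (C * q ^ k)) atTop (𝓝 ((I.card : ℝ) * (C * 0))) :=
      ((tendsto_pow_atTop_nhds_zero_of_lt_one hq0.le hq1).const_mul C).const_mul _
    rw [mul_zero, mul_zero] at hlim
    exact ((hlim.eventually (gt_mem_nhds hη)).exists).imp fun k hk => hk.le
  refine ⟨I.card * k, ?_⟩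
  have hthr : 0 < min (c0 / 6) (c0 / (3 * ((n0 : ℝ) + 1))) := by positivity
  filter_upwards [hδ0.eventually (gt_mem_nhds hthr)] with n hn sel hsel
  have hd := hδ n
  have hn1 : δ n < c0 / 6 := lt_of_lt_of_le hn (min_le_left _ _)
  have hn2 : δ n < c0 / (3 * ((n0 : ℝ) + 1)) := lt_of_lt_of_le hn (min_le_right _ _)
  set m : ℕ := ⌊c0 / (3 * δ n)⌋₊ with hm
  have hx0 : 0 ≤ c0 / (3 * δ n) := by positivity
  have hfl1 : (m : ℝ) ≤ c0 / (3 * δ n) := Nat.floor_le hx0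
  have hfl2 : c0 / (3 * δ n) < m + 1 := Nat.lt_floor_add_one _
  have h3 : 3 * (m : ℝ) * δ n ≤ c0 := by
    rw [le_div_iff₀ (by positivity)] at hfl1
    linarith
  have hm6 : c0 / 6 ≤ m * δ n := by
    rw [div_lt_iff₀ (by positivity)] at hfl2
    nlinarith
  have hmn0 : n0 + 1 ≤ m := by
    apply Nat.le_floor
    rw [le_div_iff₀ (by positivity)]
    rw [lt_div_iff₀ (by positivity)] at hn2
    push_cast
    linarith
  have hm0 : 0 < m := by omega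
  have hρ : ∀ i, ∀ v : ℤ × ℤ, scr232P (δ n) v ∈ blk i → |δ n * (v.1 : ℝ)| ≤ ρ ∧ |δ n * (v.2 : ℝ)| ≤ ρ := by
    intro i v hv
    have h := scr32_mem_sq.1 (hblk i hv)
    simp only [scr232P] at h
    obtain ⟨⟨a1, a2⟩, a3, a4⟩ := h
    have b1 := le_abs_self z0.1
    have b2 := neg_abs_le z0.1
    have b3 := le_abs_self z0.2
    have b4 := neg_abs_le z0.2
    have b5 := le_abs_self s
    have b6 := abs_nonneg z0.1
    have b7 := abs_nonneg z0.2
    constructor <;> rw [abs_le] <;> constructor <;> linarith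
  refine le_of_tendsto (scr99_pl_tendsto ht1 ht2 (col176_bad_loc hd hblk sel (I.card * k))) ?_
  have hbig : ∀ᶠ N : ℕ in atTop, ∀ a ∈ I, rswBox (col176C m a) ((1 + 2) * m) ⊆ rswBox 0 N :=
    (eventually_all_finset I).2 fun a _ => scr32p_ev_box _
  filter_upwards [hbig, eventually_ge_atTop 1] with N hN hN1
  have hone : ∀ a ∈ I, rswE t (rswBox 0 N) true (fun ω =>
      if MdlTrans (rswBox (col176C m a) m) (rswBox (col176C m a) (2 * m)) k ω then (1 : ℝ) else 0) ≤ C * q ^ k := by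
    intro a ha
    have h := H m (by omega) (rswBox 0 N) (col176C m a) true (fun _ => True) k (scr99_box_jordan 0 hN1) (hN a ha)
      (fun _ _ _ _ => Iff.rfl)
    have e1 : rswP t (rswBox 0 N) true (fun _ => True) = 1 := by
      unfold rswP
      simp only [if_true]
      exact rsb_E_one ht0 ht2.le _ _
    rw [e1, mul_one] at h
    refine le_trans (le_of_eq ?_) h
    unfold rswP
    congr 1
    funext ω
    have e2 : (1 * m) = m := one_mul m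
    have e3 : ((1 + 1) * m) = 2 * m := by ring
    rw [e2, e3]
    simp only [true_and]
  calc rswE t (rswBox 0 N) true (scr32cBad (δ n) blk sel (I.card * k))
      ≤ rswE t (rswBox 0 N) true (fun ω => ∑ a ∈ I,
          if MdlTrans (rswBox (col176C m a) m) (rswBox (col176C m a) (2 * m)) k ω then (1 : ℝ) else 0) :=
        rsb_E_mono ht0 ht2.le fun ω _ _ => col176_bad_le hd hc0 hρ hm0 h3 hm6 hA hsel k ω
    _ = ∑ a ∈ I, rswE t (rswBox 0 N) true (fun ω =>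
          if MdlTrans (rswBox (col176C m a) m) (rswBox (col176C m a) (2 * m)) k ω then (1 : ℝ) else 0) :=
        rsb_E_finset_sum _ _ _ _ _
    _ ≤ ∑ _a ∈ I, C * q ^ k := Finset.sum_le_sum hone
    _ = (I.card : ℝ) * (C * q ^ k) := by rw [Finset.sum_const, nsmul_eq_mul]
    _ ≤ η := hk

/-! ## 5. the records of 32's assembly, and (COL) from (GAP) + the second moment alone -/

/-- **RECORD `Scr32cLim` of 32's assembly** (= `scr99_pl_tendsto` of 99). -/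
theorem col176_lim (t : ℝ) (ht1 : 1 / 2 ≤ t) (ht2 : t < 1) : Scr32cLim t := fun _ hZ => scr99_pl_tendsto ht1 ht2 hZ

/-- **(COL) Lemma 5.6**: the statement of `scr_cut_col` from `hgapL` (= the statement of `scr_cut_gap` after `t ht1 ht2`) and the second moment of the
insertion `Scr32cMom`; the other three records of `scr32c_col` are proved above (contracts cited: `exit_mdl_trans`, `exit_rsw_plane`). -/
theorem col176_col (t : ℝ) (ht1 : 1 / 2 ≤ t) (ht2 : t < 1) (x0 y0 s w h g r c0 : ℝ) (hsc : ScrScene s w h g r) (hc0 : 0 < c0)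
    (blk : Fin 4 → Set (ℝ × ℝ)) (hblk : ∀ i, blk i ⊆ scrHull x0 y0 s w h g r i)
    (φ : ℝ × ℝ → ℝ) (hφ : ContDiff ℝ ((⊤ : ℕ∞) : WithTop ℕ∞) φ) (hφs : tsupport φ ⊆ Metric.ball (x0, y0) (r / 2))
    (δ : ℕ → ℝ) (hδ : ∀ n, 0 < δ n) (hδ0 : Tendsto δ atTop (𝓝 0)) (ε : ℝ) (hε : 0 < ε)
    (hgapL : ∀ (x0 y0 s w h g r : ℝ) (_hsc : ScrScene s w h g r)
      (blk : Fin 4 → Set (ℝ × ℝ)) (_hblk : ∀ i, blk i ⊆ scrHull x0 y0 s w h g r i)
      (φ : ℝ × ℝ → ℝ) (_hφ : ContDiff ℝ ((⊤ : ℕ∞) : WithTop ℕ∞) φ) (_hφs : tsupport φ ⊆ Metric.ball (x0, y0) (r / 2))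
      (δ : ℕ → ℝ) (_hδ : ∀ n, 0 < δ n) (_hδ0 : Tendsto δ atTop (𝓝 0)) (ε : ℝ) (_hε : 0 < ε),
      ∀ᶠ n in atTop, ∀ (π : Fin 4 → RswCfg) (Fc : Fin 4 → RswCfg → ℝ), (∀ i ω, |Fc i ω| ≤ 1) →
        (∀ i, ScrIn (δ n) (blk i) (Fc i)) →
        |scrPl t fun ω => scrIns (δ n) (x0, y0) φ ω * ∏ i, (scrPatI (δ n) (blk i) (π i) ω * Fc i ω)|
          ≤ ε * ∏ i, scrPl t (scrPatI (δ n) (blk i) (π i)))
    (hmom : Scr32cMom t (x0, y0) φ δ) :
    ∀ᶠ n in atTop, ∀ (sel : (Fin 4 → ScrPatT) → Finset (ℤ × ℤ)), ScrCore (δ n) c0 blk sel →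
      ∀ G : (Fin 4 → ScrPatT) × Finset (ℤ × ℤ) → ℝ, (∀ y, |G y| ≤ 1) →
      |scrPl t fun ω => scrIns (δ n) (x0, y0) φ ω * G (scrY (δ n) blk sel ω)| ≤ ε :=
  scr32c_col t ht1 ht2 x0 y0 s w h g r c0 hsc hc0 blk hblk φ hφ hφs δ hδ hδ0 ε hε hgapL (col176_lim t ht1 ht2) hmom
    (col176_ins hsc.hr0 φ hφs δ hδ hδ0)
    (col176_tail t ht1 ht2 (x0, y0) s c0 hc0 blk (fun i => (hblk i).trans (scr32c_hull_sq hsc i)) δ hδ hδ0)

/-- **RECORD `Scr32cMom` of 32's assembly**, from `scp262_mom` of 262 (contracts `exit_rsw_plane`, `exit_rsw_mom_plane`). -/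
theorem col176_mom (t : ℝ) (ht1 : 1 / 2 ≤ t) (ht2 : t < 1) (z : ℝ × ℝ) {ρ : ℝ} (hρ : 0 ≤ ρ) {φ : ℝ × ℝ → ℝ}
    (hφ : ContDiff ℝ ((⊤ : ℕ∞) : WithTop ℕ∞) φ) (hφs : tsupport φ ⊆ Metric.ball z ρ)
    (δ : ℕ → ℝ) (hδ : ∀ n, 0 < δ n) (hδ0 : Tendsto δ atTop (𝓝 0)) : Scr32cMom t z φ δ := by
  obtain ⟨C, hC⟩ := scp262_mom (exit_rsw_plane t ht1 ht2) (exit_rsw_mom_plane t ht1 ht2) z hρ hφ hφs 2
  refine ⟨C, ?_⟩
  filter_upwards [hδ0.eventually (gt_mem_nhds one_pos)] with n hn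
  have h := hC (δ n) (hδ n) hn.le
  simpa only [sq_abs] using h

/-- **(COL) Lemma 5.6 = the statement of `scr_cut_col`, from (GAP) alone** (`hgapL` = the statement of `scr_cut_gap` after `t ht1 ht2`);
contracts of other units cited: `exit_mdl_trans`, `exit_rsw_plane`, `exit_rsw_mom_plane`. -/
theorem col176_cut_col (t : ℝ) (ht1 : 1 / 2 ≤ t) (ht2 : t < 1)
    (hgapL : ∀ (x0 y0 s w h g r : ℝ) (_hsc : ScrScene s w h g r)
      (blk : Fin 4 → Set (ℝ × ℝ)) (_hblk : ∀ i, blk i ⊆ scrHull x0 y0 s w h g r i)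
      (φ : ℝ × ℝ → ℝ) (_hφ : ContDiff ℝ ((⊤ : ℕ∞) : WithTop ℕ∞) φ) (_hφs : tsupport φ ⊆ Metric.ball (x0, y0) (r / 2))
      (δ : ℕ → ℝ) (_hδ : ∀ n, 0 < δ n) (_hδ0 : Tendsto δ atTop (𝓝 0)) (ε : ℝ) (_hε : 0 < ε),
      ∀ᶠ n in atTop, ∀ (π : Fin 4 → RswCfg) (Fc : Fin 4 → RswCfg → ℝ), (∀ i ω, |Fc i ω| ≤ 1) →
        (∀ i, ScrIn (δ n) (blk i) (Fc i)) →
        |scrPl t fun ω => scrIns (δ n) (x0, y0) φ ω * ∏ i, (scrPatI (δ n) (blk i) (π i) ω * Fc i ω)|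
          ≤ ε * ∏ i, scrPl t (scrPatI (δ n) (blk i) (π i)))
    (x0 y0 s w h g r c0 : ℝ) (hsc : ScrScene s w h g r) (hc0 : 0 < c0)
    (blk : Fin 4 → Set (ℝ × ℝ)) (hblk : ∀ i, blk i ⊆ scrHull x0 y0 s w h g r i)
    (φ : ℝ × ℝ → ℝ) (hφ : ContDiff ℝ ((⊤ : ℕ∞) : WithTop ℕ∞) φ) (hφs : tsupport φ ⊆ Metric.ball (x0, y0) (r / 2))
    (δ : ℕ → ℝ) (hδ : ∀ n, 0 < δ n) (hδ0 : Tendsto δ atTop (𝓝 0)) (ε : ℝ) (hε : 0 < ε) :
    ∀ᶠ n in atTop, ∀ (sel : (Fin 4 → ScrPatT) → Finset (ℤ × ℤ)), ScrCore (δ n) c0 blk sel →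
      ∀ G : (Fin 4 → ScrPatT) × Finset (ℤ × ℤ) → ℝ, (∀ y, |G y| ≤ 1) →
      |scrPl t fun ω => scrIns (δ n) (x0, y0) φ ω * G (scrY (δ n) blk sel ω)| ≤ ε :=
  col176_col t ht1 ht2 x0 y0 s w h g r c0 hsc hc0 blk hblk φ hφ hφs δ hδ hδ0 ε hε hgapL
    (col176_mom t ht1 ht2 (x0, y0) (by have := hsc.hr0; positivity) hφ hφs δ hδ hδ0)

/-! ## 6. (REC-PAT) pattern comparison for windows in squares, from (S3) `exit_mdl_pattern` : sum over the completions -/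

/-- the configuration of a complete pattern. -/
def pat176Cfg (p : Finset (ℤ × ℤ) × Finset ((ℤ × ℤ) × Bool)) : RswCfg := ⟨p.1, ∅, p.2⟩

/-- the complete patterns of `Q`. -/
def pat176All (Q : Finset (ℤ × ℤ)) : Finset (Finset (ℤ × ℤ) × Finset ((ℤ × ℤ) × Bool)) :=
  (cornersOf Q).powerset ×ˢ (mdlEd Q).powerset

/-- the indicator of a window pattern is the sum of the indicators of its completions in `Q`. -/
theorem pat176_decomp {δ : ℝ} {U : Set (ℝ × ℝ)} {Q : Finset (ℤ × ℤ)} (hQ : ∀ v, scr232P δ v ∈ U → v ∈ Q) (π ω : RswCfg) :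
    scrPatI δ U π ω = ∑ p ∈ pat176All Q, scrPatI δ U π (pat176Cfg p) * mdlInd (MdlPat Q (pat176Cfg p)) ω := by
  classical
  have hmem : (ω.S ∩ cornersOf Q, ω.O ∩ mdlEd Q) ∈ pat176All Q := by
    simp only [pat176All, Finset.mem_product, Finset.mem_powerset]
    exact ⟨Finset.inter_subset_right, Finset.inter_subset_right⟩
  rw [Finset.sum_eq_single (ω.S ∩ cornersOf Q, ω.O ∩ mdlEd Q)]
  · have h1 : MdlPat Q (pat176Cfg (ω.S ∩ cornersOf Q, ω.O ∩ mdlEd Q)) ω :=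
      ⟨fun v hv => by simp [pat176Cfg, hv], fun e he => by simp [pat176Cfg, he]⟩
    rw [mdl_ind_pos h1, mul_one]
    unfold scrPatI
    rw [scr32c_pat_agree (δ := δ) (U := U) (ω := ω) (ω' := pat176Cfg (ω.S ∩ cornersOf Q, ω.O ∩ mdlEd Q))]
    · intro v hv
      have : v ∈ cornersOf Q := at92h_self_mem_corners (hQ v hv)
      simp [pat176Cfg, this]
    · intro e h1 _
      have : e ∈ mdlEd Q := mdl_mem_ed.2 (Or.inl (hQ e.1 h1))
      simp [pat176Cfg, this]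
  · intro p hp hne
    rw [mdl_ind_neg, mul_zero]
    intro hpat
    apply hne
    obtain ⟨h1, h2⟩ := hpat
    simp only [pat176All, Finset.mem_product, Finset.mem_powerset] at hp
    refine Prod.ext ?_ ?_
    · ext v
      simp only [Finset.mem_inter]
      exact ⟨fun hv => ⟨(h1 v (hp.1 hv)).2 hv, hp.1 hv⟩, fun hv => (h1 v hv.2).1 hv.1⟩
    · ext e
      simp only [Finset.mem_inter]
      exact ⟨fun he => ⟨(h2 e (hp.2 he)).2 he, hp.2 he⟩, fun he => (h2 e he.2).1 he.1⟩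
  · intro h
    exact absurd hmem h

theorem pat176_ind_prod {m : ℕ} (E : Fin m → RswCfg → Prop) (ω : RswCfg) :
    ∏ i, mdlInd (E i) ω = mdlInd (fun ω => ∀ i, E i ω) ω := by
  by_cases h : ∀ i, E i ω
  · rw [mdl_ind_pos (E := fun ω => ∀ i, E i ω) h]
    exact Finset.prod_eq_one fun i _ => mdl_ind_pos (h i)
  · rw [mdl_ind_neg (E := fun ω => ∀ i, E i ω) h]
    push Not at h
    obtain ⟨i, hi⟩ := h
    exact Finset.prod_eq_zero (Finset.mem_univ i) (mdl_ind_neg hi)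

theorem pat176_loc_prod {ι : Type*} (s : Finset ι) {X : ι → RswCfg → ℝ} (hX : ∀ i ∈ s, ScrLoc (X i)) :
    ScrLoc (fun ω => ∏ i ∈ s, X i ω) := by
  classical
  induction s using Finset.induction_on with
  | empty => simpa using scr99_loc_const 1
  | insert a s ha ih =>
    simp only [Finset.prod_insert ha]
    exact scr99_loc_mul (hX a (Finset.mem_insert_self a s)) (ih fun i hi => hX i (Finset.mem_insert_of_mem hi))

theorem pat176_patI_nonneg (δ : ℝ) (U : Set (ℝ × ℝ)) (π ω : RswCfg) : 0 ≤ scrPatI δ U π ω := by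
  unfold scrPatI
  split_ifs <;> norm_num

/-- **one mesh**: the upper bound for complete patterns of the regions `Q i` passes to the windows `U i`. -/
theorem pat176_mesh {t : ℝ} (ht1 : 1 / 2 ≤ t) (ht2 : t < 1) {δ : ℝ} {m : ℕ} (U : Fin m → Set (ℝ × ℝ)) (π : Fin m → RswCfg)
    (Q : Fin m → Finset (ℤ × ℤ)) (hQ : ∀ i v, scr232P δ v ∈ U i → v ∈ Q i) {Cm : ℝ}
    (hS3 : ∀ᶠ N : ℕ in atTop, ∀ ω₀ : Fin m → RswCfg,
      rswP t (rswBox 0 N) true (fun ω => ∀ i, MdlPat (Q i) (ω₀ i) ω) ≤ Cm * ∏ i, mdlPiP t (MdlPat (Q i) (ω₀ i))) :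
    scrPl t (fun ω => ∏ i, scrPatI δ (U i) (π i) ω) ≤ Cm * ∏ i, scrPl t (scrPatI δ (U i) (π i)) := by
  classical
  obtain ⟨a, ha⟩ : ∃ a : Fin m → Finset (ℤ × ℤ) × Finset ((ℤ × ℤ) × Bool) → ℝ,
      ∀ i p, a i p = scrPatI δ (U i) (π i) (pat176Cfg p) := ⟨_, fun _ _ => rfl⟩
  have ha0 : ∀ i p, 0 ≤ a i p := fun i p => by rw [ha]; exact pat176_patI_nonneg _ _ _ _
  have hdec : ∀ i ω, scrPatI δ (U i) (π i) ω =
      ∑ p ∈ pat176All (Q i), a i p * mdlInd (MdlPat (Q i) (pat176Cfg p)) ω := by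
    intro i ω
    rw [pat176_decomp (hQ i) (π i) ω]
    exact Finset.sum_congr rfl fun p _ => by rw [ha]
  have hloc1 : ∀ i p, ScrLoc (mdlInd (MdlPat (Q i) (pat176Cfg p))) := fun i p => ⟨_, _, mdl141p_pat_loc _ _⟩
  have hfun : ∀ i, scrPatI δ (U i) (π i) =
      fun ω => ∑ p ∈ pat176All (Q i), a i p * mdlInd (MdlPat (Q i) (pat176Cfg p)) ω := fun i => funext (hdec i)
  have hloc : ∀ i, ScrLoc (scrPatI δ (U i) (π i)) := by
    intro i
    rw [hfun i]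
    exact scr99_loc_sum _ fun p _ => scr99_loc_smul (hloc1 i p) _
  have hpl : ∀ i, scrPl t (scrPatI δ (U i) (π i)) =
      ∑ p ∈ pat176All (Q i), a i p * mdlPiP t (MdlPat (Q i) (pat176Cfg p)) := by
    intro i
    rw [hfun i, scr99_pl_sum ht1 ht2 _ fun p _ => scr99_loc_smul (hloc1 i p) _]
    refine Finset.sum_congr rfl fun p _ => ?_
    rw [scr99_pl_smul ht1 ht2 (hloc1 i p)]
    rfl
  have hlocP : ScrLoc (fun ω => ∏ i, scrPatI δ (U i) (π i) ω) := pat176_loc_prod _ fun i _ => hloc i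
  refine le_of_tendsto (scr99_pl_tendsto ht1 ht2 hlocP) ?_
  filter_upwards [hS3] with N hN
  have e1 : (fun ω => ∏ i, scrPatI δ (U i) (π i) ω) = fun ω => ∑ P ∈ Fintype.piFinset (fun i => pat176All (Q i)),
      (∏ i, a i (P i)) * mdlInd (fun ω => ∀ i, MdlPat (Q i) (pat176Cfg (P i)) ω) ω := by
    funext ω
    simp only [hdec]
    rw [Finset.prod_univ_sum]
    refine Finset.sum_congr rfl fun P _ => ?_
    rw [Finset.prod_mul_distrib, pat176_ind_prod]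
  rw [e1, rsb_E_finset_sum]
  calc ∑ P ∈ Fintype.piFinset (fun i => pat176All (Q i)), rswE t (rswBox 0 N) true (fun ω =>
        (∏ i, a i (P i)) * mdlInd (fun ω => ∀ i, MdlPat (Q i) (pat176Cfg (P i)) ω) ω)
      = ∑ P ∈ Fintype.piFinset (fun i => pat176All (Q i)),
          (∏ i, a i (P i)) * rswP t (rswBox 0 N) true (fun ω => ∀ i, MdlPat (Q i) (pat176Cfg (P i)) ω) :=
        Finset.sum_congr rfl fun P _ => by rw [rsb_E_const_mul, mdl_P_eq]
    _ ≤ ∑ P ∈ Fintype.piFinset (fun i => pat176All (Q i)),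
          (∏ i, a i (P i)) * (Cm * ∏ i, mdlPiP t (MdlPat (Q i) (pat176Cfg (P i)))) :=
        Finset.sum_le_sum fun P _ => mul_le_mul_of_nonneg_left (hN _) (Finset.prod_nonneg fun i _ => ha0 i _)
    _ = Cm * ∏ i, ∑ p ∈ pat176All (Q i), a i p * mdlPiP t (MdlPat (Q i) (pat176Cfg p)) := by
        rw [Finset.prod_univ_sum, Finset.mul_sum]
        refine Finset.sum_congr rfl fun P _ => ?_
        rw [Finset.prod_mul_distrib]
        ring
    _ = Cm * ∏ i, scrPl t (scrPatI δ (U i) (π i)) := by simp only [hpl]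

/-! ## 7. (REC-PAT) geometry of the squares, the statement -/

theorem pat176_coord {δ ρ x : ℝ} (hδ : 0 < δ) {r : ℕ} (hr : ρ + 2 * δ ≤ r * δ) {v : ℤ} (hv : |δ * (v : ℝ) - x| ≤ ρ) :
    ⌊x / δ⌋ - (r : ℤ) ≤ v ∧ v < ⌊x / δ⌋ + (r : ℤ) := by
  have h1 := Int.floor_le (x / δ)
  have h2 := Int.lt_floor_add_one (x / δ)
  rw [le_div_iff₀ hδ] at h1
  rw [div_lt_iff₀ hδ] at h2
  rw [abs_le] at hv
  constructor
  · have : ((⌊x / δ⌋ : ℤ) : ℝ) - r ≤ v := by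
      by_contra hc
      push Not at hc
      have := mul_lt_mul_of_pos_left hc hδ
      nlinarith
    exact_mod_cast this
  · have : (v : ℝ) < ((⌊x / δ⌋ : ℤ) : ℝ) + r := by
      by_contra hc
      push Not at hc
      have := mul_le_mul_of_nonneg_left hc hδ.le
      nlinarith
    exact_mod_cast this

theorem pat176_mem {δ ρ : ℝ} (hδ : 0 < δ) {c : ℝ × ℝ} {r : ℕ} (hr : ρ + 2 * δ ≤ r * δ) {v : ℤ × ℤ}
    (hv : scr232P δ v ∈ Metric.closedBall c ρ) : v ∈ rswBox (⌊c.1 / δ⌋, ⌊c.2 / δ⌋) r := by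
  rw [col176_mem_ball] at hv
  rw [col176_mem_box]
  exact ⟨pat176_coord hδ hr hv.1, pat176_coord hδ hr hv.2⟩

theorem pat176_disj {δ c0 ρ ρ' : ℝ} (hδ : 0 < δ) (hc0 : 0 < c0) {c c' : ℝ × ℝ} {r r' : ℕ} (hr : r * δ ≤ ρ + c0 / 3)
    (hr' : r' * δ ≤ ρ' + c0 / 3) (hd : ρ + ρ' + c0 ≤ dist c c') :
    Disjoint (rswBox (⌊c.1 / δ⌋, ⌊c.2 / δ⌋) r) (rswBox (⌊c'.1 / δ⌋, ⌊c'.2 / δ⌋) r') := by
  rw [Finset.disjoint_left]
  intro f hf hf'
  rw [col176_mem_box] at hf hf'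
  have half : ∀ (x x' σ σ' : ℝ) (s s' : ℕ) (y : ℤ), s * δ ≤ σ + c0 / 3 → s' * δ ≤ σ' + c0 / 3 → ⌊x / δ⌋ - (s : ℤ) ≤ y →
      y < ⌊x' / δ⌋ + (s' : ℤ) → x - x' < σ + σ' + c0 := by
    intro x x' σ σ' s s' y hs hs' a1 a2
    have b1 := Int.lt_floor_add_one (x / δ)
    have b2 := Int.floor_le (x' / δ)
    rw [div_lt_iff₀ hδ] at b1
    rw [le_div_iff₀ hδ] at b2
    have hz : ⌊x / δ⌋ - ⌊x' / δ⌋ + 1 ≤ (s : ℤ) + s' := by omega
    have hz' : ((⌊x / δ⌋ : ℤ) : ℝ) - ((⌊x' / δ⌋ : ℤ) : ℝ) + 1 ≤ (s : ℝ) + s' := by exact_mod_cast hz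
    have := mul_le_mul_of_nonneg_left hz' hδ.le
    nlinarith
  have key : ∀ (x x' : ℝ) (y : ℤ), (⌊x / δ⌋ - (r : ℤ) ≤ y ∧ y < ⌊x / δ⌋ + (r : ℤ)) →
      (⌊x' / δ⌋ - (r' : ℤ) ≤ y ∧ y < ⌊x' / δ⌋ + (r' : ℤ)) → |x - x'| < ρ + ρ' + c0 := by
    intro x x' y a b
    rw [abs_lt]
    constructor
    · have := half x' x ρ' ρ r' r y hr' hr b.1 a.2
      linarith
    · exact half x x' ρ ρ' r r' y hr hr' a.1 b.2
  have h1 := key c.1 c'.1 f.1 hf.1 hf'.1
  have h2 := key c.2 c'.2 f.2 hf.2 hf'.2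
  have : dist c c' < ρ + ρ' + c0 := by
    rw [Prod.dist_eq, max_lt_iff, Real.dist_eq, Real.dist_eq]
    exact ⟨h1, h2⟩
  linarith

/-- the scale of the box of a square of half side `ρ`. -/
noncomputable def pat176N (c0 δ ρ : ℝ) (k : ℕ) : ℕ := ⌊(ρ + c0 / 3) / (((k : ℝ) + 1) * δ)⌋₊

theorem pat176_N {c0 M δ ρ : ℝ} {k n0 : ℕ} (hc0 : 0 < c0) (hk : M + c0 ≤ k * c0 / 3) (hδ : 0 < δ)
    (h1 : δ * (((k : ℝ) + 1) * ((k : ℝ) + 2)) ≤ c0) (h3 : δ * (3 * ((k : ℝ) + 1) * ((n0 : ℝ) + 1)) ≤ c0)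
    (hρ0 : 0 ≤ ρ) (hρM : ρ ≤ M) :
    n0 ≤ pat176N c0 δ ρ k ∧ ρ + 2 * δ ≤ ((k * pat176N c0 δ ρ k : ℕ) : ℝ) * δ ∧
      (((k + 1) * pat176N c0 δ ρ k : ℕ) : ℝ) * δ ≤ ρ + c0 / 3 := by
  have hden : 0 < ((k : ℝ) + 1) * δ := by positivity
  have hx0 : 0 ≤ (ρ + c0 / 3) / (((k : ℝ) + 1) * δ) := by positivity
  have hfl1 : ((pat176N c0 δ ρ k : ℕ) : ℝ) ≤ (ρ + c0 / 3) / (((k : ℝ) + 1) * δ) := Nat.floor_le hx0
  have hfl2 : (ρ + c0 / 3) / (((k : ℝ) + 1) * δ) < (pat176N c0 δ ρ k : ℕ) + 1 := Nat.lt_floor_add_one _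
  rw [le_div_iff₀ hden] at hfl1
  rw [div_lt_iff₀ hden] at hfl2
  have hK0 : (0 : ℝ) ≤ k := Nat.cast_nonneg k
  refine ⟨?_, ?_, ?_⟩
  · apply Nat.le_floor
    rw [le_div_iff₀ hden]
    nlinarith
  · push_cast
    by_contra hc
    push Not at hc
    have a1 := mul_le_mul_of_nonneg_left hfl2.le hK0
    have a2 := mul_lt_mul_of_pos_left hc (by positivity : (0 : ℝ) < (k : ℝ) + 1)
    nlinarith
  · push_cast
    linarith

/-- (REC-PAT), index `Fin m`. -/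
theorem pat176_fin (t : ℝ) (ht1 : 1 / 2 ≤ t) (ht2 : t < 1) (c0 M : ℝ) (hc0 : 0 < c0) (m : ℕ) :
    ∃ C δ₀ : ℝ, 0 ≤ C ∧ 0 < δ₀ ∧ ∀ δ : ℝ, 0 < δ → δ < δ₀ → ∀ (U : Fin m → Set (ℝ × ℝ)) (c : Fin m → ℝ × ℝ) (ρ : Fin m → ℝ)
      (π : Fin m → RswCfg), (∀ i, U i ⊆ Metric.closedBall (c i) (ρ i)) → (∀ i, 0 ≤ ρ i ∧ ρ i ≤ M) →
      (∀ i j, i ≠ j → ρ i + ρ j + c0 ≤ dist (c i) (c j)) →
      scrPl t (fun ω => ∏ i, scrPatI δ (U i) (π i) ω) ≤ C * ∏ i, scrPl t (scrPatI δ (U i) (π i)) := by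
  have ht0 : 0 < t := by linarith
  obtain ⟨k, hk⟩ : ∃ k : ℕ, k = ⌈3 * M / c0⌉₊ + 3 := ⟨_, rfl⟩
  have hkM : M + c0 ≤ k * c0 / 3 := by
    have h := Nat.le_ceil (3 * M / c0)
    rw [div_le_iff₀ hc0] at h
    rw [hk]
    push_cast
    nlinarith
  obtain ⟨C, hC1, n0, H⟩ := exit_mdl_pattern t ht1 ht2 k
  refine ⟨C ^ m, min (c0 / (((k : ℝ) + 1) * ((k : ℝ) + 2))) (c0 / (3 * ((k : ℝ) + 1) * ((n0 : ℝ) + 1))), by positivity,
    by positivity, ?_⟩
  intro δ hδ hδ0 U c ρ π hU hρ hsep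
  have h1 : δ * (((k : ℝ) + 1) * ((k : ℝ) + 2)) ≤ c0 := by
    have := lt_of_lt_of_le hδ0 (min_le_left _ _)
    rw [lt_div_iff₀ (by positivity)] at this
    exact this.le
  have h3 : δ * (3 * ((k : ℝ) + 1) * ((n0 : ℝ) + 1)) ≤ c0 := by
    have := lt_of_lt_of_le hδ0 (min_le_right _ _)
    rw [lt_div_iff₀ (by positivity)] at this
    exact this.le
  have hN := fun i => pat176_N (n0 := n0) hc0 hkM hδ h1 h3 (hρ i).1 (hρ i).2
  refine pat176_mesh ht1 ht2 U π (fun i => rswBox (⌊(c i).1 / δ⌋, ⌊(c i).2 / δ⌋) (k * pat176N c0 δ (ρ i) k))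
    (fun i v hv => pat176_mem hδ (hN i).2.1 (hU i hv)) ?_
  have hbig : ∀ᶠ N : ℕ in atTop, ∀ i ∈ (Finset.univ : Finset (Fin m)),
      rswBox (⌊(c i).1 / δ⌋, ⌊(c i).2 / δ⌋) ((k + 1) * pat176N c0 δ (ρ i) k) ⊆ rswBox 0 N :=
    (eventually_all_finset _).2 fun i _ => scr32p_ev_box _
  filter_upwards [hbig, eventually_ge_atTop 1] with N hNb hN1 ω₀
  have h := (H m (fun i => (⌊(c i).1 / δ⌋, ⌊(c i).2 / δ⌋)) (fun i => pat176N c0 δ (ρ i) k) (rswBox 0 N) true (fun _ => True) ω₀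
    (scr99_box_jordan 0 hN1) (fun i => (hN i).1) (fun i => hNb i (Finset.mem_univ i))
    (fun i j hij => pat176_disj hδ hc0 (hN i).2.2 (hN j).2.2 (hsep i j hij)) (fun _ _ _ _ => Iff.rfl)).2
  rw [rsb_P_true ht0 ht2.le, mul_one] at h
  refine le_trans (le_of_eq ?_) h
  exact rsb_P_congr fun ω _ _ => by simp

/-- **(REC-PAT) prop:pattern-comparison, upper bound, for windows inside pairwise separated SQUARES** (statement typed by 229), from (S3) `exit_mdl_pattern`. -/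
theorem pat176_main (t : ℝ) (ht1 : 1 / 2 ≤ t) (ht2 : t < 1) (c0 M : ℝ) (hc0 : 0 < c0) (ι : Type) [Fintype ι] :
    ∃ C δ₀ : ℝ, 0 ≤ C ∧ 0 < δ₀ ∧ ∀ δ : ℝ, 0 < δ → δ < δ₀ → ∀ (U : ι → Set (ℝ × ℝ)) (c : ι → ℝ × ℝ) (ρ : ι → ℝ) (π : ι → RswCfg),
      (∀ i, U i ⊆ Metric.closedBall (c i) (ρ i)) → (∀ i, 0 ≤ ρ i ∧ ρ i ≤ M) →
      (∀ i j, i ≠ j → ρ i + ρ j + c0 ≤ dist (c i) (c j)) →
      scrPl t (fun ω => ∏ i, scrPatI δ (U i) (π i) ω) ≤ C * ∏ i, scrPl t (scrPatI δ (U i) (π i)) := by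
  classical
  obtain ⟨C, δ₀, hC, hδ₀, H⟩ := pat176_fin t ht1 ht2 c0 M hc0 (Fintype.card ι)
  refine ⟨C, δ₀, hC, hδ₀, fun δ hδ hδ0 U c ρ π hU hρ hsep => ?_⟩
  obtain ⟨e⟩ : Nonempty (Fin (Fintype.card ι) ≃ ι) := ⟨(Fintype.equivFin ι).symm⟩
  have h := H δ hδ hδ0 (fun i => U (e i)) (fun i => c (e i)) (fun i => ρ (e i)) (fun i => π (e i)) (fun i => hU _)
    (fun i => hρ _) (fun i j hij => hsep _ _ (e.injective.ne hij))
  have e1 : ∀ ω, ∏ i, scrPatI δ (U (e i)) (π (e i)) ω = ∏ i, scrPatI δ (U i) (π i) ω := fun ω =>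
    Equiv.prod_comp e (fun i => scrPatI δ (U i) (π i) ω)
  have e2 : ∏ i, scrPl t (scrPatI δ (U (e i)) (π (e i))) = ∏ i, scrPl t (scrPatI δ (U i) (π i)) :=
    Equiv.prod_comp e (fun i => scrPl t (scrPatI δ (U i) (π i)))
  simp only [e1] at h
  rw [e2] at h
  exact h

/-! ## 8. (SEAL) a sealing cut around a lattice RECTANGLE, from (S1) at `k = 0` in the tiles of a ring + (S0) FKG under atoms -/

/-- the lattice rectangle `[x1, x2) × [y1, y2)` of faces, enlarged by `j`. -/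
noncomputable def seal176Rc (x1 x2 y1 y2 : ℤ) (j : ℕ) : Finset (ℤ × ℤ) :=
  Finset.Ico (x1 - j) (x2 + j) ×ˢ Finset.Ico (y1 - j) (y2 + j)

theorem seal176_mem {x1 x2 y1 y2 : ℤ} {j : ℕ} {f : ℤ × ℤ} :
    f ∈ seal176Rc x1 x2 y1 y2 j ↔ (x1 - j ≤ f.1 ∧ f.1 < x2 + j) ∧ (y1 - j ≤ f.2 ∧ f.2 < y2 + j) := by
  unfold seal176Rc
  simp only [Finset.mem_product, Finset.mem_Ico]

theorem seal176_mono (x1 x2 y1 y2 : ℤ) {i j : ℕ} (h : i ≤ j) : seal176Rc x1 x2 y1 y2 i ⊆ seal176Rc x1 x2 y1 y2 j := by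
  intro f hf
  rw [seal176_mem] at hf ⊢
  omega

theorem seal176_layer (x1 x2 y1 y2 : ℤ) (j : ℕ) {g : ℤ × ℤ} (hg : g ∈ rswLayer (seal176Rc x1 x2 y1 y2 (j + 1))) :
    g ∉ seal176Rc x1 x2 y1 y2 j := by
  intro hc
  obtain ⟨-, v, hv, hP⟩ := rsx_mem_layer.1 hg
  apply hP
  rw [seal176_mem] at hc
  simp only [Finset.mem_insert, Finset.mem_singleton] at hv
  simp only [seal176_mem]
  push_cast
  rcases hv with rfl | rfl | rfl | rfl <;> (try simp only) <;> omega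

theorem seal176_step_symm {F : Finset (ℤ × ℤ)} {a : Bool} {ω : RswCfg} {f g : ℤ × ℤ} (h : RswStep F a ω f g) :
    RswStep F a ω g f := by
  obtain ⟨hf, hg, e, he, hb⟩ := h
  exact ⟨hg, hf, e, he.symm, hb⟩

theorem seal176_path_symm {F : Finset (ℤ × ℤ)} {a : Bool} {ω : RswCfg} {f g : ℤ × ℤ}
    (h : Relation.ReflTransGen (RswStep F a ω) f g) : Relation.ReflTransGen (RswStep F a ω) g f := by
  induction h with
  | refl => exact Relation.ReflTransGen.refl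
  | tail _ hs ih => exact Relation.ReflTransGen.head (seal176_step_symm hs) ih

/-- neighbouring faces. -/
theorem seal176_adj {x1 x2 y1 y2 : ℤ} {j : ℕ} {b c : ℤ × ℤ} {e : (ℤ × ℤ) × Bool}
    (he : (b = e.1 ∧ c = rswCo e) ∨ (c = e.1 ∧ b = rswCo e)) (hb : b ∈ seal176Rc x1 x2 y1 y2 j) :
    c ∈ seal176Rc x1 x2 y1 y2 (j + 1) := by
  obtain ⟨⟨x, y⟩, bb⟩ := e
  rw [seal176_mem] at hb ⊢
  push_cast
  cases bb <;> rcases he with ⟨rfl, rfl⟩ | ⟨rfl, rfl⟩ <;> simp only [rswCo, Bool.false_eq_true, if_false, if_true] at hb ⊢ <;> omega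

/-- **deterministic moat**: cuts in the tiles of the ring at depth `4 n + 2` seal the rectangle. -/
theorem seal176_det {x1 x2 y1 y2 : ℤ} {n : ℕ} (hn : 0 < n) {F : Finset (ℤ × ℤ)} (hF : seal176Rc x1 x2 y1 y2 (8 * n + 3) ⊆ F)
    {a : Bool} {ω : RswCfg}
    (h : ∀ g ∈ seal176Rc x1 x2 y1 y2 (4 * n + 2) \ seal176Rc x1 x2 y1 y2 (4 * n + 1),
      RswSep F a ω (rswBox (col176C n (col176Tile n g)) n) (F \ rswBox (col176C n (col176Tile n g)) (2 * n))) :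
    RswSep (seal176Rc x1 x2 y1 y2 (8 * n + 3)) a ω (seal176Rc x1 x2 y1 y2 1)
      (rswLayer (seal176Rc x1 x2 y1 y2 (8 * n + 3))) := by
  intro f hf g hg hpath
  have hmono : RswStep (seal176Rc x1 x2 y1 y2 (8 * n + 3)) a ω ≤ RswStep F a ω := fun x y hxy =>
    ⟨hF hxy.1, hF hxy.2.1, hxy.2.2⟩
  have key : ∀ c, Relation.ReflTransGen (RswStep (seal176Rc x1 x2 y1 y2 (8 * n + 3)) a ω) f c →
      c ∈ seal176Rc x1 x2 y1 y2 (4 * n + 1) := by
    intro c hc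
    induction hc with
    | refl => exact seal176_mono _ _ _ _ (by omega) hf
    | @tail b c hb hs ih =>
      by_contra hcn
      have hs' := hs
      obtain ⟨-, hcΛ, e, he, -⟩ := hs
      have hc2 : c ∈ seal176Rc x1 x2 y1 y2 (4 * n + 1 + 1) := seal176_adj he ih
      have hring : c ∈ seal176Rc x1 x2 y1 y2 (4 * n + 2) \ seal176Rc x1 x2 y1 y2 (4 * n + 1) :=
        Finset.mem_sdiff.2 ⟨hc2, hcn⟩
      have htile := col176_mem_tile hn c
      have hfout : f ∉ rswBox (col176C n (col176Tile n c)) (2 * n) := by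
        intro hfb
        rw [col176_mem_box] at htile hfb
        rw [seal176_mem] at hf hcn
        push_cast at hfb hf hcn
        omega
      have hpath' : Relation.ReflTransGen (RswStep F a ω) f c :=
        Relation.ReflTransGen.mono hmono f c (hb.tail hs')
      exact h c hring c htile f (Finset.mem_sdiff.2 ⟨hF (seal176_mono _ _ _ _ (by omega) hf), hfout⟩)
        (seal176_path_symm hpath')
  have h1 := key g hpath
  exact seal176_layer x1 x2 y1 y2 (8 * n + 2) hg (seal176_mono _ _ _ _ (by omega) h1)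

/-- the event of an atom of the buffer `B` is exterior data of every smaller buffer. -/
theorem seal176_atom_ext {F B B' : Finset (ℤ × ℤ)} (hB : B' ⊆ B) {S₀ : Finset (ℤ × ℤ)} {O₀ : Finset ((ℤ × ℤ) × Bool)}
    (hS : S₀ ⊆ mdlVext F B) (hO : O₀ ⊆ mdlEext F B) : MdlExt B' (mdlAtom F B S₀ O₀).Holds := by
  intro ω ω' h1 h2
  rw [mdl_atom_holds hS hO, mdl_atom_holds hS hO]
  have hv : ∀ v ∈ mdlVext F B, (v ∈ ω.S ↔ v ∈ ω'.S) := fun v hv =>
    h1 v fun hc => (mdl_mem_vext.1 hv).2 ⟨hB hc.1, hB hc.2.1, hB hc.2.2.1, hB hc.2.2.2⟩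
  have he : ∀ e ∈ mdlEext F B, (e ∈ ω.O ↔ e ∈ ω'.O) := fun e he =>
    h2 e fun hc => (Finset.mem_sdiff.1 he).2 (rsk_int_mono hB hc)
  have e1 : ω.S ∩ mdlVext F B = ω'.S ∩ mdlVext F B := by
    ext v
    simp only [Finset.mem_inter]
    exact ⟨fun h => ⟨(hv v h.2).1 h.1, h.2⟩, fun h => ⟨(hv v h.2).2 h.1, h.2⟩⟩
  have e2 : ω.O ∩ mdlEext F B = ω'.O ∩ mdlEext F B := by
    ext e
    simp only [Finset.mem_inter]
    exact ⟨fun h => ⟨(he e h.2).1 h.1, h.2⟩, fun h => ⟨(he e h.2).2 h.1, h.2⟩⟩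
  rw [e1, e2]

/-- from probabilities to sums under prescriptions. -/
theorem seal176_to_sumK {t : ℝ} (ht0 : 0 < t) (ht1 : t ≤ 1) {F : Finset (ℤ × ℤ)} {b : Bool} {K : MdlPin} {E : RswCfg → Prop} {p : ℝ}
    (h : p * rswP t F b K.Holds ≤ rswP t F b fun ω => K.Holds ω ∧ E ω) :
    p * mdlSumK t F b K (fun _ => 1) ≤ mdlSumK t F b K (mdlInd E) := by
  have hZ := rsk_sum_one_pos ht0 ht1 F b
  rw [mdl141p_P_eq_sumK, mdl141p_P_and_sum, ← mul_div_assoc, div_le_div_iff_of_pos_right hZ] at h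
  refine h.trans (le_of_eq ?_)
  unfold mdlSumK
  rw [mdl141p_ite_eq]

/-- the triple box of a tile of the ring lies in the annular buffer. -/
theorem seal176_box_sub {x1 x2 y1 y2 : ℤ} {n : ℕ} (hn : 0 < n) {g : ℤ × ℤ}
    (hg : g ∈ seal176Rc x1 x2 y1 y2 (4 * n + 2) \ seal176Rc x1 x2 y1 y2 (4 * n + 1)) :
    rswBox (col176C n (col176Tile n g)) (3 * n) ⊆ seal176Rc x1 x2 y1 y2 (8 * n + 4) \ seal176Rc x1 x2 y1 y2 0 := by
  intro f hf
  have htile := col176_mem_tile hn g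
  obtain ⟨h1, h2⟩ := Finset.mem_sdiff.1 hg
  rw [Finset.mem_sdiff]
  rw [col176_mem_box] at htile hf
  rw [seal176_mem] at h1 h2
  simp only [seal176_mem]
  push_cast at hf h1 h2 ⊢
  omega

/-- boundedly many tiles meet the ring. -/
theorem seal176_card {x1 x2 y1 y2 : ℤ} {n J : ℕ} (hn : 0 < n) (hx : x2 - x1 ≤ J * n) (hy : y2 - y1 ≤ J * n) :
    ((seal176Rc x1 x2 y1 y2 (4 * n + 2) \ seal176Rc x1 x2 y1 y2 (4 * n + 1)).image (col176Tile n)).card ≤ (J + 12) ^ 2 := by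
  have hw : (0 : ℤ) < 2 * n := by positivity
  have hn1 : (1 : ℤ) ≤ n := by exact_mod_cast hn
  have hJn : (0 : ℤ) ≤ (J : ℤ) * n := by positivity
  have key : ∀ (u1 u2 v : ℤ), u2 - u1 ≤ J * n → u1 - ((4 * n + 2 : ℕ) : ℤ) ≤ v → v < u2 + ((4 * n + 2 : ℕ) : ℤ) →
      (u1 - (4 * n + 2)) / (2 * n) ≤ v / (2 * n) ∧ v / (2 * n) ≤ (u1 - (4 * n + 2)) / (2 * n) + (J + 11) := by
    intro u1 u2 v hu a1 a2
    push_cast at a1 a2
    constructor
    · exact Int.ediv_le_ediv hw a1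
    · have hA := col176_div (x := u1 - (4 * n + 2)) hw
      have : v / (2 * n) < (u1 - (4 * n + 2)) / (2 * n) + (J + 11) + 1 := by
        rw [Int.ediv_lt_iff_lt_mul hw]
        have e : ((u1 - (4 * n + 2)) / (2 * n) + ((J : ℤ) + 11) + 1) * (2 * n) =
            2 * n * ((u1 - (4 * n + 2)) / (2 * n)) + 2 * (J * n) + 24 * n := by ring
        rw [e]
        linarith [hA.2]
      omega
  have hsub : (seal176Rc x1 x2 y1 y2 (4 * n + 2) \ seal176Rc x1 x2 y1 y2 (4 * n + 1)).image (col176Tile n) ⊆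
      Finset.Icc ((x1 - (4 * n + 2)) / (2 * n)) ((x1 - (4 * n + 2)) / (2 * n) + (J + 11)) ×ˢ
        Finset.Icc ((y1 - (4 * n + 2)) / (2 * n)) ((y1 - (4 * n + 2)) / (2 * n) + (J + 11)) := by
    intro α hα
    obtain ⟨g, hg, rfl⟩ := Finset.mem_image.1 hα
    have h1 := seal176_mem.1 (Finset.mem_sdiff.1 hg).1
    simp only [Finset.mem_product, Finset.mem_Icc, col176Tile]
    exact ⟨key x1 x2 g.1 hx h1.1.1 h1.1.2, key y1 y2 g.2 hy h1.2.1 h1.2.2⟩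
  refine (Finset.card_le_card hsub).trans (le_of_eq ?_)
  rw [Finset.card_product, Int.card_Icc, Int.card_Icc]
  have e1 : ∀ A : ℤ, (A + ((J : ℤ) + 11) + 1 - A).toNat = J + 12 := by
    intro A
    have : A + ((J : ℤ) + 11) + 1 - A = ((J + 12 : ℕ) : ℤ) := by push_cast; ring
    rw [this, Int.toNat_natCast]
  rw [e1, e1]
  ring

/-- **(SEAL)** = the hypothesis `hseal` of `mdl141p_four_batches` (141) for `Q = Rc 0`, `R = Rc 1`, `Λ = Rc (8 n + 3)`, `Λp = Rc (8 n + 4)`; sides `≤ J n`. -/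
theorem seal176_main (t : ℝ) (ht1 : 1 / 2 ≤ t) (ht2 : t < 1) :
    ∃ p : ℝ, 0 < p ∧ p ≤ 1 ∧ ∃ n0 : ℕ, ∀ n : ℕ, n0 ≤ n → 1 ≤ n → ∀ (J : ℕ) (x1 x2 y1 y2 : ℤ), x2 - x1 ≤ J * n → y2 - y1 ≤ J * n →
      ∀ (F : Finset (ℤ × ℤ)) (b a : Bool) (L : RswCfg → Prop) (K : MdlPin), RswJordan F → seal176Rc x1 x2 y1 y2 (8 * n + 4) ⊆ F →
      MdlExt (seal176Rc x1 x2 y1 y2 (8 * n + 4)) L → Mdl141pInQ (seal176Rc x1 x2 y1 y2 0) K →
      p ^ ((J + 12) ^ 2) * rswP t F b (fun ω => L ω ∧ K.Holds ω) ≤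
        rswP t F b (fun ω => (L ω ∧ K.Holds ω) ∧ RswSep (seal176Rc x1 x2 y1 y2 (8 * n + 3)) a ω (seal176Rc x1 x2 y1 y2 1)
          (rswLayer (seal176Rc x1 x2 y1 y2 (8 * n + 3)))) := by
  have ht0 : 0 < t := by linarith
  obtain ⟨p0, hp0, n0, H⟩ := exit_mdl_circ t ht1 ht2 0
  have hp : 0 < min p0 1 := lt_min hp0 one_pos
  refine ⟨min p0 1, hp, min_le_right _ _, n0, ?_⟩
  intro n hn hn1 J x1 x2 y1 y2 hx hy F b a L K hF hBF hL hK
  have hn0 : 0 < n := hn1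
  have hext : MdlExt (seal176Rc x1 x2 y1 y2 (8 * n + 4) \ seal176Rc x1 x2 y1 y2 0) (fun ω => L ω ∧ K.Holds ω) :=
    mdl141p_ext_and (mdl141p_mdlExt_mono Finset.sdiff_subset hL) (mdl141p_rd_ext Finset.disjoint_sdiff (mdl141p_inQ_rd hK))
  have hatoms : ∀ S₀ ⊆ mdlVext F (seal176Rc x1 x2 y1 y2 (8 * n + 4) \ seal176Rc x1 x2 y1 y2 0),
      ∀ O₀ ⊆ mdlEext F (seal176Rc x1 x2 y1 y2 (8 * n + 4) \ seal176Rc x1 x2 y1 y2 0),
      (min p0 1) ^ ((seal176Rc x1 x2 y1 y2 (4 * n + 2) \ seal176Rc x1 x2 y1 y2 (4 * n + 1)).image (col176Tile n)).card *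
          mdlSumK t F b (mdlAtom F (seal176Rc x1 x2 y1 y2 (8 * n + 4) \ seal176Rc x1 x2 y1 y2 0) S₀ O₀) (fun _ => 1) ≤
        mdlSumK t F b (mdlAtom F (seal176Rc x1 x2 y1 y2 (8 * n + 4) \ seal176Rc x1 x2 y1 y2 0) S₀ O₀)
          (mdlInd fun ω => ∀ α ∈ (seal176Rc x1 x2 y1 y2 (4 * n + 2) \ seal176Rc x1 x2 y1 y2 (4 * n + 1)).image (col176Tile n),
            RswSep F a ω (rswBox (col176C n α) n) (F \ rswBox (col176C n α) (2 * n))) := by
    intro S₀ hS O₀ hO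
    refine mdl_fkg_prod ht0.le ht2.le
      (fun X Y hX hY => exit_mdl_cmp t ht1 ht2 F hF b a _ (mdl_atom_ok hO) X Y hX hY) _
      (fun α ω => RswSep F a ω (rswBox (col176C n α) n) (F \ rswBox (col176C n α) (2 * n)))
      (fun α _ ω ω' hle h => mdl61c_sep_mono hle h) hp.le ?_
    intro α hα
    obtain ⟨g, hg, rfl⟩ := Finset.mem_image.1 hα
    have hbox := seal176_box_sub hn0 hg
    have h := H n hn F (col176C n (col176Tile n g)) b a
      (mdlAtom F (seal176Rc x1 x2 y1 y2 (8 * n + 4) \ seal176Rc x1 x2 y1 y2 0) S₀ O₀).Holds hF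
      (by simpa only [zero_add] using (hbox.trans Finset.sdiff_subset).trans hBF)
      (seal176_atom_ext (by simpa only [zero_add] using Finset.sdiff_subset.trans hbox) hS hO)
    simp only [zero_add, one_mul] at h
    refine seal176_to_sumK ht0 ht2.le (le_trans ?_ h)
    exact mul_le_mul_of_nonneg_right (min_le_left _ _) (rsb_P_nonneg ht0 ht2.le _ _ _)
  have h1 := mdl_P_of_atoms ht0 ht2.le F _ b hext _ _ hatoms
  refine le_trans (mul_le_mul_of_nonneg_right ?_ (rsb_P_nonneg ht0 ht2.le _ _ _)) (h1.trans ?_)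
  · exact pow_le_pow_of_le_one hp.le (min_le_right _ _) (seal176_card hn0 hx hy)
  · refine rsb_P_mono ht0 ht2.le fun ω _ _ h => ⟨h.1, ?_⟩
    refine seal176_det hn0 ((seal176_mono _ _ _ _ (by omega)).trans hBF) fun g hg => ?_
    exact h.2 _ (Finset.mem_image_of_mem _ hg)

end Claimed.Agent.R292
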