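import Claimed.Agent.R291.Pin.Cont

/-!
# Row 292 (S0540), Screen/Gap99 : LEMMA 5.5 (GAPPED PATTERN IDENTITY), MODEL-FREE CORE      (helper99, unit SCREEN; prefix `scg99_`)

TEX[lem:screen-gapped-identity], TEX[lem:screen-analytic-translation] of 05-screening.tex, on top of `R291/Pin/Cont` (`PinTr`, `PinMv`, `pin_cont_moves`).
The normalized expectations are numbers `M n i k`: `n` = mesh index, `i : I n` = the choice of patterns and bounded factors at mesh `n` (ANY index type, it may depend on `n`),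
`k : Fin K → ℕ` = the lattice lengths of the `K` moves.
* `scg99_uniform`       if the hypotheses of `pin_cont_moves` hold along EVERY selection `i n`, then `sup_i ‖M n i 0‖ → 0` (`ε`-form);
* `scg99_mv_of_bound`   the final arrangement: `‖M n i k‖ ≤ C x n` eventually, uniformly in `i`, with `x n → 0`, gives `PinMv` along every selection;
* `scg99_gapped`        the two together = the shape of Lemma 5.5: uniform transfer constants + reflection Cauchy-Schwarz at the final arrangement;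
* `scg99_tendsto_iSup`  the same as a limit of suprema.
-/

set_option autoImplicit false

namespace Claimed.Agent.R292

open Filter Topology Set
open Claimed.Agent.R291

universe u

/-- **uniform removal of the moves**: along every selection ⟹ uniformly in the index -/
theorem scg99_uniform {K : ℕ} {I : ℕ → Type u} [∀ n, Nonempty (I n)] {b : ℕ → ℝ}
    {thr : Fin K → (Fin K → ℝ) → ℝ} {M : ∀ n, I n → (Fin K → ℕ) → ℂ}
    (hthr : ∀ (i : Fin K) (a a' : Fin K → ℝ), (∀ l : Fin K, l < i → a l = a' l) → thr i a = thr i a')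
    (hfin : ∀ s : ∀ n, I n, PinMv b thr (fun n => M n (s n)) K)
    (hTr : ∀ (s : ∀ n, I n) (j : Fin K) (a : Fin K → ℝ), (∀ i : Fin K, i < j → thr i a < a i) →
      (∀ i : Fin K, j ≤ i → a i = 0) →
      ∀ k : ℕ → Fin K → ℕ, (∀ i, Tendsto (fun n => (k n i : ℝ) * b n) atTop (𝓝 (a i))) →
        (∀ n (i : Fin K), j ≤ i → k n i = 0) →
        ∃ (C η : ℝ) (N : ℕ → ℕ), 0 ≤ C ∧ 0 < η ∧ Tendsto (fun n => (N n : ℝ) * b n) atTop (𝓝 η) ∧
          ∀ᶠ n in atTop, PinTr C (N n) (fun m => M n (s n) (Function.update (k n) j m)))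
    {ε : ℝ} (hε : 0 < ε) : ∀ᶠ n in atTop, ∀ i : I n, ‖M n i 0‖ ≤ ε := by
  classical
  by_contra hcon
  rw [not_eventually] at hcon
  -- a selection which violates the bound whenever this is possible
  let s : ∀ n, I n := fun n =>
    if h : ∃ i : I n, ε < ‖M n i 0‖ then h.choose else Classical.arbitrary (I n)
  have hs : ∃ᶠ n in atTop, ε < ‖M n (s n) 0‖ := by
    refine hcon.mono fun n hn => ?_
    push Not at hn
    have h : ∃ i : I n, ε < ‖M n i 0‖ := hn
    simp only [s, dif_pos h]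
    exact h.choose_spec
  have hlim : Tendsto (fun n => M n (s n) 0) atTop (𝓝 0) :=
    pin_cont_moves (M := fun n => M n (s n)) hthr (hfin s) (hTr s)
  have hnorm := hlim.norm
  rw [norm_zero] at hnorm
  have hev : ∀ᶠ n in atTop, ‖M n (s n) 0‖ < ε := hnorm.eventually (gt_mem_nhds hε)
  obtain ⟨n, h1, h2⟩ := (hs.and_eventually hev).exists
  exact lt_asymm h1 h2

/-- the final arrangement: a bound `C x n`, uniform in the index, gives `PinMv` along every selection -/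
theorem scg99_mv_of_bound {K : ℕ} {I : ℕ → Type u} {b : ℕ → ℝ}
    {thr : Fin K → (Fin K → ℝ) → ℝ} {M : ∀ n, I n → (Fin K → ℕ) → ℂ} {x : ℕ → ℝ} (hx : Tendsto x atTop (𝓝 0))
    (hb : ∀ a : Fin K → ℝ, (∀ i : Fin K, thr i a < a i) →
      ∀ k : ℕ → Fin K → ℕ, (∀ i, Tendsto (fun n => (k n i : ℝ) * b n) atTop (𝓝 (a i))) →
        ∃ C : ℝ, ∀ᶠ n in atTop, ∀ i : I n, ‖M n i (k n)‖ ≤ C * x n)
    (s : ∀ n, I n) : PinMv b thr (fun n => M n (s n)) K := by
  intro a ha1 _ k hk1 _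
  obtain ⟨C, hC⟩ := hb a (fun i => ha1 i i.isLt) k hk1
  rw [tendsto_zero_iff_norm_tendsto_zero]
  have h0 : Tendsto (fun n => C * x n) atTop (𝓝 0) := by simpa using hx.const_mul C
  exact squeeze_zero' (Eventually.of_forall fun n => norm_nonneg _) (hC.mono fun n hn => hn (s n)) h0

/-- **Lemma 5.5, model-free.**  `K` moves; at every intermediate arrangement a transfer representation with constants which do
not depend on the index (normalized reflection bound, Lemma 5.3); at the final arrangement the bound `C ‖X_δ‖_Θ = C x n → 0`. -/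
theorem scg99_gapped {K : ℕ} {I : ℕ → Type u} [∀ n, Nonempty (I n)] {b : ℕ → ℝ}
    {thr : Fin K → (Fin K → ℝ) → ℝ} {M : ∀ n, I n → (Fin K → ℕ) → ℂ} {x : ℕ → ℝ} (hx : Tendsto x atTop (𝓝 0))
    (hthr : ∀ (i : Fin K) (a a' : Fin K → ℝ), (∀ l : Fin K, l < i → a l = a' l) → thr i a = thr i a')
    (hb : ∀ a : Fin K → ℝ, (∀ i : Fin K, thr i a < a i) →
      ∀ k : ℕ → Fin K → ℕ, (∀ i, Tendsto (fun n => (k n i : ℝ) * b n) atTop (𝓝 (a i))) →
        ∃ C : ℝ, ∀ᶠ n in atTop, ∀ i : I n, ‖M n i (k n)‖ ≤ C * x n)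
    (hTr : ∀ (j : Fin K) (a : Fin K → ℝ), (∀ i : Fin K, i < j → thr i a < a i) → (∀ i : Fin K, j ≤ i → a i = 0) →
      ∀ k : ℕ → Fin K → ℕ, (∀ i, Tendsto (fun n => (k n i : ℝ) * b n) atTop (𝓝 (a i))) →
        (∀ n (i : Fin K), j ≤ i → k n i = 0) →
        ∃ (C η : ℝ) (N : ℕ → ℕ), 0 ≤ C ∧ 0 < η ∧ Tendsto (fun n => (N n : ℝ) * b n) atTop (𝓝 η) ∧
          ∀ᶠ n in atTop, ∀ i : I n, PinTr C (N n) (fun m => M n i (Function.update (k n) j m)))
    {ε : ℝ} (hε : 0 < ε) : ∀ᶠ n in atTop, ∀ i : I n, ‖M n i 0‖ ≤ ε := by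
  refine scg99_uniform hthr (scg99_mv_of_bound hx hb) (fun s j a h1 h2 k h3 h4 => ?_) hε
  obtain ⟨C, η, N, hC, hη, hN, hT⟩ := hTr j a h1 h2 k h3 h4
  exact ⟨C, η, N, hC, hη, hN, hT.mono fun n hn => hn (s n)⟩

/-- the `ε`-form as a limit of suprema -/
theorem scg99_tendsto_iSup {I : ℕ → Type u} [∀ n, Nonempty (I n)] {e : ∀ n, I n → ℝ} (h0 : ∀ n i, 0 ≤ e n i)
    (h : ∀ ε : ℝ, 0 < ε → ∀ᶠ n in atTop, ∀ i : I n, e n i ≤ ε) :
    Tendsto (fun n => ⨆ i, e n i) atTop (𝓝 0) := by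
  rw [Metric.tendsto_atTop]
  intro ε hε
  obtain ⟨n0, hn0⟩ := eventually_atTop.1 (h (ε / 2) (half_pos hε))
  refine ⟨n0, fun n hn => ?_⟩
  have h1 : ⨆ i, e n i ≤ ε / 2 := ciSup_le (hn0 n hn)
  have h2 : 0 ≤ ⨆ i, e n i := by
    obtain ⟨i⟩ := (inferInstance : Nonempty (I n))
    exact (h0 n i).trans (le_ciSup ⟨ε / 2, by rintro _ ⟨j, rfl⟩; exact hn0 n hn j⟩ i)
  rw [Real.dist_eq, sub_zero, abs_of_nonneg h2]
  linarith

end Claimed.Agent.R292
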