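import Claimed.Agent.R292.Screen.Odd81
import Claimed.Agent.R292.Model.Count41
import Claimed.Agent.R292.AtConn

/-!
# Row 292 (S0540), Screen/Cnt81 : THE COUNT ARGUMENT OF AT LEMMA 5.2 IN FINITE VOLUME, CONDITIONALLY ON EXTERIOR `(s,W)` DATA      (pen helper81; unit SCREEN, head helper229; prefix `cnt81`)

0 sorry.  On `Screen/Odd81`, `Screen/Mass81`, `Model/Jump61`, `Rsw/Base122`; the ONLY probabilistic input is the record (S2) `Mdl41cTrans t 1` of `Model/Count41` (= the conclusion of `exit_mdl_trans`, ratio `k = 1`), as a HYPOTHESIS.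
* sec. 1  `cnt81_tail_moment` (tail `C q^j` ⟹ all moments), `cnt81_Lp_le`, `cnt81_quad_norm` (the geometric half of `mass81_lemma52`: `‖∑_C q_C²‖_m`)
* sec. 2  `cnt81Diam`, `cnt81_diam_spec`, `cnt81_diam_le`; **`cnt81_exit`** (first exit: a component of `N` in `F` that is not inside `Q₁` reaches the layer of `Q₁` inside `Q₁`),
          `cnt81_conn_comp` (`N`-connected inside `Q₁ ⊆ F` ⟹ same component), **`cnt81_trans`** (distinct components with a root in `Q₀`, not inside `Q₁` ⟹ `MdlTrans Q₀ Q₁ #`),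
          `cnt81_trans_mono`, `cnt81_ext_mono`, `cnt81_ext_D`, `cnt81_box_conn` (a box of sites is `Mass81Conn`)
* sec. 3  the law conditioned on `L` as a finite weighted space: `Cnt81Om`, `cnt81Cfg`, `cnt81W`, `cnt81Sp`, `cnt81_E_eq`, `cnt81_P_eq`, `cnt81_P_total`, `cnt81_Sp_spec`;
          **`cnt81_family_moment`** (all moments of the number of a transmitting family)
* sec. 4  `cnt81A F z n ω` = number of components that meet `Λ_n(z)` and leave `Λ_{2n}(z)`; (T) `cnt81_A_trans`, `cnt81_A_le` (`≤ (2n)²`), (N) **`cnt81_A_count`** : `E[A^m 1_L] ≤ C₂ P(L)`, every `n`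
* sec. 5  `cnt81_conn_of_jordan` (`RswJordan F → At2hConn F`), the boxes at scale `k` (`cnt81J`, `cnt81Ctr`, `cnt81Ak`, `cnt81_J_card`, `cnt81_count_scale`, `cnt81_count_big`, `cnt81_buffer`);
          **`cnt81_moment`** = AT Lemma 5.2 in finite volume: `E[(w·h)^{2m} 1_L] ≤ (C A)^{2m} P(L)` for every neutral `RswSm z0 a A w`, `Λ_{9a}(z0) ⊆ F` Jordan, `L` exterior `(s,W)` data of `Λ_{9a}(z0)`;
          **`cnt81_mom_plane`** = the statement of `exit_rsw_mom_plane` (Exit/RSW) VERBATIM, `C0 = 9`, from `Mdl41cTrans t 1`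
-/

set_option autoImplicit false

namespace Claimed.Agent.R292

open Claims Claims.C0468 Finset

/-! ## 1. abstract lemmas -/

/-- a geometric tail gives all moments. -/
theorem cnt81_tail_moment {Ω : Type*} (s : Finset Ω) (w : Ω → ℝ) (hw : ∀ x ∈ s, 0 ≤ w x) (N : Ω → ℕ) (C q Z : ℝ)
    (hq0 : 0 ≤ q) (hq1 : q < 1) (hC : 0 ≤ C) (hZ : 0 ≤ Z)
    (htail : ∀ j : ℕ, ∑ x ∈ s with j ≤ N x, w x ≤ C * q ^ j * Z) (m : ℕ) :
    ∑ x ∈ s, w x * (N x : ℝ) ^ m ≤ C * (∑' j : ℕ, (j : ℝ) ^ m * q ^ j) * Z := by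
  classical
  set B := s.sup N with hB
  have hsum : Summable (fun j : ℕ => (j : ℝ) ^ m * q ^ j) :=
    summable_pow_mul_geometric_of_norm_lt_one m (by rw [Real.norm_eq_abs, abs_of_nonneg hq0]; exact hq1)
  have h1 : ∀ x ∈ s, (N x : ℝ) ^ m ≤ ∑ j ∈ range (B + 1), (j : ℝ) ^ m * (if j ≤ N x then 1 else 0) := by
    intro x hx
    have hmem : N x ∈ range (B + 1) := Finset.mem_range.2 (Nat.lt_succ_of_le (Finset.le_sup hx))
    have := Finset.single_le_sum (f := fun j : ℕ => (j : ℝ) ^ m * (if j ≤ N x then (1 : ℝ) else 0))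
      (fun j _ => by positivity) hmem
    simpa using this
  calc ∑ x ∈ s, w x * (N x : ℝ) ^ m
      ≤ ∑ x ∈ s, w x * ∑ j ∈ range (B + 1), (j : ℝ) ^ m * (if j ≤ N x then 1 else 0) :=
        Finset.sum_le_sum (fun x hx => mul_le_mul_of_nonneg_left (h1 x hx) (hw x hx))
    _ = ∑ j ∈ range (B + 1), (j : ℝ) ^ m * ∑ x ∈ s with j ≤ N x, w x := by
        simp only [Finset.mul_sum]
        rw [Finset.sum_comm]
        refine Finset.sum_congr rfl (fun j _ => ?_)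
        rw [Finset.sum_filter]
        refine Finset.sum_congr rfl (fun x _ => ?_)
        split_ifs <;> ring
    _ ≤ ∑ j ∈ range (B + 1), (j : ℝ) ^ m * (C * q ^ j * Z) :=
        Finset.sum_le_sum (fun j _ => mul_le_mul_of_nonneg_left (htail j) (by positivity))
    _ = C * (∑ j ∈ range (B + 1), (j : ℝ) ^ m * q ^ j) * Z := by
        rw [Finset.mul_sum, Finset.sum_mul]
        exact Finset.sum_congr rfl (fun j _ => by ring)
    _ ≤ C * (∑' j : ℕ, (j : ℝ) ^ m * q ^ j) * Z := by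
        have := hsum.sum_le_tsum (range (B + 1)) (fun j _ => by positivity)
        gcongr

/-- a moment bound is a norm bound. -/
theorem cnt81_Lp_le {Ω : Type*} (s : Finset Ω) (w : Ω → ℝ) (hw : ∀ x ∈ s, 0 ≤ w x) (m : ℕ) (hm : m ≠ 0) (X : Ω → ℝ) (B : ℝ)
    (h : ∑ x ∈ s, w x * |X x| ^ m ≤ B) : mass81Lp s w (m : ℝ) X ≤ B ^ (1 / (m : ℝ)) := by
  unfold mass81Lp
  refine Real.rpow_le_rpow (mass81Lp_inner_nonneg s w hw _ X) ?_ (by positivity)
  simpa only [Real.rpow_natCast] using h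

open scoped Classical in
/-- the geometric half of `mass81_lemma52` : the `L^m` norm of the quadratic form `∑_C q_C²`. -/
theorem cnt81_quad_norm {Ω ι κ κ' : Type*}
    (s : Finset Ω) (w : Ω → ℝ) (hw : ∀ ω ∈ s, 0 ≤ w ω) (m : ℕ) (hm : m ≠ 0)
    (b : ℤ × ℤ → ℝ) (S : Finset (ℤ × ℤ)) (hS : ∀ v, v ∉ S → b v = 0) (hneu : ∑ v ∈ S, b v = 0)
    (K δ : ℝ) (hδ : 0 < δ) (hb : ∀ v, |b v| ≤ K * δ ^ 2) (hb1 : ∑ v ∈ S, |b v| ≤ K)
    (U : Set (ℤ × ℤ)) (hSU : (S : Set (ℤ × ℤ)) ⊆ U) (hU : Mass81Conn U)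
    (I : Ω → Finset ι) (T : Ω → ι → Set (ℤ × ℤ)) (O : Ω → ι → Finset (ℤ × ℤ))
    (hO : ∀ ω ∈ s, ∀ C ∈ I ω, Mass81Holes (T ω C) (O ω C : Set (ℤ × ℤ)))
    (small : Ω → ι → Prop) (d : Ω → ι → ℕ)
    (hd : ∀ ω ∈ s, ∀ C ∈ I ω, small ω C →
      ∀ u ∈ T ω C, ∀ v ∈ T ω C, |u.1 - v.1| ≤ d ω C ∧ |u.2 - v.2| ≤ d ω C)
    (M : ℕ) (hM : ∀ ω ∈ s, ∀ C ∈ I ω, small ω C → d ω C + 1 < 2 ^ (M + 1))
    (J : ℕ → Finset κ) (A : ℕ → κ → Ω → ℝ) (c Cq : ℝ) (hCq : 0 ≤ Cq)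
    (hJ : ∀ k ≤ M, ((J k).card : ℝ) ≤ c / (δ * 2 ^ k) ^ 2)
    (hA : ∀ k ≤ M, ∀ j ∈ J k, mass81Lp s w (m : ℝ) (A k j) ≤ Cq)
    (hcount : ∀ ω ∈ s, ∀ k ≤ M,
      (({C ∈ I ω | (¬ Disjoint (T ω C) U ∧ small ω C) ∧ mass81Scale (d ω C) = k}).card : ℝ) ≤ ∑ j ∈ J k, |A k j ω|)
    (L : Finset κ') (N : κ' → Ω → ℝ) (hN : ∀ l ∈ L, mass81Lp s w (m : ℝ) (N l) ≤ Cq)
    (hcount' : ∀ ω ∈ s, (({C ∈ I ω | ¬ Disjoint (T ω C) U ∧ ¬ small ω C}).card : ℝ) ≤ ∑ l ∈ L, |N l ω|) :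
    mass81Lp s w (m : ℝ) (fun ω => ∑ C ∈ I ω, (∑ v ∈ O ω C, b v) ^ 2) ≤
      64 / 3 * (K ^ 2 * c * Cq) * (δ * 2 ^ M) ^ 2 + K ^ 2 * ((L.card : ℝ) * Cq) := by
  have hp : (1 : ℝ) ≤ (m : ℝ) := by exact_mod_cast Nat.one_le_iff_ne_zero.2 hm
  have hK : 0 ≤ K := by
    have h1 : 0 ≤ K * δ ^ 2 := le_trans (abs_nonneg _) (hb 0)
    have h2 : (0 : ℝ) < δ ^ 2 := by positivity
    exact nonneg_of_mul_nonneg_left h1 h2
  set q : Ω → ι → ℝ := fun ω C => ∑ v ∈ O ω C, b v with hq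
  set Ism : Ω → Finset ι := fun ω => {C ∈ I ω | ¬ Disjoint (T ω C) U ∧ small ω C} with hIsm
  set Ibig : Ω → Finset ι := fun ω => {C ∈ I ω | ¬ Disjoint (T ω C) U ∧ ¬ small ω C} with hIbig
  have hsplit : ∀ ω ∈ s, ∑ C ∈ I ω, q ω C ^ 2 = ∑ C ∈ Ism ω, q ω C ^ 2 + ∑ C ∈ Ibig ω, q ω C ^ 2 := by
    intro ω hω
    rw [← Finset.sum_filter_add_sum_filter_not (I ω) (fun C => ¬ Disjoint (T ω C) U)]
    have h0 : ∑ C ∈ I ω with ¬ ¬ Disjoint (T ω C) U, q ω C ^ 2 = 0 := by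
      refine Finset.sum_eq_zero (fun C hC => ?_)
      rw [Finset.mem_filter, not_not] at hC
      have := mass81_charge_zero b S hS hneu U hSU hU (T ω C) (O ω C) (hO ω hω C hC.1) hC.2
      simp only [hq, this]
      norm_num
    rw [h0, add_zero,
      ← Finset.sum_filter_add_sum_filter_not ({C ∈ I ω | ¬ Disjoint (T ω C) U}) (fun C => small ω C),
      Finset.filter_filter, Finset.filter_filter]
  have hB1 : mass81Lp s w (m : ℝ) (fun ω => ∑ C ∈ Ism ω, q ω C ^ 2) ≤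
      64 / 3 * (K ^ 2 * c * Cq) * (δ * 2 ^ M) ^ 2 := by
    refine mass81_small_norm s w hw (m : ℝ) hp Ism q d K δ hK hδ ?_ M ?_ J A c Cq hCq hJ hA ?_
    · intro ω hω C hC
      rw [Finset.mem_filter] at hC
      exact mass81_charge_le b K δ hb (T ω C) (O ω C) (hO ω hω C hC.1) (d ω C) (hd ω hω C hC.1 hC.2.2)
    · intro ω hω C hC
      rw [Finset.mem_filter] at hC
      exact hM ω hω C hC.1 hC.2.2
    · intro ω hω k hk
      have := hcount ω hω k hk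
      simp only [hIsm]
      rw [Finset.filter_filter]
      exact this
  have hB2 : mass81Lp s w (m : ℝ) (fun ω => ∑ C ∈ Ibig ω, q ω C ^ 2) ≤ K ^ 2 * ((L.card : ℝ) * Cq) := by
    refine mass81_big_norm s w hw (m : ℝ) hp Ibig q K ?_ L N Cq hN hcount'
    intro ω _ C _
    exact (mass81_charge_le_total b S (O ω C) hS).trans hb1
  have h1 : mass81Lp s w (m : ℝ) (fun ω => ∑ C ∈ I ω, q ω C ^ 2) ≤
      mass81Lp s w (m : ℝ) (fun ω => ∑ C ∈ Ism ω, q ω C ^ 2 + ∑ C ∈ Ibig ω, q ω C ^ 2) :=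
    mass81Lp_mono s w hw _ (by linarith) _ _ (fun ω hω => by rw [hsplit ω hω])
  have h2 := mass81Lp_add_le s w hw (m : ℝ) hp (fun ω => ∑ C ∈ Ism ω, q ω C ^ 2)
    (fun ω => ∑ C ∈ Ibig ω, q ω C ^ 2)
  linarith

/-! ## 2. geometry of the components of `N` -/

theorem cnt81_mem_box {z f : ℤ × ℤ} {n : ℕ} :
    f ∈ rswBox z n ↔ (z.1 - n ≤ f.1 ∧ f.1 < z.1 + n) ∧ (z.2 - n ≤ f.2 ∧ f.2 < z.2 + n) := by
  unfold rswBox
  rw [Finset.mem_product, Finset.mem_Ico, Finset.mem_Ico]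

/-- lattice diameter of the corners of `K`. -/
noncomputable def cnt81Diam (K : Finset (ℤ × ℤ)) : ℕ :=
  ((odd81V K) ×ˢ (odd81V K)).sup (fun p => (max |p.1.1 - p.2.1| |p.1.2 - p.2.2|).toNat)

theorem cnt81_diam_spec (K : Finset (ℤ × ℤ)) :
    ∀ u ∈ odd81V K, ∀ v ∈ odd81V K, |u.1 - v.1| ≤ cnt81Diam K ∧ |u.2 - v.2| ≤ cnt81Diam K := by
  intro u hu v hv
  obtain ⟨D, hD⟩ : ∃ D, D = cnt81Diam K := ⟨_, rfl⟩
  rw [← hD]
  have h1 : (max |u.1 - v.1| |u.2 - v.2|).toNat ≤ D := by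
    rw [hD]
    unfold cnt81Diam
    exact Finset.le_sup (f := fun p : (ℤ × ℤ) × (ℤ × ℤ) => (max |p.1.1 - p.2.1| |p.1.2 - p.2.2|).toNat)
      (b := (u, v)) (Finset.mem_product.2 ⟨hu, hv⟩)
  have h2 := Int.self_le_toNat (max |u.1 - v.1| |u.2 - v.2|)
  have h3 := le_max_left |u.1 - v.1| |u.2 - v.2|
  have h4 := le_max_right |u.1 - v.1| |u.2 - v.2|
  have h5 : ((max |u.1 - v.1| |u.2 - v.2|).toNat : ℤ) ≤ (D : ℤ) := by exact_mod_cast h1
  exact ⟨h3.trans (h2.trans h5), h4.trans (h2.trans h5)⟩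

theorem cnt81_diam_le {K : Finset (ℤ × ℤ)} {z : ℤ × ℤ} {N : ℕ} (h : K ⊆ rswBox z N) : cnt81Diam K ≤ 2 * N := by
  unfold cnt81Diam
  refine Finset.sup_le (fun p hp => ?_)
  obtain ⟨hu, hv⟩ := Finset.mem_product.1 hp
  obtain ⟨f, hf, huf⟩ := odd81_mem_V.1 hu
  obtain ⟨g, hg, hvg⟩ := odd81_mem_V.1 hv
  have hf' := cnt81_mem_box.1 (h hf)
  have hg' := cnt81_mem_box.1 (h hg)
  rw [at2h_mem_C4] at huf hvg
  rw [Int.toNat_le]
  refine max_le ?_ ?_ <;> rw [abs_le] <;> constructor <;> push_cast <;> omega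

theorem cnt81_mem_layer {Q : Finset (ℤ × ℤ)} {f : ℤ × ℤ} :
    f ∈ rswLayer Q ↔ f ∈ Q ∧ ∃ v ∈ at2hC4 f, OnPolygon Q v := by
  unfold rswLayer at2hC4
  simp only [Finset.mem_filter]

/-- a face of `Q` off the layer: every face that shares a corner with it is in `Q`. -/
theorem cnt81_off_layer {Q : Finset (ℤ × ℤ)} {f g v : ℤ × ℤ} (hf : f ∈ Q) (hl : f ∉ rswLayer Q) (hvf : v ∈ at2hC4 f)
    (hvg : v ∈ at2hC4 g) : g ∈ Q := by
  by_contra hg
  exact hl (cnt81_mem_layer.2 ⟨hf, v, hvf, at2h_onPolygon_iff.2 ⟨g, hg, hvg⟩⟩)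

/-- **first exit** : a component of `N` in `F` that is not inside `Q₁` reaches, from each of its faces in `Q₁`, the layer of `Q₁` inside `Q₁`. -/
theorem cnt81_exit {F Q₁ : Finset (ℤ × ℤ)} (hQF : Q₁ ⊆ F) (ω : RswCfg) {f : ℤ × ℤ} (hf : f ∈ Q₁)
    (hK : ¬ mdl61Comp F ω.O f ⊆ Q₁) : ∃ g ∈ rswLayer Q₁, MdlNConn Q₁ ω f g := by
  classical
  by_contra hno
  push Not at hno
  apply hK
  set C : Finset (ℤ × ℤ) := Q₁.filter (fun g => MdlNConn Q₁ ω f g) with hC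
  have hcl : Mdl61Cl F ω.O C := by
    refine ⟨(Finset.filter_subset _ _).trans hQF, fun e _ heO => ?_⟩
    obtain ⟨s1, s2⟩ := odd81_shared e
    rw [hC, Finset.mem_filter, Finset.mem_filter]
    constructor
    · rintro ⟨h1, h2⟩
      have h3 : rswCo e ∈ Q₁ := cnt81_off_layer h1 (fun hl => hno _ hl h2) s1 s2
      exact ⟨h3, h2.tail ⟨h1, h3, e, Or.inl ⟨rfl, rfl⟩, heO⟩⟩
    · rintro ⟨h1, h2⟩
      have h3 : e.1 ∈ Q₁ := cnt81_off_layer h1 (fun hl => hno _ hl h2) s2 s1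
      exact ⟨h3, h2.tail ⟨h1, h3, e, Or.inr ⟨rfl, rfl⟩, heO⟩⟩
  have hfC : f ∈ C := by
    rw [hC, Finset.mem_filter]
    exact ⟨hf, Relation.ReflTransGen.refl⟩
  exact (mdl61_comp_subset hcl hfC).trans (Finset.filter_subset _ _)

/-- faces that are `N`-connected inside `Q₁ ⊆ F` are in the same component of `N` in `F`. -/
theorem cnt81_conn_comp {F Q₁ : Finset (ℤ × ℤ)} (hQF : Q₁ ⊆ F) (ω : RswCfg) {f g : ℤ × ℤ} (hf : f ∈ F)
    (h : MdlNConn Q₁ ω f g) : g ∈ mdl61Comp F ω.O f := by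
  induction h with
  | refl => exact mdl61_self_mem_comp _ hf
  | tail _ hstep ih =>
    obtain ⟨h1, h2, e, he, heO⟩ := hstep
    have hcl := mdl61_cl_comp F ω.O f
    rcases he with ⟨rfl, rfl⟩ | ⟨rfl, rfl⟩
    · exact (hcl.2 e (mdl61_mem_int.2 ⟨hQF h1, hQF h2⟩) heO).1 ih
    · exact (hcl.2 e (mdl61_mem_int.2 ⟨hQF h2, hQF h1⟩) heO).2 ih

/-- **count ⟹ transmission** : distinct components with a root in `Q₀` which are not inside `Q₁`. -/
theorem cnt81_trans {F Q₀ Q₁ : Finset (ℤ × ℤ)} (hQ01 : Q₀ ⊆ Q₁) (hQF : Q₁ ⊆ F) (ω : RswCfg)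
    (𝒦 : Finset (Finset (ℤ × ℤ))) (h𝒦 : 𝒦 ⊆ mdl61Comps F ω.O) (r : Finset (ℤ × ℤ) → ℤ × ℤ)
    (hr : ∀ K ∈ 𝒦, r K ∈ K ∧ r K ∈ Q₀) (hout : ∀ K ∈ 𝒦, ¬ K ⊆ Q₁) : MdlTrans Q₀ Q₁ 𝒦.card ω := by
  classical
  have hcomp : ∀ K ∈ 𝒦, K = mdl61Comp F ω.O (r K) := fun K hK => mdl61_eq_comp_of_mem (h𝒦 hK) (hr K hK).1
  have hinj : Set.InjOn r (𝒦 : Set (Finset (ℤ × ℤ))) := by
    intro K hK K' hK' h
    rw [hcomp K hK, hcomp K' hK', h]
  refine ⟨𝒦.image r, ?_, Finset.card_image_of_injOn hinj, ?_, ?_⟩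
  · intro f hf
    obtain ⟨K, hK, rfl⟩ := Finset.mem_image.1 hf
    exact (hr K hK).2
  · intro f hf
    obtain ⟨K, hK, rfl⟩ := Finset.mem_image.1 hf
    refine cnt81_exit hQF ω (hQ01 (hr K hK).2) ?_
    rw [← hcomp K hK]
    exact hout K hK
  · intro f hf g hg hne hconn
    obtain ⟨K, hK, rfl⟩ := Finset.mem_image.1 hf
    obtain ⟨K', hK', rfl⟩ := Finset.mem_image.1 hg
    have h1 := cnt81_conn_comp hQF ω (hQF (hQ01 (hr K hK).2)) hconn
    rw [← hcomp K hK] at h1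
    have h2 : K = K' := by
      rw [mdl61_eq_comp_of_mem (h𝒦 hK) h1, ← hcomp K' hK']
    exact hne (by rw [h2])

theorem cnt81_trans_mono {Q₀ Q₁ : Finset (ℤ × ℤ)} {j j' : ℕ} {ω : RswCfg} (h : MdlTrans Q₀ Q₁ j ω) (hj : j' ≤ j) :
    MdlTrans Q₀ Q₁ j' ω := by
  obtain ⟨T, h1, h2, h3, h4⟩ := h
  obtain ⟨T', hT', hc⟩ := Finset.exists_subset_card_eq (h2 ▸ hj : j' ≤ T.card)
  exact ⟨T', hT'.trans h1, hc, fun f hf => h3 f (hT' hf), fun f hf g hg => h4 f (hT' hf) g (hT' hg)⟩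

theorem cnt81_ext_mono {B' B : Finset (ℤ × ℤ)} (h : B' ⊆ B) {L : RswCfg → Prop} (hL : MdlExt B L) : MdlExt B' L := by
  intro ω ω' h1 h2
  refine hL ω ω' (fun v hv => h1 v ?_) (fun e he => h2 e ?_)
  · obtain ⟨g, hg, hvg⟩ := at2h_onPolygon_iff.1 hv
    exact at2h_onPolygon_iff.2 ⟨g, fun hg' => hg (h hg'), hvg⟩
  · intro he'
    have := mdl61_mem_int.1 he'
    exact he (mdl61_mem_int.2 ⟨h this.1, h this.2⟩)

/-- exterior data never read the transverse spins. -/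
theorem cnt81_ext_D {B : Finset (ℤ × ℤ)} {L : RswCfg → Prop} (hL : MdlExt B L) (ω : RswCfg) :
    L ω ↔ L ⟨ω.S, ∅, ω.O⟩ :=
  hL _ _ (fun _ _ => Iff.rfl) (fun _ _ => Iff.rfl)

/-- a box of sites is connected. -/
theorem cnt81_box_conn (lo hi : ℤ × ℤ) : Mass81Conn (Set.Icc lo hi) := by
  set r : ℤ × ℤ → ℤ × ℤ → Prop := fun a b => mass81Adj a b ∧ a ∈ Set.Icc lo hi ∧ b ∈ Set.Icc lo hi with hr
  have hsymm : ∀ a b, r a b → r b a := fun a b h => ⟨mass81Adj_symm h.1, h.2.2, h.2.1⟩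
  have hup : ∀ n : ℕ, lo.1 ≤ hi.1 → lo.2 + n ≤ hi.2 → Relation.ReflTransGen r lo (lo.1, lo.2 + n) := by
    intro n hx
    induction n with
    | zero => intro _; simp; exact Relation.ReflTransGen.refl
    | succ n ih =>
      intro h
      push_cast at h
      refine (ih (by omega)).tail ⟨Or.inl ⟨rfl, by simp⟩, ⟨⟨le_rfl, by simp⟩, ⟨hx, by simp only; omega⟩⟩,
        ⟨⟨le_rfl, by simp only; push_cast; omega⟩, ⟨hx, by simp only; push_cast; omega⟩⟩⟩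
  have hright : ∀ (y : ℤ), lo.2 ≤ y → y ≤ hi.2 → ∀ n : ℕ, lo.1 + n ≤ hi.1 →
      Relation.ReflTransGen r (lo.1, y) (lo.1 + n, y) := by
    intro y hy1 hy2 n
    induction n with
    | zero => intro _; simp; exact Relation.ReflTransGen.refl
    | succ n ih =>
      intro h
      push_cast at h
      refine (ih (by omega)).tail ⟨Or.inr ⟨rfl, by simp⟩, ⟨⟨by simp, hy1⟩, ⟨by simp only; omega, hy2⟩⟩,
        ⟨⟨by simp only; push_cast; omega, hy1⟩, ⟨by simp only; push_cast; omega, hy2⟩⟩⟩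
  have hlo : ∀ u ∈ Set.Icc lo hi, Relation.ReflTransGen r lo u := by
    intro u hu
    obtain ⟨⟨a1, a2⟩, ⟨b1, b2⟩⟩ := hu
    have e1 : u.2 = lo.2 + ((u.2 - lo.2).toNat : ℤ) := by omega
    have e2 : u.1 = lo.1 + ((u.1 - lo.1).toNat : ℤ) := by omega
    have p1 := hup (u.2 - lo.2).toNat (by omega) (by omega)
    have p2 := hright u.2 a2 b2 (u.1 - lo.1).toNat (by omega)
    rw [← e1] at p1
    rw [← e2] at p2
    exact p1.trans p2
  intro u hu v hv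
  have hsym' : ∀ a b, Relation.ReflTransGen r a b → Relation.ReflTransGen r b a := by
    intro a b h
    induction h with
    | refl => exact Relation.ReflTransGen.refl
    | tail _ hbc ih => exact Relation.ReflTransGen.head (hsymm _ _ hbc) ih
  exact (hsym' _ _ (hlo u hu)).trans (hlo v hv)

/-! ## 3. the conditioned flat law as a finite weighted space -/

/-- triples `(S, D, O)`. -/
abbrev Cnt81Om : Type := Finset (ℤ × ℤ) × Finset (ℤ × ℤ) × Finset ((ℤ × ℤ) × Bool)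

/-- the configuration of a triple. -/
def cnt81Cfg (x : Cnt81Om) : RswCfg := ⟨x.1, x.2.1, x.2.2⟩

open Classical in
/-- the normalised weight restricted to the event `L`. -/
noncomputable def cnt81W (t : ℝ) (F : Finset (ℤ × ℤ)) (L : RswCfg → Prop) (x : Cnt81Om) : ℝ :=
  rswWt t F true (cnt81Cfg x) * (if L (cnt81Cfg x) then 1 else 0) / rswSum t F true (fun _ => 1)

open Classical in
/-- the support of the conditioned law. -/
noncomputable def cnt81Sp (t : ℝ) (F : Finset (ℤ × ℤ)) (L : RswCfg → Prop) : Finset Cnt81Om :=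
  ((cornersOf F).powerset ×ˢ (F.powerset ×ˢ (rswInt F).powerset)).filter (fun x => cnt81W t F L x ≠ 0)

open Classical in
theorem cnt81_E_eq (t : ℝ) (F : Finset (ℤ × ℤ)) (L : RswCfg → Prop) (X : RswCfg → ℝ) :
    rswE t F true (fun ω => X ω * (if L ω then 1 else 0)) =
      ∑ x ∈ cnt81Sp t F L, cnt81W t F L x * X (cnt81Cfg x) := by
  unfold cnt81Sp
  have hne : ∀ x ∈ (cornersOf F).powerset ×ˢ (F.powerset ×ˢ (rswInt F).powerset),
      cnt81W t F L x * X (cnt81Cfg x) ≠ 0 → cnt81W t F L x ≠ 0 := fun x _ hx hw => hx (by rw [hw, zero_mul])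
  rw [Finset.sum_filter_of_ne hne, Finset.sum_product]
  unfold rswE rswSum
  rw [Finset.sum_div]
  refine Finset.sum_congr rfl (fun S _ => ?_)
  rw [Finset.sum_product, Finset.sum_div]
  refine Finset.sum_congr rfl (fun D _ => ?_)
  rw [Finset.sum_div]
  refine Finset.sum_congr rfl (fun O _ => ?_)
  unfold cnt81W cnt81Cfg rswSum
  ring

theorem cnt81_W_nonneg {t : ℝ} (h0 : 0 ≤ t) (h1 : t ≤ 1) (F : Finset (ℤ × ℤ)) (L : RswCfg → Prop) (x : Cnt81Om) :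
    0 ≤ cnt81W t F L x := by
  classical
  unfold cnt81W
  refine div_nonneg (mul_nonneg (rsz_wt_nonneg h0 h1 F true _) (by split_ifs <;> norm_num))
    (rsz_sum_nonneg h0 h1 F true fun _ => zero_le_one)

/-- what a point of the support satisfies. -/
theorem cnt81_Sp_spec {t : ℝ} {F : Finset (ℤ × ℤ)} {L : RswCfg → Prop} {x : Cnt81Om} (hx : x ∈ cnt81Sp t F L) :
    rswWt t F true ⟨x.1, ∅, x.2.2⟩ ≠ 0 ∧ L (cnt81Cfg x) := by
  classical
  unfold cnt81Sp at hx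
  have hw := (Finset.mem_filter.1 hx).2
  unfold cnt81W at hw
  have h1 : rswWt t F true (cnt81Cfg x) ≠ 0 := fun h => hw (by rw [h]; simp)
  have h2 : L (cnt81Cfg x) := by
    by_contra h
    exact hw (by rw [if_neg h]; simp)
  refine ⟨fun h => h1 ?_, h2⟩
  unfold cnt81Cfg
  rw [mdl61_wt_const, h]
  simp

open Classical in
theorem cnt81_P_eq (t : ℝ) (F : Finset (ℤ × ℤ)) (L P : RswCfg → Prop) :
    rswP t F true (fun ω => L ω ∧ P ω) = ∑ x ∈ cnt81Sp t F L with P (cnt81Cfg x), cnt81W t F L x := by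
  rw [rsz_P_def, Finset.sum_filter]
  have := cnt81_E_eq t F L (fun ω => if P ω then 1 else 0)
  refine Eq.trans (congrArg _ (funext fun ω => ?_)) (this.trans ?_)
  · by_cases h1 : L ω <;> by_cases h2 : P ω <;> simp [h1, h2]
  · refine Finset.sum_congr rfl (fun x _ => ?_)
    split_ifs <;> simp

theorem cnt81_P_total (t : ℝ) (F : Finset (ℤ × ℤ)) (L : RswCfg → Prop) :
    rswP t F true L = ∑ x ∈ cnt81Sp t F L, cnt81W t F L x := by
  classical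
  have := cnt81_P_eq t F L (fun _ => True)
  simp only [and_true, Finset.filter_true] at this
  exact this

/-- **moments of the number of a transmitting family**, from the record (S2). -/
theorem cnt81_family_moment {t : ℝ} (h0 : 0 ≤ t) (h1 : t ≤ 1) {C q : ℝ} (hC : 0 < C) (hq0 : 0 < q) (hq1 : q < 1)
    {F : Finset (ℤ × ℤ)} {L : RswCfg → Prop} {z : ℤ × ℤ} {n : ℕ}
    (hS2 : ∀ j : ℕ, rswP t F true (fun ω => L ω ∧ MdlTrans (rswBox z (1 * n)) (rswBox z ((1 + 1) * n)) j ω) ≤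
      C * q ^ j * rswP t F true L)
    (hQF : rswBox z ((1 + 1) * n) ⊆ F)
    (fam : Cnt81Om → Finset (Finset (ℤ × ℤ))) (r : Finset (ℤ × ℤ) → ℤ × ℤ)
    (hfam : ∀ x ∈ cnt81Sp t F L, fam x ⊆ mdl61Comps F x.2.2)
    (hr : ∀ x ∈ cnt81Sp t F L, ∀ K ∈ fam x, r K ∈ K ∧ r K ∈ rswBox z (1 * n))
    (hout : ∀ x ∈ cnt81Sp t F L, ∀ K ∈ fam x, ¬ K ⊆ rswBox z ((1 + 1) * n)) (m : ℕ) :
    ∑ x ∈ cnt81Sp t F L, cnt81W t F L x * ((fam x).card : ℝ) ^ m ≤
      C * (∑' j : ℕ, (j : ℝ) ^ m * q ^ j) * rswP t F true L := by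
  classical
  refine cnt81_tail_moment _ _ (fun x _ => cnt81_W_nonneg h0 h1 F L x) (fun x => (fam x).card) C q _ hq0.le hq1 hC.le
    (rsz_P_nonneg h0 h1 F true L) (fun j => ?_) m
  refine le_trans ?_ (hS2 j)
  rw [cnt81_P_eq]
  refine Finset.sum_le_sum_of_subset_of_nonneg ?_ (fun x _ _ => cnt81_W_nonneg h0 h1 F L x)
  intro x hx
  rw [Finset.mem_filter] at hx ⊢
  refine ⟨hx.1, cnt81_trans_mono (cnt81_trans (F := F) ?_ hQF (cnt81Cfg x) (fam x) (hfam x hx.1) r (hr x hx.1) (hout x hx.1)) hx.2⟩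
  intro f hf
  rw [cnt81_mem_box] at hf ⊢
  push_cast at hf ⊢
  have : (0 : ℤ) ≤ n := Int.natCast_nonneg n
  constructor <;> constructor <;> omega

/-! ## 4. the number of components that meet `Λ_n(z)` and leave `Λ_{2n}(z)` -/

open Classical in
/-- number of components of `N` which meet `Λ_n(z)` and leave `Λ_{2n}(z)`. -/
noncomputable def cnt81A (F : Finset (ℤ × ℤ)) (z : ℤ × ℤ) (n : ℕ) (ω : RswCfg) : ℕ :=
  ((mdl61Comps F ω.O).filter fun K => (K ∩ rswBox z n).Nonempty ∧ ¬ K ⊆ rswBox z (2 * n)).card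

open Classical in
/-- a face of `K` in `Q` (when there is one). -/
noncomputable def cnt81Rt (Q K : Finset (ℤ × ℤ)) : ℤ × ℤ := if h : (K ∩ Q).Nonempty then h.choose else 0

theorem cnt81_Rt_spec {Q K : Finset (ℤ × ℤ)} (h : (K ∩ Q).Nonempty) : cnt81Rt Q K ∈ K ∧ cnt81Rt Q K ∈ Q := by
  classical
  unfold cnt81Rt
  rw [dif_pos h]
  exact Finset.mem_inter.1 h.choose_spec

/-- (T) the count is a transmission count. -/
theorem cnt81_A_trans {F : Finset (ℤ × ℤ)} {z : ℤ × ℤ} {n : ℕ} {ω : RswCfg} (hF : rswBox z (2 * n) ⊆ F) (j : ℕ)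
    (hj : j ≤ cnt81A F z n ω) : MdlTrans (rswBox z (1 * n)) (rswBox z ((1 + 1) * n)) j ω := by
  classical
  have e1 : 1 * n = n := one_mul n
  have e2 : (1 + 1) * n = 2 * n := by ring
  rw [e1, e2]
  refine cnt81_trans_mono (cnt81_trans (F := F) ?_ hF ω _ (Finset.filter_subset _ _) (cnt81Rt (rswBox z n)) ?_ ?_) hj
  · intro f hf
    rw [cnt81_mem_box] at hf ⊢
    push_cast
    have : (0 : ℤ) ≤ n := Int.natCast_nonneg n
    constructor <;> constructor <;> omega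
  · intro K hK
    exact cnt81_Rt_spec (Finset.mem_filter.1 hK).2.1
  · intro K hK
    exact (Finset.mem_filter.1 hK).2.2

theorem cnt81_box_card (z : ℤ × ℤ) (n : ℕ) : (rswBox z n).card = (2 * n) ^ 2 := by
  unfold rswBox
  rw [Finset.card_product, Int.card_Ico, Int.card_Ico]
  have e1 : (z.1 + n - (z.1 - n)).toNat = 2 * n := by omega
  have e2 : (z.2 + n - (z.2 - n)).toNat = 2 * n := by omega
  rw [e1, e2]
  ring

/-- the deterministic bound: distinct components have distinct roots. -/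
theorem cnt81_A_le (F : Finset (ℤ × ℤ)) (z : ℤ × ℤ) (n : ℕ) (ω : RswCfg) : cnt81A F z n ω ≤ (2 * n) ^ 2 := by
  classical
  rw [← cnt81_box_card z n]
  unfold cnt81A
  refine Finset.card_le_card_of_injOn (cnt81Rt (rswBox z n)) ?_ ?_
  · intro K hK
    exact (cnt81_Rt_spec (Finset.mem_filter.1 (Finset.mem_coe.1 hK)).2.1).2
  · intro K hK K' hK' h
    have h1 := Finset.mem_filter.1 (Finset.mem_coe.1 hK)
    have h2 := Finset.mem_filter.1 (Finset.mem_coe.1 hK')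
    rw [mdl61_eq_comp_of_mem h1.1 (cnt81_Rt_spec h1.2.1).1, mdl61_eq_comp_of_mem h2.1 (cnt81_Rt_spec h2.2.1).1, h]

open Classical in
/-- (N) **all moments of the count, conditionally on exterior data**, from the record (S2) with ratio `k = 1`. -/
theorem cnt81_A_count (t : ℝ) (ht1 : 1 / 2 ≤ t) (ht2 : t < 1) (hS2 : Mdl41cTrans t 1) (m : ℕ) :
    ∃ C₂ : ℝ, 0 ≤ C₂ ∧ ∀ (n : ℕ) (F : Finset (ℤ × ℤ)) (z : ℤ × ℤ) (L : RswCfg → Prop),
      RswJordan F → rswBox z (3 * n) ⊆ F → MdlExt (rswBox z (3 * n)) L →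
      rswE t F true (fun ω => (cnt81A F z n ω : ℝ) ^ m * (if L ω then 1 else 0)) ≤ C₂ * rswP t F true L := by
  have h0 : 0 ≤ t := by linarith
  obtain ⟨C, q, hC, hq0, hq1, n0, hS⟩ := hS2
  have hsum : Summable (fun j : ℕ => (j : ℝ) ^ m * q ^ j) :=
    summable_pow_mul_geometric_of_norm_lt_one m (by rw [Real.norm_eq_abs, abs_of_nonneg hq0.le]; exact hq1)
  have hS0 : 0 ≤ ∑' j : ℕ, (j : ℝ) ^ m * q ^ j := tsum_nonneg (fun j => by positivity)
  refine ⟨C * (∑' j : ℕ, (j : ℝ) ^ m * q ^ j) + (((2 * n0) ^ 2 : ℕ) : ℝ) ^ m, by positivity, ?_⟩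
  intro n F z L hJ hF hL
  have hP := rsz_P_nonneg h0 ht2.le F true L
  have h2F : rswBox z (2 * n) ⊆ F := by
    refine Finset.Subset.trans (fun f hf => ?_) hF
    rw [cnt81_mem_box] at hf ⊢
    push_cast at hf ⊢
    have : (0 : ℤ) ≤ n := Int.natCast_nonneg n
    constructor <;> constructor <;> omega
  rw [cnt81_E_eq]
  rcases le_or_gt n0 n with hn | hn
  · have e3 : (1 + 2) * n = 3 * n := by ring
    have e2 : (1 + 1) * n = 2 * n := by ring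
    have key := cnt81_family_moment (t := t) h0 ht2.le hC hq0 hq1 (F := F) (L := L) (z := z) (n := n)
      (fun j => hS n hn F z true L j hJ (by rw [e3]; exact hF) (by rw [e3]; exact hL)) (by rw [e2]; exact h2F)
      (fun x => (mdl61Comps F x.2.2).filter fun K => (K ∩ rswBox z n).Nonempty ∧ ¬ K ⊆ rswBox z (2 * n))
      (cnt81Rt (rswBox z n)) (fun x _ => Finset.filter_subset _ _)
      (fun x _ K hK => by rw [one_mul]; exact cnt81_Rt_spec (Finset.mem_filter.1 hK).2.1)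
      (fun x _ K hK => by rw [e2]; exact (Finset.mem_filter.1 hK).2.2) m
    refine le_trans key ?_
    have : 0 ≤ (((2 * n0) ^ 2 : ℕ) : ℝ) ^ m * rswP t F true L := by positivity
    nlinarith
  · have hle : ∀ x : Cnt81Om, (cnt81A F z n (cnt81Cfg x) : ℝ) ^ m ≤ (((2 * n0) ^ 2 : ℕ) : ℝ) ^ m := by
      intro x
      refine pow_le_pow_left₀ (Nat.cast_nonneg _) ?_ m
      have h1 := cnt81_A_le F z n (cnt81Cfg x)
      have h2 : (2 * n) ^ 2 ≤ (2 * n0) ^ 2 := Nat.pow_le_pow_left (by omega) 2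
      exact_mod_cast h1.trans h2
    calc ∑ x ∈ cnt81Sp t F L, cnt81W t F L x * (cnt81A F z n (cnt81Cfg x) : ℝ) ^ m
        ≤ ∑ x ∈ cnt81Sp t F L, cnt81W t F L x * (((2 * n0) ^ 2 : ℕ) : ℝ) ^ m :=
          Finset.sum_le_sum (fun x _ => mul_le_mul_of_nonneg_left (hle x) (cnt81_W_nonneg h0 ht2.le F L x))
      _ = (((2 * n0) ^ 2 : ℕ) : ℝ) ^ m * rswP t F true L := by
          rw [← Finset.sum_mul, ← cnt81_P_total]; ring
      _ ≤ _ := by
          have : 0 ≤ C * (∑' j : ℕ, (j : ℝ) ^ m * q ^ j) * rswP t F true L := by positivity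
          nlinarith

/-! ## 5. Lemma 5.2 in finite volume, all even moments, conditionally on exterior data -/

theorem cnt81_conn_of_jordan {F : Finset (ℤ × ℤ)} (hF : RswJordan F) : At2hConn F := by
  obtain ⟨γ, hc, -, hr⟩ := hF
  have hpre : IsPreconnected (frontier (faceRegionSq 1 F)) := by
    rw [← hr]
    exact isPreconnected_range hc
  exact at2h_conn_of_king (fun S f0 h0 h0S hS => at30_compl_conn one_pos F hpre S f0 h0 h0S hS)

/-- the cell of side `2n` of a face is a box `Λ_n`. -/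
theorem cnt81_cell_box (o f : ℤ × ℤ) (n : ℕ) (hn : 0 < n) :
    f ∈ rswBox (o.1 + ((2 * n : ℕ) : ℤ) * (mass81Cell o (2 * n) f).1 + n,
      o.2 + ((2 * n : ℕ) : ℤ) * (mass81Cell o (2 * n) f).2 + n) n := by
  have hℓ : (0 : ℤ) < ((2 * n : ℕ) : ℤ) := by exact_mod_cast (by omega : 0 < 2 * n)
  have key : ∀ x : ℤ, ((2 * n : ℕ) : ℤ) * (x / ((2 * n : ℕ) : ℤ)) ≤ x ∧ x < ((2 * n : ℕ) : ℤ) * (x / ((2 * n : ℕ) : ℤ)) + 2 * n := by
    intro x
    have e := Int.emod_add_mul_ediv x ((2 * n : ℕ) : ℤ)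
    have e0 := Int.emod_nonneg x hℓ.ne'
    have e1 := Int.emod_lt_of_pos x hℓ
    push_cast at e e0 e1 ⊢
    constructor <;> linarith
  rw [cnt81_mem_box]
  unfold mass81Cell
  have k1 := key (f.1 - o.1)
  have k2 := key (f.2 - o.2)
  simp only
  constructor <;> constructor <;> linarith [k1.1, k1.2, k2.1, k2.2]

/-- a component whose corners meet the box of sites of radius `a` has a face in `Λ_{a+1}`. -/
theorem cnt81_meets {K : Finset (ℤ × ℤ)} {z0 : ℤ × ℤ} {a : ℕ}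
    (h : ¬ Disjoint (odd81V K : Set (ℤ × ℤ)) (Set.Icc (z0.1 - a, z0.2 - a) (z0.1 + a, z0.2 + a))) :
    ∃ f ∈ K, (z0.1 - (a + 1) ≤ f.1 ∧ f.1 ≤ z0.1 + a) ∧ (z0.2 - (a + 1) ≤ f.2 ∧ f.2 ≤ z0.2 + a) := by
  obtain ⟨v, hv, hvU⟩ := Set.not_disjoint_iff.1 h
  obtain ⟨f, hf, hvf⟩ := odd81_mem_V.1 (Finset.mem_coe.1 hv)
  rw [at2h_mem_C4] at hvf
  obtain ⟨⟨a1, a2⟩, ⟨b1, b2⟩⟩ := hvU
  simp only at a1 a2 b1 b2
  exact ⟨f, hf, ⟨by omega, by omega⟩, ⟨by omega, by omega⟩⟩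

/-- distinct components that all meet `Q`. -/
theorem cnt81_card_le_of_meets {F : Finset (ℤ × ℤ)} {O : Finset ((ℤ × ℤ) × Bool)} (𝒦 : Finset (Finset (ℤ × ℤ)))
    (h𝒦 : 𝒦 ⊆ mdl61Comps F O) (Q : Finset (ℤ × ℤ)) (hQ : ∀ K ∈ 𝒦, (K ∩ Q).Nonempty) : 𝒦.card ≤ Q.card := by
  classical
  refine Finset.card_le_card_of_injOn (cnt81Rt Q) ?_ ?_
  · intro K hK
    exact (cnt81_Rt_spec (hQ K (Finset.mem_coe.1 hK))).2
  · intro K hK K' hK' h
    have h1 := Finset.mem_coe.1 hK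
    have h2 := Finset.mem_coe.1 hK'
    rw [mdl61_eq_comp_of_mem (h𝒦 h1) (cnt81_Rt_spec (hQ K h1)).1,
      mdl61_eq_comp_of_mem (h𝒦 h2) (cnt81_Rt_spec (hQ K' h2)).1, h]

/-- the index set of the boxes at scale `k` : for `k < 3` the faces of `Λ_{a+1}(z0)`, for `k ≥ 3` the cells of side `2^(k-2)`. -/
noncomputable def cnt81J (z0 : ℤ × ℤ) (a k : ℕ) : Finset (ℤ × ℤ) :=
  if k < 3 then rswBox z0 (a + 1)
  else Finset.Icc (0 : ℤ × ℤ) ((((2 * a + 1) / (2 * 2 ^ (k - 3)) : ℕ) : ℤ), (((2 * a + 1) / (2 * 2 ^ (k - 3)) : ℕ) : ℤ))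

/-- the centre of the cell `c` at scale `k ≥ 3`. -/
def cnt81Ctr (z0 : ℤ × ℤ) (a k : ℕ) (c : ℤ × ℤ) : ℤ × ℤ :=
  (z0.1 - (a + 1) + ((2 * 2 ^ (k - 3) : ℕ) : ℤ) * c.1 + (2 ^ (k - 3) : ℕ),
    z0.2 - (a + 1) + ((2 * 2 ^ (k - 3) : ℕ) : ℤ) * c.2 + (2 ^ (k - 3) : ℕ))

/-- the count attached to the box `c` at scale `k`. -/
noncomputable def cnt81Ak (F : Finset (ℤ × ℤ)) (z0 : ℤ × ℤ) (a k : ℕ) (c : ℤ × ℤ) (x : Cnt81Om) : ℝ :=
  if k < 3 then 1 else (cnt81A F (cnt81Ctr z0 a k c) (2 ^ (k - 3)) (cnt81Cfg x) : ℝ)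

/-- number of boxes at scale `k` : `O(r_k⁻²)`, `r_k = 2^k / a`. -/
theorem cnt81_J_card (z0 : ℤ × ℤ) (a k : ℕ) (ha : 1 ≤ a) (hk : (2 : ℝ) ^ k ≤ 16 * a) :
    ((cnt81J z0 a k).card : ℝ) ≤ 784 / (1 / (a : ℝ) * 2 ^ k) ^ 2 := by
  have ha' : (1 : ℝ) ≤ a := by exact_mod_cast ha
  have hapos : (0 : ℝ) < a := by linarith
  have h2k : (0 : ℝ) < 2 ^ k := by positivity
  unfold cnt81J
  split_ifs with h3
  · rw [cnt81_box_card]
    have h4 : (2 : ℝ) ^ k ≤ 4 := by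
      have : (2 : ℝ) ^ k ≤ 2 ^ 2 := pow_le_pow_right₀ (by norm_num) (by omega)
      linarith
    rw [le_div_iff₀ (by positivity)]
    push_cast
    have e : (2 * ((a : ℝ) + 1)) ^ 2 * (1 / (a : ℝ) * 2 ^ k) ^ 2 = ((2 * ((a : ℝ) + 1)) / a * 2 ^ k) ^ 2 := by
      field_simp
    rw [e]
    have h5 : (2 * ((a : ℝ) + 1)) / a ≤ 4 := by
      rw [div_le_iff₀ hapos]; linarith
    have h6 : (2 * ((a : ℝ) + 1)) / a * 2 ^ k ≤ 16 := by
      have h7 : 0 ≤ (2 * ((a : ℝ) + 1)) / a := by positivity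
      nlinarith
    have h8 : 0 ≤ (2 * ((a : ℝ) + 1)) / a * 2 ^ k := by positivity
    nlinarith
  · rw [mass81Cell_card]
    have hℓ : 2 ^ k ≤ 4 * (2 * 2 ^ (k - 3)) := by
      have : k = (k - 3) + 3 := by omega
      refine le_of_eq ?_
      calc 2 ^ k = 2 ^ ((k - 3) + 3) := by rw [← this]
        _ = 8 * 2 ^ (k - 3) := by rw [pow_add]; ring
        _ = 4 * (2 * 2 ^ (k - 3)) := by ring
    have h1 := mass81Cell_card_le (2 * 2 ^ (k - 3)) (2 * a + 1) k 4 hℓ (1 / (a : ℝ)) (by positivity)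
    refine h1.trans ?_
    refine div_le_div_of_nonneg_right ?_ (by positivity)
    have h2 : 1 / (a : ℝ) * ((2 * a + 1 : ℕ) : ℝ) ≤ 3 := by
      push_cast
      rw [one_div, inv_mul_le_iff₀ hapos]; linarith
    have h3' : 1 / (a : ℝ) * 2 ^ k ≤ 16 := by
      rw [one_div, inv_mul_le_iff₀ hapos]; linarith
    have h4 : 0 ≤ 1 / (a : ℝ) * ((2 * a + 1 : ℕ) : ℝ) := by positivity
    have h5 : 0 ≤ 1 / (a : ℝ) * 2 ^ k := by positivity
    push_cast at h2 h4 ⊢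
    nlinarith


theorem cnt81_pow_split {k : ℕ} (hk : ¬ k < 3) : 2 ^ k = 8 * 2 ^ (k - 3) := by
  have : k = (k - 3) + 3 := by omega
  calc 2 ^ k = 2 ^ ((k - 3) + 3) := by rw [← this]
    _ = 8 * 2 ^ (k - 3) := by rw [pow_add]; ring

open Classical in
/-- the components at scale `k` that meet the box of sites are counted by the boxes at scale `k`. -/
theorem cnt81_count_scale (F : Finset (ℤ × ℤ)) (z0 : ℤ × ℤ) (a k M : ℕ) (x : Cnt81Om) :
    (({K ∈ mdl61Comps F x.2.2 | (¬ Disjoint (odd81V K : Set (ℤ × ℤ)) (Set.Icc (z0.1 - a, z0.2 - a) (z0.1 + a, z0.2 + a)) ∧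
        cnt81Diam K + 1 < 2 ^ (M + 1)) ∧ mass81Scale (cnt81Diam K) = k}).card : ℝ) ≤
      ∑ c ∈ cnt81J z0 a k, |cnt81Ak F z0 a k c x| := by
  set 𝒦 := {K ∈ mdl61Comps F x.2.2 | (¬ Disjoint (odd81V K : Set (ℤ × ℤ)) (Set.Icc (z0.1 - a, z0.2 - a) (z0.1 + a, z0.2 + a)) ∧
        cnt81Diam K + 1 < 2 ^ (M + 1)) ∧ mass81Scale (cnt81Diam K) = k} with h𝒦
  by_cases h3 : k < 3
  · have e : ∑ c ∈ cnt81J z0 a k, |cnt81Ak F z0 a k c x| = ((rswBox z0 (a + 1)).card : ℝ) := by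
      unfold cnt81J cnt81Ak
      simp only [h3, if_true, abs_one, Finset.sum_const, nsmul_eq_mul, mul_one]
    rw [e]
    have : 𝒦.card ≤ (rswBox z0 (a + 1)).card := by
      refine cnt81_card_le_of_meets (F := F) (O := x.2.2) 𝒦 (Finset.filter_subset _ _) _ (fun K hK => ?_)
      obtain ⟨f, hf, h1, h2⟩ := cnt81_meets (Finset.mem_filter.1 hK).2.1.1
      refine ⟨f, Finset.mem_inter.2 ⟨hf, cnt81_mem_box.2 ?_⟩⟩
      push_cast
      exact ⟨⟨h1.1, by omega⟩, ⟨h2.1, by omega⟩⟩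
    exact_mod_cast this
  · set n := 2 ^ (k - 3) with hn
    have hnpos : 0 < n := by positivity
    have h8 : 2 ^ k = 8 * n := cnt81_pow_split h3
    have e : ∑ c ∈ cnt81J z0 a k, |cnt81Ak F z0 a k c x| =
        ((∑ c ∈ cnt81J z0 a k, cnt81A F (cnt81Ctr z0 a k c) n (cnt81Cfg x) : ℕ) : ℝ) := by
      push_cast
      refine Finset.sum_congr rfl (fun c _ => ?_)
      unfold cnt81Ak
      rw [if_neg h3, abs_of_nonneg (Nat.cast_nonneg _)]
    rw [e]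
    have : 𝒦.card ≤ ∑ c ∈ cnt81J z0 a k, cnt81A F (cnt81Ctr z0 a k c) n (cnt81Cfg x) := by
      unfold cnt81A
      refine le_trans (Finset.card_le_card ?_) Finset.card_biUnion_le
      intro K hK
      have hK' := Finset.mem_filter.1 hK
      obtain ⟨f, hf, h1, h2⟩ := cnt81_meets hK'.2.1.1
      set o : ℤ × ℤ := (z0.1 - ((a : ℤ) + 1), z0.2 - ((a : ℤ) + 1)) with ho
      have hfo : f ∈ Set.Icc o (o + (((2 * a + 1 : ℕ) : ℤ), ((2 * a + 1 : ℕ) : ℤ))) := by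
        refine ⟨⟨h1.1, h2.1⟩, ⟨?_, ?_⟩⟩
        · simp only [ho, Prod.fst_add]; push_cast; omega
        · simp only [ho, Prod.snd_add]; push_cast; omega
      have hc := mass81Cell_mem o (2 * n) (2 * a + 1) f hfo
      have hbox := cnt81_cell_box o f n hnpos
      rw [Finset.mem_biUnion]
      refine ⟨mass81Cell o (2 * n) f, ?_, ?_⟩
      · unfold cnt81J
        rw [if_neg h3]
        exact hc
      · rw [Finset.mem_filter]
        refine ⟨hK'.1, ⟨f, Finset.mem_inter.2 ⟨hf, hbox⟩⟩, fun hsub => ?_⟩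
        have hd := cnt81_diam_le hsub
        have hs := ((mass81Scale_eq_iff _ _).1 hK'.2.2).1
        omega
    exact_mod_cast this

open Classical in
/-- the large components that meet the box of sites. -/
theorem cnt81_count_big (F : Finset (ℤ × ℤ)) (z0 : ℤ × ℤ) (a M : ℕ) (hM : 8 * (a + 1) < 2 ^ (M + 1)) (x : Cnt81Om) :
    (({K ∈ mdl61Comps F x.2.2 | ¬ Disjoint (odd81V K : Set (ℤ × ℤ)) (Set.Icc (z0.1 - a, z0.2 - a) (z0.1 + a, z0.2 + a)) ∧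
        ¬ cnt81Diam K + 1 < 2 ^ (M + 1)}).card : ℝ) ≤
      ∑ _l ∈ ({()} : Finset Unit), |(cnt81A F z0 (a + 1) (cnt81Cfg x) : ℝ)| := by
  rw [Finset.sum_singleton, abs_of_nonneg (Nat.cast_nonneg _)]
  have : ({K ∈ mdl61Comps F x.2.2 | ¬ Disjoint (odd81V K : Set (ℤ × ℤ)) (Set.Icc (z0.1 - a, z0.2 - a) (z0.1 + a, z0.2 + a)) ∧
        ¬ cnt81Diam K + 1 < 2 ^ (M + 1)}).card ≤ cnt81A F z0 (a + 1) (cnt81Cfg x) := by
    unfold cnt81A
    refine Finset.card_le_card ?_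
    intro K hK
    have hK' := Finset.mem_filter.1 hK
    obtain ⟨f, hf, h1, h2⟩ := cnt81_meets hK'.2.1
    rw [Finset.mem_filter]
    refine ⟨hK'.1, ⟨f, Finset.mem_inter.2 ⟨hf, cnt81_mem_box.2 ?_⟩⟩, fun hsub => ?_⟩
    · push_cast
      exact ⟨⟨h1.1, by omega⟩, ⟨h2.1, by omega⟩⟩
    · have hd := cnt81_diam_le hsub
      have := hK'.2.2
      omega
  exact_mod_cast this

/-- the buffers of the boxes at scale `3 ≤ k`, `2^k ≤ 8 (a+1)`, stay in `Λ_{9a}(z0)`. -/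
theorem cnt81_buffer (z0 : ℤ × ℤ) (a k : ℕ) (ha : 1 ≤ a) (h3 : ¬ k < 3) (hk : 2 ^ k ≤ 8 * (a + 1)) (c : ℤ × ℤ)
    (hc : c ∈ cnt81J z0 a k) : rswBox (cnt81Ctr z0 a k c) (3 * 2 ^ (k - 3)) ⊆ rswBox z0 (9 * a) := by
  set n := 2 ^ (k - 3) with hn
  have h8 : 2 ^ k = 8 * n := cnt81_pow_split h3
  have hna : n ≤ a + 1 := by omega
  unfold cnt81J at hc
  rw [if_neg h3, Finset.mem_Icc] at hc
  obtain ⟨⟨c1, c2⟩, ⟨d1, d2⟩⟩ := hc
  simp only at c1 c2 d1 d2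
  have hdiv : (2 * a + 1) / (2 * n) * (2 * n) ≤ 2 * a + 1 := Nat.div_mul_le_self _ _
  have hdivZ : (((2 * a + 1) / (2 * n) : ℕ) : ℤ) * ((2 * n : ℕ) : ℤ) ≤ 2 * a + 1 := by exact_mod_cast hdiv
  have hℓ0 : (0 : ℤ) ≤ ((2 * n : ℕ) : ℤ) := Int.natCast_nonneg _
  have m1 : ((2 * n : ℕ) : ℤ) * c.1 ≤ 2 * a + 1 := by nlinarith
  have m2 : ((2 * n : ℕ) : ℤ) * c.2 ≤ 2 * a + 1 := by nlinarith
  have p1 : 0 ≤ ((2 * n : ℕ) : ℤ) * c.1 := mul_nonneg hℓ0 c1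
  have p2 : 0 ≤ ((2 * n : ℕ) : ℤ) * c.2 := mul_nonneg hℓ0 c2
  have hnaZ : (n : ℤ) ≤ a + 1 := by exact_mod_cast hna
  have haZ : (1 : ℤ) ≤ a := by exact_mod_cast ha
  have hn0 : (0 : ℤ) ≤ n := Int.natCast_nonneg _
  intro f hf
  rw [cnt81_mem_box] at hf ⊢
  unfold cnt81Ctr at hf
  simp only at hf
  rw [← hn] at hf
  push_cast at hf m1 m2 p1 p2 ⊢
  obtain ⟨⟨f1, f2⟩, ⟨f3, f4⟩⟩ := hf
  constructor <;> constructor <;> linarith


theorem cnt81_box_mono (z : ℤ × ℤ) {n n' : ℕ} (h : n ≤ n') : rswBox z n ⊆ rswBox z n' := by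
  intro f hf
  rw [cnt81_mem_box] at hf ⊢
  have : (n : ℤ) ≤ n' := by exact_mod_cast h
  constructor <;> constructor <;> omega

set_option maxHeartbeats 1000000 in
open Classical in
/-- **AT Lemma 5.2 in finite volume** (all even moments, conditionally on exterior `(s,W)` data `L` of `Λ_{9a}(z0)`), from the record (S2). -/
theorem cnt81_moment (t : ℝ) (ht1 : 1 / 2 ≤ t) (ht2 : t < 1) (hS2 : Mdl41cTrans t 1) (m : ℕ) :
    ∃ C : ℝ, 0 < C ∧ ∀ (F : Finset (ℤ × ℤ)) (z0 : ℤ × ℤ) (a : ℕ) (A : ℝ) (w : (ℤ × ℤ) →₀ ℝ) (L : RswCfg → Prop),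
      RswJordan F → 1 ≤ a → rswBox z0 (9 * a) ⊆ F → MdlExt (rswBox z0 (9 * a)) L → RswSm z0 a A w →
      w.sum (fun _ x => x) = 0 →
      rswE t F true (fun ω => (rswArr w (rswH F ω)) ^ (2 * m) * (if L ω then 1 else 0)) ≤
        (C * A) ^ (2 * m) * rswP t F true L := by
  have h0 : 0 ≤ t := by linarith
  rcases Nat.eq_zero_or_pos m with hm0 | hmpos
  · subst hm0
    refine ⟨1, one_pos, fun F z0 a A w L _ _ _ _ _ _ => ?_⟩
    simp only [mul_zero, pow_zero, one_mul]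
    rw [rsz_P_def]
  have hm : m ≠ 0 := hmpos.ne'
  obtain ⟨C₂, hC₂, hcnt⟩ := cnt81_A_count t ht1 ht2 hS2 m
  set C₁ : ℝ := C₂ + 1 with hC₁
  have hC₁pos : 0 < C₁ := by linarith
  set B₀ : ℝ := 64 / 3 * 784 * 256 + 1 with hB₀
  have hB₀pos : 0 < B₀ := by norm_num [hB₀]
  set Cf : ℝ := 4 * (2 * m).factorial * (B₀ ^ m * C₁) + 1 with hCf
  have hCf1 : 1 ≤ Cf := by
    have : 0 ≤ 4 * ((2 * m).factorial : ℝ) * (B₀ ^ m * C₁) := by positivity
    linarith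
  refine ⟨Cf, by linarith, ?_⟩
  intro F z0 a A w L hJ ha hF hL hw hneu
  have hconn := cnt81_conn_of_jordan hJ
  set Z := rswP t F true L with hZdef
  have hZ : 0 ≤ Z := rsz_P_nonneg h0 ht2.le F true L
  have ha' : (1 : ℝ) ≤ a := by exact_mod_cast ha
  have hapos : (0 : ℝ) < a := by linarith
  have hA0 : 0 ≤ A := (Finset.sum_nonneg fun u _ => abs_nonneg (w u)).trans hw.l1
  set s := cnt81Sp t F L with hs
  set W := cnt81W t F L with hW
  have hWn : ∀ x ∈ s, 0 ≤ W x := fun x _ => cnt81_W_nonneg h0 ht2.le F L x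
  have hWZ : ∑ x ∈ s, W x = Z := (cnt81_P_total t F L).symm
  obtain ⟨M, hM1, hM2⟩ : ∃ M : ℕ, 2 ^ M ≤ 8 * (a + 1) ∧ 8 * (a + 1) < 2 ^ (M + 1) :=
    ⟨Nat.log 2 (8 * (a + 1)), Nat.pow_log_le_self 2 (by omega), Nat.lt_pow_succ_log_self (by norm_num) _⟩
  have hM16 : ∀ k ≤ M, (2 : ℝ) ^ k ≤ 16 * a := by
    intro k hk
    have h1 : 2 ^ k ≤ 2 ^ M := Nat.pow_le_pow_right (by norm_num) hk
    have h2 : 2 ^ k ≤ 16 * a := by omega
    exact_mod_cast h2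
  set Cq : ℝ := (C₁ * Z) ^ (1 / (m : ℝ)) with hCq
  have hCq0 : 0 ≤ Cq := Real.rpow_nonneg (by positivity) _
  -- the array
  have hS : ∀ v, v ∉ w.support → w v = 0 := fun v hv => Finsupp.notMem_support_iff.1 hv
  have hneu' : ∑ v ∈ w.support, w v = 0 := hneu
  have hb : ∀ v, |w v| ≤ A * (1 / (a : ℝ)) ^ 2 := by
    intro v
    have := hw.sup v
    rw [one_div, inv_pow, ← div_eq_mul_inv, le_div_iff₀ (by positivity)]
    exact this
  have hSU : (w.support : Set (ℤ × ℤ)) ⊆ Set.Icc (z0.1 - (a : ℤ), z0.2 - (a : ℤ)) (z0.1 + (a : ℤ), z0.2 + (a : ℤ)) := by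
    intro v hv
    have := cnt81_mem_box.1 (hw.supp (Finset.mem_coe.1 hv))
    exact ⟨⟨this.1.1, this.2.1⟩, ⟨this.1.2.le, this.2.2.le⟩⟩
  have hSb : w.support ⊆ cornersOf F := fun v hv =>
    rsz_face_corner (hF (cnt81_box_mono z0 (by omega : a ≤ 9 * a) (hw.supp hv)))
  -- the norms of the counts
  have hmom : ∀ (z : ℤ × ℤ) (n : ℕ), rswBox z (3 * n) ⊆ rswBox z0 (9 * a) →
      ∑ x ∈ s, W x * |(cnt81A F z n (cnt81Cfg x) : ℝ)| ^ m ≤ C₁ * Z := by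
    intro z n hsub
    have h1 := hcnt n F z L hJ (hsub.trans hF) (cnt81_ext_mono hsub hL)
    rw [cnt81_E_eq] at h1
    have h2 : ∑ x ∈ s, W x * |(cnt81A F z n (cnt81Cfg x) : ℝ)| ^ m =
        ∑ x ∈ s, W x * (cnt81A F z n (cnt81Cfg x) : ℝ) ^ m :=
      Finset.sum_congr rfl (fun x _ => by rw [abs_of_nonneg (Nat.cast_nonneg _)])
    rw [h2]
    refine h1.trans ?_
    exact mul_le_mul_of_nonneg_right (by linarith) hZ
  have hA : ∀ k ≤ M, ∀ c ∈ cnt81J z0 a k, mass81Lp s W (m : ℝ) (cnt81Ak F z0 a k c) ≤ Cq := by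
    intro k hk c hc
    refine cnt81_Lp_le s W hWn m hm _ _ ?_
    by_cases h3 : k < 3
    · have : ∑ x ∈ s, W x * |cnt81Ak F z0 a k c x| ^ m = Z := by
        rw [← hWZ]
        refine Finset.sum_congr rfl (fun x _ => ?_)
        unfold cnt81Ak
        rw [if_pos h3, abs_one, one_pow, mul_one]
      rw [this]
      calc Z = 1 * Z := (one_mul Z).symm
        _ ≤ C₁ * Z := mul_le_mul_of_nonneg_right (by linarith) hZ
    · have hk8 : 2 ^ k ≤ 8 * (a + 1) := (Nat.pow_le_pow_right (by norm_num) hk).trans hM1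
      have := hmom (cnt81Ctr z0 a k c) (2 ^ (k - 3)) (cnt81_buffer z0 a k ha h3 hk8 c hc)
      refine le_trans (le_of_eq ?_) this
      refine Finset.sum_congr rfl (fun x _ => ?_)
      unfold cnt81Ak
      rw [if_neg h3]
  have hN : ∀ l ∈ ({()} : Finset Unit), mass81Lp s W (m : ℝ) ((fun (_ : Unit) x => (cnt81A F z0 (a + 1) (cnt81Cfg x) : ℝ)) l) ≤ Cq := by
    intro l _
    exact cnt81_Lp_le s W hWn m hm _ _ (hmom z0 (a + 1) (cnt81_box_mono z0 (by omega)))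
  -- the quadratic form
  have hquad := cnt81_quad_norm s W hWn m hm (⇑w) w.support hS hneu' A (1 / (a : ℝ)) (by positivity) hb hw.l1
    (Set.Icc (z0.1 - (a : ℤ), z0.2 - (a : ℤ)) (z0.1 + (a : ℤ), z0.2 + (a : ℤ))) hSU
    (cnt81_box_conn _ _) (fun x => mdl61Comps F x.2.2) (fun _ K => (odd81V K : Set (ℤ × ℤ)))
    (fun x K => odd81Set F (mdl61Q F x.1 x.2.2 K))
    (fun x hx K hK => by
      obtain ⟨-, -, -, hh⟩ := odd81_main hconn (cnt81_Sp_spec hx).1 hK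
      exact hh)
    (fun _ K => cnt81Diam K + 1 < 2 ^ (M + 1)) (fun _ K => cnt81Diam K)
    (fun _ _ K _ _ u hu v hv => cnt81_diam_spec K u (Finset.mem_coe.1 hu) v (Finset.mem_coe.1 hv))
    M (fun _ _ _ _ h => h) (cnt81J z0 a) (cnt81Ak F z0 a) 784 Cq hCq0
    (fun k hk => cnt81_J_card z0 a k ha (hM16 k hk)) hA
    (fun x _ k _ => by
      refine le_trans (le_of_eq ?_) (cnt81_count_scale F z0 a k M x)
      refine congrArg (fun n : ℕ => (n : ℝ)) (congrArg Finset.card ?_)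
      ext K
      simp only [Finset.mem_filter])
    ({()} : Finset Unit) (fun _ x => (cnt81A F z0 (a + 1) (cnt81Cfg x) : ℝ)) hN
    (fun x _ => by
      refine le_trans (le_of_eq ?_) (cnt81_count_big F z0 a M hM2 x)
      refine congrArg (fun n : ℕ => (n : ℝ)) (congrArg Finset.card ?_)
      ext K
      simp only [Finset.mem_filter])
  set X : Cnt81Om → ℝ := fun x => ∑ K ∈ mdl61Comps F x.2.2, (∑ v ∈ odd81Set F (mdl61Q F x.1 x.2.2 K), w v) ^ 2 with hX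
  have hX0 : ∀ x, 0 ≤ X x := fun x => Finset.sum_nonneg (fun K _ => sq_nonneg _)
  have hρ : (1 / (a : ℝ) * 2 ^ M) ^ 2 ≤ 256 := by
    have h1 : 1 / (a : ℝ) * 2 ^ M ≤ 16 := by
      rw [one_div, inv_mul_le_iff₀ hapos]
      linarith [hM16 M le_rfl]
    have h2 : 0 ≤ 1 / (a : ℝ) * 2 ^ M := by positivity
    nlinarith
  have hquad2 : mass81Lp s W (m : ℝ) X ≤ A ^ 2 * Cq * B₀ := by
    refine hquad.trans ?_
    have h1 : 64 / 3 * (A ^ 2 * 784 * Cq) * (1 / (a : ℝ) * 2 ^ M) ^ 2 ≤ 64 / 3 * (A ^ 2 * 784 * Cq) * 256 :=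
      mul_le_mul_of_nonneg_left hρ (by positivity)
    have h2 : ((({()} : Finset Unit).card : ℕ) : ℝ) = 1 := by simp
    rw [h2, hB₀]
    nlinarith
  have hCqm : Cq ^ m = C₁ * Z := by
    rw [hCq, one_div]
    exact Real.rpow_inv_natCast_pow (by positivity) hm
  have hXm : ∑ x ∈ s, W x * X x ^ m ≤ A ^ (2 * m) * (B₀ ^ m * C₁) * Z := by
    have h1 := mass81Lp_pow s W hWn m hm X
    have h2 : ∑ x ∈ s, W x * |X x| ^ m = ∑ x ∈ s, W x * X x ^ m :=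
      Finset.sum_congr rfl (fun x _ => by rw [abs_of_nonneg (hX0 x)])
    rw [← h2, ← h1]
    calc mass81Lp s W (m : ℝ) X ^ m ≤ (A ^ 2 * Cq * B₀) ^ m :=
          pow_le_pow_left₀ (mass81Lp_nonneg s W hWn _ X) hquad2 m
      _ = A ^ (2 * m) * (B₀ ^ m * C₁) * Z := by
          rw [mul_pow, mul_pow, hCqm, ← pow_mul]; ring
  -- integration of the colours
  have hcond := odd81_cond_moment_E h0 ht2.le hconn (⇑w) w.support hSb hS
    (fun S O => if L ⟨S, ∅, O⟩ then (1 : ℝ) else 0) (fun S O => by split_ifs <;> norm_num) m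
  have hind : ∀ ω : RswCfg, (if L ω then (1 : ℝ) else 0) = if L ⟨ω.S, ∅, ω.O⟩ then (1 : ℝ) else 0 := by
    intro ω
    have := cnt81_ext_D hL ω
    by_cases h : L ω
    · rw [if_pos h, if_pos (this.1 h)]
    · rw [if_neg h, if_neg (fun h' => h (this.2 h'))]
  have e1 : (fun ω : RswCfg => (rswArr w (rswH F ω)) ^ (2 * m) * (if L ω then (1 : ℝ) else 0)) =
      fun ω => (∑ v ∈ w.support, w v * rswH F ω v) ^ (2 * m) * (if L ⟨ω.S, ∅, ω.O⟩ then (1 : ℝ) else 0) := by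
    funext ω
    rw [hind ω]
    rfl
  have e2 : rswE t F true (fun ω => (∑ K ∈ mdl61Comps F ω.O, odd81Charge F ω.S ω.O (⇑w) K ^ 2) ^ m *
      (if L ⟨ω.S, ∅, ω.O⟩ then (1 : ℝ) else 0)) = ∑ x ∈ s, W x * X x ^ m := by
    have := cnt81_E_eq t F L (fun ω => (∑ K ∈ mdl61Comps F ω.O, odd81Charge F ω.S ω.O (⇑w) K ^ 2) ^ m)
    have e3 : (fun ω : RswCfg => (∑ K ∈ mdl61Comps F ω.O, odd81Charge F ω.S ω.O (⇑w) K ^ 2) ^ m *
        (if L ⟨ω.S, ∅, ω.O⟩ then (1 : ℝ) else 0)) =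
        fun ω => (∑ K ∈ mdl61Comps F ω.O, odd81Charge F ω.S ω.O (⇑w) K ^ 2) ^ m * (if L ω then (1 : ℝ) else 0) := by
      funext ω
      rw [hind ω]
    rw [e3, this]
    exact Finset.sum_congr rfl (fun x _ => rfl)
  rw [e1]
  refine hcond.trans ?_
  rw [e2]
  have hfac : (0 : ℝ) ≤ 4 * (2 * m).factorial := by positivity
  calc 4 * ((2 * m).factorial : ℝ) * ∑ x ∈ s, W x * X x ^ m
      ≤ 4 * ((2 * m).factorial : ℝ) * (A ^ (2 * m) * (B₀ ^ m * C₁) * Z) := mul_le_mul_of_nonneg_left hXm hfac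
    _ = (4 * ((2 * m).factorial : ℝ) * (B₀ ^ m * C₁)) * A ^ (2 * m) * Z := by ring
    _ ≤ Cf ^ (2 * m) * A ^ (2 * m) * Z := by
        have h1 : 4 * ((2 * m).factorial : ℝ) * (B₀ ^ m * C₁) ≤ Cf := by rw [hCf]; linarith
        have h2 : Cf ≤ Cf ^ (2 * m) := le_self_pow₀ hCf1 (by omega)
        have h3 : 0 ≤ A ^ (2 * m) := by positivity
        gcongr
        exact h1.trans h2
    _ = (Cf * A) ^ (2 * m) * Z := by rw [mul_pow]


/-- **the statement of `exit_rsw_mom_plane` VERBATIM** (TEX eq:plane-neutral-moments, all `p`), from the ONE record (S2) `Mdl41cTrans t 1`. -/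
theorem cnt81_mom_plane (t : ℝ) (ht1 : 1 / 2 ≤ t) (ht2 : t < 1) (hS2 : Mdl41cTrans t 1) :
    ∃ C0 : ℕ, ∀ p : ℕ, ∃ C : ℝ, 0 < C ∧ ∀ (F : Finset (ℤ × ℤ)) (z0 : ℤ × ℤ) (a : ℕ) (A : ℝ) (w : (ℤ × ℤ) →₀ ℝ),
      RswJordan F → 1 ≤ a → rswBox z0 (C0 * a) ⊆ F → RswSm z0 a A w → w.sum (fun _ x => x) = 0 →
      rswE t F true (fun ω => |rswArr w (rswH F ω)| ^ p) ≤ (C * A) ^ p := by
  classical
  have h0 : 0 < t := by linarith
  refine ⟨9, fun p => ?_⟩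
  obtain ⟨C, hC, H⟩ := cnt81_moment t ht1 ht2 hS2 p
  refine ⟨C, hC, fun F z0 a A w hJ ha hF hw hneu => ?_⟩
  have hA0 : 0 ≤ A := (Finset.sum_nonneg fun u _ => abs_nonneg (w u)).trans hw.l1
  have h1 := H F z0 a A w (fun _ => True) hJ ha hF (fun _ _ _ _ => Iff.rfl) hw hneu
  rw [rsz_P_true h0 ht2.le, mul_one] at h1
  simp only [if_true, mul_one] at h1
  set B : ℝ := (C * A) ^ p with hB
  have hB0 : 0 ≤ B := by positivity
  have hB2 : (C * A) ^ (2 * p) = B * B := by rw [hB, two_mul, pow_add]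
  rw [hB2] at h1
  refine le_of_forall_pos_le_add (fun ε hε => ?_)
  have hl : 0 < B + ε := by linarith
  have hpt : ∀ ω : RswCfg, |rswArr w (rswH F ω)| ^ p ≤
      (B + ε) / 2 + (1 / (2 * (B + ε))) * (rswArr w (rswH F ω)) ^ (2 * p) := by
    intro ω
    set y : ℝ := |rswArr w (rswH F ω)| ^ p with hy
    have e : (rswArr w (rswH F ω)) ^ (2 * p) = y * y := by
      rw [hy, ← pow_add, ← two_mul, pow_mul, pow_mul, sq_abs]
    rw [e]
    have h2 : 0 ≤ (y - (B + ε)) ^ 2 / (2 * (B + ε)) := by positivity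
    have h3 : (y - (B + ε)) ^ 2 / (2 * (B + ε)) = (B + ε) / 2 + (1 / (2 * (B + ε))) * (y * y) - y := by
      field_simp
      ring
    linarith
  have h4 := rsz_E_mono h0.le ht2.le F true hpt
  rw [rsz_E_add, rsz_E_const h0 ht2.le, rsz_E_smul] at h4
  refine h4.trans ?_
  have h5 : 1 / (2 * (B + ε)) * rswE t F true (fun ω => (rswArr w (rswH F ω)) ^ (2 * p)) ≤ 1 / (2 * (B + ε)) * (B * B) :=
    mul_le_mul_of_nonneg_left h1 (by positivity)
  have h6 : 1 / (2 * (B + ε)) * (B * B) ≤ B / 2 := by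
    rw [one_div, inv_mul_le_iff₀ (by positivity)]
    nlinarith
  linarith

/-- the equation lemmas of the definitions of this file are generated HERE (RULES.md, rule 6). -/
theorem cnt81_eqns_cite : True := by
  have := @cnt81Diam.eq_1; have := @cnt81Diam.eq_def
  have := @cnt81Cfg.eq_1; have := @cnt81Cfg.eq_def
  have := @cnt81W.eq_1; have := @cnt81W.eq_def
  have := @cnt81Sp.eq_1; have := @cnt81Sp.eq_def
  have := @cnt81A.eq_1; have := @cnt81A.eq_def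
  have := @cnt81Rt.eq_1; have := @cnt81Rt.eq_def
  have := @cnt81J.eq_1; have := @cnt81J.eq_def
  have := @cnt81Ctr.eq_1; have := @cnt81Ctr.eq_def
  have := @cnt81Ak.eq_1; have := @cnt81Ak.eq_def
  trivial

end Claimed.Agent.R292
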