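import Claimed.Agent.R292.Screen.Neu52
import Claimed.Agent.R292.Defs.ScreenIns
import Claimed.Agent.R292.Rsw.Dict11
import Claimed.Agent.R291.Wick.Green

/-!
# Row 292 (S0540), Screen/Glue52 : THE TOP GLUE OF THE UNIT "SCREEN"      (owner helper52; prefix `scr52g_`, defs `scr52g*` / `Scr52g*`)

The contract `at_screen` (frozen model, frozen pairing) VERBATIM from `scr_cut_flat` (Prop 5.1 in flat domains, `(S, D, O)` model, insertion `scrIns`).  All deterministic.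
* `scr52g_osum`, `scr52g_osum_congr`   oriented sums telescope
* **`scr52g_inc`**      on a solution of the height equations, path inside `F`: `scrInc ω v₀ v = H v - H v₀`   (`scr52g_inc_cfg`: no admissibility; `scr52g_inc_height`; `scr52g_path`)
* `scr52gB`, `scr52g_ins_eq`, `scr52g_B_height`   `scrIns δ z φ ω` is a function of `(rswTau F ω, rswTauD F ω)`; on admissible pairs it is `rswArr (aspW δ (Δφ)) (H - H v₀)`
* `scr52g_ext`          `ScrExt δ F (scrSq z r) G` ⟹ `ScrIn δ (scrSq z r₁)ᶜ (G ∘ (rswTau F, rswTauD F))` if `r₁ + δ / 2 ≤ r`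
* `scr52g_seq`          a property which holds eventually along every sequence of meshes `→ 0` holds below a threshold
* **`scr52g_screen_of_flat`**   `Scr52gFlat` (= the text of `scr_cut_flat`) ⟹ the text of `at_screen`      **0 sorry, axioms clean**
* sec. 7 = leaves (D), (C) of `Screen/Mom221` (AT Lemma 5.2), VERBATIM: `scr52m_array`, `scr52m_shift` (`scr52m_sh_arr` any base point), `scr52m_tr_facts`, `scr52m_const` (`mom221Bd` unfolded); `scr52m_lap_int : ∫ Δφ = 0`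
IMPORT RULE of 229 (19:50Z): this producer file imports NO `Cut229*` file; `Exit/Screen.at_screen := scr52g_screen_of_flat scr_cut_flat ..`.
* `scr52g_adm_of_wt`, **`scr52g_inc_rswH`**   on the support of `rswWt t F true`, `F` Jordan, path inside `F`: `scrInc ω v₀ v = rswH F ω v - rswH F ω v₀`
-/

set_option autoImplicit false

namespace Claimed.Agent.R292

open Claims Claims.C0468 Filter Topology MeasureTheory

/-! ### 1. oriented sums -/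

theorem scr52g_tele (h : ℤ → ℝ) {a b : ℤ} (hab : a ≤ b) :
    ∑ x ∈ Finset.Ico a b, (h (x + 1) - h x) = h b - h a := by
  induction b, hab using Int.leInduction with
  | base => simp
  | succ b hab ih =>
    have e1 : Finset.Ico a (b + 1) = insert b (Finset.Ico a b) := by
      ext i; simp only [Finset.mem_Ico, Finset.mem_insert]; omega
    rw [e1, Finset.sum_insert (by simp), ih]
    ring

theorem scr52g_osum_congr (a b : ℤ) (g g' : ℤ → ℝ) (hg : ∀ x, min a b ≤ x → x < max a b → g x = g' x) :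
    scrOsum a b g = scrOsum a b g' := by
  unfold scrOsum
  split_ifs with hab
  · refine Finset.sum_congr rfl fun x hx => ?_
    rw [Finset.mem_Ico] at hx
    exact hg x (by rw [min_eq_left hab]; exact hx.1) (by rw [max_eq_right hab]; exact hx.2)
  · have hba : b ≤ a := (not_le.1 hab).le
    congr 1
    refine Finset.sum_congr rfl fun x hx => ?_
    rw [Finset.mem_Ico] at hx
    exact hg x (by rw [min_eq_right hba]; exact hx.1) (by rw [max_eq_left hba]; exact hx.2)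

/-- an oriented sum of increments telescopes -/
theorem scr52g_osum (a b : ℤ) (g h : ℤ → ℝ) (hg : ∀ x, min a b ≤ x → x < max a b → g x = h (x + 1) - h x) :
    scrOsum a b g = h b - h a := by
  rw [scr52g_osum_congr a b g (fun x => h (x + 1) - h x) hg]
  unfold scrOsum
  split_ifs with hab
  · exact scr52g_tele h hab
  · rw [scr52g_tele h (not_le.1 hab).le]
    ring

/-! ### 2. the increment along the L-shaped path -/

/-- the L-shaped path from `v₀` to `v` reads faces of `F` only. -/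
def Scr52gPath (F : Finset (ℤ × ℤ)) (v₀ v : ℤ × ℤ) : Prop :=
  (∀ x, min v₀.1 v.1 ≤ x → x < max v₀.1 v.1 → (x, v₀.2) ∈ F) ∧
    ∀ y, min v₀.2 v.2 ≤ y → y < max v₀.2 v.2 → (v.1, y) ∈ F

/-- the increment along the L-shaped path, read on two spin functions. -/
noncomputable def scr52gInc (s d : ℤ × ℤ → ℝ) (v₀ v : ℤ × ℤ) : ℝ :=
  scrOsum v₀.1 v.1 (fun x => (s (x, v₀.2) - s (x + 1, v₀.2)) * d (x, v₀.2) / 2) +
    scrOsum v₀.2 v.2 (fun y => (s (v.1, y) - s (v.1, y + 1)) * d (v.1, y) / 2)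

theorem scr52g_S_eq {F : Finset (ℤ × ℤ)} (ω : RswCfg) {w : ℤ × ℤ} (hw : w ∈ cornersOf F) :
    scrS ω w = (atSpin (rswTau F ω) w : ℝ) := by
  rw [rswd11_spin ω hw]
  unfold scrS
  split_ifs <;> simp

theorem scr52g_D_eq {F : Finset (ℤ × ℤ)} (ω : RswCfg) {f : ℤ × ℤ} (hf : f ∈ F) :
    scrD ω f = (atDual (rswTauD F ω) f : ℝ) := by
  rw [rswd11_dual ω hf]
  unfold scrD
  split_ifs <;> simp

/-- `scrInc` only reads the two spin fields of Def_0468 along the path. -/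
theorem scr52g_inc_cfg {F : Finset (ℤ × ℤ)} (ω : RswCfg) {v₀ v : ℤ × ℤ} (hp : Scr52gPath F v₀ v) :
    scrInc ω v₀ v = scr52gInc (fun w => (atSpin (rswTau F ω) w : ℝ)) (fun f => (atDual (rswTauD F ω) f : ℝ)) v₀ v := by
  unfold scrInc scr52gInc
  congr 1
  · refine scr52g_osum_congr _ _ _ _ fun x h1 h2 => ?_
    have hf := hp.1 x h1 h2
    have he : rswEnd ((x, v₀.2), false) = (x + 1, v₀.2) := by simp [rswEnd]
    unfold scrStep
    rw [he]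
    simp only
    rw [scr52g_S_eq (F := F) ω (rswd11_face_corner hf), scr52g_D_eq ω hf,
      scr52g_S_eq (F := F) ω (by have := rswd11_end_corner (F := F) (e := ((x, v₀.2), false)) hf; rwa [he] at this)]
  · refine scr52g_osum_congr _ _ _ _ fun y h1 h2 => ?_
    have hf := hp.2 y h1 h2
    have he : rswEnd ((v.1, y), true) = (v.1, y + 1) := by simp [rswEnd]
    unfold scrStep
    rw [he]
    simp only
    rw [scr52g_S_eq (F := F) ω (rswd11_face_corner hf), scr52g_D_eq ω hf,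
      scr52g_S_eq (F := F) ω (by have := rswd11_end_corner (F := F) (e := ((v.1, y), true)) hf; rwa [he] at this)]

/-- on a solution of the height equations the path increment is the height difference. -/
theorem scr52g_inc_height {F : Finset (ℤ × ℤ)} {τ : cornersOf F → Bool} {τd : F → Bool} {Hv Hf : ℤ × ℤ → ℝ}
    (h : IsATHeight τ τd Hv Hf) {v₀ v : ℤ × ℤ} (hp : Scr52gPath F v₀ v) :
    scr52gInc (fun w => (atSpin τ w : ℝ)) (fun f => (atDual τd f : ℝ)) v₀ v = Hv v - Hv v₀ := by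
  rw [at92h_isHeight_iff] at h
  unfold scr52gInc
  rw [scr52g_osum v₀.1 v.1 _ (fun x => Hv (x, v₀.2)) (fun x h1 h2 => by
      have hf := hp.1 x h1 h2
      have a1 := h.2 _ hf (x, v₀.2) (by simp [at92hCor])
      have a2 := h.2 _ hf (x + 1, v₀.2) (by simp [at92hCor])
      simp only
      linarith),
    scr52g_osum v₀.2 v.2 _ (fun y => Hv (v.1, y)) (fun y h1 h2 => by
      have hf := hp.2 y h1 h2
      have a1 := h.2 _ hf (v.1, y) (by simp [at92hCor])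
      have a2 := h.2 _ hf (v.1, y + 1) (by simp [at92hCor])
      simp only
      linarith)]
  simp only [Prod.mk.eta]
  ring

/-- **step (2)**: on admissible configurations of a flat `F`, path inside `F`: `scrInc ω v₀ v = H v - H v₀`. -/
theorem scr52g_inc {F : Finset (ℤ × ℤ)} (ω : RswCfg) {Hv Hf : ℤ × ℤ → ℝ}
    (h : IsATHeight (rswTau F ω) (rswTauD F ω) Hv Hf) {v₀ v : ℤ × ℤ} (hp : Scr52gPath F v₀ v) :
    scrInc ω v₀ v = Hv v - Hv v₀ := by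
  rw [scr52g_inc_cfg ω hp, scr52g_inc_height h hp]

/-- a configuration of nonzero weight is admissible. -/
theorem scr52g_adm_of_wt {t : ℝ} {F : Finset (ℤ × ℤ)} {ω : RswCfg} (h : rswWt t F true ω ≠ 0) :
    IsAdmissibleSpins (rswTau F ω) (rswTauD F ω) := by
  classical
  unfold rswWt at h
  by_cases hbc : RswBc F true ω
  · rw [if_pos hbc] at h
    have hbc' : ∀ v ∈ cornersOf F, OnPolygon F v → atSpin (rswTau F ω) v = 1 := by
      intro v hv hp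
      rw [rswd11_spin ω hv, if_pos ((hbc v hv hp).2 rfl)]
    rw [rswd11_adm_iff _ hbc']
    rintro e he ⟨hs, hd⟩
    rw [rswd11_sdis_iff ω he] at hs
    rw [rswd11_ddis_iff ω he] at hd
    have := Finset.prod_ne_zero_iff.1 h e he
    unfold rswFac at this
    simp [hs, hd] at this
  · rw [if_neg hbc] at h
    exact absurd rfl h

/-- on the support of the weight: `scrInc` is the difference of the frozen height `rswH F`. -/
theorem scr52g_inc_rswH' {t δ : ℝ} (hδ : 0 < δ) {F : Finset (ℤ × ℤ)}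
    (hc : IsPreconnected (frontier (faceRegionSq δ F))) {ω : RswCfg} (h : rswWt t F true ω ≠ 0)
    {v₀ v : ℤ × ℤ} (hp : Scr52gPath F v₀ v) : scrInc ω v₀ v = rswH F ω v - rswH F ω v₀ := by
  obtain ⟨Hf, hH⟩ := at249_height_spec hδ hc (scr52g_adm_of_wt h)
  exact scr52g_inc ω hH hp

theorem scr52g_inc_rswH {t : ℝ} {F : Finset (ℤ × ℤ)} (hJ : RswJordan F) {ω : RswCfg} (h : rswWt t F true ω ≠ 0)
    {v₀ v : ℤ × ℤ} (hp : Scr52gPath F v₀ v) : scrInc ω v₀ v = rswH F ω v - rswH F ω v₀ := by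
  obtain ⟨γ, hγc, -, hγr⟩ := hJ
  exact scr52g_inc_rswH' one_pos (by rw [← hγr]; exact isPreconnected_range hγc) h hp

/-- two lattice points of a square inside the region are joined by an L-shaped path inside `F`. -/
theorem scr52g_path {δ : ℝ} (hδ : 0 < δ) {F : Finset (ℤ × ℤ)} {z : ℝ × ℝ} {r' : ℝ}
    (hF : scrSq z r' ⊆ faceRegionSq δ F) {v₀ v : ℤ × ℤ}
    (h1 : |δ * (v₀.1 : ℝ) - z.1| ≤ r') (h2 : |δ * (v₀.2 : ℝ) - z.2| ≤ r')
    (h3 : |δ * (v.1 : ℝ) - z.1| ≤ r') (h4 : |δ * (v.2 : ℝ) - z.2| ≤ r') : Scr52gPath F v₀ v := by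
  rw [abs_le] at h1 h2 h3 h4
  constructor
  · intro x hx1 hx2
    refine scr52_face_of_mem hδ (hF ?_)
    simp only [scrSq, Set.mem_prod, Set.mem_Icc]
    have c1 : ((min v₀.1 v.1 : ℤ) : ℝ) ≤ x := by exact_mod_cast hx1
    have c2 : (x : ℝ) ≤ ((max v₀.1 v.1 : ℤ) : ℝ) := by exact_mod_cast hx2.le
    push_cast at c1 c2
    have d1 : δ * min (v₀.1 : ℝ) v.1 ≤ δ * x := mul_le_mul_of_nonneg_left c1 hδ.le
    have d2 : δ * x ≤ δ * max (v₀.1 : ℝ) v.1 := mul_le_mul_of_nonneg_left c2 hδ.le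
    refine ⟨⟨?_, ?_⟩, ?_, ?_⟩
    · rcases min_choice (v₀.1 : ℝ) v.1 with e | e <;> rw [e] at d1 <;> linarith [h1.1, h3.1]
    · rcases max_choice (v₀.1 : ℝ) v.1 with e | e <;> rw [e] at d2 <;> linarith [h1.2, h3.2]
    · linarith [h2.1]
    · linarith [h2.2]
  · intro y hy1 hy2
    refine scr52_face_of_mem hδ (hF ?_)
    simp only [scrSq, Set.mem_prod, Set.mem_Icc]
    have c1 : ((min v₀.2 v.2 : ℤ) : ℝ) ≤ y := by exact_mod_cast hy1
    have c2 : (y : ℝ) ≤ ((max v₀.2 v.2 : ℤ) : ℝ) := by exact_mod_cast hy2.le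
    push_cast at c1 c2
    have d1 : δ * min (v₀.2 : ℝ) v.2 ≤ δ * y := mul_le_mul_of_nonneg_left c1 hδ.le
    have d2 : δ * y ≤ δ * max (v₀.2 : ℝ) v.2 := mul_le_mul_of_nonneg_left c2 hδ.le
    refine ⟨⟨?_, ?_⟩, ?_, ?_⟩
    · linarith [h3.1]
    · linarith [h3.2]
    · rcases min_choice (v₀.2 : ℝ) v.2 with e | e <;> rw [e] at d1 <;> linarith [h2.1, h4.1]
    · rcases max_choice (v₀.2 : ℝ) v.2 with e | e <;> rw [e] at d2 <;> linarith [h2.2, h4.2]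

/-! ### 3. the insertion `scrIns` read on the pair of spin fields of Def_0468 -/

/-- the insertion `scrIns` read on a pair of spin fields of Def_0468. -/
noncomputable def scr52gB (δ : ℝ) (z : ℝ × ℝ) (φ : ℝ × ℝ → ℝ) {F : Finset (ℤ × ℤ)} (p : at92Cfg F) : ℝ :=
  (aspW δ (lap2 φ)).sum fun v x =>
    x * scr52gInc (fun w => (atSpin p.1 w : ℝ)) (fun f => (atDual p.2 f : ℝ)) (scr52Base δ z) v

/-- the sites which carry the array `aspW δ (Δφ)` are joined to the base corner inside `F`. -/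
theorem scr52g_supp_path {φ : ℝ × ℝ → ℝ} (hφ : ContDiff ℝ ((⊤ : ℕ∞) : WithTop ℕ∞) φ) {z : ℝ × ℝ} {ρ₀ r' : ℝ}
    (hρ0 : 0 ≤ ρ₀) (hρ : tsupport φ ⊆ Metric.ball z ρ₀) {δ : ℝ} (hδ : 0 < δ) (hr : ρ₀ + δ ≤ r')
    {F : Finset (ℤ × ℤ)} (hF : scrSq z r' ⊆ faceRegionSq δ F) :
    ∀ v ∈ (aspW δ (lap2 φ)).support, Scr52gPath F (scr52Base δ z) v := by
  have hgs : tsupport (lap2 φ) ⊆ Metric.ball z ρ₀ := (scr52_lap_tsupport hφ).trans hρ
  have hgc : HasCompactSupport (lap2 φ) :=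
    IsCompact.of_isClosed_subset (isCompact_closedBall z ρ₀) (isClosed_tsupport _)
      (hgs.trans Metric.ball_subset_closedBall)
  intro v hv
  rw [Finsupp.mem_support_iff, riem262_W_apply hδ hgc] at hv
  obtain ⟨h1, h2⟩ := scr52_Wt_near hδ hgs hv
  exact scr52g_path hδ hF ((scr52_base_near hδ z.1).trans (by linarith))
    ((scr52_base_near hδ z.2).trans (by linarith)) (h1.trans hr) (h2.trans hr)

theorem scr52g_ins_eq {δ : ℝ} {z : ℝ × ℝ} {φ : ℝ × ℝ → ℝ} {F : Finset (ℤ × ℤ)}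
    (hp : ∀ v ∈ (aspW δ (lap2 φ)).support, Scr52gPath F (scr52Base δ z) v) (ω : RswCfg) :
    scrIns δ z φ ω = scr52gB δ z φ (F := F) (rswTau F ω, rswTauD F ω) := by
  unfold scrIns scrArr scr52gB
  refine Finsupp.sum_congr fun v hv => ?_
  rw [← scr52g_inc_cfg ω (hp v hv)]
  rfl

theorem scr52g_B_height {δ : ℝ} {z : ℝ × ℝ} {φ : ℝ × ℝ → ℝ} {F : Finset (ℤ × ℤ)}
    (hp : ∀ v ∈ (aspW δ (lap2 φ)).support, Scr52gPath F (scr52Base δ z) v) {p : at92Cfg F} {Hv Hf : ℤ × ℤ → ℝ}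
    (h : IsATHeight p.1 p.2 Hv Hf) :
    scr52gB δ z φ p = rswArr (aspW δ (lap2 φ)) fun v => Hv v - Hv (scr52Base δ z) := by
  unfold scr52gB rswArr
  refine Finsupp.sum_congr fun v hv => ?_
  rw [scr52g_inc_height h (hp v hv)]

/-! ### 4. exterior observables -/

theorem scr52g_ext {δ : ℝ} (hδ : 0 < δ) {F : Finset (ℤ × ℤ)} {z : ℝ × ℝ} {r r₁ : ℝ} (hr : r₁ + δ / 2 ≤ r)
    {G : at92Cfg F → ℝ} (hG : ScrExt δ F (scrSq z r) G) :
    ScrIn δ (scrSq z r₁)ᶜ fun ω => G (rswTau F ω, rswTauD F ω) := by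
  intro ω ω' hS hD _
  refine hG _ _ (fun v hv => ?_) (fun f hf => ?_)
  · have hm : scr232P δ v.1 ∈ (scrSq z r₁)ᶜ := by
      intro hmem
      apply hv
      simp only [scr232P, scrSq, Set.mem_prod, Set.mem_Icc] at hmem ⊢
      refine ⟨⟨?_, ?_⟩, ?_, ?_⟩ <;> linarith [hmem.1.1, hmem.1.2, hmem.2.1, hmem.2.2]
    simp only [rswTau]
    exact decide_eq_decide.2 (hS _ hm)
  · have hm : scr232P δ f.1 ∈ (scrSq z r₁)ᶜ := by
      intro hmem
      apply hf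
      simp only [scr232P, scrSq, Set.mem_prod, Set.mem_Icc] at hmem ⊢
      refine ⟨⟨?_, ?_⟩, ?_, ?_⟩ <;> nlinarith [hmem.1.1, hmem.1.2, hmem.2.1, hmem.2.2]
    simp only [rswTauD]
    exact decide_eq_decide.2 (hD _ hm)

/-! ### 5. from sequences of meshes to a threshold -/

theorem scr52g_seq {P : ℝ → Prop}
    (h : ∀ δ : ℕ → ℝ, (∀ n, 0 < δ n) → Tendsto δ atTop (𝓝 0) → ∀ᶠ n in atTop, P (δ n)) :
    ∃ δ₀ : ℝ, 0 < δ₀ ∧ ∀ δ : ℝ, 0 < δ → δ < δ₀ → P δ := by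
  by_contra hcon
  push Not at hcon
  choose! f hf using hcon
  have hpos : ∀ n : ℕ, 0 < (1 : ℝ) / ((n : ℝ) + 1) := fun n => by positivity
  have key := h (fun n => f (1 / ((n : ℝ) + 1))) (fun n => (hf _ (hpos n)).1)
    (squeeze_zero (fun n => (hf _ (hpos n)).1.le) (fun n => (hf _ (hpos n)).2.1.le)
      tendsto_one_div_add_atTop_nhds_zero_nat)
  obtain ⟨n, hn⟩ := key.exists
  exact (hf _ (hpos n)).2.2 hn

/-! ### 6. the glue -/

/-- the text of `scr_cut_flat`, as a proposition. -/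
def Scr52gFlat : Prop :=
  ∀ (t : ℝ), 1 / 2 ≤ t → t < 1 → ∀ (z : ℝ × ℝ) (r r' : ℝ), 0 < r → r < r' →
    ∀ (φ : ℝ × ℝ → ℝ), ContDiff ℝ ((⊤ : ℕ∞) : WithTop ℕ∞) φ → tsupport φ ⊆ Metric.ball z (r / 900) →
    ∀ (δ : ℕ → ℝ), (∀ n, 0 < δ n) → Tendsto δ atTop (𝓝 0) → ∀ (ε : ℝ), 0 < ε →
    ∀ᶠ n in atTop, ∀ F : Finset (ℤ × ℤ), ScrFlat (δ n) F → scrSq z r' ⊆ faceRegionSq (δ n) F →
      ∀ G : RswCfg → ℝ, (∀ ω, |G ω| ≤ 1) → ScrIn (δ n) (scrSq z r)ᶜ G →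
      |rswE t F true fun ω => scrIns (δ n) z φ ω * G ω| ≤ ε

/-- **THE TOP GLUE**: the text of `at_screen` from the text of `scr_cut_flat`.  0 sorry, no citation of an open leaf. -/
theorem scr52g_screen_of_flat (hflat : Scr52gFlat)
    (t : ℝ) (ht1 : 1 / 2 ≤ t) (ht2 : t < 1) (z : ℝ × ℝ) (r r' R : ℝ) (hr : 0 < r) (hrr : r < r')
    (φ : ℝ × ℝ → ℝ) (hφ : ContDiff ℝ ((⊤ : ℕ∞) : WithTop ℕ∞) φ) (hφs : tsupport φ ⊆ Metric.ball z (r / 1000))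
    (ε : ℝ) (hε : 0 < ε) :
    ∃ δ₀ : ℝ, 0 < δ₀ ∧ ∀ δ : ℝ, 0 < δ → δ < δ₀ → ∀ F : Finset (ℤ × ℤ), ScrFlat δ F →
      scrSq z r' ⊆ faceRegionSq δ F → faceRegionSq δ F ⊆ scrSq z R →
      ∀ G : at92Cfg F → ℝ, (∀ p, |G p| ≤ 1) → ScrExt δ F (scrSq z r) G →
        |scrE t F (fun p => at92X δ (lap2 φ) p * G p)| ≤ ε := by
  have ht : 0 < t := by linarith
  refine scr52_screen_of_neutral ht z r r' R hr hrr φ hφ hφs ?_ ε hε
  clear hε ε
  intro ε hε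
  have hs9 : tsupport φ ⊆ Metric.ball z (9 / 10 * r / 900) := by
    have e : 9 / 10 * r / 900 = r / 1000 := by ring
    rw [e]
    exact hφs
  obtain ⟨δ₁, hδ₁, H1⟩ := scr52g_seq (P := fun δ => ∀ F : Finset (ℤ × ℤ), ScrFlat δ F →
      scrSq z r' ⊆ faceRegionSq δ F → ∀ G : RswCfg → ℝ, (∀ ω, |G ω| ≤ 1) → ScrIn δ (scrSq z (9 / 10 * r))ᶜ G →
      |rswE t F true fun ω => scrIns δ z φ ω * G ω| ≤ ε / 2)
    (fun δ hδ hδ0 => hflat t ht1 ht2 z (9 / 10 * r) r' (by positivity) (by linarith) φ hφ hs9 δ hδ hδ0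
      (ε / 2) (by positivity))
  obtain ⟨K, hK, hdiff⟩ := scr52_pt_sub_cell hφ r' hφs
  set K' := 2 * K * (2 * |R| + 1) + 1 with hK'
  have hK'pos : 0 < K' := by positivity
  refine ⟨min (min δ₁ 1) (min (r / 5) (ε / (2 * K'))), by positivity, ?_⟩
  intro δ hδ hlt F hfl hin hout G hG hext
  have l1 : δ < δ₁ := lt_of_lt_of_le hlt ((min_le_left _ _).trans (min_le_left _ _))
  have l2 : δ < 1 := lt_of_lt_of_le hlt ((min_le_left _ _).trans (min_le_right _ _))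
  have l3 : δ < r / 5 := lt_of_lt_of_le hlt ((min_le_right _ _).trans (min_le_left _ _))
  have l4 : δ < ε / (2 * K') := lt_of_lt_of_le hlt ((min_le_right _ _).trans (min_le_right _ _))
  have hrδ : r / 1000 + δ ≤ r' := by linarith
  have hv₀ : scr52Base δ z ∈ cornersOf F := scr52_base_mem hδ (by linarith) hin
  have hc : IsPreconnected (frontier (faceRegionSq δ F)) := by
    obtain ⟨γ, hγc, -, hγr⟩ := hfl
    rw [← hγr]
    exact isPreconnected_range hγc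
  have hpath := scr52g_supp_path hφ (by positivity) hφs hδ hrδ hin
  have e : (fun p : at92Cfg F => scr52X0 δ (lap2 φ) (scr52Base δ z) p * G p) = fun p =>
      scr52gB δ z φ p * G p + (scr52X0 δ (lap2 φ) (scr52Base δ z) p - scr52gB δ z φ p) * G p := by
    funext p
    ring
  rw [e, scr52_E_add]
  have e1 : scrE t F (fun p => scr52gB δ z φ p * G p) =
      rswE t F true fun ω => scrIns δ z φ ω * G (rswTau F ω, rswTauD F ω) := by
    have e2 : (fun ω => scrIns δ z φ ω * G (rswTau F ω, rswTauD F ω)) =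
        fun ω => (fun p : at92Cfg F => scr52gB δ z φ p * G p) (rswTau F ω, rswTauD F ω) :=
      funext fun ω => by rw [scr52g_ins_eq hpath ω]
    rw [e2]
    exact (rswd11_E t F (fun p : at92Cfg F => scr52gB δ z φ p * G p)).symm
  have b1 : |scrE t F (fun p => scr52gB δ z φ p * G p)| ≤ ε / 2 := by
    rw [e1]
    exact H1 δ hδ l1 F hfl hin _ (fun ω => hG _) (scr52g_ext hδ (by linarith) hext)
  have b2 : |scrE t F (fun p => (scr52X0 δ (lap2 φ) (scr52Base δ z) p - scr52gB δ z φ p) * G p)| ≤ ε / 2 := by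
    refine scr52_E_abs_le ht F _ fun p hp => ?_
    obtain ⟨Hf, hH⟩ := at249_height_spec hδ hc ((at92_mem_adm p).1 hp)
    have hl : ∀ v ∈ cornersOf F, |atHeight p.1 p.2 v| ≤ 2 * |R| / δ + 1 := by
      intro v hv
      refine (scr52_level hδ hout hH hv).trans ?_
      have : 2 * R / δ ≤ 2 * |R| / δ := by
        gcongr
        exact le_abs_self R
      linarith
    have hl2 : ∀ v ∈ cornersOf F, |atHeight p.1 p.2 v - atHeight p.1 p.2 (scr52Base δ z)| ≤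
        2 * (2 * |R| / δ + 1) := by
      intro v hv
      refine (abs_sub _ _).trans ?_
      linarith [hl v hv, hl _ hv₀]
    have hd := hdiff δ hδ l2.le hrδ F hin (fun v => atHeight p.1 p.2 v - atHeight p.1 p.2 (scr52Base δ z)) _
      (by positivity) hl2
    rw [← scr52g_B_height hpath hH] at hd
    rw [abs_mul]
    calc _ ≤ (K * δ ^ 2 * (2 * (2 * |R| / δ + 1))) * 1 := mul_le_mul hd (hG p) (abs_nonneg _) (by positivity)
      _ = 2 * K * (2 * |R| * δ + δ ^ 2) := by field_simp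
      _ ≤ 2 * K * ((2 * |R| + 1) * δ) := by
          gcongr
          nlinarith [abs_nonneg R]
      _ ≤ K' * δ := by rw [hK']; nlinarith
      _ ≤ ε / 2 := by
          rw [lt_div_iff₀ (by positivity)] at l4
          nlinarith
  calc _ ≤ |scrE t F fun p => scr52gB δ z φ p * G p| +
        |scrE t F fun p => (scr52X0 δ (lap2 φ) (scr52Base δ z) p - scr52gB δ z φ p) * G p| := abs_add_le _ _
    _ ≤ ε / 2 + ε / 2 := add_le_add b1 b2
    _ = ε := by ring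

/-! ### 7. leaves (D), (C) of `Screen/Mom221` (AT Lemma 5.2): the Laplace array, translations, the constant -/

theorem scr52m_lap_int {φ : ℝ × ℝ → ℝ} (hφ : ContDiff ℝ ((⊤ : ℕ∞) : WithTop ℕ∞) φ) (hc : HasCompactSupport φ) :
    ∫ z, lap2 φ z = 0 := by
  have h := Claimed.Agent.R291.wkg_green (D := Set.univ) isOpen_univ (u := fun _ => (1 : ℝ))
    (φ := φ) contDiffOn_const (hφ.of_le (by norm_cast)) hc (Set.subset_univ _)
  have h1 : ∀ z, Claims.C0467.lap2 (fun _ : ℝ × ℝ => (1 : ℝ)) z = 0 := by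
    intro z; simp [Claims.C0467.lap2]
  simp only [one_mul, h1, mul_zero, integral_zero] at h
  exact h

theorem scr52m_mem_box {z v : ℤ × ℤ} {n : ℕ} :
    v ∈ rswBox z n ↔ (z.1 - n ≤ v.1 ∧ v.1 < z.1 + n) ∧ (z.2 - n ≤ v.2 ∧ v.2 < z.2 + n) := by
  unfold rswBox
  rw [Finset.mem_product, Finset.mem_Ico, Finset.mem_Ico]

/-- `|δ a| ≤ r / 2 + δ` puts the integer `a` in `[-(⌊r / (2 δ)⌋₊ + 2), ⌊r / (2 δ)⌋₊ + 2)`. -/
theorem scr52m_coord {δ r : ℝ} (hδ : 0 < δ) {a : ℤ} (h : |δ * (a : ℝ)| ≤ r / 2 + δ) :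
    -((⌊r / (2 * δ)⌋₊ + 2 : ℕ) : ℤ) ≤ a ∧ a < ((⌊r / (2 * δ)⌋₊ + 2 : ℕ) : ℤ) := by
  have hq : r / (2 * δ) < (⌊r / (2 * δ)⌋₊ : ℝ) + 1 := Nat.lt_floor_add_one _
  have hq' : r / 2 < δ * ((⌊r / (2 * δ)⌋₊ : ℝ) + 1) := by
    rw [div_lt_iff₀ (by positivity)] at hq
    nlinarith
  rw [abs_le] at h
  have h1 : (a : ℝ) < (⌊r / (2 * δ)⌋₊ : ℝ) + 2 := by
    by_contra hcon
    push Not at hcon
    nlinarith [h.2]
  have h2 : -((⌊r / (2 * δ)⌋₊ : ℝ) + 2) < (a : ℝ) := by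
    by_contra hcon
    push Not at hcon
    nlinarith [h.1]
  constructor
  · have : ((-((⌊r / (2 * δ)⌋₊ + 2 : ℕ) : ℤ) : ℤ) : ℝ) < (a : ℝ) := by push_cast; linarith
    exact (by exact_mod_cast this : -((⌊r / (2 * δ)⌋₊ + 2 : ℕ) : ℤ) < a).le
  · have : (a : ℝ) < (((⌊r / (2 * δ)⌋₊ + 2 : ℕ) : ℤ) : ℝ) := by push_cast; linarith
    exact_mod_cast this

/-- leaf (D) `mom221_array`, verbatim. -/
theorem scr52m_array (r : ℝ) (_hr : 0 < r) (φ : ℝ × ℝ → ℝ) (hφ : ContDiff ℝ ((⊤ : ℕ∞) : WithTop ℕ∞) φ)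
    (hφs : tsupport φ ⊆ Metric.ball (0 : ℝ × ℝ) (r / 2)) :
    ∃ Kc : ℝ, 0 ≤ Kc ∧ ∀ δ : ℝ, 0 < δ →
      (∀ v, |aspW δ (lap2 φ) v| ≤ Kc * δ ^ 2) ∧ (aspW δ (lap2 φ)).sum (fun _ x => x) = 0 ∧
      (aspW δ (lap2 φ)).support ⊆ rswBox 0 (⌊r / (2 * δ)⌋₊ + 2) := by
  have hg := scr52_lap_contDiff hφ
  have hgs : tsupport (lap2 φ) ⊆ Metric.ball (0 : ℝ × ℝ) (r / 2) := (scr52_lap_tsupport hφ).trans hφs
  have hgc : HasCompactSupport (lap2 φ) :=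
    IsCompact.of_isClosed_subset (isCompact_closedBall 0 (r / 2)) (isClosed_tsupport _)
      (hgs.trans Metric.ball_subset_closedBall)
  have hφc : HasCompactSupport φ :=
    IsCompact.of_isClosed_subset (isCompact_closedBall 0 (r / 2)) (isClosed_tsupport _)
      (hφs.trans Metric.ball_subset_closedBall)
  obtain ⟨Kc, hKc⟩ := hg.continuous.bounded_above_of_compact_support hgc
  have hKc0 : 0 ≤ Kc := (norm_nonneg _).trans (hKc 0)
  refine ⟨Kc, hKc0, fun δ hδ => ⟨fun v => ?_, ?_, fun v hv => ?_⟩⟩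
  · rw [riem262_W_apply hδ hgc, ← riem262_cell_real hδ v, ← Real.norm_eq_abs]
    exact norm_setIntegral_le_of_norm_le_const (riem262_cell_lt_top hδ v) fun x _ => hKc x
  · have := riem262_W_tot hδ hg.continuous hgc
    unfold aspTot at this
    rw [this, scr52m_lap_int hφ hφc]
  · rw [Finsupp.mem_support_iff, riem262_W_apply hδ hgc] at hv
    obtain ⟨h1, h2⟩ := scr52_Wt_near hδ hgs hv
    simp only [Prod.fst_zero, Prod.snd_zero, sub_zero] at h1 h2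
    obtain ⟨a1, a2⟩ := scr52m_coord hδ h1
    obtain ⟨b1, b2⟩ := scr52m_coord hδ h2
    rw [scr52m_mem_box]
    simp only [Prod.fst_zero, Prod.snd_zero, zero_sub, zero_add]
    exact ⟨⟨a1, a2⟩, b1, b2⟩

theorem scr52m_osum_shift (a b c : ℤ) (g : ℤ → ℝ) :
    scrOsum (a + c) (b + c) g = scrOsum a b fun x => g (x + c) := by
  have e : ∀ a b : ℤ, ∑ x ∈ Finset.Ico (a + c) (b + c), g x = ∑ x ∈ Finset.Ico a b, g (x + c) := by
    intro a b
    rw [← Finset.map_add_right_Ico a b c, Finset.sum_map]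
    rfl
  unfold scrOsum
  by_cases h : a ≤ b
  · rw [if_pos h, if_pos (by omega), e]
  · rw [if_neg h, if_neg (by omega), e]

theorem scr52m_S_tr (a : ℤ × ℤ) (ω : RswCfg) (v : ℤ × ℤ) : scrS (scrAct (scrTr (-a)) ω) v = scrS ω (v + a) := by
  have : v ∈ (scrAct (scrTr (-a)) ω).S ↔ v + a ∈ ω.S := by
    simp only [scrAct, scrTr, Finset.mem_image]
    constructor
    · rintro ⟨w, hw, rfl⟩
      simpa using hw
    · intro h
      exact ⟨v + a, h, by simp⟩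
  unfold scrS
  simp only [this]

theorem scr52m_D_tr (a : ℤ × ℤ) (ω : RswCfg) (v : ℤ × ℤ) : scrD (scrAct (scrTr (-a)) ω) v = scrD ω (v + a) := by
  have : v ∈ (scrAct (scrTr (-a)) ω).D ↔ v + a ∈ ω.D := by
    simp only [scrAct, scrTr, Finset.mem_image]
    constructor
    · rintro ⟨w, hw, rfl⟩
      simpa using hw
    · intro h
      exact ⟨v + a, h, by simp⟩
  unfold scrD
  simp only [this]

theorem scr52m_step_tr (a : ℤ × ℤ) (ω : RswCfg) (e : (ℤ × ℤ) × Bool) :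
    scrStep (scrAct (scrTr (-a)) ω) e = scrStep ω (e.1 + a, e.2) := by
  have he : rswEnd (e.1 + a, e.2) = rswEnd e + a := by
    unfold rswEnd
    cases e.2 <;> ext <;> simp <;> ring
  unfold scrStep
  rw [scr52m_S_tr, scr52m_S_tr, scr52m_D_tr, he]

theorem scr52m_inc_tr (a : ℤ × ℤ) (ω : RswCfg) (v₀ v : ℤ × ℤ) :
    scrInc (scrAct (scrTr (-a)) ω) v₀ v = scrInc ω (v₀ + a) (v + a) := by
  unfold scrInc
  simp only [Prod.fst_add, Prod.snd_add]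
  rw [scr52m_osum_shift, scr52m_osum_shift]
  congr 1
  · congr 1
    funext x
    rw [scr52m_step_tr]
    rfl
  · congr 1
    funext y
    rw [scr52m_step_tr]
    rfl

/-- the translated insertion of an array, any base point. -/
theorem scr52m_sh_arr (a : ℤ × ℤ) (b : (ℤ × ℤ) →₀ ℝ) (v₀ : ℤ × ℤ) (ω : RswCfg) :
    scrSh a (scrArr b v₀) ω = scrArr (aspTr a b) (v₀ + a) ω := by
  unfold scrSh scrArr aspTr
  rw [Finsupp.sum_mapDomain_index (fun _ => zero_mul _) (fun _ _ _ => add_mul _ _ _)]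
  refine Finsupp.sum_congr fun v _ => ?_
  rw [scr52m_inc_tr]

/-- leaf (D) `mom221_shift`, verbatim. -/
theorem scr52m_shift (a : ℤ × ℤ) (b : (ℤ × ℤ) →₀ ℝ) (ω : RswCfg) :
    scrSh a (scrArr b 0) ω = scrArr (aspTr a b) a ω := by
  rw [scr52m_sh_arr, zero_add]

/-- leaf (D) `mom221_tr_facts`, verbatim. -/
theorem scr52m_tr_facts (a : ℤ × ℤ) (b : (ℤ × ℤ) →₀ ℝ) (ρ : ℕ) (κ : ℝ) (hb : b.support ⊆ rswBox 0 ρ)
    (hneu : b.sum (fun _ x => x) = 0) (hκ : ∀ v, |b v| ≤ κ) :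
    (aspTr a b).support ⊆ rswBox a ρ ∧ (aspTr a b).sum (fun _ x => x) = 0 ∧ ∀ v, |aspTr a b v| ≤ κ := by
  classical
  refine ⟨fun v hv => ?_, ?_, fun v => ?_⟩
  · obtain ⟨u, hu, rfl⟩ := Finset.mem_image.1 (Finsupp.mapDomain_support hv)
    have := hb hu
    rw [scr52m_mem_box] at this ⊢
    simp only [Prod.fst_zero, Prod.snd_zero, Prod.fst_add, Prod.snd_add] at this ⊢
    omega
  · unfold aspTr
    rw [Finsupp.sum_mapDomain_index (fun _ => rfl) (fun _ _ _ => rfl), hneu]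
  · have e : aspTr a b v = b (v - a) := by
      have := Finsupp.mapDomain_apply (add_left_injective a) b (v - a)
      simpa [aspTr] using this
    rw [e]
    exact hκ _

theorem scr52m_div_le {δ : ℝ} (hδ : 0 < δ) (ρ j : ℕ) : δ * 2 ^ j * ((ρ / 2 ^ j : ℕ) : ℝ) ≤ δ * ρ := by
  have h1 : ((ρ / 2 ^ j : ℕ) : ℝ) ≤ (ρ : ℝ) / ((2 ^ j : ℕ) : ℝ) := Nat.cast_div_le
  push_cast at h1
  have h2 : (0 : ℝ) < 2 ^ j := by positivity
  calc δ * 2 ^ j * ((ρ / 2 ^ j : ℕ) : ℝ) ≤ δ * 2 ^ j * ((ρ : ℝ) / 2 ^ j) := by gcongr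
    _ = δ * ρ := by field_simp

theorem scr52m_const_aux (r c0 Kc C₂ δ : ℝ) (hr : 0 < r) (hc0 : 0 < c0) (hC : 0 ≤ C₂)
    (hδ : 0 < δ) (hδr : δ ≤ r / 4) (ρ I : ℕ) (hρ : δ * ρ ≤ r) (hI1 : δ * 2 ^ I ≤ c0 / 4) (hI2 : c0 / 8 ≤ δ * 2 ^ I) :
    (Kc * δ ^ 2 * 16) ^ 2 * (2 * (ρ : ℝ)) ^ 2
      + ∑ i ∈ Finset.range I, (Kc * δ ^ 2 * (4 * 2 ^ (i + 1)) ^ 2) ^ 2 * ((((ρ / 2 ^ i + 1 : ℕ) : ℝ)) ^ 2 * C₂)
      + (Kc * δ ^ 2 * (2 * (ρ : ℝ)) ^ 2) ^ 2 * ((((ρ / 2 ^ I + 1 : ℕ) : ℝ)) ^ 2 * C₂)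
    ≤ 64 * Kc ^ 2 * r ^ 4 + 4096 * Kc ^ 2 * C₂ * (r + c0 / 4) ^ 2 * (c0 / 4) ^ 2
      + 16 * Kc ^ 2 * r ^ 4 * C₂ * (8 * r / c0 + 1) ^ 2 := by
  have hρ0 : 0 ≤ δ * (ρ : ℝ) := by positivity
  have hK2 : 0 ≤ Kc ^ 2 := sq_nonneg _
  -- term 1
  have t1 : (Kc * δ ^ 2 * 16) ^ 2 * (2 * (ρ : ℝ)) ^ 2 ≤ 64 * Kc ^ 2 * r ^ 4 := by
    calc (Kc * δ ^ 2 * 16) ^ 2 * (2 * (ρ : ℝ)) ^ 2 = 1024 * Kc ^ 2 * (δ ^ 2 * (δ * ρ) ^ 2) := by ring
      _ ≤ 1024 * Kc ^ 2 * ((r / 4) ^ 2 * r ^ 2) := by gcongr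
      _ = 64 * Kc ^ 2 * r ^ 4 := by ring
  -- term 2
  have t2i : ∀ i ∈ Finset.range I,
      (Kc * δ ^ 2 * (4 * 2 ^ (i + 1)) ^ 2) ^ 2 * ((((ρ / 2 ^ i + 1 : ℕ) : ℝ)) ^ 2 * C₂) ≤
      4096 * Kc ^ 2 * C₂ * (r + c0 / 4) ^ 2 * (δ ^ 2 * 4 ^ i) := by
    intro i hi
    have hiI : i ≤ I := (Finset.mem_range.1 hi).le
    have hs : δ * 2 ^ i ≤ c0 / 4 := by
      refine le_trans ?_ hI1
      gcongr
      norm_num
    have hs0 : 0 ≤ δ * (2 : ℝ) ^ i := by positivity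
    have hn := scr52m_div_le hδ ρ i
    have hn0 : (0 : ℝ) ≤ ((ρ / 2 ^ i : ℕ) : ℝ) := Nat.cast_nonneg _
    have hb : δ * 2 ^ i * (((ρ / 2 ^ i : ℕ) : ℝ) + 1) ≤ r + c0 / 4 := by nlinarith
    have hb0 : 0 ≤ δ * 2 ^ i * (((ρ / 2 ^ i : ℕ) : ℝ) + 1) := by positivity
    have e4 : (4 : ℝ) ^ i = (2 ^ i) ^ 2 := by rw [← pow_mul, mul_comm, pow_mul]; norm_num
    calc (Kc * δ ^ 2 * (4 * 2 ^ (i + 1)) ^ 2) ^ 2 * ((((ρ / 2 ^ i + 1 : ℕ) : ℝ)) ^ 2 * C₂)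
        = 4096 * Kc ^ 2 * C₂ * (δ * 2 ^ i * (((ρ / 2 ^ i : ℕ) : ℝ) + 1)) ^ 2 * (δ ^ 2 * (2 ^ i) ^ 2) := by
          push_cast
          ring
      _ ≤ 4096 * Kc ^ 2 * C₂ * (r + c0 / 4) ^ 2 * (δ ^ 2 * (2 ^ i) ^ 2) := by gcongr
      _ = _ := by rw [e4]
  have hgeo : ∑ i ∈ Finset.range I, (4 : ℝ) ^ i ≤ 4 ^ I := by
    rw [geom_sum_eq (by norm_num)]
    have : (0 : ℝ) < 4 ^ I := by positivity
    rw [div_le_iff₀ (by norm_num)]
    linarith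
  have e4I : (4 : ℝ) ^ I = (2 ^ I) ^ 2 := by rw [← pow_mul, mul_comm, pow_mul]; norm_num
  have t2 : ∑ i ∈ Finset.range I,
      (Kc * δ ^ 2 * (4 * 2 ^ (i + 1)) ^ 2) ^ 2 * ((((ρ / 2 ^ i + 1 : ℕ) : ℝ)) ^ 2 * C₂) ≤
      4096 * Kc ^ 2 * C₂ * (r + c0 / 4) ^ 2 * (c0 / 4) ^ 2 := by
    calc _ ≤ ∑ i ∈ Finset.range I, 4096 * Kc ^ 2 * C₂ * (r + c0 / 4) ^ 2 * (δ ^ 2 * 4 ^ i) := Finset.sum_le_sum t2i
      _ = 4096 * Kc ^ 2 * C₂ * (r + c0 / 4) ^ 2 * (δ ^ 2 * ∑ i ∈ Finset.range I, (4 : ℝ) ^ i) := by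
          rw [Finset.mul_sum, Finset.mul_sum]
      _ ≤ 4096 * Kc ^ 2 * C₂ * (r + c0 / 4) ^ 2 * (δ ^ 2 * 4 ^ I) := by gcongr
      _ = 4096 * Kc ^ 2 * C₂ * (r + c0 / 4) ^ 2 * (δ * 2 ^ I) ^ 2 := by rw [e4I]; ring
      _ ≤ _ := by gcongr
  -- term 3
  have t3 : (Kc * δ ^ 2 * (2 * (ρ : ℝ)) ^ 2) ^ 2 * ((((ρ / 2 ^ I + 1 : ℕ) : ℝ)) ^ 2 * C₂) ≤
      16 * Kc ^ 2 * r ^ 4 * C₂ * (8 * r / c0 + 1) ^ 2 := by
    have hn := scr52m_div_le hδ ρ I
    have hn0 : (0 : ℝ) ≤ ((ρ / 2 ^ I : ℕ) : ℝ) := Nat.cast_nonneg _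
    have hnb : ((ρ / 2 ^ I : ℕ) : ℝ) ≤ 8 * r / c0 := by
      rw [le_div_iff₀ hc0]
      nlinarith
    calc (Kc * δ ^ 2 * (2 * (ρ : ℝ)) ^ 2) ^ 2 * ((((ρ / 2 ^ I + 1 : ℕ) : ℝ)) ^ 2 * C₂)
        = 16 * Kc ^ 2 * (δ * ρ) ^ 4 * C₂ * (((ρ / 2 ^ I : ℕ) : ℝ) + 1) ^ 2 := by
          push_cast
          ring
      _ ≤ 16 * Kc ^ 2 * r ^ 4 * C₂ * (8 * r / c0 + 1) ^ 2 := by gcongr
  linarith

/-- leaf (C) `mom221_const`, verbatim up to the unfolding of `mom221Bd`. -/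
theorem scr52m_const (r c0 Kc C₂ : ℝ) (hr : 0 < r) (hc0 : 0 < c0) (_hK : 0 ≤ Kc) (hC : 0 ≤ C₂) :
    ∃ C : ℝ, ∀ δ : ℝ, 0 < δ → δ < min (r / 4) (c0 / 4) →
      ((Kc * δ ^ 2 * 16) ^ 2 * (2 * ((⌊r / (2 * δ)⌋₊ + 2 : ℕ) : ℝ)) ^ 2
        + ∑ i ∈ Finset.range (Nat.log 2 ⌊c0 / (4 * δ)⌋₊), (Kc * δ ^ 2 * (4 * 2 ^ (i + 1)) ^ 2) ^ 2 *
            (((((⌊r / (2 * δ)⌋₊ + 2) / 2 ^ i + 1 : ℕ) : ℝ)) ^ 2 * C₂)
        + (Kc * δ ^ 2 * (2 * ((⌊r / (2 * δ)⌋₊ + 2 : ℕ) : ℝ)) ^ 2) ^ 2 *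
            (((((⌊r / (2 * δ)⌋₊ + 2) / 2 ^ (Nat.log 2 ⌊c0 / (4 * δ)⌋₊) + 1 : ℕ) : ℝ)) ^ 2 * C₂) ≤ C) ∧
      δ * ((⌊r / (2 * δ)⌋₊ + 2 + 4 * 2 ^ (Nat.log 2 ⌊c0 / (4 * δ)⌋₊) : ℕ) : ℝ) < r + c0 := by
  refine ⟨64 * Kc ^ 2 * r ^ 4 + 4096 * Kc ^ 2 * C₂ * (r + c0 / 4) ^ 2 * (c0 / 4) ^ 2
      + 16 * Kc ^ 2 * r ^ 4 * C₂ * (8 * r / c0 + 1) ^ 2, fun δ hδ hlt => ?_⟩
  have l1 : δ < r / 4 := lt_of_lt_of_le hlt (min_le_left _ _)
  have l2 : δ < c0 / 4 := lt_of_lt_of_le hlt (min_le_right _ _)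
  set ρ := ⌊r / (2 * δ)⌋₊ + 2 with hρdef
  set N := ⌊c0 / (4 * δ)⌋₊ with hN
  set I := Nat.log 2 N with hI
  have hfl : (⌊r / (2 * δ)⌋₊ : ℝ) ≤ r / (2 * δ) := Nat.floor_le (by positivity)
  have hρ : δ * (ρ : ℝ) < r := by
    rw [hρdef]
    push_cast
    rw [le_div_iff₀ (by positivity)] at hfl
    nlinarith
  have hq1 : (1 : ℝ) ≤ c0 / (4 * δ) := by
    rw [le_div_iff₀ (by positivity)]
    linarith
  have hN1 : 1 ≤ N := Nat.le_floor (by exact_mod_cast hq1)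
  have hNle : (N : ℝ) ≤ c0 / (4 * δ) := Nat.floor_le (by positivity)
  have hNlt : c0 / (4 * δ) < (N : ℝ) + 1 := Nat.lt_floor_add_one _
  have hp1 : 2 ^ I ≤ N := Nat.pow_log_le_self 2 (by omega)
  have hp2 : N < 2 ^ (I + 1) := Nat.lt_pow_succ_log_self (by norm_num) N
  have hp1' : ((2 : ℝ) ^ I) ≤ (N : ℝ) := by exact_mod_cast hp1
  have hp2' : (N : ℝ) + 1 ≤ (2 : ℝ) ^ (I + 1) := by exact_mod_cast hp2
  have hI1 : δ * 2 ^ I ≤ c0 / 4 := by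
    have : (2 : ℝ) ^ I ≤ c0 / (4 * δ) := hp1'.trans hNle
    rw [le_div_iff₀ (by positivity)] at this
    linarith
  have hI2 : c0 / 8 ≤ δ * 2 ^ I := by
    have : c0 / (4 * δ) < (2 : ℝ) ^ (I + 1) := lt_of_lt_of_le hNlt hp2'
    rw [div_lt_iff₀ (by positivity), pow_succ] at this
    linarith
  refine ⟨scr52m_const_aux r c0 Kc C₂ δ hr hc0 hC hδ l1.le ρ I hρ.le hI1 hI2, ?_⟩
  push_cast
  nlinarith

end Claimed.Agent.R292
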