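import Claimed.Agent.R292.Defs.ScreenPl
import Claimed.Agent.R292.Exit.RSW
import Claimed.Agent.R292.Bridge.Rect89
import Claimed.Agent.R292.Rsw.Base31

/-!
# Row 292 (S0540), Screen/Inv289 : (P1') INVARIANCE OF THE PLANE LAW      (helper289; prefix `scr289_`)

Leaf `scr_cut_inv` of `Screen/Cut229.lean`, from the covariance (P1) of the flat laws (taken as a HYPOTHESIS `hcov`, so that `Cut229` can import this file
and close its leaf by `scr289_cut_inv t ht1 ht2 X hX g hg (fun F b Y => scr_cut_cov t F b Y g hg)`) and the contract `exit_rsw_plane` of unit RSW.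
* `scr289_box_jordan`     `RswJordan (rswBox z n)`, `n ≥ 1`      (from `Bridge/Rect89`)
* `scr289_box_mono`, `scr289_box_shift`      inclusions of boxes
* `scr289_box_tr`, `scr289_box_re`      the image of a box under the face maps of `scrTr a`, `scrRe j`
* `scr289_pl_spec`        the plane expectation of a local observable IS the common limit of all flat exhaustions;  `scr289_pl_tendsto`, `scr289_pl_tendsto_of`
* `scr289_cut_inv`        (P1')
* locality: `scr289_loc_mono _const _map _map2 _add _sub _mul _const_mul _sum _act _sh _th`;  maps: `scr289_re_invol _re_inj _tr_inj _act_re_re _th_th _act_tr_tr _sh_sh _sh_zero`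
* calculus of `scrPl` on local observables: `scr289_pl_const _add _sub _const_mul _sum _mono _nonneg _abs_le _cauchy`
-/

set_option autoImplicit false

namespace Claimed.Agent.R292

open Claims Claims.C0468 Filter Topology

/-! ## boxes -/

theorem scr289_mem_box (z : ℤ × ℤ) (n : ℕ) (f : ℤ × ℤ) :
    f ∈ rswBox z n ↔ (z.1 - n ≤ f.1 ∧ f.1 < z.1 + n) ∧ (z.2 - n ≤ f.2 ∧ f.2 < z.2 + n) := by
  unfold rswBox
  simp only [Finset.mem_product, Finset.mem_Ico]

/-- a box of half side `n ≥ 1` is bounded by a Jordan curve. -/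
theorem scr289_box_jordan (z : ℤ × ℤ) (n : ℕ) (hn : 1 ≤ n) : RswJordan (rswBox z n) := by
  have hn' : (1 : ℤ) ≤ n := by exact_mod_cast hn
  have hx : z.1 - (n : ℤ) < z.1 + n := by omega
  have hy : z.2 - (n : ℤ) < z.2 + n := by omega
  unfold RswJordan rswBox
  rw [atb89_rect_region one_pos _ _ _ _ hx hy]
  have c1 : ((z.1 - (n : ℤ) : ℤ) : ℝ) < ((z.1 + (n : ℤ) : ℤ) : ℝ) := by exact_mod_cast hx
  have c2 : ((z.2 - (n : ℤ) : ℤ) : ℝ) < ((z.2 + (n : ℤ) : ℤ) : ℝ) := by exact_mod_cast hy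
  exact atb89_jordan (atb89_rectG (by linarith) (by linarith)) _

theorem scr289_box_mono (z : ℤ × ℤ) {m n : ℕ} (h : m ≤ n) : rswBox z m ⊆ rswBox z n := by
  intro f hf
  rw [scr289_mem_box] at hf ⊢
  have : (m : ℤ) ≤ n := by exact_mod_cast h
  omega

/-- a far box around `a` contains a given box around `0`. -/
theorem scr289_box_shift (a : ℤ × ℤ) (m n : ℕ) (h : m + a.1.natAbs + a.2.natAbs ≤ n) : rswBox 0 m ⊆ rswBox a n := by
  intro f hf
  rw [scr289_mem_box] at hf ⊢
  have h' : (m : ℤ) + a.1.natAbs + a.2.natAbs ≤ n := by exact_mod_cast h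
  simp only [Prod.fst_zero, Prod.snd_zero] at hf
  omega

theorem scr289_box_tr (a : ℤ × ℤ) (n : ℕ) : (rswBox 0 n).image (scrTr a).f = rswBox a n := by
  ext f
  simp only [Finset.mem_image, scr289_mem_box, scrTr, Prod.fst_zero, Prod.snd_zero]
  constructor
  · rintro ⟨v, hv, rfl⟩
    simp only [Prod.fst_add, Prod.snd_add]
    omega
  · intro h
    refine ⟨f - a, ?_, by simp⟩
    simp only [Prod.fst_sub, Prod.snd_sub]
    omega

theorem scr289_box_re (j : Fin 4) (n : ℕ) : (rswBox 0 n).image (scrRe j).f = rswBox 0 n := by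
  ext f
  simp only [Finset.mem_image, scr289_mem_box, Prod.fst_zero, Prod.snd_zero]
  fin_cases j
  · constructor
    · rintro ⟨v, hv, rfl⟩
      show (0 - (n : ℤ) ≤ v.1 ∧ v.1 < 0 + n) ∧ (0 - (n : ℤ) ≤ -v.2 - 1 ∧ -v.2 - 1 < 0 + n)
      omega
    · intro h
      refine ⟨(f.1, -f.2 - 1), ?_, ?_⟩
      · simp only; omega
      · show (f.1, -(-f.2 - 1) - 1) = f
        ext <;> simp
  · constructor
    · rintro ⟨v, hv, rfl⟩
      show (0 - (n : ℤ) ≤ -v.2 - 1 ∧ -v.2 - 1 < 0 + n) ∧ (0 - (n : ℤ) ≤ -v.1 - 1 ∧ -v.1 - 1 < 0 + n)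
      omega
    · intro h
      refine ⟨(-f.2 - 1, -f.1 - 1), ?_, ?_⟩
      · simp only; omega
      · show (-(-f.1 - 1) - 1, -(-f.2 - 1) - 1) = f
        ext <;> simp
  · constructor
    · rintro ⟨v, hv, rfl⟩
      show (0 - (n : ℤ) ≤ -v.1 - 1 ∧ -v.1 - 1 < 0 + n) ∧ (0 - (n : ℤ) ≤ v.2 ∧ v.2 < 0 + n)
      omega
    · intro h
      refine ⟨(-f.1 - 1, f.2), ?_, ?_⟩
      · simp only; omega
      · show (-(-f.1 - 1) - 1, f.2) = f
        ext <;> simp
  · constructor
    · rintro ⟨v, hv, rfl⟩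
      show (0 - (n : ℤ) ≤ v.2 ∧ v.2 < 0 + n) ∧ (0 - (n : ℤ) ≤ v.1 ∧ v.1 < 0 + n)
      omega
    · intro h
      refine ⟨(f.2, f.1), ?_, ?_⟩
      · simp only; omega
      · rfl

/-! ## the plane law -/

/-- the plane expectation of a local observable is the common limit of ALL flat exhaustions, both colours. -/
theorem scr289_pl_spec (t : ℝ) (ht1 : 1 / 2 ≤ t) (ht2 : t < 1) (X : RswCfg → ℝ) (hX : ScrLoc X) :
    ∀ ε : ℝ, 0 < ε → ∃ n0 : ℕ, ∀ (F : Finset (ℤ × ℤ)) (b : Bool),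
      RswJordan F → rswBox 0 n0 ⊆ F → |rswE t F b X - scrPl t X| < ε := by
  obtain ⟨R, R', hloc⟩ := hX
  obtain ⟨ℓ, hℓ⟩ := exit_rsw_plane t ht1 ht2 R R' X hloc
  have hlim : Tendsto (fun n : ℕ => rswE t (rswBox 0 n) true X) atTop (𝓝 ℓ) := by
    rw [Metric.tendsto_atTop]
    intro ε hε
    obtain ⟨n0, h0⟩ := hℓ ε hε
    refine ⟨max n0 1, fun n hn => ?_⟩
    rw [Real.dist_eq]
    exact h0 _ true (scr289_box_jordan 0 n (le_trans (le_max_right _ _) hn))
      (scr289_box_mono 0 (le_trans (le_max_left _ _) hn))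
  have e : scrPl t X = ℓ := hlim.limUnder_eq
  rw [e]
  exact hℓ

/-- convergence along any sequence of flat domains that exhausts the plane. -/
theorem scr289_pl_tendsto_of (t : ℝ) (ht1 : 1 / 2 ≤ t) (ht2 : t < 1) (X : RswCfg → ℝ) (hX : ScrLoc X)
    (F : ℕ → Finset (ℤ × ℤ)) (b : ℕ → Bool) (hJ : ∀ᶠ n in atTop, RswJordan (F n))
    (hex : ∀ m : ℕ, ∀ᶠ n in atTop, rswBox 0 m ⊆ F n) :
    Tendsto (fun n : ℕ => rswE t (F n) (b n) X) atTop (𝓝 (scrPl t X)) := by
  rw [Metric.tendsto_nhds]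
  intro ε hε
  obtain ⟨n0, h0⟩ := scr289_pl_spec t ht1 ht2 X hX ε hε
  filter_upwards [hJ, hex n0] with n h1 h2
  rw [Real.dist_eq]
  exact h0 _ _ h1 h2

theorem scr289_pl_tendsto (t : ℝ) (ht1 : 1 / 2 ≤ t) (ht2 : t < 1) (X : RswCfg → ℝ) (hX : ScrLoc X) (z : ℤ × ℤ) (b : Bool) :
    Tendsto (fun n : ℕ => rswE t (rswBox z n) b X) atTop (𝓝 (scrPl t X)) := by
  refine scr289_pl_tendsto_of t ht1 ht2 X hX _ (fun _ => b) ?_ ?_
  · filter_upwards [eventually_ge_atTop 1] with n hn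
    exact scr289_box_jordan z n hn
  · intro m
    filter_upwards [eventually_ge_atTop (m + z.1.natAbs + z.2.natAbs)] with n hn
    exact scr289_box_shift z m n hn

/-- **(P1') invariance of the plane law** under translations and the four reflections, from the covariance (P1) of the flat laws. -/
theorem scr289_cut_inv (t : ℝ) (ht1 : 1 / 2 ≤ t) (ht2 : t < 1) (X : RswCfg → ℝ) (hX : ScrLoc X) (g : ScrMapD)
    (hg : (∃ a, g = scrTr a) ∨ ∃ j, g = scrRe j)
    (hcov : ∀ (F : Finset (ℤ × ℤ)) (b : Bool) (Y : RswCfg → ℝ),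
      rswE t (F.image g.f) b Y = rswE t F b fun ω => Y (scrAct g ω)) :
    scrPl t (fun ω => X (scrAct g ω)) = scrPl t X := by
  have key : Tendsto (fun n : ℕ => rswE t (rswBox 0 n) true fun ω => X (scrAct g ω)) atTop (𝓝 (scrPl t X)) := by
    simp only [← hcov]
    rcases hg with ⟨a, rfl⟩ | ⟨j, rfl⟩
    · simp only [scr289_box_tr]
      exact scr289_pl_tendsto t ht1 ht2 X hX a true
    · simp only [scr289_box_re]
      exact scr289_pl_tendsto t ht1 ht2 X hX 0 true
  exact key.limUnder_eq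


/-! ## locality is stable -/

theorem scr289_loc_mono {R S : Finset (ℤ × ℤ)} {R' S' : Finset ((ℤ × ℤ) × Bool)} {X : RswCfg → ℝ} (h : RswLoc R R' X)
    (hR : R ⊆ S) (hR' : R' ⊆ S') : RswLoc S S' X := by
  intro ω ω' h1 h2 h3
  refine h ω ω' ?_ ?_ ?_
  · rw [← Finset.inter_eq_right.2 hR, ← Finset.inter_assoc, h1, Finset.inter_assoc]
  · rw [← Finset.inter_eq_right.2 hR, ← Finset.inter_assoc, h2, Finset.inter_assoc]
  · rw [← Finset.inter_eq_right.2 hR', ← Finset.inter_assoc, h3, Finset.inter_assoc]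

theorem scr289_loc_const (c : ℝ) : ScrLoc fun _ => c := ⟨∅, ∅, fun _ _ _ _ _ => rfl⟩

/-- any function of two local observables is local. -/
theorem scr289_loc_map2 {X Y : RswCfg → ℝ} (hX : ScrLoc X) (hY : ScrLoc Y) (Φ : ℝ → ℝ → ℝ) :
    ScrLoc fun ω => Φ (X ω) (Y ω) := by
  classical
  obtain ⟨R, R', h⟩ := hX
  obtain ⟨S, S', k⟩ := hY
  refine ⟨R ∪ S, R' ∪ S', fun ω ω' h1 h2 h3 => ?_⟩
  have a := scr289_loc_mono h (Finset.subset_union_left (s₂ := S)) (Finset.subset_union_left (s₂ := S')) ω ω' h1 h2 h3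
  have b := scr289_loc_mono k (Finset.subset_union_right (s₁ := R)) (Finset.subset_union_right (s₁ := R')) ω ω' h1 h2 h3
  show Φ (X ω) (Y ω) = Φ (X ω') (Y ω')
  rw [a, b]

theorem scr289_loc_map {X : RswCfg → ℝ} (hX : ScrLoc X) (Φ : ℝ → ℝ) : ScrLoc fun ω => Φ (X ω) := by
  obtain ⟨R, R', h⟩ := hX
  exact ⟨R, R', fun ω ω' h1 h2 h3 => by show Φ (X ω) = Φ (X ω'); rw [h ω ω' h1 h2 h3]⟩

theorem scr289_loc_add {X Y : RswCfg → ℝ} (hX : ScrLoc X) (hY : ScrLoc Y) : ScrLoc fun ω => X ω + Y ω :=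
  scr289_loc_map2 hX hY (· + ·)

theorem scr289_loc_sub {X Y : RswCfg → ℝ} (hX : ScrLoc X) (hY : ScrLoc Y) : ScrLoc fun ω => X ω - Y ω :=
  scr289_loc_map2 hX hY (· - ·)

theorem scr289_loc_mul {X Y : RswCfg → ℝ} (hX : ScrLoc X) (hY : ScrLoc Y) : ScrLoc fun ω => X ω * Y ω :=
  scr289_loc_map2 hX hY (· * ·)

theorem scr289_loc_const_mul {X : RswCfg → ℝ} (hX : ScrLoc X) (c : ℝ) : ScrLoc fun ω => c * X ω :=
  scr289_loc_map hX (c * ·)

theorem scr289_loc_sum {ι : Type*} (s : Finset ι) (X : ι → RswCfg → ℝ) (hX : ∀ i ∈ s, ScrLoc (X i)) :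
    ScrLoc fun ω => ∑ i ∈ s, X i ω := by
  classical
  induction s using Finset.induction_on with
  | empty => simpa using scr289_loc_const 0
  | insert a s ha ih =>
    simp only [Finset.sum_insert ha]
    exact scr289_loc_add (hX a (Finset.mem_insert_self a s)) (ih fun i hi => hX i (Finset.mem_insert_of_mem hi))

theorem scr289_image_inter {α : Type*} [DecidableEq α] (φ : α → α) (hφ : Function.Injective φ) (T A : Finset α) :
    A.image φ ∩ T = (A ∩ T.preimage φ hφ.injOn).image φ := by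
  ext x
  simp only [Finset.mem_image, Finset.mem_inter, Finset.mem_preimage]
  constructor
  · rintro ⟨⟨a, ha, rfl⟩, hT⟩; exact ⟨a, ⟨ha, hT⟩, rfl⟩
  · rintro ⟨a, ⟨ha, hT⟩, rfl⟩; exact ⟨⟨a, ha, rfl⟩, hT⟩

/-- a local observable stays local after an INJECTIVE map of corners, faces and edges; the windows are the preimages. -/
theorem scr289_loc_act' {R : Finset (ℤ × ℤ)} {R' : Finset ((ℤ × ℤ) × Bool)} {X : RswCfg → ℝ} (h : RswLoc R R' X) (g : ScrMapD)
    (hc : Function.Injective g.c) (hf : Function.Injective g.f) (he : Function.Injective g.e) :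
    RswLoc (R.preimage g.c hc.injOn ∪ R.preimage g.f hf.injOn) (R'.preimage g.e he.injOn) fun ω => X (scrAct g ω) := by
  intro ω ω' h1 h2 h3
  have h1' : ω.S ∩ R.preimage g.c hc.injOn = ω'.S ∩ R.preimage g.c hc.injOn := by
    rw [← Finset.inter_eq_right.2 (Finset.subset_union_left (s₁ := R.preimage g.c hc.injOn) (s₂ := R.preimage g.f hf.injOn)),
      ← Finset.inter_assoc, h1, Finset.inter_assoc]
  have h2' : ω.D ∩ R.preimage g.f hf.injOn = ω'.D ∩ R.preimage g.f hf.injOn := by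
    rw [← Finset.inter_eq_right.2 (Finset.subset_union_right (s₁ := R.preimage g.c hc.injOn) (s₂ := R.preimage g.f hf.injOn)),
      ← Finset.inter_assoc, h2, Finset.inter_assoc]
  refine h _ _ ?_ ?_ ?_
  · show ω.S.image g.c ∩ R = ω'.S.image g.c ∩ R
    rw [scr289_image_inter _ hc, scr289_image_inter _ hc, h1']
  · show ω.D.image g.f ∩ R = ω'.D.image g.f ∩ R
    rw [scr289_image_inter _ hf, scr289_image_inter _ hf, h2']
  · show ω.O.image g.e ∩ R' = ω'.O.image g.e ∩ R'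
    rw [scr289_image_inter _ he, scr289_image_inter _ he, h3]

theorem scr289_loc_act {X : RswCfg → ℝ} (hX : ScrLoc X) (g : ScrMapD) (hc : Function.Injective g.c)
    (hf : Function.Injective g.f) (he : Function.Injective g.e) : ScrLoc fun ω => X (scrAct g ω) := by
  obtain ⟨R, R', h⟩ := hX
  exact ⟨_, _, scr289_loc_act' h g hc hf he⟩

theorem scr289_tr_inj (a : ℤ × ℤ) :
    Function.Injective (scrTr a).c ∧ Function.Injective (scrTr a).f ∧ Function.Injective (scrTr a).e := by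
  refine ⟨fun x y h => add_right_cancel h, fun x y h => add_right_cancel h, ?_⟩
  rintro ⟨x, d⟩ ⟨y, d'⟩ h
  simp only [scrTr, Prod.mk.injEq, add_left_inj] at h
  exact Prod.ext h.1 h.2

theorem scr289_loc_sh {X : RswCfg → ℝ} (hX : ScrLoc X) (a : ℤ × ℤ) : ScrLoc (scrSh a X) :=
  scr289_loc_act hX _ (scr289_tr_inj _).1 (scr289_tr_inj _).2.1 (scr289_tr_inj _).2.2


/-! ## the reflections and translations as maps -/

theorem scr289_re_invol (j : Fin 4) :
    (∀ v, (scrRe j).c ((scrRe j).c v) = v) ∧ (∀ v, (scrRe j).f ((scrRe j).f v) = v) ∧ ∀ e, (scrRe j).e ((scrRe j).e e) = e := by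
  fin_cases j
  · refine ⟨fun v => ?_, fun v => ?_, ?_⟩
    · show (v.1, - -v.2) = v
      ext <;> simp
    · show (v.1, -(-v.2 - 1) - 1) = v
      ext <;> simp
    · rintro ⟨⟨x, y⟩, d⟩
      cases d
      · show (((x, - -y), false) : (ℤ × ℤ) × Bool) = ((x, y), false)
        simp
      · show (((x, -(-y - 1) - 1), true) : (ℤ × ℤ) × Bool) = ((x, y), true)
        simp
  · refine ⟨fun v => ?_, fun v => ?_, ?_⟩
    · show (- -v.1, - -v.2) = v
      ext <;> simp
    · show (-(-v.1 - 1) - 1, -(-v.2 - 1) - 1) = v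
      ext <;> simp
    · rintro ⟨⟨x, y⟩, d⟩
      cases d
      · show (((-(-x - 1) - 1, - -y), false) : (ℤ × ℤ) × Bool) = ((x, y), false)
        simp
      · show (((- -x, -(-y - 1) - 1), true) : (ℤ × ℤ) × Bool) = ((x, y), true)
        simp
  · refine ⟨fun v => ?_, fun v => ?_, ?_⟩
    · show (- -v.1, v.2) = v
      ext <;> simp
    · show (-(-v.1 - 1) - 1, v.2) = v
      ext <;> simp
    · rintro ⟨⟨x, y⟩, d⟩
      cases d
      · show (((-(-x - 1) - 1, y), false) : (ℤ × ℤ) × Bool) = ((x, y), false)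
        simp
      · show (((- -x, y), true) : (ℤ × ℤ) × Bool) = ((x, y), true)
        simp
  · refine ⟨fun v => rfl, fun v => rfl, ?_⟩
    rintro ⟨⟨x, y⟩, d⟩
    cases d <;> rfl

theorem scr289_re_inj (j : Fin 4) :
    Function.Injective (scrRe j).c ∧ Function.Injective (scrRe j).f ∧ Function.Injective (scrRe j).e :=
  ⟨Function.LeftInverse.injective (scr289_re_invol j).1, Function.LeftInverse.injective (scr289_re_invol j).2.1,
    Function.LeftInverse.injective (scr289_re_invol j).2.2⟩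

theorem scr289_loc_th {X : RswCfg → ℝ} (hX : ScrLoc X) (j : Fin 4) : ScrLoc (scrTh j X) :=
  scr289_loc_act hX _ (scr289_re_inj j).1 (scr289_re_inj j).2.1 (scr289_re_inj j).2.2

theorem scr289_act_re_re (j : Fin 4) (ω : RswCfg) : scrAct (scrRe j) (scrAct (scrRe j) ω) = ω := by
  obtain ⟨S, D, O⟩ := ω
  obtain ⟨h1, h2, h3⟩ := scr289_re_invol j
  simp only [scrAct, Finset.image_image]
  congr 1
  · ext v; simp [Function.comp, h1]
  · ext v; simp [Function.comp, h2]
  · ext v; simp [Function.comp, h3]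

theorem scr289_th_th (j : Fin 4) (X : RswCfg → ℝ) : scrTh j (scrTh j X) = X := by
  funext ω
  show X (scrAct (scrRe j) (scrAct (scrRe j) ω)) = X ω
  rw [scr289_act_re_re]

theorem scr289_act_tr_tr (a b : ℤ × ℤ) (ω : RswCfg) : scrAct (scrTr a) (scrAct (scrTr b) ω) = scrAct (scrTr (b + a)) ω := by
  obtain ⟨S, D, O⟩ := ω
  simp only [scrAct, Finset.image_image, scrTr]
  congr 1
  · ext v; simp [Function.comp, add_assoc]
  · ext v; simp [Function.comp, add_assoc]
  · ext v; simp [Function.comp, add_assoc]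

theorem scr289_act_tr_zero (ω : RswCfg) : scrAct (scrTr 0) ω = ω := by
  obtain ⟨S, D, O⟩ := ω
  simp [scrAct, scrTr]

theorem scr289_sh_sh (a b : ℤ × ℤ) (X : RswCfg → ℝ) : scrSh a (scrSh b X) = scrSh (a + b) X := by
  funext ω
  show X (scrAct (scrTr (-b)) (scrAct (scrTr (-a)) ω)) = X (scrAct (scrTr (-(a + b))) ω)
  rw [scr289_act_tr_tr, neg_add]

theorem scr289_sh_zero (X : RswCfg → ℝ) : scrSh 0 X = X := by
  funext ω
  show X (scrAct (scrTr (-0)) ω) = X ω
  rw [neg_zero, scr289_act_tr_zero]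

/-! ## calculus of the plane law on local observables -/

section Calc

variable {t : ℝ} (ht1 : 1 / 2 ≤ t) (ht2 : t < 1)
include ht1 ht2

theorem scr289_pl_const (c : ℝ) : scrPl t (fun _ => c) = c := by
  have h := scr289_pl_tendsto t ht1 ht2 _ (scr289_loc_const c) 0 true
  simp only [rsb_E_const (by linarith : 0 < t) ht2.le] at h
  exact tendsto_nhds_unique h tendsto_const_nhds

theorem scr289_pl_add {X Y : RswCfg → ℝ} (hX : ScrLoc X) (hY : ScrLoc Y) :
    scrPl t (fun ω => X ω + Y ω) = scrPl t X + scrPl t Y := by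
  have h := scr289_pl_tendsto t ht1 ht2 _ (scr289_loc_add hX hY) 0 true
  simp only [rsb_E_add] at h
  exact tendsto_nhds_unique h ((scr289_pl_tendsto t ht1 ht2 X hX 0 true).add (scr289_pl_tendsto t ht1 ht2 Y hY 0 true))

theorem scr289_pl_sub {X Y : RswCfg → ℝ} (hX : ScrLoc X) (hY : ScrLoc Y) :
    scrPl t (fun ω => X ω - Y ω) = scrPl t X - scrPl t Y := by
  have h := scr289_pl_tendsto t ht1 ht2 _ (scr289_loc_sub hX hY) 0 true
  simp only [rsb_E_sub] at h
  exact tendsto_nhds_unique h ((scr289_pl_tendsto t ht1 ht2 X hX 0 true).sub (scr289_pl_tendsto t ht1 ht2 Y hY 0 true))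

theorem scr289_pl_const_mul {X : RswCfg → ℝ} (hX : ScrLoc X) (c : ℝ) :
    scrPl t (fun ω => c * X ω) = c * scrPl t X := by
  have h := scr289_pl_tendsto t ht1 ht2 _ (scr289_loc_const_mul hX c) 0 true
  simp only [rsb_E_const_mul] at h
  exact tendsto_nhds_unique h ((scr289_pl_tendsto t ht1 ht2 X hX 0 true).const_mul c)

theorem scr289_pl_sum {ι : Type*} (s : Finset ι) (X : ι → RswCfg → ℝ) (hX : ∀ i ∈ s, ScrLoc (X i)) :
    scrPl t (fun ω => ∑ i ∈ s, X i ω) = ∑ i ∈ s, scrPl t (X i) := by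
  classical
  induction s using Finset.induction_on with
  | empty => simpa using scr289_pl_const ht1 ht2 0
  | insert a s ha ih =>
    simp only [Finset.sum_insert ha]
    rw [scr289_pl_add ht1 ht2 (hX a (Finset.mem_insert_self a s))
      (scr289_loc_sum s X fun i hi => hX i (Finset.mem_insert_of_mem hi)), ih fun i hi => hX i (Finset.mem_insert_of_mem hi)]

theorem scr289_pl_mono {X Y : RswCfg → ℝ} (hX : ScrLoc X) (hY : ScrLoc Y) (h : ∀ ω, X ω ≤ Y ω) :
    scrPl t X ≤ scrPl t Y :=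
  le_of_tendsto_of_tendsto' (scr289_pl_tendsto t ht1 ht2 X hX 0 true) (scr289_pl_tendsto t ht1 ht2 Y hY 0 true)
    fun _ => rsb_E_mono (by linarith) ht2.le fun ω _ _ => h ω

theorem scr289_pl_nonneg {X : RswCfg → ℝ} (hX : ScrLoc X) (h : ∀ ω, 0 ≤ X ω) : 0 ≤ scrPl t X := by
  have := scr289_pl_mono ht1 ht2 (scr289_loc_const 0) hX h
  rwa [scr289_pl_const ht1 ht2] at this

theorem scr289_pl_abs_le {X : RswCfg → ℝ} (hX : ScrLoc X) {M : ℝ} (h : ∀ ω, |X ω| ≤ M) : |scrPl t X| ≤ M := by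
  rw [abs_le]
  constructor
  · have := scr289_pl_mono ht1 ht2 (scr289_loc_const (-M)) hX fun ω => (abs_le.1 (h ω)).1
    rwa [scr289_pl_const ht1 ht2] at this
  · have := scr289_pl_mono ht1 ht2 hX (scr289_loc_const M) fun ω => (abs_le.1 (h ω)).2
    rwa [scr289_pl_const ht1 ht2] at this

/-- Cauchy-Schwarz for the plane law. -/
theorem scr289_pl_cauchy {X Y : RswCfg → ℝ} (hX : ScrLoc X) (hY : ScrLoc Y) :
    scrPl t (fun ω => X ω * Y ω) ^ 2 ≤ scrPl t (fun ω => X ω ^ 2) * scrPl t (fun ω => Y ω ^ 2) := by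
  have a := scr289_pl_tendsto t ht1 ht2 _ (scr289_loc_mul hX hY) 0 true
  have b := scr289_pl_tendsto t ht1 ht2 _ (scr289_loc_map hX (· ^ 2)) 0 true
  have c := scr289_pl_tendsto t ht1 ht2 _ (scr289_loc_map hY (· ^ 2)) 0 true
  exact le_of_tendsto_of_tendsto' (a.pow 2) (b.mul c) fun n => rsb_E_cauchy (by linarith) ht2.le _ _ X Y

end Calc

end Claimed.Agent.R292
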