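import Claimed.Agent.R292.Defs.ScreenIns
import Claimed.Agent.R292.Exit.RSW
import Claimed.Agent.R292.Exit.MODEL
import Claimed.Agent.R292.Screen.Cnt81
import Claimed.Agent.R292.Screen.Glue52
import Claimed.Agent.R292.Screen.Inv289

/-!
# Row 292 (S0540), Screen/Mom221 : AT LEMMA 5.2 (`lem:screen-pattern-moments`), `p = 2`, PLANE LAW, PRODUCT FORM      (pen helper221; unit SCREEN, head helper229; prefix `mom221`)

`mom221_main` = the statement `scr_cut_mom` of `Screen/Cut229b`, VERBATIM.   ARBITRARY SMALL clearance `c0`, no partition of unity: the dyadic scales stop at `2^I ~ c0 / δ`.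
Inputs: `exit_mdl_trans` (S2, `k = 1`), `exit_rsw_plane`; tools: 81 (`Odd81`: charges, conditional moments; `Cnt81`: the count), 52 (`scr52g_inc_rswH`, the array), 289 (plane limit, locality), 61, 89, 31.
CHAIN
* (P0) `mom221_conn`     `RswJordan F ⟹ At2hConn F`
* (P1) `mom221_arr_eq`   on the support of the flat law the insertion of a neutral array is `∑ b_v H(v)`
* (P2) `mom221_second`   `E[X² 1_L] ≤ 8 E[(∑_K q_K²) 1_L]`  (`odd81_cond_moment_E`, `m = 1`)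
* (P5) `mom221_count`    the number `cnt81A` of components which meet `Λ_n(z)` and leave `Λ_{2n}(z)`: `E[A 1_L] ≤ C₂ P(L)`  (`cnt81_A_count`)
* (P6) `mom221_layer`, `mom221_cover`, `mom221_dyadic`  pointwise dyadic bound of `∑_K q_K²` by the counts
* (P7) `mom221_fv`       the inequality in every flat domain
* (P8) `mom221_const`    the constant is uniform in `δ`
* (P9) `mom221_array`, `mom221_shift`, `mom221_tr_facts`   the Laplace array: neutral, `|b_v| ≤ K δ²`, support; translation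
* (P10) `mom221_ext`, `mom221_prod_ind`, `mom221_loc_*`   the patterns are exterior data of the buffers; locality
* (P11) `mom221_pl`, `mom221_main`   plane limit along the boxes
-/

set_option autoImplicit false

namespace Claimed.Agent.R292

open Claims Claims.C0468 Filter Topology

/-! ## definitions -/

/-- the conditional second moment: sum of the squares of the charges of the components. -/
noncomputable def mom221SS (b : (ℤ × ℤ) →₀ ℝ) (F : Finset (ℤ × ℤ)) (ω : RswCfg) : ℝ :=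
  ∑ K ∈ mdl61Comps F ω.O, odd81Charge F ω.S ω.O (⇑b) K ^ 2

/-- centres of the boxes `Λ_n(z)` which cover `Λ_ρ(v₀)`. -/
noncomputable def mom221Gr (v₀ : ℤ × ℤ) (ρ n : ℕ) : Finset (ℤ × ℤ) :=
  (Finset.range (ρ / n + 1) ×ˢ Finset.range (ρ / n + 1)).image fun p =>
    (v₀.1 - ρ + n + 2 * n * p.1, v₀.2 - ρ + n + 2 * n * p.2)

/-- the constant of the finite-volume inequality. -/
noncomputable def mom221Bd (C₂ κ : ℝ) (ρ I : ℕ) : ℝ :=
  (κ * 16) ^ 2 * (2 * (ρ : ℝ)) ^ 2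
    + ∑ i ∈ Finset.range I, (κ * (4 * 2 ^ (i + 1)) ^ 2) ^ 2 * ((((ρ / 2 ^ i + 1 : ℕ) : ℝ)) ^ 2 * C₂)
    + (κ * (2 * (ρ : ℝ)) ^ 2) ^ 2 * ((((ρ / 2 ^ I + 1 : ℕ) : ℝ)) ^ 2 * C₂)

open Classical in
/-- indicator of an event. -/
noncomputable def mom221Ind (L : RswCfg → Prop) (ω : RswCfg) : ℝ := if L ω then 1 else 0

theorem mom221_eqns_cite : True := by
  have := @mom221Ind.eq_1
  have := @mom221SS.eq_1
  have := @mom221Gr.eq_1
  have := @mom221Bd.eq_1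
  trivial

theorem mom221_mem_box {z v : ℤ × ℤ} {n : ℕ} :
    v ∈ rswBox z n ↔ (z.1 - n ≤ v.1 ∧ v.1 < z.1 + n) ∧ (z.2 - n ≤ v.2 ∧ v.2 < z.2 + n) := cnt81_mem_box

/-! ## (P0) planarity -/

theorem mom221_conn {F : Finset (ℤ × ℤ)} (hJ : RswJordan F) : At2hConn F := by
  obtain ⟨γ, hγc, -, hγr⟩ := hJ
  have hfr : IsPreconnected (frontier (faceRegionSq 1 F)) := by
    rw [← hγr]
    exact isPreconnected_range hγc
  refine at2h_conn_of_king fun S f0 hf0 hf0S hcl g hg => ?_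
  have := at92h_ext_conn one_pos F hfr {f | f ∈ S ∧ f ∉ F} (fun f hf => hf.2) ⟨f0, hf0S, hf0⟩
    (fun f hf g hg hadj => ⟨hcl f g hf.2 hg hadj hf.1, hg⟩) g hg
  exact this.1

/-! ## (P1) the insertion on the support of the flat law -/

theorem mom221_arr_eq {t : ℝ} {F : Finset (ℤ × ℤ)} (hJ : RswJordan F) {ω : RswCfg} (hw : rswWt t F true ω ≠ 0)
    (b : (ℤ × ℤ) →₀ ℝ) (v₀ : ℤ × ℤ) (ρ : ℕ) (hb : b.support ⊆ rswBox v₀ ρ) (hF : rswBox v₀ ρ ⊆ F)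
    (hneu : b.sum (fun _ x => x) = 0) :
    scrArr b v₀ ω = ∑ v ∈ b.support, b v * rswH F ω v := by
  unfold scrArr Finsupp.sum
  have h1 : ∀ v ∈ b.support, b v * scrInc ω v₀ v = b v * rswH F ω v - b v * rswH F ω v₀ := by
    intro v hv
    have hv' := mom221_mem_box.1 (hb hv)
    have hp : Scr52gPath F v₀ v := by
      constructor
      · intro x h1 h2
        refine hF (mom221_mem_box.2 ?_)
        simp only
        rw [min_le_iff] at h1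
        rw [lt_max_iff] at h2
        omega
      · intro y h1 h2
        refine hF (mom221_mem_box.2 ?_)
        simp only
        rw [min_le_iff] at h1
        rw [lt_max_iff] at h2
        omega
    rw [scr52g_inc_rswH hJ hw hp, mul_sub]
  rw [Finset.sum_congr rfl h1, Finset.sum_sub_distrib, ← Finset.sum_mul]
  have h0 : ∑ v ∈ b.support, b v = 0 := hneu
  rw [h0, zero_mul, sub_zero]

/-! ## (P2) the second moment -/

theorem mom221_ind_nonneg (L : RswCfg → Prop) (ω : RswCfg) : 0 ≤ mom221Ind L ω := by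
  unfold mom221Ind
  split_ifs <;> norm_num

theorem mom221_ind_congr {L : RswCfg → Prop} {ω ω' : RswCfg} (h : L ω ↔ L ω') : mom221Ind L ω = mom221Ind L ω' := by
  unfold mom221Ind
  by_cases hh : L ω
  · rw [if_pos hh, if_pos (h.1 hh)]
  · rw [if_neg hh, if_neg (fun h' => hh (h.2 h'))]

theorem mom221_second {t : ℝ} (ht0 : 0 < t) (ht1 : t ≤ 1) {F : Finset (ℤ × ℤ)} (hJ : RswJordan F)
    (b : (ℤ × ℤ) →₀ ℝ) (v₀ : ℤ × ℤ) (ρ : ℕ) (hb : b.support ⊆ rswBox v₀ ρ) (hF : rswBox v₀ ρ ⊆ F)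
    (hneu : b.sum (fun _ x => x) = 0) (L : RswCfg → Prop) (hL : ∀ S D D' O, L ⟨S, D, O⟩ ↔ L ⟨S, D', O⟩) :
    rswE t F true (fun ω => (scrArr b v₀ ω) ^ 2 * mom221Ind L ω) ≤
      8 * rswE t F true (fun ω => mom221SS b F ω * mom221Ind L ω) := by
  have hSb : b.support ⊆ cornersOf F := fun v hv => at92h_self_mem_corners (hF (hb hv))
  have key := odd81_cond_moment_E ht0.le ht1 (mom221_conn hJ) (⇑b) b.support hSb
    (fun v hv => Finsupp.notMem_support_iff.1 hv) (fun S O => mom221Ind L ⟨S, ∅, O⟩)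
    (fun S O => mom221_ind_nonneg L _) 1
  have e1 : rswE t F true (fun ω => (scrArr b v₀ ω) ^ 2 * mom221Ind L ω) =
      rswE t F true (fun ω => (∑ v ∈ b.support, b v * rswH F ω v) ^ (2 * 1) * mom221Ind L ⟨ω.S, ∅, ω.O⟩) := by
    refine rsb_E_congr fun ω _ hw => ?_
    rw [mom221_arr_eq hJ hw b v₀ ρ hb hF hneu, mul_one, mom221_ind_congr (hL ω.S ω.D ∅ ω.O)]
  have e2 : rswE t F true (fun ω => (∑ K ∈ mdl61Comps F ω.O, odd81Charge F ω.S ω.O (⇑b) K ^ 2) ^ 1 *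
        mom221Ind L ⟨ω.S, ∅, ω.O⟩) = rswE t F true (fun ω => mom221SS b F ω * mom221Ind L ω) := by
    refine rsb_E_congr fun ω _ _ => ?_
    rw [pow_one, mom221_ind_congr (hL ω.S ω.D ∅ ω.O)]
    rfl
  rw [e1]
  rw [e2] at key
  refine key.trans (le_of_eq ?_)
  norm_num [Nat.factorial]

/-! ## (P5) the counts -/

theorem mom221_count (t : ℝ) (ht1 : 1 / 2 ≤ t) (ht2 : t < 1) :
    ∃ C₂ : ℝ, 0 ≤ C₂ ∧ ∀ (n : ℕ) (F : Finset (ℤ × ℤ)) (z : ℤ × ℤ) (L : RswCfg → Prop),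
      RswJordan F → rswBox z (3 * n) ⊆ F → MdlExt (rswBox z (3 * n)) L →
      rswE t F true (fun ω => (cnt81A F z n ω : ℝ) * mom221Ind L ω) ≤ C₂ * rswP t F true L := by
  obtain ⟨C₂, hC₂, h⟩ := cnt81_A_count t ht1 ht2 (exit_mdl_trans t ht1 ht2 1) 1
  refine ⟨C₂, hC₂, fun n F z L hJ hF hL => ?_⟩
  have := h n F z L hJ hF hL
  simp only [pow_one] at this
  exact this

/-! ## (P6) the pointwise dyadic bound -/

open Classical in
theorem mom221_layer {ι : Type*} (𝒦 : Finset ι) (q : ι → ℝ) (Ex : ℕ → ι → Prop) (a : ℕ → ℝ) (B : ℝ)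
    (ha : ∀ i, 0 ≤ a i) (_hB : 0 ≤ B) (h1 : ∀ K ∈ 𝒦, q K ≤ B) (h2 : ∀ K ∈ 𝒦, ∀ i, ¬ Ex i K → q K ≤ a i) (I : ℕ) :
    ∑ K ∈ 𝒦, q K ≤ a 0 * (𝒦.card : ℝ) + ∑ i ∈ Finset.range I, a (i + 1) * ((𝒦.filter (Ex i)).card : ℝ)
      + B * ((𝒦.filter (Ex I)).card : ℝ) := by
  have hpt : ∀ K ∈ 𝒦, ∀ I : ℕ, q K ≤ a 0 + ∑ i ∈ Finset.range I, a (i + 1) * (if Ex i K then (1 : ℝ) else 0)
      + B * (if Ex I K then (1 : ℝ) else 0) := by
    intro K hK I
    induction I with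
    | zero =>
      simp only [Finset.range_zero, Finset.sum_empty, add_zero]
      by_cases h : Ex 0 K
      · rw [if_pos h, mul_one]
        have := h1 K hK
        have := ha 0
        linarith
      · rw [if_neg h, mul_zero, add_zero]
        exact h2 K hK 0 h
    | succ I ih =>
      rw [Finset.sum_range_succ]
      have hs : 0 ≤ ∑ i ∈ Finset.range I, a (i + 1) * (if Ex i K then (1 : ℝ) else 0) :=
        Finset.sum_nonneg fun i _ => mul_nonneg (ha _) (by split_ifs <;> norm_num)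
      by_cases h : Ex (I + 1) K
      · rw [if_pos h, mul_one]
        have := h1 K hK
        have := ha 0
        have : 0 ≤ a (I + 1) * (if Ex I K then (1 : ℝ) else 0) := mul_nonneg (ha _) (by split_ifs <;> norm_num)
        linarith
      · rw [if_neg h, mul_zero, add_zero]
        by_cases h' : Ex I K
        · rw [if_pos h', mul_one]
          have := h2 K hK (I + 1) h
          have := ha 0
          linarith
        · rw [if_neg h', mul_zero, add_zero]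
          rw [if_neg h', mul_zero, add_zero] at ih
          exact ih
  calc ∑ K ∈ 𝒦, q K ≤ ∑ K ∈ 𝒦, (a 0 + ∑ i ∈ Finset.range I, a (i + 1) * (if Ex i K then (1 : ℝ) else 0)
      + B * (if Ex I K then (1 : ℝ) else 0)) := Finset.sum_le_sum fun K hK => hpt K hK I
    _ = _ := by
      rw [Finset.sum_add_distrib, Finset.sum_add_distrib, Finset.sum_const, nsmul_eq_mul, Finset.sum_comm,
        ← Finset.mul_sum, Finset.sum_boole]
      refine congrArg₂ _ (congrArg₂ _ (mul_comm _ _) (Finset.sum_congr rfl fun i _ => ?_)) rfl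
      rw [← Finset.mul_sum, Finset.sum_boole]

theorem mom221_cover (v₀ : ℤ × ℤ) (ρ n : ℕ) (hn : 0 < n) (f : ℤ × ℤ) (hf : f ∈ rswBox v₀ ρ) :
    ∃ z ∈ mom221Gr v₀ ρ n, f ∈ rswBox z n := by
  rw [mom221_mem_box] at hf
  have key : ∀ (c x : ℤ), c - ρ ≤ x → x < c + ρ → ∃ p : ℕ, p < ρ / n + 1 ∧
      (c - ρ + n + 2 * n * p) - n ≤ x ∧ x < (c - ρ + n + 2 * n * p) + n := by
    intro c x h1 h2
    obtain ⟨y, hy⟩ : ∃ y : ℕ, (y : ℤ) = x - (c - ρ) := ⟨(x - (c - ρ)).toNat, by omega⟩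
    have hy2 : y < 2 * ρ := by omega
    have hd := Nat.div_add_mod y (2 * n)
    have hm := Nat.mod_lt y (show 0 < 2 * n by omega)
    refine ⟨y / (2 * n), ?_, ?_, ?_⟩
    · rw [Nat.lt_succ_iff, Nat.le_div_iff_mul_le hn]
      have : 2 * (y / (2 * n) * n) ≤ y := by
        calc 2 * (y / (2 * n) * n) = 2 * n * (y / (2 * n)) := by ring
          _ ≤ y := by omega
      omega
    · have e : (2 * (n : ℤ) * ((y / (2 * n) : ℕ) : ℤ)) = ((2 * n * (y / (2 * n)) : ℕ) : ℤ) := by push_cast; ring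
      rw [e]
      omega
    · have e : (2 * (n : ℤ) * ((y / (2 * n) : ℕ) : ℤ)) = ((2 * n * (y / (2 * n)) : ℕ) : ℤ) := by push_cast; ring
      rw [e]
      omega
  obtain ⟨p, hp, hp1, hp2⟩ := key v₀.1 f.1 hf.1.1 hf.1.2
  obtain ⟨q, hq, hq1, hq2⟩ := key v₀.2 f.2 hf.2.1 hf.2.2
  refine ⟨(v₀.1 - ρ + n + 2 * n * p, v₀.2 - ρ + n + 2 * n * q), ?_, ?_⟩
  · unfold mom221Gr
    exact Finset.mem_image.2 ⟨(p, q), Finset.mem_product.2 ⟨Finset.mem_range.2 hp, Finset.mem_range.2 hq⟩, rfl⟩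
  · rw [mom221_mem_box]
    exact ⟨⟨hp1, hp2⟩, hq1, hq2⟩

theorem mom221_gr_card (v₀ : ℤ × ℤ) (ρ n : ℕ) : ((mom221Gr v₀ ρ n).card : ℝ) ≤ (((ρ / n + 1 : ℕ) : ℝ)) ^ 2 := by
  unfold mom221Gr
  have h := Finset.card_image_le (s := Finset.range (ρ / n + 1) ×ˢ Finset.range (ρ / n + 1))
    (f := fun p : ℕ × ℕ => ((v₀.1 - ρ + n + 2 * n * p.1, v₀.2 - ρ + n + 2 * n * p.2) : ℤ × ℤ))
  rw [Finset.card_product, Finset.card_range] at h
  calc _ ≤ (((ρ / n + 1) * (ρ / n + 1) : ℕ) : ℝ) := by exact_mod_cast h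
    _ = _ := by push_cast; ring

theorem mom221_gr_buffer (v₀ : ℤ × ℤ) (ρ n N : ℕ) (hn : 0 < n) (hN : n ≤ N) (z : ℤ × ℤ) (hz : z ∈ mom221Gr v₀ ρ n) :
    rswBox z (3 * n) ⊆ rswBox v₀ (ρ + 4 * N) := by
  unfold mom221Gr at hz
  obtain ⟨⟨p, q⟩, hpq, rfl⟩ := Finset.mem_image.1 hz
  rw [Finset.mem_product, Finset.mem_range, Finset.mem_range] at hpq
  have key : ∀ p : ℕ, p < ρ / n + 1 → (2 * (n : ℤ) * (p : ℤ)) ≤ 2 * ρ ∧ 0 ≤ (2 * (n : ℤ) * (p : ℤ)) := by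
    intro p hp
    have h1 : p * n ≤ ρ := (Nat.le_div_iff_mul_le hn).1 (Nat.lt_succ_iff.1 hp)
    have h2 : ((p * n : ℕ) : ℤ) ≤ ρ := by exact_mod_cast h1
    push_cast at h2
    constructor
    · nlinarith
    · positivity
  obtain ⟨a1, a2⟩ := key p hpq.1
  obtain ⟨b1, b2⟩ := key q hpq.2
  intro v hv
  rw [mom221_mem_box] at hv ⊢
  simp only at hv
  push_cast at hv ⊢
  have hN' : (n : ℤ) ≤ N := by exact_mod_cast hN
  constructor <;> constructor <;> linarith [hv.1.1, hv.1.2, hv.2.1, hv.2.2]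

theorem mom221_wt_empty {t : ℝ} {F : Finset (ℤ × ℤ)} {ω : RswCfg} (hw : rswWt t F true ω ≠ 0) :
    rswWt t F true ⟨ω.S, ∅, ω.O⟩ ≠ 0 := by
  classical
  intro h0
  apply hw
  obtain ⟨S, D, O⟩ := ω
  rw [mdl61_wt_const]
  split_ifs
  · exact h0
  · rfl

open Classical in
theorem mom221_dyadic {t : ℝ} {F : Finset (ℤ × ℤ)} (hF : At2hConn F) {ω : RswCfg} (hw : rswWt t F true ω ≠ 0)
    (b : (ℤ × ℤ) →₀ ℝ) (v₀ : ℤ × ℤ) (ρ I : ℕ) (κ : ℝ)
    (hb : ∀ v ∈ b.support, (v₀.1 - ρ < v.1 ∧ v.1 < v₀.1 + ρ) ∧ (v₀.2 - ρ < v.2 ∧ v.2 < v₀.2 + ρ))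
    (hneu : b.sum (fun _ x => x) = 0) (hκ : ∀ v, 2 * |b v| ≤ κ) :
    mom221SS b F ω ≤ (κ * 16) ^ 2 * (2 * (ρ : ℝ)) ^ 2
      + ∑ i ∈ Finset.range I, (κ * (4 * 2 ^ (i + 1)) ^ 2) ^ 2 * ∑ z ∈ mom221Gr v₀ ρ (2 ^ i), (cnt81A F z (2 ^ i) ω : ℝ)
      + (κ * (2 * (ρ : ℝ)) ^ 2) ^ 2 * ∑ z ∈ mom221Gr v₀ ρ (2 ^ I), (cnt81A F z (2 ^ I) ω : ℝ) := by
  have hw' := mom221_wt_empty hw
  have hκ0 : 0 ≤ κ := le_trans (by positivity) (hκ 0)
  have hb0 : ∀ v, v ∉ b.support → b v = 0 := fun v hv => Finsupp.notMem_support_iff.1 hv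
  have hbs : b.support ⊆ rswBox v₀ ρ := fun v hv => by
    have := hb v hv
    rw [mom221_mem_box]
    omega
  set 𝒦 : Finset (Finset (ℤ × ℤ)) := (mdl61Comps F ω.O).filter (fun K => (K ∩ rswBox v₀ ρ).Nonempty) with h𝒦
  set q : Finset (ℤ × ℤ) → ℝ := fun K => odd81Charge F ω.S ω.O (⇑b) K ^ 2 with hq
  obtain ⟨Ex, hEx⟩ : ∃ Ex : ℕ → Finset (ℤ × ℤ) → Prop, ∀ i K, Ex i K ↔
      ∃ z ∈ mom221Gr v₀ ρ (2 ^ i), (K ∩ rswBox z (2 ^ i)).Nonempty ∧ ¬ K ⊆ rswBox z (2 * 2 ^ i) :=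
    ⟨_, fun _ _ => Iff.rfl⟩
  -- components which do not meet the box carry no charge
  have hzero : ∀ K ∈ mdl61Comps F ω.O, K ∉ 𝒦 → q K = 0 := by
    intro K hK hK'
    have hdis : ¬ (K ∩ rswBox v₀ ρ).Nonempty := fun h => hK' (Finset.mem_filter.2 ⟨hK, h⟩)
    have h0 := odd81_charge_zero hF hw' hK (⇑b) b.support hb0 hneu
      (Set.Icc (v₀.1 - ρ + 1, v₀.2 - ρ + 1) (v₀.1 + ρ - 1, v₀.2 + ρ - 1))
      (fun v hv => by
        have := hb v (Finset.mem_coe.1 hv)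
        rw [Set.mem_Icc, Prod.le_def, Prod.le_def]
        simp only
        omega)
      (cnt81_box_conn _ _)
      (by
        rw [Set.disjoint_left]
        intro v hv hvU
        obtain ⟨f, hf, hvf⟩ := odd81_mem_V.1 (Finset.mem_coe.1 hv)
        rw [at2h_mem_C4] at hvf
        rw [Set.mem_Icc, Prod.le_def, Prod.le_def] at hvU
        simp only at hvU
        refine hdis ⟨f, Finset.mem_inter.2 ⟨hf, mom221_mem_box.2 ?_⟩⟩
        omega)
    simp only [hq, h0]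
    norm_num
  have hSS : mom221SS b F ω = ∑ K ∈ 𝒦, q K :=
    (Finset.sum_subset (Finset.filter_subset _ _) hzero).symm
  -- the number of components which meet the box
  have hcard : (𝒦.card : ℝ) ≤ (2 * (ρ : ℝ)) ^ 2 := by
    have h1 : 𝒦.card ≤ (rswBox v₀ ρ).card := by
      refine Finset.card_le_card_of_injOn (cnt81Rt (rswBox v₀ ρ)) ?_ ?_
      · intro K hK
        exact (cnt81_Rt_spec (Finset.mem_filter.1 (Finset.mem_coe.1 hK)).2).2
      · intro K hK K' hK' h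
        have h1 := Finset.mem_filter.1 (Finset.mem_coe.1 hK)
        have h2 := Finset.mem_filter.1 (Finset.mem_coe.1 hK')
        rw [mdl61_eq_comp_of_mem h1.1 (cnt81_Rt_spec h1.2).1, mdl61_eq_comp_of_mem h2.1 (cnt81_Rt_spec h2.2).1, h]
    rw [cnt81_box_card] at h1
    have h2 : (𝒦.card : ℝ) ≤ (((2 * ρ) ^ 2 : ℕ) : ℝ) := by exact_mod_cast h1
    push_cast at h2
    exact h2
  -- the total bound
  have htot : ∀ K ∈ 𝒦, q K ≤ (κ * (2 * (ρ : ℝ)) ^ 2) ^ 2 := by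
    intro K _
    have h1 := odd81_charge_le_total F ω.S ω.O K (⇑b) b.support hb0
    have h2 : ∑ v ∈ b.support, |b v| ≤ κ * (2 * (ρ : ℝ)) ^ 2 := by
      calc ∑ v ∈ b.support, |b v| ≤ ∑ _v ∈ b.support, κ :=
            Finset.sum_le_sum fun v _ => by have := hκ v; have := abs_nonneg (b v); linarith
        _ = (b.support.card : ℝ) * κ := by rw [Finset.sum_const, nsmul_eq_mul]
        _ ≤ (((2 * ρ) ^ 2 : ℕ) : ℝ) * κ := by
            refine mul_le_mul_of_nonneg_right ?_ hκ0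
            have := Finset.card_le_card hbs
            rw [cnt81_box_card] at this
            exact_mod_cast this
        _ = _ := by push_cast; ring
    simp only [hq]
    rw [← sq_abs]
    exact pow_le_pow_left₀ (abs_nonneg _) (h1.trans h2) 2
  -- the bound of a component which stays at scale `i`
  have hsmall : ∀ K ∈ 𝒦, ∀ i, ¬ Ex i K → q K ≤ (κ * (4 * 2 ^ i) ^ 2) ^ 2 := by
    intro K hK i hex
    obtain ⟨hKc, f, hf⟩ := Finset.mem_filter.1 hK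
    obtain ⟨hfK, hfB⟩ := Finset.mem_inter.1 hf
    obtain ⟨z, hz, hfz⟩ := mom221_cover v₀ ρ (2 ^ i) (by positivity) f hfB
    have hsub : K ⊆ rswBox z (2 * 2 ^ i) := by
      by_contra hns
      exact hex ((hEx i K).2 ⟨z, hz, ⟨f, Finset.mem_inter.2 ⟨hfK, hfz⟩⟩, hns⟩)
    have hd := cnt81_diam_le hsub
    have h1 := odd81_charge_le hF hw' hKc (⇑b) (κ / 2) 1 (fun v => by have := hκ v; linarith) (cnt81Diam K)
      (cnt81_diam_spec K)
    have hd' : (cnt81Diam K : ℝ) ≤ 4 * 2 ^ i := by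
      have : (cnt81Diam K : ℝ) ≤ ((2 * (2 * 2 ^ i) : ℕ) : ℝ) := by exact_mod_cast hd
      push_cast at this
      linarith
    have hx : (4 : ℝ) ≤ 4 * 2 ^ i := by
      have : (1 : ℝ) ≤ 2 ^ i := one_le_pow₀ (by norm_num)
      linarith
    have h2 : κ / 2 * (1 * (cnt81Diam K : ℝ) + 1) ^ 2 ≤ κ * (4 * 2 ^ i) ^ 2 := by
      have h3 : (1 * (cnt81Diam K : ℝ) + 1) ^ 2 ≤ 2 * (4 * 2 ^ i) ^ 2 := by
        have h4 : (0 : ℝ) ≤ cnt81Diam K := Nat.cast_nonneg _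
        nlinarith
      calc κ / 2 * (1 * (cnt81Diam K : ℝ) + 1) ^ 2 ≤ κ / 2 * (2 * (4 * 2 ^ i) ^ 2) :=
            mul_le_mul_of_nonneg_left h3 (by linarith)
        _ = _ := by ring
    simp only [hq]
    rw [← sq_abs]
    exact pow_le_pow_left₀ (abs_nonneg _) (h1.trans h2) 2
  -- the counts
  have hcnt : ∀ i, ((𝒦.filter (Ex i)).card : ℝ) ≤ ∑ z ∈ mom221Gr v₀ ρ (2 ^ i), (cnt81A F z (2 ^ i) ω : ℝ) := by
    intro i
    have hsub : 𝒦.filter (Ex i) ⊆ (mom221Gr v₀ ρ (2 ^ i)).biUnion (fun z => (mdl61Comps F ω.O).filter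
        fun K => (K ∩ rswBox z (2 ^ i)).Nonempty ∧ ¬ K ⊆ rswBox z (2 * 2 ^ i)) := by
      intro K hK
      obtain ⟨hK1, hK2⟩ := Finset.mem_filter.1 hK
      obtain ⟨z, hz, h1, h2⟩ := (hEx i K).1 hK2
      exact Finset.mem_biUnion.2 ⟨z, hz, Finset.mem_filter.2 ⟨(Finset.mem_filter.1 hK1).1, h1, h2⟩⟩
    have h3 := (Finset.card_le_card hsub).trans Finset.card_biUnion_le
    have h4 : ((𝒦.filter (Ex i)).card : ℝ) ≤ ((∑ z ∈ mom221Gr v₀ ρ (2 ^ i), cnt81A F z (2 ^ i) ω : ℕ) : ℝ) := by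
      exact_mod_cast h3
    push_cast at h4
    exact h4
  have hlay := mom221_layer 𝒦 q Ex (fun i => (κ * (4 * 2 ^ i) ^ 2) ^ 2) ((κ * (2 * (ρ : ℝ)) ^ 2) ^ 2)
    (fun i => sq_nonneg _) (sq_nonneg _) htot hsmall I
  rw [hSS]
  refine hlay.trans (add_le_add (add_le_add ?_ (Finset.sum_le_sum fun i _ => ?_)) ?_)
  · have e : (κ * (4 * 2 ^ 0) ^ 2) ^ 2 = (κ * 16) ^ 2 := by norm_num
    simp only [e]
    exact mul_le_mul_of_nonneg_left hcard (sq_nonneg _)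
  · exact mul_le_mul_of_nonneg_left (hcnt i) (sq_nonneg _)
  · exact mul_le_mul_of_nonneg_left (hcnt I) (sq_nonneg _)

/-! ## (P7) the inequality in a flat domain -/

theorem mom221_fv (t : ℝ) (ht1 : 1 / 2 ≤ t) (ht2 : t < 1) :
    ∃ C₂ : ℝ, 0 ≤ C₂ ∧ ∀ (F : Finset (ℤ × ℤ)) (b : (ℤ × ℤ) →₀ ℝ) (v₀ : ℤ × ℤ) (ρ I : ℕ) (κ : ℝ) (L : RswCfg → Prop),
      RswJordan F → rswBox v₀ (ρ + 4 * 2 ^ I) ⊆ F → MdlExt (rswBox v₀ (ρ + 4 * 2 ^ I)) L →
      (∀ v ∈ b.support, (v₀.1 - ρ < v.1 ∧ v.1 < v₀.1 + ρ) ∧ (v₀.2 - ρ < v.2 ∧ v.2 < v₀.2 + ρ)) →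
      b.sum (fun _ x => x) = 0 → (∀ v, 2 * |b v| ≤ κ) →
      rswE t F true (fun ω => (scrArr b v₀ ω) ^ 2 * mom221Ind L ω) ≤ 8 * mom221Bd C₂ κ ρ I * rswP t F true L := by
  have ht0 : 0 < t := by linarith
  obtain ⟨C₂, hC₂, hcount⟩ := mom221_count t ht1 ht2
  refine ⟨C₂, hC₂, fun F b v₀ ρ I κ L hJ hF hL hb hneu hκ => ?_⟩
  have hP := rsb_P_nonneg ht0 ht2.le F true L
  have hG0 : ∀ ω, 0 ≤ mom221Ind L ω := mom221_ind_nonneg L
  have hLD : ∀ S D D' O, L ⟨S, D, O⟩ ↔ L ⟨S, D', O⟩ := fun S D D' O =>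
    hL _ _ (fun _ _ => Iff.rfl) (fun _ _ => Iff.rfl)
  have hbs : b.support ⊆ rswBox v₀ ρ := fun v hv => by
    have := hb v hv
    rw [mom221_mem_box]
    omega
  have hF' : rswBox v₀ ρ ⊆ F := by
    refine Finset.Subset.trans (fun v hv => ?_) hF
    rw [mom221_mem_box] at hv ⊢
    push_cast
    have : (0 : ℤ) ≤ 4 * 2 ^ I := by positivity
    omega
  have e1 := mom221_second ht0 ht2.le hJ b v₀ ρ hbs hF' hneu L hLD
  -- the counts of one scale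
  have hsc : ∀ i, i ≤ I → ∑ z ∈ mom221Gr v₀ ρ (2 ^ i), rswE t F true (fun ω => (cnt81A F z (2 ^ i) ω : ℝ) * mom221Ind L ω)
      ≤ (((ρ / 2 ^ i + 1 : ℕ) : ℝ)) ^ 2 * C₂ * rswP t F true L := by
    intro i hi
    have h2i : 0 < 2 ^ i := by positivity
    have hle : 2 ^ i ≤ 2 ^ I := Nat.pow_le_pow_right (by norm_num) hi
    calc ∑ z ∈ mom221Gr v₀ ρ (2 ^ i), rswE t F true (fun ω => (cnt81A F z (2 ^ i) ω : ℝ) * mom221Ind L ω)
        ≤ ∑ _z ∈ mom221Gr v₀ ρ (2 ^ i), C₂ * rswP t F true L := by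
          refine Finset.sum_le_sum fun z hz => ?_
          have hsub := mom221_gr_buffer v₀ ρ (2 ^ i) (2 ^ I) h2i hle z hz
          exact hcount (2 ^ i) F z L hJ (hsub.trans hF) (cnt81_ext_mono hsub hL)
      _ = ((mom221Gr v₀ ρ (2 ^ i)).card : ℝ) * (C₂ * rswP t F true L) := by
          rw [Finset.sum_const, nsmul_eq_mul]
      _ ≤ (((ρ / 2 ^ i + 1 : ℕ) : ℝ)) ^ 2 * (C₂ * rswP t F true L) :=
          mul_le_mul_of_nonneg_right (mom221_gr_card v₀ ρ (2 ^ i)) (mul_nonneg hC₂ hP)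
      _ = _ := by ring
  have e3 : rswE t F true (fun ω => mom221SS b F ω * mom221Ind L ω) ≤ mom221Bd C₂ κ ρ I * rswP t F true L := by
    calc rswE t F true (fun ω => mom221SS b F ω * mom221Ind L ω)
        ≤ rswE t F true (fun ω => (κ * 16) ^ 2 * (2 * (ρ : ℝ)) ^ 2 * mom221Ind L ω
            + (∑ i ∈ Finset.range I, (κ * (4 * 2 ^ (i + 1)) ^ 2) ^ 2 *
                ∑ z ∈ mom221Gr v₀ ρ (2 ^ i), (cnt81A F z (2 ^ i) ω : ℝ) * mom221Ind L ω)
            + (κ * (2 * (ρ : ℝ)) ^ 2) ^ 2 * ∑ z ∈ mom221Gr v₀ ρ (2 ^ I), (cnt81A F z (2 ^ I) ω : ℝ) * mom221Ind L ω) := by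
          refine rsb_E_mono ht0 ht2.le fun ω _ hw => ?_
          have h := mul_le_mul_of_nonneg_right (mom221_dyadic (mom221_conn hJ) hw b v₀ ρ I κ hb hneu hκ) (hG0 ω)
          refine h.trans (le_of_eq ?_)
          rw [add_mul, add_mul, Finset.sum_mul]
          refine congrArg₂ _ (congrArg₂ _ rfl (Finset.sum_congr rfl fun i _ => ?_)) ?_
          · rw [mul_assoc, Finset.sum_mul]
          · rw [mul_assoc, Finset.sum_mul]
      _ = (κ * 16) ^ 2 * (2 * (ρ : ℝ)) ^ 2 * rswP t F true L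
            + (∑ i ∈ Finset.range I, (κ * (4 * 2 ^ (i + 1)) ^ 2) ^ 2 *
                ∑ z ∈ mom221Gr v₀ ρ (2 ^ i), rswE t F true (fun ω => (cnt81A F z (2 ^ i) ω : ℝ) * mom221Ind L ω))
            + (κ * (2 * (ρ : ℝ)) ^ 2) ^ 2 *
                ∑ z ∈ mom221Gr v₀ ρ (2 ^ I), rswE t F true (fun ω => (cnt81A F z (2 ^ I) ω : ℝ) * mom221Ind L ω) := by
          rw [rsb_E_add, rsb_E_add, rsb_E_const_mul, rsb_E_const_mul, rsb_E_finset_sum, rsb_E_finset_sum]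
          congr 2
          refine Finset.sum_congr rfl fun i _ => ?_
          rw [rsb_E_const_mul, rsb_E_finset_sum]
      _ ≤ (κ * 16) ^ 2 * (2 * (ρ : ℝ)) ^ 2 * rswP t F true L
            + (∑ i ∈ Finset.range I, (κ * (4 * 2 ^ (i + 1)) ^ 2) ^ 2 * ((((ρ / 2 ^ i + 1 : ℕ) : ℝ)) ^ 2 * C₂ * rswP t F true L))
            + (κ * (2 * (ρ : ℝ)) ^ 2) ^ 2 * ((((ρ / 2 ^ I + 1 : ℕ) : ℝ)) ^ 2 * C₂ * rswP t F true L) := by
          refine add_le_add (add_le_add le_rfl (Finset.sum_le_sum fun i hi => ?_)) ?_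
          · exact mul_le_mul_of_nonneg_left (hsc i (Finset.mem_range.1 hi).le) (sq_nonneg _)
          · exact mul_le_mul_of_nonneg_left (hsc I le_rfl) (sq_nonneg _)
      _ = mom221Bd C₂ κ ρ I * rswP t F true L := by
          unfold mom221Bd
          rw [add_mul, add_mul, Finset.sum_mul]
          congr 1
          · congr 1
            refine Finset.sum_congr rfl fun i _ => ?_
            ring
          · ring
  calc _ ≤ 8 * rswE t F true (fun ω => mom221SS b F ω * mom221Ind L ω) := e1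
    _ ≤ 8 * (mom221Bd C₂ κ ρ I * rswP t F true L) := by linarith
    _ = _ := by ring

/-! ## (P8) the constant -/

theorem mom221_const (r c0 Kc C₂ : ℝ) (hr : 0 < r) (hc0 : 0 < c0) (hK : 0 ≤ Kc) (hC : 0 ≤ C₂) :
    ∃ C : ℝ, ∀ δ : ℝ, 0 < δ → δ < min (r / 4) (c0 / 4) →
      mom221Bd C₂ (Kc * δ ^ 2) (⌊r / (2 * δ)⌋₊ + 2) (Nat.log 2 ⌊c0 / (4 * δ)⌋₊) ≤ C ∧
      δ * ((⌊r / (2 * δ)⌋₊ + 2 + 4 * 2 ^ (Nat.log 2 ⌊c0 / (4 * δ)⌋₊) : ℕ) : ℝ) < r + c0 := by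
  unfold mom221Bd
  exact scr52m_const r c0 Kc C₂ hr hc0 hK hC

/-! ## (P9) the array -/

theorem mom221_array (r : ℝ) (hr : 0 < r) (φ : ℝ × ℝ → ℝ) (hφ : ContDiff ℝ ((⊤ : ℕ∞) : WithTop ℕ∞) φ)
    (hφs : tsupport φ ⊆ Metric.ball (0 : ℝ × ℝ) (r / 2)) :
    ∃ Kc : ℝ, 0 ≤ Kc ∧ ∀ δ : ℝ, 0 < δ →
      (∀ v, |aspW δ (lap2 φ) v| ≤ Kc * δ ^ 2) ∧ (aspW δ (lap2 φ)).sum (fun _ x => x) = 0 ∧
      (aspW δ (lap2 φ)).support ⊆ rswBox 0 (⌊r / (2 * δ)⌋₊ + 2) :=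
  scr52m_array r hr φ hφ hφs

theorem mom221_shift (a : ℤ × ℤ) (b : (ℤ × ℤ) →₀ ℝ) (ω : RswCfg) :
    scrSh a (scrArr b 0) ω = scrArr (aspTr a b) a ω :=
  scr52m_shift a b ω

theorem mom221_tr_facts (a : ℤ × ℤ) (b : (ℤ × ℤ) →₀ ℝ) (ρ : ℕ) (κ : ℝ) (hb : b.support ⊆ rswBox 0 ρ)
    (hneu : b.sum (fun _ x => x) = 0) (hκ : ∀ v, |b v| ≤ κ) :
    (aspTr a b).support ⊆ rswBox a ρ ∧ (aspTr a b).sum (fun _ x => x) = 0 ∧ ∀ v, |aspTr a b v| ≤ κ :=
  scr52m_tr_facts a b ρ κ hb hneu hκ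

/-! ## (P10) patterns: exterior data, indicator, locality -/

theorem mom221_ext (δ : ℝ) (hδ : 0 < δ) (a : ℤ × ℤ) (W : ℕ) (R : ℝ) (hW : δ * (W : ℝ) < R) (m : ℕ)
    (U : Fin m → Set (ℝ × ℝ)) (π : Fin m → RswCfg) (hU : ∀ i, ∀ p ∈ U i, R ≤ dist p (scr232P δ a)) :
    MdlExt (rswBox a W) (fun ω => ∀ i, scrPat δ (U i) ω = scrPat δ (U i) (π i)) := by
  classical
  have hkey : ∀ i v, scr232P δ v ∈ U i → v ∉ rswBox a W := by
    intro i v hv hvB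
    have h1 := hU i _ hv
    rw [mom221_mem_box] at hvB
    have h2 : dist (scr232P δ v) (scr232P δ a) ≤ δ * W := by
      rw [Prod.dist_eq, max_le_iff, Real.dist_eq, Real.dist_eq]
      simp only [scr232P]
      have c1 : |(v.1 : ℝ) - a.1| ≤ W := by
        rw [abs_le]
        constructor
        · have : (a.1 : ℝ) - W ≤ v.1 := by exact_mod_cast hvB.1.1
          linarith
        · have : (v.1 : ℝ) ≤ a.1 + W := by exact_mod_cast hvB.1.2.le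
          linarith
      have c2 : |(v.2 : ℝ) - a.2| ≤ W := by
        rw [abs_le]
        constructor
        · have : (a.2 : ℝ) - W ≤ v.2 := by exact_mod_cast hvB.2.1
          linarith
        · have : (v.2 : ℝ) ≤ a.2 + W := by exact_mod_cast hvB.2.2.le
          linarith
      constructor
      · rw [← mul_sub, abs_mul, abs_of_pos hδ]
        exact mul_le_mul_of_nonneg_left c1 hδ.le
      · rw [← mul_sub, abs_mul, abs_of_pos hδ]
        exact mul_le_mul_of_nonneg_left c2 hδ.le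
    linarith
  intro ω ω' hS hO
  have e : ∀ i, scrPat δ (U i) ω = scrPat δ (U i) ω' := by
    intro i
    unfold scrPat
    refine Prod.ext ?_ ?_
    · ext v
      simp only [Finset.mem_filter]
      have hp : scr232P δ v ∈ U i → (v ∈ ω.S ↔ v ∈ ω'.S) := fun h => hS v (fun hh => hkey i v h hh.1)
      constructor
      · rintro ⟨h1, h2⟩
        exact ⟨(hp h2).1 h1, h2⟩
      · rintro ⟨h1, h2⟩
        exact ⟨(hp h2).2 h1, h2⟩
    · ext e
      simp only [Finset.mem_filter]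
      have hp : scr232P δ e.1 ∈ U i → (e ∈ ω.O ↔ e ∈ ω'.O) := fun h =>
        hO e (fun hh => hkey i e.1 h (rsb_mem_int.1 hh).1)
      constructor
      · rintro ⟨h1, h2⟩
        exact ⟨(hp h2.1).1 h1, h2⟩
      · rintro ⟨h1, h2⟩
        exact ⟨(hp h2.1).2 h1, h2⟩
  simp only [e]

theorem mom221_prod_ind (δ : ℝ) (m : ℕ) (U : Fin m → Set (ℝ × ℝ)) (π : Fin m → RswCfg) (ω : RswCfg) :
    ∏ i, scrPatI δ (U i) (π i) ω = mom221Ind (fun ω => ∀ i, scrPat δ (U i) ω = scrPat δ (U i) (π i)) ω := by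
  classical
  unfold mom221Ind scrPatI
  by_cases h : ∀ i, scrPat δ (U i) ω = scrPat δ (U i) (π i)
  · rw [if_pos h]
    exact Finset.prod_eq_one fun i _ => if_pos (h i)
  · rw [if_neg h]
    push Not at h
    obtain ⟨i, hi⟩ := h
    exact Finset.prod_eq_zero (Finset.mem_univ i) (if_neg hi)

theorem mom221_loc_prod {ι : Type*} (s : Finset ι) (X : ι → RswCfg → ℝ) (h : ∀ i ∈ s, ScrLoc (X i)) :
    ScrLoc (fun ω => ∏ i ∈ s, X i ω) := by
  classical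
  induction s using Finset.induction_on with
  | empty => simpa using scr289_loc_const 1
  | insert a s ha ih =>
    have h1 := scr289_loc_mul (h a (Finset.mem_insert_self a s)) (ih fun i hi => h i (Finset.mem_insert_of_mem hi))
    have e : (fun ω => ∏ i ∈ insert a s, X i ω) = fun ω => X a ω * ∏ i ∈ s, X i ω := by
      funext ω
      rw [Finset.prod_insert ha]
    rw [e]
    exact h1

theorem mom221_mem_iff_of_inter {α : Type*} [DecidableEq α] {A A' R : Finset α} (e : A ∩ R = A' ∩ R) {x : α} (hx : x ∈ R) :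
    x ∈ A ↔ x ∈ A' := by
  have := Finset.ext_iff.1 e x
  simp only [Finset.mem_inter] at this
  constructor
  · intro h; exact (this.1 ⟨h, hx⟩).1
  · intro h; exact (this.2 ⟨h, hx⟩).1

theorem mom221_loc_step (e : (ℤ × ℤ) × Bool) : ScrLoc (fun ω => scrStep ω e) := by
  refine ⟨{e.1, rswEnd e}, ∅, fun ω ω' hS hD _ => ?_⟩
  have a1 : e.1 ∈ ω.S ↔ e.1 ∈ ω'.S := mom221_mem_iff_of_inter hS (by simp)
  have a2 : rswEnd e ∈ ω.S ↔ rswEnd e ∈ ω'.S := mom221_mem_iff_of_inter hS (by simp)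
  have a3 : e.1 ∈ ω.D ↔ e.1 ∈ ω'.D := mom221_mem_iff_of_inter hD (by simp)
  show scrStep ω e = scrStep ω' e
  unfold scrStep scrS scrD
  simp only [a1, a2, a3]

theorem mom221_loc_osum (a b : ℤ) (G : ℤ → RswCfg → ℝ) (h : ∀ x, ScrLoc (G x)) :
    ScrLoc (fun ω => scrOsum a b (fun x => G x ω)) := by
  unfold scrOsum
  by_cases hab : a ≤ b
  · simp only [if_pos hab]
    exact scr289_loc_sum _ _ fun x _ => h x
  · simp only [if_neg hab]
    exact scr289_loc_map (scr289_loc_sum _ _ fun x _ => h x) (fun x => -x)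

theorem mom221_loc_arr (b : (ℤ × ℤ) →₀ ℝ) (v₀ : ℤ × ℤ) : ScrLoc (scrArr b v₀) := by
  have e : scrArr b v₀ = fun ω => ∑ v ∈ b.support, b v * scrInc ω v₀ v := by
    funext ω
    rfl
  rw [e]
  refine scr289_loc_sum _ _ fun v _ => scr289_loc_const_mul ?_ _
  unfold scrInc
  exact scr289_loc_add (mom221_loc_osum _ _ _ fun x => mom221_loc_step _) (mom221_loc_osum _ _ _ fun y => mom221_loc_step _)

theorem mom221_fin_pts (δ : ℝ) (hδ : 0 < δ) (c : ℝ × ℝ) (M : ℝ) :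
    ∃ R : Finset (ℤ × ℤ), ∀ v : ℤ × ℤ, scr232P δ v ∈ Metric.closedBall c M → v ∈ R := by
  obtain ⟨N, hN⟩ := exists_nat_ge ((|M| + |c.1| + |c.2|) / δ)
  refine ⟨Finset.Icc (-(N : ℤ)) N ×ˢ Finset.Icc (-(N : ℤ)) N, fun v hv => ?_⟩
  rw [Metric.mem_closedBall, Prod.dist_eq, max_le_iff, Real.dist_eq, Real.dist_eq] at hv
  simp only [scr232P] at hv
  rw [div_le_iff₀ hδ] at hN
  have key : ∀ (x : ℤ) (y : ℝ), |y| ≤ |c.1| + |c.2| → |δ * (x : ℝ) - y| ≤ M → -(N : ℤ) ≤ x ∧ x ≤ N := by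
    intro x y hy hx
    have h1 : |δ * (x : ℝ)| ≤ (N : ℝ) * δ := by
      have : |δ * (x : ℝ)| ≤ |δ * (x : ℝ) - y| + |y| := by
        have := abs_add_le (δ * (x : ℝ) - y) y
        simpa using this
      have hM := le_abs_self M
      linarith
    rw [abs_mul, abs_of_pos hδ, mul_comm] at h1
    have h2 : |(x : ℝ)| ≤ N := le_of_mul_le_mul_right h1 hδ
    rw [abs_le] at h2
    constructor
    · have : (-(N : ℝ)) ≤ x := h2.1
      exact_mod_cast this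
    · exact_mod_cast h2.2
  rw [Finset.mem_product, Finset.mem_Icc, Finset.mem_Icc]
  exact ⟨key v.1 c.1 (by have := abs_nonneg c.2; linarith) hv.1, key v.2 c.2 (by have := abs_nonneg c.1; linarith) hv.2⟩

theorem mom221_loc_patI (δ : ℝ) (hδ : 0 < δ) (M : ℝ) (U : Set (ℝ × ℝ)) (π : RswCfg)
    (hM : ∃ c : ℝ × ℝ, U ⊆ Metric.closedBall c M) : ScrLoc (scrPatI δ U π) := by
  classical
  obtain ⟨c, hc⟩ := hM
  obtain ⟨R, hR⟩ := mom221_fin_pts δ hδ c M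
  refine ⟨R, R ×ˢ Finset.univ, fun ω ω' hS _ hO => ?_⟩
  have e : scrPat δ U ω = scrPat δ U ω' := by
    unfold scrPat
    refine Prod.ext ?_ ?_
    · ext v
      simp only [Finset.mem_filter]
      constructor
      · rintro ⟨h1, h2⟩
        exact ⟨(mom221_mem_iff_of_inter hS (hR v (hc h2))).1 h1, h2⟩
      · rintro ⟨h1, h2⟩
        exact ⟨(mom221_mem_iff_of_inter hS (hR v (hc h2))).2 h1, h2⟩
    · ext e
      simp only [Finset.mem_filter]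
      have hm : scr232P δ e.1 ∈ U → e ∈ R ×ˢ (Finset.univ : Finset Bool) := fun h =>
        Finset.mem_product.2 ⟨hR _ (hc h), Finset.mem_univ _⟩
      constructor
      · rintro ⟨h1, h2⟩
        exact ⟨(mom221_mem_iff_of_inter hO (hm h2.1)).1 h1, h2⟩
      · rintro ⟨h1, h2⟩
        exact ⟨(mom221_mem_iff_of_inter hO (hm h2.1)).2 h1, h2⟩
  unfold scrPatI
  rw [e]

theorem mom221_loc_pat (δ : ℝ) (hδ : 0 < δ) (M : ℝ) (m : ℕ) (U : Fin m → Set (ℝ × ℝ)) (π : Fin m → RswCfg)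
    (hM : ∀ i, ∃ c : ℝ × ℝ, U i ⊆ Metric.closedBall c M) : ScrLoc (fun ω => ∏ i, scrPatI δ (U i) (π i) ω) :=
  mom221_loc_prod _ _ fun i _ => mom221_loc_patI δ hδ M (U i) (π i) (hM i)

/-! ## (P11) the plane limit -/

theorem mom221_box_sub (a : ℤ × ℤ) (W : ℕ) : ∃ n0 : ℕ, ∀ n : ℕ, n0 ≤ n → rswBox a W ⊆ rswBox 0 n := by
  refine ⟨W + a.1.natAbs + a.2.natAbs, fun n hn v hv => ?_⟩
  rw [mom221_mem_box] at hv ⊢
  simp only [Prod.fst_zero, Prod.snd_zero]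
  omega

theorem mom221_pl_nonneg (t : ℝ) (ht1 : 1 / 2 ≤ t) (ht2 : t < 1) (δ : ℝ) (hδ : 0 < δ) (M : ℝ) (m : ℕ)
    (U : Fin m → Set (ℝ × ℝ)) (π : Fin m → RswCfg) (hM : ∀ i, ∃ c : ℝ × ℝ, U i ⊆ Metric.closedBall c M) :
    0 ≤ scrPl t (fun ω => ∏ i, scrPatI δ (U i) (π i) ω) := by
  have ht0 : 0 < t := by linarith
  refine ge_of_tendsto' (scr289_pl_tendsto t ht1 ht2 _ (mom221_loc_pat δ hδ M m U π hM) 0 true) fun n => ?_
  refine rsb_E_nonneg ht0 ht2.le fun ω _ _ => Finset.prod_nonneg fun i _ => ?_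
  unfold scrPatI
  split_ifs <;> norm_num

/-- the inequality in the plane, general array. -/
theorem mom221_pl (t : ℝ) (ht1 : 1 / 2 ≤ t) (ht2 : t < 1) :
    ∃ C₂ : ℝ, 0 ≤ C₂ ∧ ∀ (b : (ℤ × ℤ) →₀ ℝ) (v₀ : ℤ × ℤ) (ρ I : ℕ) (κ δ M R : ℝ) (m : ℕ) (U : Fin m → Set (ℝ × ℝ))
      (π : Fin m → RswCfg), 0 < δ → δ * ((ρ + 4 * 2 ^ I : ℕ) : ℝ) < R →
      (∀ i, ∃ c : ℝ × ℝ, U i ⊆ Metric.closedBall c M) → (∀ i, ∀ p ∈ U i, R ≤ dist p (scr232P δ v₀)) →
      (∀ v ∈ b.support, (v₀.1 - ρ < v.1 ∧ v.1 < v₀.1 + ρ) ∧ (v₀.2 - ρ < v.2 ∧ v.2 < v₀.2 + ρ)) →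
      b.sum (fun _ x => x) = 0 → (∀ v, 2 * |b v| ≤ κ) →
      scrPl t (fun ω => (scrArr b v₀ ω) ^ 2 * ∏ i, scrPatI δ (U i) (π i) ω)
        ≤ 8 * mom221Bd C₂ κ ρ I * scrPl t (fun ω => ∏ i, scrPatI δ (U i) (π i) ω) := by
  have ht0 : 0 < t := by linarith
  obtain ⟨C₂, hC₂, hfv⟩ := mom221_fv t ht1 ht2
  refine ⟨C₂, hC₂, fun b v₀ ρ I κ δ M R m U π hδ hW hM hU h1 h2 h3 => ?_⟩
  have hext := mom221_ext δ hδ v₀ (ρ + 4 * 2 ^ I) R hW m U π hU
  have hloc2 : ScrLoc (fun ω => ∏ i, scrPatI δ (U i) (π i) ω) := mom221_loc_pat δ hδ M m U π hM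
  have hloc1 : ScrLoc (fun ω => (scrArr b v₀ ω) ^ 2 * ∏ i, scrPatI δ (U i) (π i) ω) := by
    have hA := mom221_loc_arr b v₀
    have h := scr289_loc_mul (scr289_loc_mul hA hA) hloc2
    have e : (fun ω => (scrArr b v₀ ω) ^ 2 * ∏ i, scrPatI δ (U i) (π i) ω) =
        fun ω => scrArr b v₀ ω * scrArr b v₀ ω * ∏ i, scrPatI δ (U i) (π i) ω := by
      funext ω
      rw [sq]
    rw [e]
    exact h
  have T1 := scr289_pl_tendsto t ht1 ht2 _ hloc1 0 true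
  have T2 := (scr289_pl_tendsto t ht1 ht2 _ hloc2 0 true).const_mul (8 * mom221Bd C₂ κ ρ I)
  refine le_of_tendsto_of_tendsto T1 T2 ?_
  obtain ⟨n0, hn0⟩ := mom221_box_sub v₀ (ρ + 4 * 2 ^ I)
  filter_upwards [eventually_ge_atTop (max n0 1)] with n hn
  have hn1 : 1 ≤ n := (le_max_right _ _).trans hn
  have key := hfv (rswBox 0 n) b v₀ ρ I κ
    (fun ω => ∀ i, scrPat δ (U i) ω = scrPat δ (U i) (π i)) (scr289_box_jordan 0 n hn1)
    (hn0 n ((le_max_left _ _).trans hn)) hext h1 h2 h3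
  have e1 : (fun ω => (scrArr b v₀ ω) ^ 2 * ∏ i, scrPatI δ (U i) (π i) ω) =
      (fun ω => (scrArr b v₀ ω) ^ 2 * mom221Ind (fun ω => ∀ i, scrPat δ (U i) ω = scrPat δ (U i) (π i)) ω) := by
    funext ω
    rw [mom221_prod_ind]
  have e2 : rswE t (rswBox 0 n) true (fun ω => ∏ i, scrPatI δ (U i) (π i) ω) =
      rswP t (rswBox 0 n) true (fun ω => ∀ i, scrPat δ (U i) ω = scrPat δ (U i) (π i)) := by
    have : (fun ω => ∏ i, scrPatI δ (U i) (π i) ω) =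
        mom221Ind (fun ω => ∀ i, scrPat δ (U i) ω = scrPat δ (U i) (π i)) := by
      funext ω
      rw [mom221_prod_ind]
    rw [this]
    rfl
  rw [e1, e2]
  exact key

/-- **AT Lemma 5.2**, `p = 2`, product form (= `scr_cut_mom` of `Screen/Cut229b`, verbatim). -/
theorem mom221_main (t : ℝ) (ht1 : 1 / 2 ≤ t) (ht2 : t < 1) (r c0 M : ℝ) (hr : 0 < r) (hc0 : 0 < c0) (m : ℕ)
    (φ : ℝ × ℝ → ℝ) (hφ : ContDiff ℝ ((⊤ : ℕ∞) : WithTop ℕ∞) φ) (hφs : tsupport φ ⊆ Metric.ball (0 : ℝ × ℝ) (r / 2)) :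
    ∃ C δ₀ : ℝ, 0 < δ₀ ∧ ∀ δ : ℝ, 0 < δ → δ < δ₀ → ∀ (a : ℤ × ℤ) (U : Fin m → Set (ℝ × ℝ)) (π : Fin m → RswCfg),
      (∀ i, ∃ c : ℝ × ℝ, U i ⊆ Metric.closedBall c M) →
      (∀ i j, i ≠ j → ∀ p ∈ U i, ∀ p' ∈ U j, c0 ≤ dist p p') →
      (∀ i, ∀ p ∈ U i, r + c0 ≤ dist p (scr232P δ a)) →
      scrPl t (fun ω => (scrSh a (scrIns δ 0 φ) ω) ^ 2 * ∏ i, scrPatI δ (U i) (π i) ω)
        ≤ C * scrPl t (fun ω => ∏ i, scrPatI δ (U i) (π i) ω) := by
  obtain ⟨C₂, hC₂, hpl⟩ := mom221_pl t ht1 ht2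
  obtain ⟨Kc, hKc, harr⟩ := mom221_array r hr φ hφ hφs
  obtain ⟨C, hC⟩ := mom221_const (r + c0 / 2) (c0 / 2) (2 * Kc) C₂ (by positivity) (by positivity) (by positivity) hC₂
  refine ⟨8 * C, min (r / 4) (c0 / 8), by positivity, fun δ hδ hδ0 a U π hM _ hU => ?_⟩
  have hδa : δ < r / 4 := lt_of_lt_of_le hδ0 (min_le_left _ _)
  have hδb : δ < c0 / 8 := lt_of_lt_of_le hδ0 (min_le_right _ _)
  obtain ⟨hbd, hW⟩ := hC δ hδ (lt_min (by linarith) (by linarith))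
  obtain ⟨hκ, hneu, hsupp⟩ := harr δ hδ
  have hρ : ⌊r / (2 * δ)⌋₊ + 2 + 1 ≤ ⌊(r + c0 / 2) / (2 * δ)⌋₊ + 2 := by
    have h1 : r / (2 * δ) + 1 ≤ (r + c0 / 2) / (2 * δ) := by
      rw [add_div, add_le_add_iff_left, le_div_iff₀ (by positivity)]
      linarith
    have h2 := Nat.floor_le_floor h1
    rw [Nat.floor_add_one (by positivity)] at h2
    omega
  generalize ⌊r / (2 * δ)⌋₊ + 2 = ρ at hsupp hρ
  generalize ⌊(r + c0 / 2) / (2 * δ)⌋₊ + 2 = ρ' at hbd hW hρ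
  generalize Nat.log 2 ⌊c0 / 2 / (4 * δ)⌋₊ = I at hbd hW
  obtain ⟨h1, h2, h3⟩ := mom221_tr_facts a (aspW δ (lap2 φ)) ρ (Kc * δ ^ 2) hsupp hneu hκ
  have hX : ∀ ω, scrSh a (scrIns δ 0 φ) ω = scrArr (aspTr a (aspW δ (lap2 φ))) a ω := by
    intro ω
    have h0 : scrIns δ 0 φ = scrArr (aspW δ (lap2 φ)) 0 := by
      funext ω'
      unfold scrIns
      simp only [Prod.fst_zero, Prod.snd_zero, zero_div, Int.floor_zero]
      rfl
    rw [h0]
    exact mom221_shift a _ ω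
  have key := hpl (aspTr a (aspW δ (lap2 φ))) a ρ' I (2 * Kc * δ ^ 2) δ M (r + c0) m U π hδ (by linarith) hM hU
    (fun v hv => by
      have := mom221_mem_box.1 (h1 hv)
      omega) h2 (fun v => by have := h3 v; linarith)
  have hP : 0 ≤ scrPl t (fun ω => ∏ i, scrPatI δ (U i) (π i) ω) := mom221_pl_nonneg t ht1 ht2 δ hδ M m U π hM
  simp only [hX]
  exact key.trans (mul_le_mul_of_nonneg_right (by linarith) hP)

end Claimed.Agent.R292
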