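import Claimed.Agent.R292.Exit.Top
import Claimed.Agent.R292.Defs.Screen
import Claimed.Agent.R292.Defs.RSW
import Claimed.Agent.R292.Gauss.Riem262

/-!
# Row 292 (S0540), Screen/Neu52 : NEUTRALISATION OF THE FROZEN INSERTION      (owner helper52, unit SCREEN; prefix `scr52`)

**0 sorry.**  Imports only `Exit/Top`, `Defs/Screen`, `Defs/RSW`, `Gauss/Riem262` (so `Exit/Screen` may import this file).
The frozen pairing `at92X δ (lap2 φ)` is a plain Riemann sum over the primal corners; its coefficients `δ² Δφ(δ v)` do not sum exactly to `0`.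
* `scr52_taylor`      fourth order Taylor bound for the symmetric second difference of a smooth function along a line
* `scr52_lap_eq`      the frozen `lap2` is `D₁D₁ + D₂D₂`
* `scr52_mass`        (1) the total mass `m_δ = δ² Σ_v Δφ(δ v)` is `O(δ²)` (the discrete Laplacian sums to `0` exactly)
* `scr52_level`       (2) `|H v| ≤ 2 R / δ + 1` for every solution of the height equations in a domain inside `scrSq z R`
* `scr52_split`       (3) `at92X δ g p = scr52X0 δ g v₀ p + m_δ * H v₀`, `scr52X0` = the exactly neutral insertion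
* **`scr52_screen_of_neutral`**   the contract `at_screen` follows from the same statement for the neutral insertion `scr52X0`
* `scr52_mid`, **`scr52_cell`**   midpoint rule: `|aspWt δ f u - δ² f(δ u)| ≤ (M₁ + M₂) δ⁴` (cell weights of SPEC against the frozen point weights)
* `scr52_sum_box`, **`scr52_pt_sub_cell`**   (4) `|δ² Σ_v h v Δφ(δ v) - rswArr (aspW δ (Δφ)) h| ≤ K δ² L` for EVERY `h` with `|h| ≤ L` on the corners
* **`scr52_screen_of_cell`**   (5) the contract `at_screen` follows from the same statement for `rswArr (aspW δ (Δφ)) H` (the insertion of SPEC)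
-/

set_option autoImplicit false

namespace Claimed.Agent.R292

open Claims Claims.C0468 MeasureTheory

/-! ### A. calculus -/

/-- crude mean value bound -/
theorem scr52_mvt {G G' : ℝ → ℝ} (hG : ∀ s, HasDerivAt G (G' s) s) (h0 : G 0 = 0) {K h : ℝ}
    (hK : ∀ s, |s| ≤ h → |G' s| ≤ K) : ∀ s, |s| ≤ h → |G s| ≤ K * h := by
  intro s hs
  have hh : 0 ≤ h := (abs_nonneg s).trans hs
  have hK0 : 0 ≤ K := (abs_nonneg _).trans (hK 0 (by simpa using hh))
  have key := Convex.norm_image_sub_le_of_norm_hasDerivWithin_le (f := G) (f' := G') (C := K)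
    (s := Set.Icc (-h) h) (x := 0) (y := s)
    (fun x _ => (hG x).hasDerivWithinAt) (fun x hx => hK x (abs_le.2 hx)) (convex_Icc _ _)
    ⟨by linarith, hh⟩ (abs_le.1 hs)
  rw [h0, sub_zero, sub_zero, Real.norm_eq_abs, Real.norm_eq_abs] at key
  exact key.trans (mul_le_mul_of_nonneg_left hs hK0)

theorem scr52_hasDerivAt_neg {f f' : ℝ → ℝ} (hf : ∀ s, HasDerivAt f (f' s) s) (s : ℝ) :
    HasDerivAt (fun s => f (-s)) (-f' (-s)) s := by
  have e : HasDerivAt (fun s => f (-s)) (f' (-s) * -1) s := (hf (-s)).comp s (hasDerivAt_neg s)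
  convert e using 1
  ring

/-- fourth order bound for the symmetric second difference -/
theorem scr52_taylor1 {f0 f1 f2 f3 f4 : ℝ → ℝ} (h0 : ∀ s, HasDerivAt f0 (f1 s) s)
    (h1 : ∀ s, HasDerivAt f1 (f2 s) s) (h2 : ∀ s, HasDerivAt f2 (f3 s) s)
    (h3 : ∀ s, HasDerivAt f3 (f4 s) s) {M : ℝ} (hM : ∀ s, |f4 s| ≤ M) {h : ℝ} (hh : 0 ≤ h) :
    |f0 h + f0 (-h) - 2 * f0 0 - h ^ 2 * f2 0| ≤ 2 * M * h ^ 4 := by
  have b3 : ∀ s, |s| ≤ h → |f3 s - f3 (-s)| ≤ 2 * M * h :=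
    scr52_mvt (G := fun s => f3 s - f3 (-s)) (G' := fun s => f4 s + f4 (-s))
      (fun s => by
        have e : HasDerivAt (fun s => f3 s - f3 (-s)) (f4 s - -f4 (-s)) s :=
          (h3 s).sub (scr52_hasDerivAt_neg h3 s)
        convert e using 1
        ring) (by simp)
      (fun s _ => (abs_add_le _ _).trans (by linarith [hM s, hM (-s)]))
  have b2 : ∀ s, |s| ≤ h → |f2 s + f2 (-s) - 2 * f2 0| ≤ 2 * M * h * h :=
    scr52_mvt (G := fun s => f2 s + f2 (-s) - 2 * f2 0) (G' := fun s => f3 s - f3 (-s))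
      (fun s => by
        have e : HasDerivAt (fun s => f2 s + f2 (-s) - 2 * f2 0) (f3 s + -f3 (-s)) s :=
          ((h2 s).add (scr52_hasDerivAt_neg h2 s)).sub_const (2 * f2 0)
        convert e using 1
        ring) (by simp; ring) b3
  have b1 : ∀ s, |s| ≤ h → |f1 s - f1 (-s) - 2 * s * f2 0| ≤ 2 * M * h * h * h :=
    scr52_mvt (G := fun s => f1 s - f1 (-s) - 2 * s * f2 0) (G' := fun s => f2 s + f2 (-s) - 2 * f2 0)
      (fun s => by
        have e : HasDerivAt (fun s => f1 s - f1 (-s) - 2 * s * f2 0)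
            (f2 s - -f2 (-s) - 2 * 1 * f2 0) s :=
          ((h1 s).sub (scr52_hasDerivAt_neg h1 s)).sub
            (((hasDerivAt_id s).const_mul 2).mul_const (f2 0))
        convert e using 1
        ring) (by simp) b2
  have b0 : ∀ s, |s| ≤ h → |f0 s + f0 (-s) - 2 * f0 0 - s ^ 2 * f2 0| ≤ 2 * M * h * h * h * h :=
    scr52_mvt (G := fun s => f0 s + f0 (-s) - 2 * f0 0 - s ^ 2 * f2 0)
      (G' := fun s => f1 s - f1 (-s) - 2 * s * f2 0)
      (fun s => by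
        have e : HasDerivAt (fun s => f0 s + f0 (-s) - 2 * f0 0 - s ^ 2 * f2 0)
            (f1 s + -f1 (-s) - (((2 : ℕ) : ℝ) * s ^ (2 - 1) * 1) * f2 0) s :=
          (((h0 s).add (scr52_hasDerivAt_neg h0 s)).sub_const (2 * f0 0)).sub
            (((hasDerivAt_id s).pow 2).mul_const (f2 0))
        convert e using 1
        norm_num
        ring) (by simp; ring) b1
  have := b0 h (by rw [abs_of_nonneg hh])
  calc _ ≤ 2 * M * h * h * h * h := this
    _ = 2 * M * h ^ 4 := by ring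

/-- directional derivative -/
noncomputable def scr52D (e : ℝ × ℝ) (φ : ℝ × ℝ → ℝ) (z : ℝ × ℝ) : ℝ := fderiv ℝ φ z e

theorem scr52_D_contDiff (e : ℝ × ℝ) {φ : ℝ × ℝ → ℝ} (hφ : ContDiff ℝ ((⊤ : ℕ∞) : WithTop ℕ∞) φ) :
    ContDiff ℝ ((⊤ : ℕ∞) : WithTop ℕ∞) (scr52D e φ) :=
  (hφ.fderiv_right (m := ((⊤ : ℕ∞) : WithTop ℕ∞)) (by simp)).clm_apply contDiff_const

theorem scr52_D_tsupport (e : ℝ × ℝ) (φ : ℝ × ℝ → ℝ) : tsupport (scr52D e φ) ⊆ tsupport φ :=
  tsupport_fderiv_apply_subset ℝ e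

theorem scr52_D_line (e : ℝ × ℝ) {φ : ℝ × ℝ → ℝ} (hφ : ContDiff ℝ ((⊤ : ℕ∞) : WithTop ℕ∞) φ) (z : ℝ × ℝ) (s : ℝ) :
    HasDerivAt (fun s : ℝ => φ (z + s • e)) (scr52D e φ (z + s • e)) s := by
  have h1 : HasFDerivAt φ (fderiv ℝ φ (z + s • e)) (z + s • e) :=
    ((hφ.differentiable (by simp)) _).hasFDerivAt
  have h2 : HasDerivAt (fun s : ℝ => z + s • e) e s := by
    simpa using ((hasDerivAt_id s).smul_const e).const_add z
  exact h1.comp_hasDerivAt s h2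

/-- fourth order Taylor bound along a line -/
theorem scr52_taylor (e : ℝ × ℝ) {φ : ℝ × ℝ → ℝ} (hφ : ContDiff ℝ ((⊤ : ℕ∞) : WithTop ℕ∞) φ) {M : ℝ}
    (hM : ∀ z, |scr52D e (scr52D e (scr52D e (scr52D e φ))) z| ≤ M) (z : ℝ × ℝ) {h : ℝ} (hh : 0 ≤ h) :
    |φ (z + h • e) + φ (z - h • e) - 2 * φ z - h ^ 2 * scr52D e (scr52D e φ) z| ≤ 2 * M * h ^ 4 := by
  have c1 := scr52_D_contDiff e hφ
  have c2 := scr52_D_contDiff e c1
  have c3 := scr52_D_contDiff e c2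
  have := scr52_taylor1 (scr52_D_line e hφ z) (scr52_D_line e c1 z) (scr52_D_line e c2 z)
    (scr52_D_line e c3 z) (fun s => hM _) hh
  simpa [sub_eq_add_neg] using this

/-- the frozen Laplacian -/
theorem scr52_lap_eq {φ : ℝ × ℝ → ℝ} (hφ : ContDiff ℝ ((⊤ : ℕ∞) : WithTop ℕ∞) φ) (z : ℝ × ℝ) :
    lap2 φ z = scr52D (1, 0) (scr52D (1, 0) φ) z + scr52D (0, 1) (scr52D (0, 1) φ) z := by
  have key1 : ∀ {ψ : ℝ × ℝ → ℝ}, ContDiff ℝ ((⊤ : ℕ∞) : WithTop ℕ∞) ψ → ∀ (y s : ℝ),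
      deriv (fun t => ψ (t, y)) s = scr52D (1, 0) ψ (s, y) := by
    intro ψ hψ y s
    have h1 : HasFDerivAt ψ (fderiv ℝ ψ (s, y)) (s, y) := ((hψ.differentiable (by simp)) _).hasFDerivAt
    have h2 : HasDerivAt (fun t : ℝ => ((t, y) : ℝ × ℝ)) (1, 0) s :=
      (hasDerivAt_id s).prodMk (hasDerivAt_const s y)
    exact (h1.comp_hasDerivAt s h2).deriv
  have key2 : ∀ {ψ : ℝ × ℝ → ℝ}, ContDiff ℝ ((⊤ : ℕ∞) : WithTop ℕ∞) ψ → ∀ (x s : ℝ),
      deriv (fun t => ψ (x, t)) s = scr52D (0, 1) ψ (x, s) := by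
    intro ψ hψ x s
    have h1 : HasFDerivAt ψ (fderiv ℝ ψ (x, s)) (x, s) := ((hψ.differentiable (by simp)) _).hasFDerivAt
    have h2 : HasDerivAt (fun t : ℝ => ((x, t) : ℝ × ℝ)) (0, 1) s :=
      (hasDerivAt_const s x).prodMk (hasDerivAt_id s)
    exact (h1.comp_hasDerivAt s h2).deriv
  unfold lap2
  have e1 : (fun s => deriv (fun t => φ (t, z.2)) s) = fun s => scr52D (1, 0) φ (s, z.2) :=
    funext fun s => key1 hφ z.2 s
  have e2 : (fun s => deriv (fun t => φ (z.1, t)) s) = fun s => scr52D (0, 1) φ (z.1, s) :=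
    funext fun s => key2 hφ z.1 s
  rw [e1, e2, key1 (scr52_D_contDiff _ hφ), key2 (scr52_D_contDiff _ hφ)]

/-! ### B. the total mass of the Riemann sum of a Laplacian -/

/-- the centre of a face of `F` lies in the region -/
theorem scr52_centre_mem {δ : ℝ} (hδ : 0 < δ) {F : Finset (ℤ × ℤ)} {f : ℤ × ℤ} (hf : f ∈ F) :
    ((δ * ((f.1 : ℝ) + 1 / 2), δ * ((f.2 : ℝ) + 1 / 2)) : ℝ × ℝ) ∈ faceRegionSq δ F := by
  rw [at92h_region hδ]
  intro g hg
  have : g = f := at92h_eq_of_strict hδ (y := (δ * ((f.1 : ℝ) + 1 / 2), δ * ((f.2 : ℝ) + 1 / 2)))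
    (by simp only; nlinarith) (by simp only; nlinarith) (by simp only; nlinarith)
    (by simp only; nlinarith) hg
  rw [this]
  exact hf

/-- a lattice point of the region is a corner (it is the lower left corner of a face of `F`) -/
theorem scr52_face_of_mem {δ : ℝ} (hδ : 0 < δ) {F : Finset (ℤ × ℤ)} {v : ℤ × ℤ}
    (hv : ((δ * (v.1 : ℝ), δ * (v.2 : ℝ)) : ℝ × ℝ) ∈ faceRegionSq δ F) : v ∈ F := by
  rw [at92h_region hδ] at hv
  refine hv v ?_
  rw [at92h_mem_sq]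
  simp only
  refine ⟨⟨le_rfl, ?_⟩, le_rfl, ?_⟩ <;> nlinarith


/-- the lattice point `δ v` -/
def scr52Pt (δ : ℝ) (v : ℤ × ℤ) : ℝ × ℝ := (δ * (v.1 : ℝ), δ * (v.2 : ℝ))

/-- a finite sum which contains the support is translation invariant -/
theorem scr52_sum_shift (C : Finset (ℤ × ℤ)) (e : ℤ × ℤ) (u : ℤ × ℤ → ℝ) (h1 : Function.support u ⊆ C)
    (h2 : Function.support (fun v => u (v + e)) ⊆ C) : ∑ v ∈ C, u (v + e) = ∑ v ∈ C, u v := by
  rw [← finsum_eq_sum_of_support_subset _ h2, ← finsum_eq_sum_of_support_subset _ h1]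
  exact finsum_comp_equiv (Equiv.addRight e)

theorem scr52_near_of_ne {ψ : ℝ × ℝ → ℝ} {z : ℝ × ℝ} {ρ₀ : ℝ} (hρ : tsupport ψ ⊆ Metric.ball z ρ₀) {x : ℝ × ℝ}
    (hx : ψ x ≠ 0) : |x.1 - z.1| < ρ₀ ∧ |x.2 - z.2| < ρ₀ := by
  have := hρ (subset_tsupport ψ hx)
  rw [Metric.mem_ball, Prod.dist_eq, max_lt_iff, Real.dist_eq, Real.dist_eq] at this
  exact this

theorem scr52_card_Icc_le (a b : ℝ) (hab : a ≤ b) :
    ((Finset.Icc ⌈a⌉ ⌊b⌋).card : ℝ) ≤ b - a + 1 := by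
  rw [Int.card_Icc]
  have h1 : ((⌊b⌋ + 1 - ⌈a⌉).toNat : ℝ) = (((⌊b⌋ + 1 - ⌈a⌉).toNat : ℤ) : ℝ) := by norm_cast
  rw [h1, Int.toNat_eq_max]
  push_cast
  refine max_le ?_ (by linarith)
  linarith [Int.floor_le b, Int.le_ceil a]

theorem scr52_mem_corners {δ : ℝ} (hδ : 0 < δ) {F : Finset (ℤ × ℤ)} {z : ℝ × ℝ} {r' : ℝ}
    (hF : scrSq z r' ⊆ faceRegionSq δ F) {v : ℤ × ℤ} (h1 : |δ * (v.1 : ℝ) - z.1| ≤ r')
    (h2 : |δ * (v.2 : ℝ) - z.2| ≤ r') : v ∈ cornersOf F := by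
  refine at92h_self_mem_corners (scr52_face_of_mem hδ (hF ?_))
  simp only [scrSq, Set.mem_prod, Set.mem_Icc]
  rw [abs_le] at h1 h2
  refine ⟨⟨?_, ?_⟩, ?_, ?_⟩ <;> linarith [h1.1, h1.2, h2.1, h2.2]

theorem scr52_bound_D4 (e : ℝ × ℝ) {φ : ℝ × ℝ → ℝ} (hφ : ContDiff ℝ ((⊤ : ℕ∞) : WithTop ℕ∞) φ) {z : ℝ × ℝ} {ρ₀ : ℝ}
    (hρ : tsupport φ ⊆ Metric.ball z ρ₀) :
    ∃ M, ∀ x, |scr52D e (scr52D e (scr52D e (scr52D e φ))) x| ≤ M := by
  have c4 := scr52_D_contDiff e (scr52_D_contDiff e (scr52_D_contDiff e (scr52_D_contDiff e hφ)))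
  have hs : tsupport (scr52D e (scr52D e (scr52D e (scr52D e φ)))) ⊆ tsupport φ :=
    (scr52_D_tsupport e _).trans ((scr52_D_tsupport e _).trans
      ((scr52_D_tsupport e _).trans (scr52_D_tsupport e _)))
  have hc : HasCompactSupport (scr52D e (scr52D e (scr52D e (scr52D e φ)))) :=
    IsCompact.of_isClosed_subset (isCompact_closedBall z ρ₀) (isClosed_tsupport _)
      (hs.trans (hρ.trans Metric.ball_subset_closedBall))
  obtain ⟨M, hM⟩ := c4.continuous.bounded_above_of_compact_support hc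
  exact ⟨M, fun x => by simpa using hM x⟩

theorem scr52_lap_tsupport {φ : ℝ × ℝ → ℝ} (hφ : ContDiff ℝ ((⊤ : ℕ∞) : WithTop ℕ∞) φ) :
    tsupport (lap2 φ) ⊆ tsupport φ := by
  have e : lap2 φ = fun z => scr52D (1, 0) (scr52D (1, 0) φ) z + scr52D (0, 1) (scr52D (0, 1) φ) z :=
    funext (scr52_lap_eq hφ)
  rw [e]
  refine (tsupport_add _ _).trans (Set.union_subset ?_ ?_)
  · exact (scr52_D_tsupport _ _).trans (scr52_D_tsupport _ _)
  · exact (scr52_D_tsupport _ _).trans (scr52_D_tsupport _ _)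

/-- **(1) the total mass** of the plain Riemann sum of `Δφ` is `O(δ²)`. -/
theorem scr52_mass {φ : ℝ × ℝ → ℝ} (hφ : ContDiff ℝ ((⊤ : ℕ∞) : WithTop ℕ∞) φ) {z : ℝ × ℝ} {ρ₀ r' : ℝ}
    (hρ : tsupport φ ⊆ Metric.ball z ρ₀) :
    ∃ C : ℝ, 0 ≤ C ∧ ∀ δ : ℝ, 0 < δ → δ ≤ 1 → ρ₀ + δ ≤ r' → ∀ F : Finset (ℤ × ℤ),
      scrSq z r' ⊆ faceRegionSq δ F →
      |δ ^ 2 * ∑ v ∈ cornersOf F, lap2 φ (δ * (v.1 : ℝ), δ * (v.2 : ℝ))| ≤ C * δ ^ 2 := by
  obtain ⟨M1, hM1⟩ := scr52_bound_D4 (1, 0) hφ hρ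
  obtain ⟨M2, hM2⟩ := scr52_bound_D4 (0, 1) hφ hρ
  have hM1' : 0 ≤ M1 := (abs_nonneg _).trans (hM1 0)
  have hM2' : 0 ≤ M2 := (abs_nonneg _).trans (hM2 0)
  refine ⟨(2 * M1 + 2 * M2) * (2 * |ρ₀| + 3) ^ 2, by positivity, ?_⟩
  intro δ hδ hδ1 hr F hF
  set C := cornersOf F with hC
  set u : ℤ × ℤ → ℝ := fun v => φ (scr52Pt δ v) with hu
  set ρ := ρ₀ + δ with hρdef
  -- supports
  have near : ∀ (e : ℤ × ℤ), |(e.1 : ℝ)| ≤ 1 → |(e.2 : ℝ)| ≤ 1 → ∀ v, u (v + e) ≠ 0 →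
      |δ * (v.1 : ℝ) - z.1| ≤ ρ ∧ |δ * (v.2 : ℝ) - z.2| ≤ ρ := by
    intro e he1 he2 v hv
    obtain ⟨h1, h2⟩ := scr52_near_of_ne hρ hv
    simp only [scr52Pt, Prod.fst_add, Prod.snd_add, Int.cast_add] at h1 h2
    rw [abs_le] at he1 he2
    rw [abs_lt] at h1 h2
    constructor <;> rw [abs_le] <;> constructor <;> nlinarith [he1.1, he1.2, he2.1, he2.2]
  have supp : ∀ (e : ℤ × ℤ), |(e.1 : ℝ)| ≤ 1 → |(e.2 : ℝ)| ≤ 1 →
      Function.support (fun v => u (v + e)) ⊆ C := by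
    intro e he1 he2 v hv
    obtain ⟨h1, h2⟩ := near e he1 he2 v hv
    exact scr52_mem_corners hδ hF (h1.trans hr) (h2.trans hr)
  have supp0 : Function.support u ⊆ C := by
    have := supp 0 (by simp) (by simp)
    simpa using this
  have shift : ∀ (e : ℤ × ℤ), |(e.1 : ℝ)| ≤ 1 → |(e.2 : ℝ)| ≤ 1 →
      ∑ v ∈ C, u (v + e) = ∑ v ∈ C, u v :=
    fun e he1 he2 => scr52_sum_shift C e u supp0 (supp e he1 he2)
  -- the Taylor remainder
  set T : ℤ × ℤ → ℝ := fun v => δ ^ 2 * lap2 φ (scr52Pt δ v) -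
    (u (v + (1, 0)) + u (v + (-1, 0)) - 2 * u v) - (u (v + (0, 1)) + u (v + (0, -1)) - 2 * u v) with hT
  have hTb : ∀ v, |T v| ≤ (2 * M1 + 2 * M2) * δ ^ 4 := by
    intro v
    have t1 := scr52_taylor (1, 0) hφ hM1 (scr52Pt δ v) hδ.le
    have t2 := scr52_taylor (0, 1) hφ hM2 (scr52Pt δ v) hδ.le
    have p1 : scr52Pt δ v + δ • ((1, 0) : ℝ × ℝ) = scr52Pt δ (v + (1, 0)) :=
      Prod.ext (by simp [scr52Pt]; ring) (by simp [scr52Pt])
    have p2 : scr52Pt δ v - δ • ((1, 0) : ℝ × ℝ) = scr52Pt δ (v + (-1, 0)) :=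
      Prod.ext (by simp [scr52Pt]; ring) (by simp [scr52Pt])
    have p3 : scr52Pt δ v + δ • ((0, 1) : ℝ × ℝ) = scr52Pt δ (v + (0, 1)) :=
      Prod.ext (by simp [scr52Pt]) (by simp [scr52Pt]; ring)
    have p4 : scr52Pt δ v - δ • ((0, 1) : ℝ × ℝ) = scr52Pt δ (v + (0, -1)) :=
      Prod.ext (by simp [scr52Pt]) (by simp [scr52Pt]; ring)
    rw [p1, p2] at t1
    rw [p3, p4] at t2
    have e : T v = -(φ (scr52Pt δ (v + (1, 0))) + φ (scr52Pt δ (v + (-1, 0))) - 2 * φ (scr52Pt δ v) -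
        δ ^ 2 * scr52D (1, 0) (scr52D (1, 0) φ) (scr52Pt δ v)) -
        (φ (scr52Pt δ (v + (0, 1))) + φ (scr52Pt δ (v + (0, -1))) - 2 * φ (scr52Pt δ v) -
        δ ^ 2 * scr52D (0, 1) (scr52D (0, 1) φ) (scr52Pt δ v)) := by
      simp only [hT, hu, scr52_lap_eq hφ]
      ring
    rw [e]
    refine (abs_sub _ _).trans ?_
    rw [abs_neg]
    linarith
  set Box : Finset (ℤ × ℤ) := Finset.Icc ⌈(z.1 - ρ) / δ⌉ ⌊(z.1 + ρ) / δ⌋ ×ˢ
    Finset.Icc ⌈(z.2 - ρ) / δ⌉ ⌊(z.2 + ρ) / δ⌋ with hBox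
  have memBox : ∀ v : ℤ × ℤ, |δ * (v.1 : ℝ) - z.1| ≤ ρ → |δ * (v.2 : ℝ) - z.2| ≤ ρ → v ∈ Box := by
    intro v h1 h2
    rw [abs_le] at h1 h2
    simp only [hBox, Finset.mem_product, Finset.mem_Icc, Int.ceil_le, Int.le_floor]
    refine ⟨⟨?_, ?_⟩, ?_, ?_⟩
    · rw [div_le_iff₀ hδ]; linarith [h1.1]
    · rw [le_div_iff₀ hδ]; linarith [h1.2]
    · rw [div_le_iff₀ hδ]; linarith [h2.1]
    · rw [le_div_iff₀ hδ]; linarith [h2.2]
  have hT0 : ∀ v, v ∉ Box → T v = 0 := by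
    intro v hv
    have z0 : ∀ (e : ℤ × ℤ), |(e.1 : ℝ)| ≤ 1 → |(e.2 : ℝ)| ≤ 1 → u (v + e) = 0 := by
      intro e he1 he2
      by_contra hne
      obtain ⟨h1, h2⟩ := near e he1 he2 v hne
      exact hv (memBox v h1 h2)
    have z1 : lap2 φ (scr52Pt δ v) = 0 := by
      by_contra hne
      obtain ⟨h1, h2⟩ := scr52_near_of_ne ((scr52_lap_tsupport hφ).trans hρ) hne
      exact hv (memBox v (by simp only [scr52Pt] at h1; linarith) (by simp only [scr52Pt] at h2; linarith))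
    have z2 : u v = 0 := by simpa using z0 0 (by simp) (by simp)
    simp only [hT]
    rw [z1, z0 (1, 0) (by simp) (by simp), z0 (-1, 0) (by simp) (by simp), z0 (0, 1) (by simp) (by simp),
      z0 (0, -1) (by simp) (by simp), z2]
    ring
  -- the sum
  have hsum : δ ^ 2 * ∑ v ∈ C, lap2 φ (δ * (v.1 : ℝ), δ * (v.2 : ℝ)) = ∑ v ∈ C, T v := by
    simp only [hT]
    rw [Finset.sum_sub_distrib, Finset.sum_sub_distrib, Finset.sum_sub_distrib, Finset.sum_sub_distrib,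
      Finset.sum_add_distrib, Finset.sum_add_distrib, shift (1, 0) (by simp) (by simp),
      shift (-1, 0) (by simp) (by simp), shift (0, 1) (by simp) (by simp), shift (0, -1) (by simp) (by simp),
      ← Finset.mul_sum, ← Finset.mul_sum]
    simp only [scr52Pt]
    ring
  rw [hsum]
  have hcard : (Box.card : ℝ) ≤ (2 * |ρ₀| + 3) ^ 2 / δ ^ 2 := by
    by_cases hρn : 0 ≤ ρ
    · have c1 := scr52_card_Icc_le ((z.1 - ρ) / δ) ((z.1 + ρ) / δ)
        (div_le_div_of_nonneg_right (by linarith) hδ.le)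
      have c2 := scr52_card_Icc_le ((z.2 - ρ) / δ) ((z.2 + ρ) / δ)
        (div_le_div_of_nonneg_right (by linarith) hδ.le)
      have e1 : (z.1 + ρ) / δ - (z.1 - ρ) / δ + 1 = (2 * ρ + δ) / δ := by field_simp; ring
      have e2 : (z.2 + ρ) / δ - (z.2 - ρ) / δ + 1 = (2 * ρ + δ) / δ := by field_simp; ring
      rw [e1] at c1
      rw [e2] at c2
      have hle : (2 * ρ + δ) / δ ≤ (2 * |ρ₀| + 3) / δ :=
        div_le_div_of_nonneg_right (by linarith [le_abs_self ρ₀]) hδ.le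
      rw [hBox, Finset.card_product]
      push_cast
      calc _ ≤ ((2 * |ρ₀| + 3) / δ) * ((2 * |ρ₀| + 3) / δ) :=
            mul_le_mul (c1.trans hle) (c2.trans hle) (Nat.cast_nonneg _)
              (by positivity)
        _ = _ := by rw [div_mul_div_comm]; ring
    · have : Box = ∅ := by
        rw [Finset.eq_empty_iff_forall_notMem]
        intro v hv
        simp only [hBox, Finset.mem_product, Finset.mem_Icc, Int.ceil_le, Int.le_floor] at hv
        have h1 := hv.1.1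
        have h2 := hv.1.2
        rw [div_le_iff₀ hδ] at h1
        rw [le_div_iff₀ hδ] at h2
        exact hρn (by linarith)
      rw [this]
      simp only [Finset.card_empty, Nat.cast_zero]
      positivity
  calc |∑ v ∈ C, T v| ≤ ∑ v ∈ C, |T v| := Finset.abs_sum_le_sum_abs _ _
    _ = ∑ v ∈ C ∩ Box, |T v| := by
        refine (Finset.sum_subset Finset.inter_subset_left fun v hv hv' => ?_).symm
        rw [hT0 v (fun h => hv' (Finset.mem_inter.2 ⟨hv, h⟩)), abs_zero]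
    _ ≤ ∑ _v ∈ C ∩ Box, (2 * M1 + 2 * M2) * δ ^ 4 := Finset.sum_le_sum fun v _ => hTb v
    _ = ((C ∩ Box).card : ℝ) * ((2 * M1 + 2 * M2) * δ ^ 4) := by rw [Finset.sum_const, nsmul_eq_mul]
    _ ≤ ((2 * |ρ₀| + 3) ^ 2 / δ ^ 2) * ((2 * M1 + 2 * M2) * δ ^ 4) := by
        refine mul_le_mul_of_nonneg_right ?_ (by positivity)
        refine le_trans ?_ hcard
        exact_mod_cast Finset.card_le_card Finset.inter_subset_right
    _ = (2 * M1 + 2 * M2) * (2 * |ρ₀| + 3) ^ 2 * δ ^ 2 := by field_simp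

/-! ### C. the level bound -/

theorem scr52_level_aux {δ : ℝ} (hδ : 0 < δ) {F : Finset (ℤ × ℤ)} {z : ℝ × ℝ} {R : ℝ}
    (hR : faceRegionSq δ F ⊆ scrSq z R) {τ : cornersOf F → Bool} {τd : F → Bool} {Hv Hf : ℤ × ℤ → ℝ}
    (h : IsATHeight τ τd Hv Hf) (n : ℕ) :
    ∀ v ∈ cornersOf F, z.1 + R - δ * n < δ * ((v.1 : ℝ) + 1 / 2) → |Hv v| ≤ n := by
  induction n with
  | zero =>
    intro v hv hlt
    have hvF : v ∉ F := by
      intro hvF
      have := hR (scr52_centre_mem hδ hvF)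
      simp only [scrSq, Set.mem_prod, Set.mem_Icc] at this
      simp only [Nat.cast_zero, mul_zero, sub_zero] at hlt
      linarith [this.1.2]
    have hp : OnPolygon F v := at92h_onPolygon hvF (by simp [at92hCor])
    rw [h.1 v hv hp]
    simp
  | succ n ih =>
    intro v hv hlt
    by_cases hp : OnPolygon F v
    · rw [h.1 v hv hp]
      simp only [abs_zero]
      positivity
    · have hvF : v ∈ F := by
        unfold OnPolygon at hp
        exact (not_not.1 hp).1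
      have hw : (v.1 + 1, v.2) ∈ cornersOf F :=
        at92h_mem_corners.2 ⟨v, hvF, by simp [at92hCor]⟩
      have h1 := ih (v.1 + 1, v.2) hw (by
        push_cast at hlt ⊢
        nlinarith)
      have h2 := at92h_incr_le h hvF (v := v) (w := (v.1 + 1, v.2)) (by simp [at92hCor])
        (by simp [at92hCor])
      have h3 : |Hv v| ≤ |Hv v - Hv (v.1 + 1, v.2)| + |Hv (v.1 + 1, v.2)| := by
        have := abs_add_le (Hv v - Hv (v.1 + 1, v.2)) (Hv (v.1 + 1, v.2))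
        simpa using this
      push_cast
      linarith

/-- **(2) the level bound**: in a domain inside `scrSq z R` every height is at most `2 R / δ + 1`. -/
theorem scr52_level {δ : ℝ} (hδ : 0 < δ) {F : Finset (ℤ × ℤ)} {z : ℝ × ℝ} {R : ℝ}
    (hR : faceRegionSq δ F ⊆ scrSq z R) {τ : cornersOf F → Bool} {τd : F → Bool} {Hv Hf : ℤ × ℤ → ℝ}
    (h : IsATHeight τ τd Hv Hf) {v : ℤ × ℤ} (hv : v ∈ cornersOf F) : |Hv v| ≤ 2 * R / δ + 1 := by
  obtain ⟨f, hf, hc⟩ := at92h_mem_corners.1 hv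
  have hcen := hR (scr52_centre_mem hδ hf)
  simp only [scrSq, Set.mem_prod, Set.mem_Icc] at hcen
  have hR0 : 0 ≤ R := by linarith [hcen.1.1, hcen.1.2]
  have hfv : (f.1 : ℝ) ≤ v.1 := by
    rcases hc.1 with e | e
    · rw [e]
    · rw [e]; push_cast; linarith
  have hq : 0 ≤ 2 * R / δ := by positivity
  have hn : 2 * R / δ < (⌊2 * R / δ⌋₊ + 1 : ℕ) := by
    push_cast
    exact Nat.lt_floor_add_one _
  have hn' : 2 * R < δ * (⌊2 * R / δ⌋₊ + 1 : ℕ) := by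
    rw [div_lt_iff₀ hδ] at hn
    linarith
  have key := scr52_level_aux hδ hR h (⌊2 * R / δ⌋₊ + 1) v hv (by
    have : δ * ((f.1 : ℝ) + 1 / 2) ≤ δ * ((v.1 : ℝ) + 1 / 2) := by nlinarith
    linarith [hcen.1.1])
  refine key.trans ?_
  push_cast
  linarith [Nat.floor_le hq]

/-! ### D. reduction of the contract `at_screen` to the NEUTRAL pairing -/

/-- the neutral pairing: the height is read relative to its value at the corner `v₀`. -/
noncomputable def scr52X0 (δ : ℝ) {F : Finset (ℤ × ℤ)} (g : ℝ × ℝ → ℝ) (v₀ : ℤ × ℤ) (p : at92Cfg F) : ℝ :=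
  δ ^ 2 * ∑ v ∈ cornersOf F, (atHeight p.1 p.2 v - atHeight p.1 p.2 v₀) * g (δ * v.1, δ * v.2)

/-- the base corner: the lattice point just below-left of `z`. -/
noncomputable def scr52Base (δ : ℝ) (z : ℝ × ℝ) : ℤ × ℤ := (⌊z.1 / δ⌋, ⌊z.2 / δ⌋)

theorem scr52_split (δ : ℝ) {F : Finset (ℤ × ℤ)} (g : ℝ × ℝ → ℝ) (v₀ : ℤ × ℤ) (p : at92Cfg F) :
    at92X δ g p = scr52X0 δ g v₀ p +
      (δ ^ 2 * ∑ v ∈ cornersOf F, g (δ * v.1, δ * v.2)) * atHeight p.1 p.2 v₀ := by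
  unfold at92X scr52X0
  rw [mul_assoc, ← mul_add, Finset.sum_mul, ← Finset.sum_add_distrib]
  congr 1
  refine Finset.sum_congr rfl fun v _ => ?_
  ring

theorem scr52_E_add (t : ℝ) (F : Finset (ℤ × ℤ)) (A B : at92Cfg F → ℝ) :
    scrE t F (fun p => A p + B p) = scrE t F A + scrE t F B := by
  unfold scrE
  rw [← add_div, ← Finset.sum_add_distrib]
  congr 1
  exact Finset.sum_congr rfl fun p _ => by ring

theorem scr52_E_abs_le {t : ℝ} (ht : 0 < t) (F : Finset (ℤ × ℤ)) (A : at92Cfg F → ℝ) {K : ℝ}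
    (hK : ∀ p ∈ at92Adm F, |A p| ≤ K) : |scrE t F A| ≤ K := by
  unfold scrE
  have hZ := at92_Z_pos ht F
  rw [abs_div, abs_of_pos hZ, div_le_iff₀ hZ]
  calc |∑ p ∈ at92Adm F, at92W t p * A p| ≤ ∑ p ∈ at92Adm F, |at92W t p * A p| :=
        Finset.abs_sum_le_sum_abs _ _
    _ ≤ ∑ p ∈ at92Adm F, at92W t p * K := by
        refine Finset.sum_le_sum fun p hp => ?_
        have hw : 0 < at92W t p := pow_pos ht _
        rw [abs_mul, abs_of_pos hw]
        exact mul_le_mul_of_nonneg_left (hK p hp) hw.le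
    _ = K * ∑ p ∈ at92Adm F, at92W t p := by rw [← Finset.sum_mul, mul_comm]

theorem scr52_base_near {δ : ℝ} (hδ : 0 < δ) (x : ℝ) : |δ * (⌊x / δ⌋ : ℝ) - x| ≤ δ := by
  have h1 := Int.floor_le (x / δ)
  have h2 := Int.lt_floor_add_one (x / δ)
  rw [le_div_iff₀ hδ] at h1
  rw [div_lt_iff₀ hδ] at h2
  rw [abs_le]
  constructor <;> nlinarith

theorem scr52_base_mem {δ : ℝ} (hδ : 0 < δ) {F : Finset (ℤ × ℤ)} {z : ℝ × ℝ} {r' : ℝ} (hr : δ ≤ r')
    (hF : scrSq z r' ⊆ faceRegionSq δ F) : scr52Base δ z ∈ cornersOf F :=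
  scr52_mem_corners hδ hF ((scr52_base_near hδ z.1).trans hr) ((scr52_base_near hδ z.2).trans hr)

/-- **(3) the reduction**: the contract `at_screen` for the frozen (not exactly neutral) pairing `at92X δ (Δφ)` follows from the same
statement for the NEUTRAL pairing `scr52X0 δ (Δφ) v₀`, where only height DIFFERENCES to the base corner `v₀ ≈ z / δ` are read. -/
theorem scr52_screen_of_neutral {t : ℝ} (ht : 0 < t) (z : ℝ × ℝ) (r r' R : ℝ) (hr : 0 < r) (hrr : r < r')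
    (φ : ℝ × ℝ → ℝ) (hφ : ContDiff ℝ ((⊤ : ℕ∞) : WithTop ℕ∞) φ) (hφs : tsupport φ ⊆ Metric.ball z (r / 1000))
    (H : ∀ ε : ℝ, 0 < ε → ∃ δ₀ : ℝ, 0 < δ₀ ∧ ∀ δ : ℝ, 0 < δ → δ < δ₀ → ∀ F : Finset (ℤ × ℤ), ScrFlat δ F →
      scrSq z r' ⊆ faceRegionSq δ F → faceRegionSq δ F ⊆ scrSq z R →
      ∀ G : at92Cfg F → ℝ, (∀ p, |G p| ≤ 1) → ScrExt δ F (scrSq z r) G →
        |scrE t F (fun p => scr52X0 δ (lap2 φ) (scr52Base δ z) p * G p)| ≤ ε)
    (ε : ℝ) (hε : 0 < ε) :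
    ∃ δ₀ : ℝ, 0 < δ₀ ∧ ∀ δ : ℝ, 0 < δ → δ < δ₀ → ∀ F : Finset (ℤ × ℤ), ScrFlat δ F →
      scrSq z r' ⊆ faceRegionSq δ F → faceRegionSq δ F ⊆ scrSq z R →
      ∀ G : at92Cfg F → ℝ, (∀ p, |G p| ≤ 1) → ScrExt δ F (scrSq z r) G →
        |scrE t F (fun p => at92X δ (lap2 φ) p * G p)| ≤ ε := by
  obtain ⟨δ₁, hδ₁, H1⟩ := H (ε / 2) (by positivity)
  obtain ⟨C, hC, hmass⟩ := scr52_mass (r' := r') hφ hφs
  set K := C * (2 * |R| + 1) + 1 with hK
  have hKpos : 0 < K := by positivity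
  refine ⟨min (min δ₁ 1) (min (r / 2) (ε / (2 * K))), by positivity, ?_⟩
  intro δ hδ hlt F hflat hin hout G hG hext
  have l1 : δ < δ₁ := lt_of_lt_of_le hlt ((min_le_left _ _).trans (min_le_left _ _))
  have l2 : δ < 1 := lt_of_lt_of_le hlt ((min_le_left _ _).trans (min_le_right _ _))
  have l3 : δ < r / 2 := lt_of_lt_of_le hlt ((min_le_right _ _).trans (min_le_left _ _))
  have l4 : δ < ε / (2 * K) := lt_of_lt_of_le hlt ((min_le_right _ _).trans (min_le_right _ _))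
  have hv₀ : scr52Base δ z ∈ cornersOf F := scr52_base_mem hδ (by linarith) hin
  have hc : IsPreconnected (frontier (faceRegionSq δ F)) := by
    obtain ⟨γ, hγc, -, hγr⟩ := hflat
    rw [← hγr]
    exact isPreconnected_range hγc
  set m := δ ^ 2 * ∑ v ∈ cornersOf F, lap2 φ (δ * (v.1 : ℝ), δ * (v.2 : ℝ)) with hm
  have hmb : |m| ≤ C * δ ^ 2 := hmass δ hδ l2.le (by linarith) F hin
  have e : (fun p : at92Cfg F => at92X δ (lap2 φ) p * G p) = fun p =>
      scr52X0 δ (lap2 φ) (scr52Base δ z) p * G p + m * atHeight p.1 p.2 (scr52Base δ z) * G p := by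
    funext p
    rw [scr52_split δ (lap2 φ) (scr52Base δ z) p]
    ring
  rw [e, scr52_E_add]
  have b1 := H1 δ hδ l1 F hflat hin hout G hG hext
  have b2 : |scrE t F (fun p => m * atHeight p.1 p.2 (scr52Base δ z) * G p)| ≤ ε / 2 := by
    refine scr52_E_abs_le ht F _ fun p hp => ?_
    obtain ⟨Hf, hH⟩ := at249_height_spec hδ hc ((at92_mem_adm p).1 hp)
    have hl := scr52_level hδ hout hH hv₀
    have hl' : |atHeight p.1 p.2 (scr52Base δ z)| ≤ 2 * |R| / δ + 1 := by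
      refine hl.trans ?_
      have : 2 * R / δ ≤ 2 * |R| / δ := by
        gcongr
        exact le_abs_self R
      linarith
    rw [abs_mul, abs_mul]
    calc |m| * |atHeight p.1 p.2 (scr52Base δ z)| * |G p|
        ≤ (C * δ ^ 2) * (2 * |R| / δ + 1) * 1 := by
          gcongr
          exact hG p
      _ = C * (2 * |R| * δ + δ ^ 2) := by field_simp
      _ ≤ C * ((2 * |R| + 1) * δ) := by
          gcongr
          nlinarith [abs_nonneg R]
      _ ≤ K * δ := by rw [hK]; nlinarith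
      _ ≤ ε / 2 := by
          rw [lt_div_iff₀ (by positivity)] at l4
          nlinarith
  calc _ ≤ |scrE t F fun p => scr52X0 δ (lap2 φ) (scr52Base δ z) p * G p| +
        |scrE t F fun p => m * atHeight p.1 p.2 (scr52Base δ z) * G p| := abs_add_le _ _
    _ ≤ ε / 2 + ε / 2 := add_le_add b1 b2
    _ = ε := by ring

/-! ### E. the midpoint rule: cell weights against point weights, rate `δ⁴` -/

theorem scr52_mid1 {P f0 f1 f2 : ℝ → ℝ} (hP : ∀ s, HasDerivAt P (f0 s) s) (h0 : ∀ s, HasDerivAt f0 (f1 s) s)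
    (h1 : ∀ s, HasDerivAt f1 (f2 s) s) {M : ℝ} (hM : ∀ s, |f2 s| ≤ M) {h : ℝ} (hh : 0 ≤ h) :
    |P h - P (-h) - 2 * h * f0 0| ≤ 2 * M * h ^ 3 := by
  have b1 : ∀ s, |s| ≤ h → |f1 s - f1 (-s)| ≤ 2 * M * h :=
    scr52_mvt (G := fun s => f1 s - f1 (-s)) (G' := fun s => f2 s + f2 (-s))
      (fun s => by
        have e : HasDerivAt (fun s => f1 s - f1 (-s)) (f2 s - -f2 (-s)) s :=
          (h1 s).sub (scr52_hasDerivAt_neg h1 s)
        convert e using 1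
        ring) (by simp)
      (fun s _ => (abs_add_le _ _).trans (by linarith [hM s, hM (-s)]))
  have b0 : ∀ s, |s| ≤ h → |f0 s + f0 (-s) - 2 * f0 0| ≤ 2 * M * h * h :=
    scr52_mvt (G := fun s => f0 s + f0 (-s) - 2 * f0 0) (G' := fun s => f1 s - f1 (-s))
      (fun s => by
        have e : HasDerivAt (fun s => f0 s + f0 (-s) - 2 * f0 0) (f1 s + -f1 (-s)) s :=
          ((h0 s).add (scr52_hasDerivAt_neg h0 s)).sub_const _
        convert e using 1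
        ring) (by simp; ring) b1
  have bP : ∀ s, |s| ≤ h → |P s - P (-s) - 2 * s * f0 0| ≤ 2 * M * h * h * h :=
    scr52_mvt (G := fun s => P s - P (-s) - 2 * s * f0 0) (G' := fun s => f0 s + f0 (-s) - 2 * f0 0)
      (fun s => by
        have e : HasDerivAt (fun s => P s - P (-s) - 2 * s * f0 0) (f0 s - -f0 (-s) - 2 * 1 * f0 0) s :=
          ((hP s).sub (scr52_hasDerivAt_neg hP s)).sub (((hasDerivAt_id s).const_mul 2).mul_const _)
        convert e using 1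
        ring) (by simp) b0
  calc _ ≤ 2 * M * h * h * h := bP h (by rw [abs_of_nonneg hh])
    _ = 2 * M * h ^ 3 := by ring

/-- midpoint rule in one variable -/
theorem scr52_mid {g g1 g2 : ℝ → ℝ} (h0 : ∀ s, HasDerivAt g (g1 s) s) (h1 : ∀ s, HasDerivAt g1 (g2 s) s)
    {M : ℝ} (hM : ∀ s, |g2 s| ≤ M) (c : ℝ) {h : ℝ} (hh : 0 ≤ h) :
    |∫ y in Set.Ioc (c - h) (c + h), (g y - g c)| ≤ 2 * M * h ^ 3 := by
  have hg : Continuous g := continuous_iff_continuousAt.2 fun s => (h0 s).continuousAt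
  have hc : Continuous fun y => g y - g c := hg.sub continuous_const
  rw [← intervalIntegral.integral_of_le (by linarith)]
  have hP : ∀ s, HasDerivAt (fun s => ∫ y in c..(c + s), (g y - g c)) (g (c + s) - g c) s := by
    intro s
    exact (hc.integral_hasStrictDerivAt c (c + s)).hasDerivAt.comp_const_add c s
  have k0 : ∀ s, HasDerivAt (fun s => g (c + s) - g c) (g1 (c + s)) s := by
    intro s
    exact ((h0 (c + s)).comp_const_add c s).sub_const (g c)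
  have k1 : ∀ s, HasDerivAt (fun s => g1 (c + s)) (g2 (c + s)) s := by
    intro s
    exact (h1 (c + s)).comp_const_add c s
  have key := scr52_mid1 hP k0 k1 (fun s => hM _) hh
  simp only [add_zero, sub_self, mul_zero, sub_zero] at key
  rw [intervalIntegral.integral_interval_sub_left (hc.intervalIntegrable _ _) (hc.intervalIntegrable _ _)] at key
  simpa [sub_eq_add_neg] using key

theorem scr52_slice1 {f : ℝ × ℝ → ℝ} (hf : ContDiff ℝ ((⊤ : ℕ∞) : WithTop ℕ∞) f) (y s : ℝ) :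
    HasDerivAt (fun x => f (x, y)) (scr52D (1, 0) f (s, y)) s := by
  have h1 : HasFDerivAt f (fderiv ℝ f (s, y)) (s, y) := ((hf.differentiable (by simp)) _).hasFDerivAt
  have h2 : HasDerivAt (fun t : ℝ => ((t, y) : ℝ × ℝ)) (1, 0) s :=
    (hasDerivAt_id s).prodMk (hasDerivAt_const s y)
  exact h1.comp_hasDerivAt s h2

theorem scr52_slice2 {f : ℝ × ℝ → ℝ} (hf : ContDiff ℝ ((⊤ : ℕ∞) : WithTop ℕ∞) f) (x s : ℝ) :
    HasDerivAt (fun y => f (x, y)) (scr52D (0, 1) f (x, s)) s := by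
  have h1 : HasFDerivAt f (fderiv ℝ f (x, s)) (x, s) := ((hf.differentiable (by simp)) _).hasFDerivAt
  have h2 : HasDerivAt (fun t : ℝ => ((x, t) : ℝ × ℝ)) (0, 1) s :=
    (hasDerivAt_const s x).prodMk (hasDerivAt_id s)
  exact h1.comp_hasDerivAt s h2

/-- **midpoint rule on a cell**: the cell weight of SPEC against the point weight of the frozen pairing. -/
theorem scr52_cell {f : ℝ × ℝ → ℝ} (hf : ContDiff ℝ ((⊤ : ℕ∞) : WithTop ℕ∞) f) {M1 M2 : ℝ}
    (h1 : ∀ x, |scr52D (1, 0) (scr52D (1, 0) f) x| ≤ M1) (h2 : ∀ x, |scr52D (0, 1) (scr52D (0, 1) f) x| ≤ M2)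
    {δ : ℝ} (hδ : 0 < δ) (u : ℤ × ℤ) :
    |aspWt δ f u - δ ^ 2 * f (δ * (u.1 : ℝ), δ * (u.2 : ℝ))| ≤ (M1 + M2) * δ ^ 4 := by
  have hM1 : 0 ≤ M1 := (abs_nonneg _).trans (h1 0)
  have hM2 : 0 ≤ M2 := (abs_nonneg _).trans (h2 0)
  set c1 := δ * (u.1 : ℝ) with hc1
  set c2 := δ * (u.2 : ℝ) with hc2
  set h := δ / 2 with hh
  have hh0 : 0 ≤ h := by positivity
  have hcell : aspCell δ u = Set.Ioc (c1 - h) (c1 + h) ×ˢ Set.Ioc (c2 - h) (c2 + h) := by
    unfold aspCell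
    have a1 : δ * ((u.1 : ℝ) - 1 / 2) = c1 - h := by rw [hc1, hh]; ring
    have a2 : δ * ((u.1 : ℝ) + 1 / 2) = c1 + h := by rw [hc1, hh]; ring
    have a3 : δ * ((u.2 : ℝ) - 1 / 2) = c2 - h := by rw [hc2, hh]; ring
    have a4 : δ * ((u.2 : ℝ) + 1 / 2) = c2 + h := by rw [hc2, hh]; ring
    rw [a1, a2, a3, a4]
  have hcont := hf.continuous
  have hA : Continuous fun z : ℝ × ℝ => f z - f (z.1, c2) :=
    hcont.sub (hcont.comp (continuous_fst.prodMk continuous_const))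
  have hB : Continuous fun z : ℝ × ℝ => f (z.1, c2) - f (c1, c2) :=
    (hcont.comp (continuous_fst.prodMk continuous_const)).sub continuous_const
  have e0 : aspWt δ f u - δ ^ 2 * f (c1, c2) =
      (∫ z in aspCell δ u, (f z - f (z.1, c2))) + ∫ z in aspCell δ u, (f (z.1, c2) - f (c1, c2)) := by
    rw [← integral_add (riem262_cell_integrableOn hA δ u) (riem262_cell_integrableOn hB δ u)]
    have : (fun z : ℝ × ℝ => f z - f (z.1, c2) + (f (z.1, c2) - f (c1, c2))) = fun z => f z - f (c1, c2) := by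
      funext z; ring
    rw [this, integral_sub (riem262_cell_integrableOn hcont δ u) (riem262_cell_integrableOn continuous_const δ u),
      setIntegral_const, riem262_cell_real hδ, smul_eq_mul]
    rfl
  have hv : ∀ c : ℝ, volume.real (Set.Ioc (c - h) (c + h)) = 2 * h := by
    intro c
    rw [Real.volume_real_Ioc_of_le (by linarith)]
    ring
  have hfin : ∀ c : ℝ, volume (Set.Ioc (c - h) (c + h)) < ⊤ := fun c => by
    rw [Real.volume_Ioc]; exact ENNReal.ofReal_lt_top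
  have bA : |∫ z in aspCell δ u, (f z - f (z.1, c2))| ≤ 2 * M2 * h ^ 3 * (2 * h) := by
    have hi := riem262_cell_integrableOn hA δ u
    rw [hcell, Measure.volume_eq_prod] at hi
    rw [hcell, Measure.volume_eq_prod, setIntegral_prod _ hi, ← hv c1]
    rw [← Real.norm_eq_abs]
    refine norm_setIntegral_le_of_norm_le_const (hfin c1) fun x _ => ?_
    rw [Real.norm_eq_abs]
    exact scr52_mid (scr52_slice2 hf x) (scr52_slice2 (scr52_D_contDiff _ hf) x) (fun s => h2 _) c2 hh0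
  have bB : |∫ z in aspCell δ u, (f (z.1, c2) - f (c1, c2))| ≤ 2 * h * (2 * M1 * h ^ 3) := by
    have hi := riem262_cell_integrableOn hB δ u
    rw [hcell, Measure.volume_eq_prod] at hi
    rw [hcell, Measure.volume_eq_prod, setIntegral_prod _ hi]
    simp only [setIntegral_const, hv, smul_eq_mul]
    rw [integral_const_mul, abs_mul, abs_of_nonneg (by positivity : (0 : ℝ) ≤ 2 * h)]
    refine mul_le_mul_of_nonneg_left ?_ (by positivity)
    exact scr52_mid (scr52_slice1 hf c2) (scr52_slice1 (scr52_D_contDiff _ hf) c2) (fun s => h1 _) c1 hh0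
  rw [e0]
  calc _ ≤ 2 * M2 * h ^ 3 * (2 * h) + 2 * h * (2 * M1 * h ^ 3) := (abs_add_le _ _).trans (add_le_add bA bB)
    _ = (M1 + M2) * δ ^ 4 / 4 := by rw [hh]; ring
    _ ≤ (M1 + M2) * δ ^ 4 := by
        have : 0 ≤ (M1 + M2) * δ ^ 4 := by positivity
        linarith

/-- a bounded array carried by the lattice points within `ρ₀ + δ` of `z` has `ℓ¹` norm at most `(2 |ρ₀| + 3)² δ⁻² B`. -/
theorem scr52_sum_box {δ : ℝ} (hδ : 0 < δ) (hδ1 : δ ≤ 1) (z : ℝ × ℝ) (ρ₀ : ℝ) (C : Finset (ℤ × ℤ))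
    (T : ℤ × ℤ → ℝ) {B : ℝ} (hB : ∀ v, |T v| ≤ B)
    (hT0 : ∀ v, T v ≠ 0 → |δ * (v.1 : ℝ) - z.1| ≤ ρ₀ + δ ∧ |δ * (v.2 : ℝ) - z.2| ≤ ρ₀ + δ) :
    ∑ v ∈ C, |T v| ≤ (2 * |ρ₀| + 3) ^ 2 / δ ^ 2 * B := by
  have hB0 : 0 ≤ B := (abs_nonneg _).trans (hB 0)
  set ρ := ρ₀ + δ with hρdef
  set Box : Finset (ℤ × ℤ) := Finset.Icc ⌈(z.1 - ρ) / δ⌉ ⌊(z.1 + ρ) / δ⌋ ×ˢ
    Finset.Icc ⌈(z.2 - ρ) / δ⌉ ⌊(z.2 + ρ) / δ⌋ with hBox
  have memBox : ∀ v : ℤ × ℤ, |δ * (v.1 : ℝ) - z.1| ≤ ρ → |δ * (v.2 : ℝ) - z.2| ≤ ρ → v ∈ Box := by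
    intro v h1 h2
    rw [abs_le] at h1 h2
    simp only [hBox, Finset.mem_product, Finset.mem_Icc, Int.ceil_le, Int.le_floor]
    refine ⟨⟨?_, ?_⟩, ?_, ?_⟩
    · rw [div_le_iff₀ hδ]; linarith [h1.1]
    · rw [le_div_iff₀ hδ]; linarith [h1.2]
    · rw [div_le_iff₀ hδ]; linarith [h2.1]
    · rw [le_div_iff₀ hδ]; linarith [h2.2]
  have hcard : (Box.card : ℝ) ≤ (2 * |ρ₀| + 3) ^ 2 / δ ^ 2 := by
    by_cases hρn : 0 ≤ ρ
    · have c1 := scr52_card_Icc_le ((z.1 - ρ) / δ) ((z.1 + ρ) / δ)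
        (div_le_div_of_nonneg_right (by linarith) hδ.le)
      have c2 := scr52_card_Icc_le ((z.2 - ρ) / δ) ((z.2 + ρ) / δ)
        (div_le_div_of_nonneg_right (by linarith) hδ.le)
      have e1 : (z.1 + ρ) / δ - (z.1 - ρ) / δ + 1 = (2 * ρ + δ) / δ := by field_simp; ring
      have e2 : (z.2 + ρ) / δ - (z.2 - ρ) / δ + 1 = (2 * ρ + δ) / δ := by field_simp; ring
      rw [e1] at c1
      rw [e2] at c2
      have hle : (2 * ρ + δ) / δ ≤ (2 * |ρ₀| + 3) / δ :=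
        div_le_div_of_nonneg_right (by linarith [le_abs_self ρ₀]) hδ.le
      rw [hBox, Finset.card_product]
      push_cast
      calc _ ≤ ((2 * |ρ₀| + 3) / δ) * ((2 * |ρ₀| + 3) / δ) :=
            mul_le_mul (c1.trans hle) (c2.trans hle) (Nat.cast_nonneg _)
              (by positivity)
        _ = _ := by rw [div_mul_div_comm]; ring
    · have : Box = ∅ := by
        rw [Finset.eq_empty_iff_forall_notMem]
        intro v hv
        simp only [hBox, Finset.mem_product, Finset.mem_Icc, Int.ceil_le, Int.le_floor] at hv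
        have h1 := hv.1.1
        have h2 := hv.1.2
        rw [div_le_iff₀ hδ] at h1
        rw [le_div_iff₀ hδ] at h2
        exact hρn (by linarith)
      rw [this]
      simp only [Finset.card_empty, Nat.cast_zero]
      positivity
  calc ∑ v ∈ C, |T v| = ∑ v ∈ C ∩ Box, |T v| := by
        refine (Finset.sum_subset Finset.inter_subset_left fun v hv hv' => ?_).symm
        by_contra hne
        have hne' : T v ≠ 0 := fun h => hne (by rw [h, abs_zero])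
        obtain ⟨h1, h2⟩ := hT0 v hne'
        exact hv' (Finset.mem_inter.2 ⟨hv, memBox v h1 h2⟩)
    _ ≤ ∑ _v ∈ C ∩ Box, B := Finset.sum_le_sum fun v _ => hB v
    _ = ((C ∩ Box).card : ℝ) * B := by rw [Finset.sum_const, nsmul_eq_mul]
    _ ≤ (2 * |ρ₀| + 3) ^ 2 / δ ^ 2 * B := by
        refine mul_le_mul_of_nonneg_right ?_ hB0
        refine le_trans ?_ hcard
        exact_mod_cast Finset.card_le_card Finset.inter_subset_right

theorem scr52_bound_D2 (e : ℝ × ℝ) {f : ℝ × ℝ → ℝ} (hf : ContDiff ℝ ((⊤ : ℕ∞) : WithTop ℕ∞) f) {z : ℝ × ℝ} {ρ₀ : ℝ}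
    (hρ : tsupport f ⊆ Metric.ball z ρ₀) : ∃ M, ∀ x, |scr52D e (scr52D e f) x| ≤ M := by
  have c2 := scr52_D_contDiff e (scr52_D_contDiff e hf)
  have hs : tsupport (scr52D e (scr52D e f)) ⊆ tsupport f :=
    (scr52_D_tsupport e _).trans (scr52_D_tsupport e _)
  have hc : HasCompactSupport (scr52D e (scr52D e f)) :=
    IsCompact.of_isClosed_subset (isCompact_closedBall z ρ₀) (isClosed_tsupport _)
      (hs.trans (hρ.trans Metric.ball_subset_closedBall))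
  obtain ⟨M, hM⟩ := c2.continuous.bounded_above_of_compact_support hc
  exact ⟨M, fun x => by simpa using hM x⟩

theorem scr52_lap_contDiff {φ : ℝ × ℝ → ℝ} (hφ : ContDiff ℝ ((⊤ : ℕ∞) : WithTop ℕ∞) φ) :
    ContDiff ℝ ((⊤ : ℕ∞) : WithTop ℕ∞) (lap2 φ) := by
  have e : lap2 φ = fun z => scr52D (1, 0) (scr52D (1, 0) φ) z + scr52D (0, 1) (scr52D (0, 1) φ) z :=
    funext (scr52_lap_eq hφ)
  rw [e]
  exact (scr52_D_contDiff _ (scr52_D_contDiff _ hφ)).add (scr52_D_contDiff _ (scr52_D_contDiff _ hφ))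

/-- a cell weight which does not vanish sits within `ρ₀ + δ` of `z`. -/
theorem scr52_Wt_near {δ : ℝ} (hδ : 0 < δ) {g : ℝ × ℝ → ℝ} {z : ℝ × ℝ} {ρ₀ : ℝ} (hρ : tsupport g ⊆ Metric.ball z ρ₀)
    {u : ℤ × ℤ} (hu : aspWt δ g u ≠ 0) :
    |δ * (u.1 : ℝ) - z.1| ≤ ρ₀ + δ ∧ |δ * (u.2 : ℝ) - z.2| ≤ ρ₀ + δ := by
  have : ∃ x ∈ aspCell δ u, g x ≠ 0 := by
    by_contra hcon
    push Not at hcon
    exact hu (riem262_Wt_zero hcon)
  obtain ⟨x, hx, hgx⟩ := this
  obtain ⟨h1, h2⟩ := scr52_near_of_ne hρ hgx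
  have hd := riem262_cell_dist hδ hx
  rw [Prod.dist_eq, max_le_iff, Real.dist_eq, Real.dist_eq] at hd
  simp only at hd
  rw [abs_lt] at h1 h2
  obtain ⟨d1, d2⟩ := hd
  rw [abs_le] at d1 d2
  constructor <;> rw [abs_le] <;> constructor <;> linarith [d1.1, d1.2, d2.1, d2.2, h1.1, h1.2, h2.1, h2.2]

/-- **(4) point weights against cell weights**, deterministic: for EVERY function `h` bounded by `L` on the corners of a domain which
contains `scrSq z r'`, the point-weight pairing of `Δφ` and the statistic `rswArr (aspW δ (Δφ)) h` of SPEC differ by `O(δ² L)`. -/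
theorem scr52_pt_sub_cell {φ : ℝ × ℝ → ℝ} (hφ : ContDiff ℝ ((⊤ : ℕ∞) : WithTop ℕ∞) φ) {z : ℝ × ℝ} {ρ₀ : ℝ} (r' : ℝ)
    (hρ : tsupport φ ⊆ Metric.ball z ρ₀) :
    ∃ K : ℝ, 0 ≤ K ∧ ∀ δ : ℝ, 0 < δ → δ ≤ 1 → ρ₀ + δ ≤ r' → ∀ F : Finset (ℤ × ℤ),
      scrSq z r' ⊆ faceRegionSq δ F → ∀ (h : ℤ × ℤ → ℝ) (L : ℝ), 0 ≤ L → (∀ v ∈ cornersOf F, |h v| ≤ L) →
      |δ ^ 2 * ∑ v ∈ cornersOf F, h v * lap2 φ (δ * (v.1 : ℝ), δ * (v.2 : ℝ)) -
        rswArr (aspW δ (lap2 φ)) h| ≤ K * δ ^ 2 * L := by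
  have hg := scr52_lap_contDiff hφ
  have hgs : tsupport (lap2 φ) ⊆ Metric.ball z ρ₀ := (scr52_lap_tsupport hφ).trans hρ
  have hgc : HasCompactSupport (lap2 φ) :=
    IsCompact.of_isClosed_subset (isCompact_closedBall z ρ₀) (isClosed_tsupport _)
      (hgs.trans Metric.ball_subset_closedBall)
  obtain ⟨M1, hM1⟩ := scr52_bound_D2 (1, 0) hg hgs
  obtain ⟨M2, hM2⟩ := scr52_bound_D2 (0, 1) hg hgs
  have hM1' : 0 ≤ M1 := (abs_nonneg _).trans (hM1 0)
  have hM2' : 0 ≤ M2 := (abs_nonneg _).trans (hM2 0)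
  refine ⟨(2 * |ρ₀| + 3) ^ 2 * (M1 + M2), by positivity, ?_⟩
  intro δ hδ hδ1 hr F hin h L hL0 hL
  set g := lap2 φ with hgdef
  set T : ℤ × ℤ → ℝ := fun v => δ ^ 2 * g (δ * (v.1 : ℝ), δ * (v.2 : ℝ)) - aspWt δ g v with hT
  have hTb : ∀ v, |T v| ≤ (M1 + M2) * δ ^ 4 := fun v => by
    rw [hT, abs_sub_comm]
    exact scr52_cell hg hM1 hM2 hδ v
  have hT0 : ∀ v, T v ≠ 0 → |δ * (v.1 : ℝ) - z.1| ≤ ρ₀ + δ ∧ |δ * (v.2 : ℝ) - z.2| ≤ ρ₀ + δ := by
    intro v hv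
    by_cases hw : aspWt δ g v = 0
    · have hne : g (δ * (v.1 : ℝ), δ * (v.2 : ℝ)) ≠ 0 := by
        intro h0
        apply hv
        simp only [hT, h0, hw]
        ring
      obtain ⟨h1, h2⟩ := scr52_near_of_ne hgs hne
      exact ⟨by simp only at h1; linarith, by simp only at h2; linarith⟩
    · exact scr52_Wt_near hδ hgs hw
  have hsub : (aspW δ g).support ⊆ cornersOf F := by
    intro v hv
    rw [Finsupp.mem_support_iff, riem262_W_apply hδ hgc] at hv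
    obtain ⟨h1, h2⟩ := scr52_Wt_near hδ hgs hv
    exact scr52_mem_corners hδ hin (h1.trans hr) (h2.trans hr)
  have harr : rswArr (aspW δ g) h = ∑ v ∈ cornersOf F, aspWt δ g v * h v := by
    unfold rswArr
    rw [Finsupp.sum_of_support_subset _ hsub (fun v x => x * h v) (fun i _ => zero_mul _)]
    exact Finset.sum_congr rfl fun v _ => by rw [riem262_W_apply hδ hgc]
  have hdiff : δ ^ 2 * ∑ v ∈ cornersOf F, h v * g (δ * (v.1 : ℝ), δ * (v.2 : ℝ)) - rswArr (aspW δ g) h =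
      ∑ v ∈ cornersOf F, T v * h v := by
    rw [harr, Finset.mul_sum, ← Finset.sum_sub_distrib]
    refine Finset.sum_congr rfl fun v _ => ?_
    simp only [hT]
    ring
  rw [hdiff]
  calc |∑ v ∈ cornersOf F, T v * h v| ≤ ∑ v ∈ cornersOf F, |T v * h v| := Finset.abs_sum_le_sum_abs _ _
    _ ≤ ∑ v ∈ cornersOf F, |T v| * L := by
        refine Finset.sum_le_sum fun v hv => ?_
        rw [abs_mul]
        exact mul_le_mul_of_nonneg_left (hL v hv) (abs_nonneg _)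
    _ = (∑ v ∈ cornersOf F, |T v|) * L := by rw [Finset.sum_mul]
    _ ≤ ((2 * |ρ₀| + 3) ^ 2 / δ ^ 2 * ((M1 + M2) * δ ^ 4)) * L :=
        mul_le_mul_of_nonneg_right (scr52_sum_box hδ hδ1 z ρ₀ _ T hTb hT0) hL0
    _ = _ := by field_simp

/-- the same on a solution of the height equations in a domain inside `scrSq z R`: the difference is `O(δ)`. -/
theorem scr52_X_sub_arr {φ : ℝ × ℝ → ℝ} (hφ : ContDiff ℝ ((⊤ : ℕ∞) : WithTop ℕ∞) φ) {z : ℝ × ℝ} {ρ₀ : ℝ} (r' R : ℝ)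
    (hρ : tsupport φ ⊆ Metric.ball z ρ₀) :
    ∃ K : ℝ, 0 ≤ K ∧ ∀ δ : ℝ, 0 < δ → δ ≤ 1 → ρ₀ + δ ≤ r' → ∀ F : Finset (ℤ × ℤ),
      scrSq z r' ⊆ faceRegionSq δ F → faceRegionSq δ F ⊆ scrSq z R →
      ∀ (τ : cornersOf F → Bool) (τd : F → Bool) (Hv Hf : ℤ × ℤ → ℝ), IsATHeight τ τd Hv Hf →
      |δ ^ 2 * ∑ v ∈ cornersOf F, Hv v * lap2 φ (δ * (v.1 : ℝ), δ * (v.2 : ℝ)) -
        rswArr (aspW δ (lap2 φ)) Hv| ≤ K * δ := by
  obtain ⟨K, hK, hmain⟩ := scr52_pt_sub_cell hφ r' hρ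
  refine ⟨K * (2 * |R| + 1), by positivity, ?_⟩
  intro δ hδ hδ1 hr F hin hout τ τd Hv Hf hH
  have hL : ∀ v ∈ cornersOf F, |Hv v| ≤ 2 * |R| / δ + 1 := by
    intro v hv
    refine (scr52_level hδ hout hH hv).trans ?_
    have : 2 * R / δ ≤ 2 * |R| / δ := by
      gcongr
      exact le_abs_self R
    linarith
  calc _ ≤ K * δ ^ 2 * (2 * |R| / δ + 1) := hmain δ hδ hδ1 hr F hin Hv _ (by positivity) hL
    _ = K * (2 * |R| * δ + δ ^ 2) := by field_simp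
    _ ≤ K * ((2 * |R| + 1) * δ) := by
        gcongr
        nlinarith [abs_nonneg R]
    _ = _ := by ring

/-- **(5) the reduction to the insertion of SPEC**: the contract `at_screen` for the frozen pairing `at92X δ (Δφ)` (point weights, not
neutral) follows from the same statement for the EXACTLY NEUTRAL statistic `rswArr (aspW δ (Δφ)) H` (cell weights of `Defs/SPEC`). -/
theorem scr52_screen_of_cell {t : ℝ} (ht : 0 < t) (z : ℝ × ℝ) (r r' R : ℝ) (hr : 0 < r) (hrr : r < r')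
    (φ : ℝ × ℝ → ℝ) (hφ : ContDiff ℝ ((⊤ : ℕ∞) : WithTop ℕ∞) φ) (hφs : tsupport φ ⊆ Metric.ball z (r / 1000))
    (H : ∀ ε : ℝ, 0 < ε → ∃ δ₀ : ℝ, 0 < δ₀ ∧ ∀ δ : ℝ, 0 < δ → δ < δ₀ → ∀ F : Finset (ℤ × ℤ), ScrFlat δ F →
      scrSq z r' ⊆ faceRegionSq δ F → faceRegionSq δ F ⊆ scrSq z R →
      ∀ G : at92Cfg F → ℝ, (∀ p, |G p| ≤ 1) → ScrExt δ F (scrSq z r) G →
        |scrE t F (fun p => rswArr (aspW δ (lap2 φ)) (atHeight p.1 p.2) * G p)| ≤ ε)
    (ε : ℝ) (hε : 0 < ε) :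
    ∃ δ₀ : ℝ, 0 < δ₀ ∧ ∀ δ : ℝ, 0 < δ → δ < δ₀ → ∀ F : Finset (ℤ × ℤ), ScrFlat δ F →
      scrSq z r' ⊆ faceRegionSq δ F → faceRegionSq δ F ⊆ scrSq z R →
      ∀ G : at92Cfg F → ℝ, (∀ p, |G p| ≤ 1) → ScrExt δ F (scrSq z r) G →
        |scrE t F (fun p => at92X δ (lap2 φ) p * G p)| ≤ ε := by
  obtain ⟨δ₁, hδ₁, H1⟩ := H (ε / 2) (by positivity)
  obtain ⟨K, hK, hdiff⟩ := scr52_X_sub_arr hφ r' R hφs
  refine ⟨min (min δ₁ 1) (min (r / 2) (ε / (2 * (K + 1)))), by positivity, ?_⟩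
  intro δ hδ hlt F hflat hin hout G hG hext
  have l1 : δ < δ₁ := lt_of_lt_of_le hlt ((min_le_left _ _).trans (min_le_left _ _))
  have l2 : δ < 1 := lt_of_lt_of_le hlt ((min_le_left _ _).trans (min_le_right _ _))
  have l3 : δ < r / 2 := lt_of_lt_of_le hlt ((min_le_right _ _).trans (min_le_left _ _))
  have l4 : δ < ε / (2 * (K + 1)) := lt_of_lt_of_le hlt ((min_le_right _ _).trans (min_le_right _ _))
  have hc : IsPreconnected (frontier (faceRegionSq δ F)) := by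
    obtain ⟨γ, hγc, -, hγr⟩ := hflat
    rw [← hγr]
    exact isPreconnected_range hγc
  have e : (fun p : at92Cfg F => at92X δ (lap2 φ) p * G p) = fun p =>
      rswArr (aspW δ (lap2 φ)) (atHeight p.1 p.2) * G p +
        (at92X δ (lap2 φ) p - rswArr (aspW δ (lap2 φ)) (atHeight p.1 p.2)) * G p := by
    funext p
    ring
  rw [e, scr52_E_add]
  have b1 := H1 δ hδ l1 F hflat hin hout G hG hext
  have b2 : |scrE t F (fun p => (at92X δ (lap2 φ) p - rswArr (aspW δ (lap2 φ)) (atHeight p.1 p.2)) * G p)| ≤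
      ε / 2 := by
    refine scr52_E_abs_le ht F _ fun p hp => ?_
    obtain ⟨Hf, hH⟩ := at249_height_spec hδ hc ((at92_mem_adm p).1 hp)
    have hd := hdiff δ hδ l2.le (by linarith) F hin hout p.1 p.2 _ Hf hH
    rw [abs_mul]
    calc _ ≤ (K * δ) * 1 := mul_le_mul hd (hG p) (abs_nonneg _) (by positivity)
      _ ≤ ε / 2 := by
          rw [lt_div_iff₀ (by positivity)] at l4
          nlinarith
  calc _ ≤ |scrE t F fun p => rswArr (aspW δ (lap2 φ)) (atHeight p.1 p.2) * G p| +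
        |scrE t F fun p => (at92X δ (lap2 φ) p - rswArr (aspW δ (lap2 φ)) (atHeight p.1 p.2)) * G p| :=
        abs_add_le _ _
    _ ≤ ε / 2 + ε / 2 := add_le_add b1 b2
    _ = ε := by ring

end Claimed.Agent.R292
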