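import Claimed.Agent.R292.Screen.Place232
import Claimed.Agent.R292.Screen.Gap99
import Claimed.Agent.R292.Screen.Sym99
import Claimed.Agent.R292.Screen.Neu52
import Claimed.Agent.R292.Defs.ScreenIns
import Claimed.Agent.R292.Spec.ScrDict79
import Claimed.Agent.R292.Gauss.Riem262
import Claimed.Agent.R292.Screen.Mom221
import Claimed.Agent.R292.Screen.Col176
import Claimed.Agent.R292.Model.Pattern141
import Claimed.Agent.R292.Model.CircGeo101

/-!
# Row 292 (S0540), unit SCREEN (AT paper Sec. 5), Screen/Sep232 : THE GAPPED PATTERN IDENTITY ON THE PLANE LAW      (OWNER helper232; head of SCREEN: helper229)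

TEX[lem:screen-gapped-identity], TEX[lem:screen-analytic-translation] at MODEL level, on `scrPl` (Defs/ScreenPl of 229).   Port of `R291/Pin/Sep` (helper48).   Prefix `scr232s_`, defs `scr232s*` / `Scr232s*`.
Assembly of `scg99_uniform` (Gap99), the reflection package and the geometry of the six moves (Place232).
IMPORT RULE of 229: no import of the Cut files; (P1') = `scr99_inv` (Sym99, proved); (P2) `scr_cut_rp` and (P3) `scr_cut_tr` enter as the HYPOTHESES `Scr232sRp t`, `Scr232sTr t` = their statements after `t ht1 ht2`.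
* sec. 0  algebra of `scrAct`, `scrSh`, `scrTh`
* sec. 1  locality calculus: `RswLoc` under shifts, reflections, products
* sec. 2  levels: `scrLev` under shifts and reflections; `ScrUp` from level bounds
* sec. 3  dictionary: the six moves of Place232 <-> the four frames of Defs/ScreenPl
* sec. 4  `scr232sNo τ Y G` = product of displaced factors; split / shift / locality;  `Scr232sAt δ U X`: `X` reads only inside `U` at the mesh `δ`
* sec. 5  **`scr232s_stage_at`** : one move at one mesh = a transfer representation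
* sec. 6  **THE CONTRACTS** `Scr232sDb` (Lemma 5.3: bound on doubled arrangements), `Scr232sR3` (cor:reflection-null), `Scr232sLin` (linearity of the plane law)
* sec. 7  reflection Cauchy-Schwarz, the final placement
* sec. 8  **`scr232s_sep`**
* PART II (prefix `scr232g`, appended: one pen = one file): **`scr232g_cut_gap`** = the statement of `scr_cut_gap` (Cut229b) VERBATIM, from (P2), (P3) and the two records `Scr232gPat`, `Scr232gMom`
* PART III (prefix `pat232`): the record `Scr232gPat` (RECTANGLES) PROVED from (S0) `exit_mdl_cmp`, (S1) `exit_mdl_circ` at `k = 0`, `exit_rsw_plane` (`pat232_pat_closed`); `Scr232gMom` on 221's Mom221 (`scr232g_mom_closed`);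
  **`scr232g_cut_gap_closed`** = `scr_cut_gap` from (P2), (P3) ALONE
-/

set_option autoImplicit false
set_option linter.unusedVariables false
set_option linter.unusedSimpArgs false
set_option linter.unusedSectionVars false
set_option linter.unusedTactic false
set_option linter.unreachableTactic false
set_option linter.unnecessarySeqFocus false

namespace Claimed.Agent.R292

open Claims Claims.C0468 Set Metric Filter Topology Claimed.Agent.R291

/-! ## 0. algebra of the actions -/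

theorem scr232s_cfg_ext {ω ω' : RswCfg} (h1 : ω.S = ω'.S) (h2 : ω.D = ω'.D) (h3 : ω.O = ω'.O) : ω = ω' := by
  cases ω; cases ω'; simp_all

theorem scr232s_act_tr_tr (a b : ℤ × ℤ) (ω : RswCfg) : scrAct (scrTr a) (scrAct (scrTr b) ω) = scrAct (scrTr (a + b)) ω := by
  apply scr232s_cfg_ext
  · simp only [scrAct, scrTr, Finset.image_image]
    congr 1; funext v; simp [add_comm a b, add_assoc]
  · simp only [scrAct, scrTr, Finset.image_image]
    congr 1; funext v; simp [add_comm a b, add_assoc]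
  · simp only [scrAct, scrTr, Finset.image_image]
    congr 1; funext e; simp [add_comm a b, add_assoc]

theorem scr232s_act_tr_zero (ω : RswCfg) : scrAct (scrTr 0) ω = ω := by
  apply scr232s_cfg_ext <;> simp [scrAct, scrTr]

theorem scr232s_sh_sh (a b : ℤ × ℤ) (X : RswCfg → ℝ) : scrSh a (scrSh b X) = scrSh (a + b) X := by
  funext ω
  simp only [scrSh]
  rw [scr232s_act_tr_tr, neg_add, add_comm]

theorem scr232s_sh_zero (X : RswCfg → ℝ) : scrSh 0 X = X := by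
  funext ω
  simp only [scrSh, neg_zero, scr232s_act_tr_zero]

theorem scr232s_re_c_c (j : Fin 4) (v : ℤ × ℤ) : (scrRe j).c ((scrRe j).c v) = v := by
  fin_cases j <;> simp [scrRe]

theorem scr232s_re_f_f (j : Fin 4) (v : ℤ × ℤ) : (scrRe j).f ((scrRe j).f v) = v := by
  fin_cases j <;> simp [scrRe]

theorem scr232s_re_e_e (j : Fin 4) (e : (ℤ × ℤ) × Bool) : (scrRe j).e ((scrRe j).e e) = e := by
  obtain ⟨⟨x, y⟩, b⟩ := e
  fin_cases j <;> cases b <;> simp [scrRe]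

theorem scr232s_act_re_re (j : Fin 4) (ω : RswCfg) : scrAct (scrRe j) (scrAct (scrRe j) ω) = ω := by
  apply scr232s_cfg_ext
  · simp only [scrAct, Finset.image_image]
    have : (scrRe j).c ∘ (scrRe j).c = id := funext (scr232s_re_c_c j)
    rw [this, Finset.image_id]
  · simp only [scrAct, Finset.image_image]
    have : (scrRe j).f ∘ (scrRe j).f = id := funext (scr232s_re_f_f j)
    rw [this, Finset.image_id]
  · simp only [scrAct, Finset.image_image]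
    have : (scrRe j).e ∘ (scrRe j).e = id := funext (scr232s_re_e_e j)
    rw [this, Finset.image_id]

theorem scr232s_th_th (j : Fin 4) (X : RswCfg → ℝ) : scrTh j (scrTh j X) = X := by
  funext ω
  simp only [scrTh, scr232s_act_re_re]

/-! ## 1. locality calculus -/

theorem scr232s_img_inter {α : Type*} [DecidableEq α] {g h : α → α} (hgh : ∀ x, g (h x) = x) (hhg : ∀ x, h (g x) = x) (S R : Finset α) :
    S.image g ∩ R = (S ∩ R.image h).image g := by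
  ext x
  simp only [Finset.mem_inter, Finset.mem_image]
  constructor
  · rintro ⟨⟨y, hy, rfl⟩, hx⟩
    exact ⟨y, ⟨hy, g y, hx, hhg y⟩, rfl⟩
  · rintro ⟨y, ⟨hy, z, hz, rfl⟩, rfl⟩
    exact ⟨⟨h z, hy, rfl⟩, by rw [hgh]; exact hz⟩

theorem RswLoc.mono232 {R R2 : Finset (ℤ × ℤ)} {R' R2' : Finset ((ℤ × ℤ) × Bool)} {X : RswCfg → ℝ} (h : RswLoc R R' X) (h1 : R ⊆ R2) (h2 : R' ⊆ R2') :
    RswLoc R2 R2' X := by
  intro ω ω' a b c
  refine h ω ω' ?_ ?_ ?_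
  · rw [← Finset.inter_eq_right.2 h1, ← Finset.inter_assoc, a, Finset.inter_assoc]
  · rw [← Finset.inter_eq_right.2 h1, ← Finset.inter_assoc, b, Finset.inter_assoc]
  · rw [← Finset.inter_eq_right.2 h2, ← Finset.inter_assoc, c, Finset.inter_assoc]

/-- general transport of locality by an invertible map of corners / faces / edges -/
theorem scr232s_loc_act {R : Finset (ℤ × ℤ)} {R' : Finset ((ℤ × ℤ) × Bool)} {X : RswCfg → ℝ} (h : RswLoc R R' X) (g gi : ScrMapD)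
    (c1 : ∀ x, g.c (gi.c x) = x) (c2 : ∀ x, gi.c (g.c x) = x) (f1 : ∀ x, g.f (gi.f x) = x) (f2 : ∀ x, gi.f (g.f x) = x)
    (e1 : ∀ x, g.e (gi.e x) = x) (e2 : ∀ x, gi.e (g.e x) = x) :
    RswLoc (R.image gi.c ∪ R.image gi.f) (R'.image gi.e) (fun ω => X (scrAct g ω)) := by
  intro ω ω' a b c
  refine h _ _ ?_ ?_ ?_
  · simp only [scrAct]
    rw [scr232s_img_inter c1 c2, scr232s_img_inter c1 c2]
    congr 1
    rw [← Finset.inter_eq_right.2 (Finset.subset_union_left (s₁ := R.image gi.c) (s₂ := R.image gi.f)), ← Finset.inter_assoc, a, Finset.inter_assoc]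
  · simp only [scrAct]
    rw [scr232s_img_inter f1 f2, scr232s_img_inter f1 f2]
    congr 1
    rw [← Finset.inter_eq_right.2 (Finset.subset_union_right (s₁ := R.image gi.c) (s₂ := R.image gi.f)), ← Finset.inter_assoc, b, Finset.inter_assoc]
  · simp only [scrAct]
    rw [scr232s_img_inter e1 e2, scr232s_img_inter e1 e2, c]

/-- the shifted observable reads the shifted windows -/
theorem scr232s_loc_sh {R : Finset (ℤ × ℤ)} {R' : Finset ((ℤ × ℤ) × Bool)} {X : RswCfg → ℝ} (h : RswLoc R R' X) (a : ℤ × ℤ) :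
    RswLoc (R.image (· + a)) (R'.image fun e => (e.1 + a, e.2)) (scrSh a X) := by
  have := scr232s_loc_act h (scrTr (-a)) (scrTr a) (by simp [scrTr]) (by simp [scrTr]) (by simp [scrTr]) (by simp [scrTr])
    (by simp [scrTr]) (by simp [scrTr])
  refine RswLoc.mono232 this ?_ ?_
  · simp [scrTr]
  · simp [scrTr]

/-- the reflected observable reads the reflected windows -/
theorem scr232s_loc_th {R : Finset (ℤ × ℤ)} {R' : Finset ((ℤ × ℤ) × Bool)} {X : RswCfg → ℝ} (h : RswLoc R R' X) (j : Fin 4) :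
    RswLoc (R.image (scrRe j).c ∪ R.image (scrRe j).f) (R'.image (scrRe j).e) (scrTh j X) :=
  scr232s_loc_act h (scrRe j) (scrRe j) (scr232s_re_c_c j) (scr232s_re_c_c j) (scr232s_re_f_f j) (scr232s_re_f_f j)
    (scr232s_re_e_e j) (scr232s_re_e_e j)

theorem scr232s_loc_mul {R1 R2 : Finset (ℤ × ℤ)} {R1' R2' : Finset ((ℤ × ℤ) × Bool)} {X Y : RswCfg → ℝ} (hX : RswLoc R1 R1' X) (hY : RswLoc R2 R2' Y) :
    RswLoc (R1 ∪ R2) (R1' ∪ R2') (fun ω => X ω * Y ω) := by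
  have h1 := RswLoc.mono232 hX (Finset.subset_union_left (s₂ := R2)) (Finset.subset_union_left (s₂ := R2'))
  have h2 := RswLoc.mono232 hY (Finset.subset_union_right (s₁ := R1)) (Finset.subset_union_right (s₁ := R1'))
  intro ω ω' a b c
  show X ω * Y ω = X ω' * Y ω'
  rw [h1 ω ω' a b c, h2 ω ω' a b c]

theorem scr232s_loc_add {R1 R2 : Finset (ℤ × ℤ)} {R1' R2' : Finset ((ℤ × ℤ) × Bool)} {X Y : RswCfg → ℝ} (hX : RswLoc R1 R1' X) (hY : RswLoc R2 R2' Y) :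
    RswLoc (R1 ∪ R2) (R1' ∪ R2') (fun ω => X ω + Y ω) := by
  have h1 := RswLoc.mono232 hX (Finset.subset_union_left (s₂ := R2)) (Finset.subset_union_left (s₂ := R2'))
  have h2 := RswLoc.mono232 hY (Finset.subset_union_right (s₁ := R1)) (Finset.subset_union_right (s₁ := R1'))
  intro ω ω' a b c
  show X ω + Y ω = X ω' + Y ω'
  rw [h1 ω ω' a b c, h2 ω ω' a b c]

theorem scr232s_loc_smul {R : Finset (ℤ × ℤ)} {R' : Finset ((ℤ × ℤ) × Bool)} {X : RswCfg → ℝ} (hX : RswLoc R R' X) (s : ℝ) :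
    RswLoc R R' (fun ω => s * X ω) := by
  intro ω ω' a b c
  show s * X ω = s * X ω'
  rw [hX ω ω' a b c]

theorem scr232s_loc_prod {ι : Type*} [DecidableEq ι] (G : Finset ι) {X : ι → RswCfg → ℝ} {R : ι → Finset (ℤ × ℤ)} {R' : ι → Finset ((ℤ × ℤ) × Bool)}
    (h : ∀ f ∈ G, RswLoc (R f) (R' f) (X f)) : RswLoc (G.biUnion R) (G.biUnion R') (fun ω => ∏ f ∈ G, X f ω) := by
  intro ω ω' a b c
  refine Finset.prod_congr rfl fun f hf => ?_
  exact RswLoc.mono232 (h f hf) (Finset.subset_biUnion_of_mem R hf) (Finset.subset_biUnion_of_mem R' hf) ω ω' a b c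

/-! ## 2. levels -/

theorem scr232s_lev_add (j : Fin 4) (u v : ℤ × ℤ) : scrLev j (u + v) = scrLev j u + scrLev j v := by
  simp only [scrLev, Prod.fst_add, Prod.snd_add]; ring

theorem scr232s_lev_neg (j : Fin 4) (u : ℤ × ℤ) : scrLev j (-u) = -scrLev j u := by
  simp only [scrLev, Prod.fst_neg, Prod.snd_neg]; ring

theorem scr232s_lev_zsmul (j : Fin 4) (m : ℤ) (u : ℤ × ℤ) : scrLev j (m • u) = m * scrLev j u := by
  simp only [scrLev, Prod.smul_fst, Prod.smul_snd, smul_eq_mul]; ring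

/-- `|normal|²` -/
def scr232sNq (j : Fin 4) : ℤ := ![1, 2, 1, 2] j

theorem scr232s_lev_nor (j : Fin 4) : scrLev j (scrNor j) = scr232sNq j := by
  fin_cases j <;> simp [scrLev, scrNor, scr232sNq]

theorem scr232s_lev_re_c (j : Fin 4) (v : ℤ × ℤ) : scrLev j ((scrRe j).c v) = -scrLev j v := by
  fin_cases j <;> simp [scrLev, scrNor, scrRe] <;> ring

/-- the shift of the name of a face under the reflection -/
def scr232sCf (j : Fin 4) : ℤ := ![1, 2, 1, 0] j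

theorem scr232s_lev_re_f (j : Fin 4) (v : ℤ × ℤ) : scrLev j ((scrRe j).f v) = -scrLev j v - scr232sCf j := by
  fin_cases j <;> simp [scrLev, scrNor, scrRe, scr232sCf] <;> ring

theorem scr232s_cf_le (j : Fin 4) : scr232sCf j ≤ 2 := by
  fin_cases j <;> simp [scr232sCf]

theorem scr232s_cf_nonneg (j : Fin 4) : 0 ≤ scr232sCf j := by
  fin_cases j <;> simp [scr232sCf]

/-- the ends of the reflected edge are the reflected ends -/
theorem scr232s_re_edge (j : Fin 4) (e : (ℤ × ℤ) × Bool) :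
    (((scrRe j).e e).1 = (scrRe j).c e.1 ∧ rswEnd ((scrRe j).e e) = (scrRe j).c (rswEnd e)) ∨
    (((scrRe j).e e).1 = (scrRe j).c (rswEnd e) ∧ rswEnd ((scrRe j).e e) = (scrRe j).c e.1) := by
  obtain ⟨⟨x, y⟩, b⟩ := e
  fin_cases j <;> cases b <;> simp [scrRe, rswEnd] <;> ring_nf <;> simp

theorem scr232s_end_add (e : (ℤ × ℤ) × Bool) (a : ℤ × ℤ) : rswEnd (e.1 + a, e.2) = rswEnd e + a := by
  obtain ⟨⟨x, y⟩, b⟩ := e
  obtain ⟨a1, a2⟩ := a
  cases b <;> simp [rswEnd] <;> ring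

/-- `X` reads only levels `≥ l` (`up`) of the frame `j` -/
def Scr232sGe (j : Fin 4) (l : ℤ) (X : RswCfg → ℝ) : Prop :=
  ∃ (R : Finset (ℤ × ℤ)) (R' : Finset ((ℤ × ℤ) × Bool)), RswLoc R R' X ∧ (∀ v ∈ R, l ≤ scrLev j v) ∧
    ∀ e ∈ R', l ≤ scrLev j e.1 ∧ l ≤ scrLev j (rswEnd e)

/-- `X` reads only levels `≤ l` of the frame `j` -/
def Scr232sLe (j : Fin 4) (l : ℤ) (X : RswCfg → ℝ) : Prop :=
  ∃ (R : Finset (ℤ × ℤ)) (R' : Finset ((ℤ × ℤ) × Bool)), RswLoc R R' X ∧ (∀ v ∈ R, scrLev j v ≤ l) ∧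
    ∀ e ∈ R', scrLev j e.1 ≤ l ∧ scrLev j (rswEnd e) ≤ l

theorem scr232s_up_iff (j : Fin 4) (X : RswCfg → ℝ) : ScrUp j X ↔ Scr232sGe j 1 X := Iff.rfl

theorem Scr232sGe.loc {j : Fin 4} {l : ℤ} {X : RswCfg → ℝ} (h : Scr232sGe j l X) : ScrLoc X := by
  obtain ⟨R, R', h1, -, -⟩ := h
  exact ⟨R, R', h1⟩

theorem Scr232sLe.loc {j : Fin 4} {l : ℤ} {X : RswCfg → ℝ} (h : Scr232sLe j l X) : ScrLoc X := by
  obtain ⟨R, R', h1, -, -⟩ := h
  exact ⟨R, R', h1⟩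

theorem Scr232sGe.sh {j : Fin 4} {l : ℤ} {X : RswCfg → ℝ} (h : Scr232sGe j l X) (a : ℤ × ℤ) : Scr232sGe j (l + scrLev j a) (scrSh a X) := by
  obtain ⟨R, R', h1, h2, h3⟩ := h
  refine ⟨_, _, scr232s_loc_sh h1 a, ?_, ?_⟩
  · intro v hv
    obtain ⟨u, hu, rfl⟩ := Finset.mem_image.1 hv
    rw [scr232s_lev_add]; linarith [h2 u hu]
  · intro e he
    obtain ⟨u, hu, rfl⟩ := Finset.mem_image.1 he
    rw [scr232s_end_add]
    simp only [scr232s_lev_add]
    exact ⟨by linarith [(h3 u hu).1], by linarith [(h3 u hu).2]⟩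

theorem Scr232sLe.sh {j : Fin 4} {l : ℤ} {X : RswCfg → ℝ} (h : Scr232sLe j l X) (a : ℤ × ℤ) : Scr232sLe j (l + scrLev j a) (scrSh a X) := by
  obtain ⟨R, R', h1, h2, h3⟩ := h
  refine ⟨_, _, scr232s_loc_sh h1 a, ?_, ?_⟩
  · intro v hv
    obtain ⟨u, hu, rfl⟩ := Finset.mem_image.1 hv
    rw [scr232s_lev_add]; linarith [h2 u hu]
  · intro e he
    obtain ⟨u, hu, rfl⟩ := Finset.mem_image.1 he
    rw [scr232s_end_add]
    simp only [scr232s_lev_add]
    exact ⟨by linarith [(h3 u hu).1], by linarith [(h3 u hu).2]⟩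

theorem Scr232sGe.mono {j : Fin 4} {l l' : ℤ} {X : RswCfg → ℝ} (h : Scr232sGe j l X) (hl : l' ≤ l) : Scr232sGe j l' X := by
  obtain ⟨R, R', h1, h2, h3⟩ := h
  exact ⟨R, R', h1, fun v hv => hl.trans (h2 v hv), fun e he => ⟨hl.trans (h3 e he).1, hl.trans (h3 e he).2⟩⟩

theorem Scr232sLe.mono {j : Fin 4} {l l' : ℤ} {X : RswCfg → ℝ} (h : Scr232sLe j l X) (hl : l ≤ l') : Scr232sLe j l' X := by
  obtain ⟨R, R', h1, h2, h3⟩ := h
  exact ⟨R, R', h1, fun v hv => (h2 v hv).trans hl, fun e he => ⟨(h3 e he).1.trans hl, (h3 e he).2.trans hl⟩⟩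

/-- reflection: below `-(l + 2)` becomes above `l` -/
theorem Scr232sLe.th {j : Fin 4} {l : ℤ} {X : RswCfg → ℝ} (h : Scr232sLe j (-(l + 2)) X) : Scr232sGe j l (scrTh j X) := by
  obtain ⟨R, R', h1, h2, h3⟩ := h
  refine ⟨_, _, scr232s_loc_th h1 j, ?_, ?_⟩
  · intro v hv
    rcases Finset.mem_union.1 hv with hv | hv
    · obtain ⟨u, hu, rfl⟩ := Finset.mem_image.1 hv
      rw [scr232s_lev_re_c]; linarith [h2 u hu]
    · obtain ⟨u, hu, rfl⟩ := Finset.mem_image.1 hv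
      rw [scr232s_lev_re_f]; linarith [h2 u hu, scr232s_cf_le j]
  · intro e he
    obtain ⟨u, hu, rfl⟩ := Finset.mem_image.1 he
    rcases scr232s_re_edge j u with ⟨a, b⟩ | ⟨a, b⟩
    · rw [a, b, scr232s_lev_re_c, scr232s_lev_re_c]
      exact ⟨by linarith [(h3 u hu).1], by linarith [(h3 u hu).2]⟩
    · rw [a, b, scr232s_lev_re_c, scr232s_lev_re_c]
      exact ⟨by linarith [(h3 u hu).2], by linarith [(h3 u hu).1]⟩

theorem Scr232sGe.mul {j : Fin 4} {l : ℤ} {X Y : RswCfg → ℝ} (hX : Scr232sGe j l X) (hY : Scr232sGe j l Y) : Scr232sGe j l (fun ω => X ω * Y ω) := by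
  obtain ⟨R, R', h1, h2, h3⟩ := hX
  obtain ⟨Q, Q', k1, k2, k3⟩ := hY
  refine ⟨_, _, scr232s_loc_mul h1 k1, ?_, ?_⟩
  · intro v hv
    rcases Finset.mem_union.1 hv with hv | hv
    exacts [h2 v hv, k2 v hv]
  · intro v hv
    rcases Finset.mem_union.1 hv with hv | hv
    exacts [h3 v hv, k3 v hv]

theorem Scr232sGe.add {j : Fin 4} {l : ℤ} {X Y : RswCfg → ℝ} (hX : Scr232sGe j l X) (hY : Scr232sGe j l Y) : Scr232sGe j l (fun ω => X ω + Y ω) := by
  obtain ⟨R, R', h1, h2, h3⟩ := hX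
  obtain ⟨Q, Q', k1, k2, k3⟩ := hY
  refine ⟨_, _, scr232s_loc_add h1 k1, ?_, ?_⟩
  · intro v hv
    rcases Finset.mem_union.1 hv with hv | hv
    exacts [h2 v hv, k2 v hv]
  · intro v hv
    rcases Finset.mem_union.1 hv with hv | hv
    exacts [h3 v hv, k3 v hv]

theorem Scr232sGe.smul {j : Fin 4} {l : ℤ} {X : RswCfg → ℝ} (hX : Scr232sGe j l X) (s : ℝ) : Scr232sGe j l (fun ω => s * X ω) := by
  obtain ⟨R, R', h1, h2, h3⟩ := hX
  exact ⟨R, R', scr232s_loc_smul h1 s, h2, h3⟩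

theorem scr232s_ge_prod {ι : Type*} [DecidableEq ι] {j : Fin 4} {l : ℤ} (G : Finset ι) {X : ι → RswCfg → ℝ} (h : ∀ f ∈ G, Scr232sGe j l (X f)) :
    Scr232sGe j l (fun ω => ∏ f ∈ G, X f ω) := by
  classical
  choose! R R' h1 h2 h3 using h
  refine ⟨_, _, scr232s_loc_prod G h1, ?_, ?_⟩
  · intro v hv
    obtain ⟨f, hf, hv⟩ := Finset.mem_biUnion.1 hv
    exact h2 f hf v hv
  · intro v hv
    obtain ⟨f, hf, hv⟩ := Finset.mem_biUnion.1 hv
    exact h3 f hf v hv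

theorem scr232s_le_prod {ι : Type*} [DecidableEq ι] {j : Fin 4} {l : ℤ} (G : Finset ι) {X : ι → RswCfg → ℝ} (h : ∀ f ∈ G, Scr232sLe j l (X f)) :
    Scr232sLe j l (fun ω => ∏ f ∈ G, X f ω) := by
  classical
  choose! R R' h1 h2 h3 using h
  refine ⟨_, _, scr232s_loc_prod G h1, ?_, ?_⟩
  · intro v hv
    obtain ⟨f, hf, hv⟩ := Finset.mem_biUnion.1 hv
    exact h2 f hf v hv
  · intro v hv
    obtain ⟨f, hf, hv⟩ := Finset.mem_biUnion.1 hv
    exact h3 f hf v hv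

theorem scr232s_loc_mul' {X Y : RswCfg → ℝ} (hX : ScrLoc X) (hY : ScrLoc Y) : ScrLoc (fun ω => X ω * Y ω) := by
  obtain ⟨R, R', h⟩ := hX
  obtain ⟨Q, Q', k⟩ := hY
  exact ⟨_, _, scr232s_loc_mul h k⟩

theorem scr232s_loc_sh' {X : RswCfg → ℝ} (hX : ScrLoc X) (a : ℤ × ℤ) : ScrLoc (scrSh a X) := by
  obtain ⟨R, R', h⟩ := hX
  exact ⟨_, _, scr232s_loc_sh h a⟩

theorem scr232s_loc_th' {X : RswCfg → ℝ} (hX : ScrLoc X) (j : Fin 4) : ScrLoc (scrTh j X) := by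
  obtain ⟨R, R', h⟩ := hX
  exact ⟨_, _, scr232s_loc_th h j⟩

/-! ## 3. dictionary: the six moves <-> the four frames -/

/-- the frame of the move `j` -/
def scr232sFr (j : Fin 6) : Fin 4 := ![0, 0, 1, 1, 2, 3] j

/-- the sign of the move `j` in its frame -/
def scr232sSg (j : Fin 6) : ℤ := ![1, -1, 1, -1, -1, 1] j

theorem scr232s_sg_sq (j : Fin 6) : scr232sSg j = 1 ∨ scr232sSg j = -1 := by
  fin_cases j <;> simp [scr232sSg]

theorem scr232s_step (j : Fin 6) : scr232Step j = scr232sSg j • scrNor (scr232sFr j) := by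
  fin_cases j <;> simp [scr232Step, scr232sSg, scrNor, scr232sFr]

theorem scr232s_row (j : Fin 6) (u : ℤ × ℤ) : scr232Row j u = scr232sSg j * scrLev (scr232sFr j) u := by
  fin_cases j <;> simp [scr232Row, scr232sSg, scrLev, scrNor, scr232sFr] <;> ring

theorem scr232s_nq (j : Fin 6) : scr232sNq (scr232sFr j) = (scr232Nsq j : ℤ) := by
  fin_cases j <;> simp [scr232sNq, scr232sFr, scr232Nsq]

/-- a lattice vector of level `r` -/
def scr232sRv (j : Fin 4) (r : ℤ) : ℤ × ℤ := ![(0, r), (r, 0), (r, 0), (0, r)] j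

theorem scr232s_lev_rv (j : Fin 4) (r : ℤ) : scrLev j (scr232sRv j r) = r := by
  fin_cases j <;> simp [scrLev, scrNor, scr232sRv]

/-! ## 4. products of displaced factors -/

instance scr232sKindFintype : Fintype Scr232Kind := ⟨{.T, .D, .L, .R, .K}, by intro x; cases x <;> simp⟩

/-- `X` reads only inside `U` at the mesh `δ`: corners, faces (named by their lower left corner), both ends of the edges -/
def Scr232sAt (δ : ℝ) (U : Set (ℝ × ℝ)) (X : RswCfg → ℝ) : Prop :=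
  ∃ (R : Finset (ℤ × ℤ)) (R' : Finset ((ℤ × ℤ) × Bool)), RswLoc R R' X ∧ (∀ v ∈ R, scr232P δ v ∈ U) ∧
    ∀ e ∈ R', scr232P δ e.1 ∈ U ∧ scr232P δ (rswEnd e) ∈ U

theorem Scr232sAt.loc {δ : ℝ} {U : Set (ℝ × ℝ)} {X : RswCfg → ℝ} (h : Scr232sAt δ U X) : ScrLoc X := by
  obtain ⟨R, R', h1, -, -⟩ := h
  exact ⟨R, R', h1⟩

/-- the product of the displaced factors of the families of `G` -/
def scr232sNo (τ : Scr232Kind → ℤ × ℤ) (Y : Scr232Kind → RswCfg → ℝ) (G : Finset Scr232Kind) : RswCfg → ℝ :=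
  fun ω => ∏ f ∈ G, scrSh (τ f) (Y f) ω

theorem scr232s_no_sh (a : ℤ × ℤ) (τ : Scr232Kind → ℤ × ℤ) (Y : Scr232Kind → RswCfg → ℝ) (G : Finset Scr232Kind) :
    scrSh a (scr232sNo τ Y G) = scr232sNo (fun f => a + τ f) Y G := by
  funext ω
  show ∏ f ∈ G, scrSh a (scrSh (τ f) (Y f)) ω = _
  simp only [scr232s_sh_sh]
  rfl

theorem scr232s_no_congr {τ τ' : Scr232Kind → ℤ × ℤ} (Y : Scr232Kind → RswCfg → ℝ) {G : Finset Scr232Kind} (h : ∀ f ∈ G, τ f = τ' f) :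
    scr232sNo τ Y G = scr232sNo τ' Y G := by
  funext ω
  exact Finset.prod_congr rfl fun f hf => by rw [h f hf]

open Classical in
theorem scr232s_no_split (q : Scr232Kind → Prop) (τ : Scr232Kind → ℤ × ℤ) (Y : Scr232Kind → RswCfg → ℝ) (G : Finset Scr232Kind) (ω : RswCfg) :
    scr232sNo τ Y G ω = scr232sNo τ Y (G.filter fun f => ¬ q f) ω * scr232sNo τ Y (G.filter q) ω := by
  unfold scr232sNo
  rw [mul_comm]
  exact (Finset.prod_filter_mul_prod_filter_not G q _).symm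

theorem scr232s_no_loc {τ : Scr232Kind → ℤ × ℤ} {Y : Scr232Kind → RswCfg → ℝ} {G : Finset Scr232Kind} (h : ∀ f ∈ G, ScrLoc (Y f)) :
    ScrLoc (scr232sNo τ Y G) := by
  classical
  have h' : ∀ f ∈ G, ∃ (R : Finset (ℤ × ℤ)) (R' : Finset ((ℤ × ℤ) × Bool)), RswLoc R R' (scrSh (τ f) (Y f)) :=
    fun f hf => scr232s_loc_sh' (h f hf) (τ f)
  choose! R R' hR using h'
  exact ⟨_, _, scr232s_loc_prod G hR⟩

/-- comparison of integers through the mesh -/
theorem scr232s_int_le {δ : ℝ} (hδ : 0 < δ) {x c : ℤ} (h : δ * (x : ℝ) ≤ δ * (c : ℝ)) : x ≤ c := by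
  exact_mod_cast le_of_mul_le_mul_left h hδ

/-- a displaced factor in the ROW coordinate of the move `j`, lower side -/
theorem scr232s_at_row_le {δ : ℝ} (hδ : 0 < δ) {U : Set (ℝ × ℝ)} {X : RswCfg → ℝ} (h : Scr232sAt δ U X) (j : Fin 6) (w : ℤ × ℤ) (c : ℤ)
    (hU : ∀ p ∈ U, scr232Fn j (p + scr232P δ w) ≤ δ * c) :
    ∃ (R : Finset (ℤ × ℤ)) (R' : Finset ((ℤ × ℤ) × Bool)), RswLoc R R' (scrSh w X) ∧ (∀ v ∈ R, scr232Row j v ≤ c) ∧
      ∀ e ∈ R', scr232Row j e.1 ≤ c ∧ scr232Row j (rswEnd e) ≤ c := by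
  obtain ⟨R, R', h1, h2, h3⟩ := h
  have key : ∀ u : ℤ × ℤ, scr232P δ u ∈ U → scr232Row j (u + w) ≤ c := by
    intro u hu
    have := hU _ hu
    rw [← scr232_P_add, scr232_fn_P] at this
    exact scr232s_int_le hδ this
  refine ⟨_, _, scr232s_loc_sh h1 w, ?_, ?_⟩
  · intro v hv
    obtain ⟨u, hu, rfl⟩ := Finset.mem_image.1 hv
    exact key u (h2 u hu)
  · intro e he
    obtain ⟨u, hu, rfl⟩ := Finset.mem_image.1 he
    rw [scr232s_end_add]
    exact ⟨key _ (h3 u hu).1, key _ (h3 u hu).2⟩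

/-- a displaced factor in the ROW coordinate of the move `j`, upper side -/
theorem scr232s_at_row_ge {δ : ℝ} (hδ : 0 < δ) {U : Set (ℝ × ℝ)} {X : RswCfg → ℝ} (h : Scr232sAt δ U X) (j : Fin 6) (w : ℤ × ℤ) (c : ℤ)
    (hU : ∀ p ∈ U, δ * c ≤ scr232Fn j (p + scr232P δ w)) :
    ∃ (R : Finset (ℤ × ℤ)) (R' : Finset ((ℤ × ℤ) × Bool)), RswLoc R R' (scrSh w X) ∧ (∀ v ∈ R, c ≤ scr232Row j v) ∧
      ∀ e ∈ R', c ≤ scr232Row j e.1 ∧ c ≤ scr232Row j (rswEnd e) := by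
  obtain ⟨R, R', h1, h2, h3⟩ := h
  have key : ∀ u : ℤ × ℤ, scr232P δ u ∈ U → c ≤ scr232Row j (u + w) := by
    intro u hu
    have := hU _ hu
    rw [← scr232_P_add, scr232_fn_P] at this
    exact scr232s_int_le hδ this
  refine ⟨_, _, scr232s_loc_sh h1 w, ?_, ?_⟩
  · intro v hv
    obtain ⟨u, hu, rfl⟩ := Finset.mem_image.1 hv
    exact key u (h2 u hu)
  · intro e he
    obtain ⟨u, hu, rfl⟩ := Finset.mem_image.1 he
    rw [scr232s_end_add]
    exact ⟨key _ (h3 u hu).1, key _ (h3 u hu).2⟩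

/-! ## 5. one move at one mesh -/

theorem scr232s_tr_mono {C C' : ℝ} {N : ℕ} {M : ℕ → ℂ} (h : PinTr C N M) (hC : C ≤ C') : PinTr C' N M := by
  intro r L κ hκ
  have hκ0 : 0 ≤ κ := by
    have := hκ 0 ⟨le_rfl, zero_le_one⟩
    simpa using this
  exact (h r L κ hκ).trans (add_le_add le_rfl (mul_le_mul_of_nonneg_right hC hκ0))

/-- the statement of (P2) `scr_cut_rp` after the binders `t ht1 ht2` -/
def Scr232sRp (t : ℝ) : Prop :=
  ∀ (j : Fin 4) (X : RswCfg → ℝ), ScrUp j X → 0 ≤ scrFm t j X X ∧ 0 ≤ scrFm t j X (scrSh (scrNor j) X)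

/-- the statement of (P3) `scr_cut_tr` after the binders `t ht1 ht2` -/
def Scr232sTr (t : ℝ) : Prop :=
  ∀ (j : Fin 4) (A B : RswCfg → ℝ), ScrUp j A → ScrUp j B → ∀ N : ℕ,
    PinTr ((scrFm t j A A + scrFm t j B B) / 2) N
      (fun m => ((scrFm t j A (scrSh (((m + N : ℕ) : ℤ) • scrNor j) B) : ℝ) : ℂ))

section plane

variable {t : ℝ} (ht1 : 1 / 2 ≤ t) (ht2 : t < 1)
include ht1 ht2

theorem scr232s_pl_sh {X : RswCfg → ℝ} (hX : ScrLoc X) (a : ℤ × ℤ) : scrPl t (scrSh a X) = scrPl t X :=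
  scr99_inv t ht1 ht2 X hX (scrTr (-a)) (Or.inl ⟨_, rfl⟩)

theorem scr232s_pl_th {X : RswCfg → ℝ} (hX : ScrLoc X) (j : Fin 4) : scrPl t (scrTh j X) = scrPl t X :=
  scr99_inv t ht1 ht2 X hX (scrRe j) (Or.inr ⟨j, rfl⟩)

/-- the reflection form of a reflected observable -/
theorem scr232s_fm_th (j : Fin 4) (Z : RswCfg → ℝ) : scrFm t j (scrTh j Z) (scrTh j Z) = scrFm t j Z Z := by
  unfold scrFm
  rw [scr232s_th_th]
  congr 1
  funext ω
  exact mul_comm _ _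

/-- **the transfer representation of two groups separated by a row** of the frame `fr`: `Lo` below the row `ρ0`, `Hi` above it, also after `N` backward steps -/
theorem scr232s_frame_tr (htr : Scr232sTr t) (fr : Fin 4) (ρ0 : ℤ) (N : ℕ) {Lo Hi : RswCfg → ℝ} (hLo : Scr232sLe fr (ρ0 - 3) Lo)
    (hHi : Scr232sGe fr (ρ0 + N * scr232sNq fr + 1) Hi) :
    PinTr ((scrFm t fr (scrSh (-scr232sRv fr ρ0) Lo) (scrSh (-scr232sRv fr ρ0) Lo)
        + scrFm t fr (scrSh (-((N : ℤ) • scrNor fr) - scr232sRv fr ρ0) Hi) (scrSh (-((N : ℤ) • scrNor fr) - scr232sRv fr ρ0) Hi)) / 2) N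
      (fun m => ((scrPl t (fun ω => Lo ω * scrSh ((m : ℤ) • scrNor fr) Hi ω) : ℝ) : ℂ)) := by
  have hla : scrLev fr (scr232sRv fr ρ0) = ρ0 := scr232s_lev_rv fr ρ0
  generalize scr232sRv fr ρ0 = a at hla ⊢
  have hA : ScrUp fr (scrTh fr (scrSh (-a) Lo)) := by
    rw [scr232s_up_iff]
    apply Scr232sLe.th
    have := hLo.sh (-a)
    rw [scr232s_lev_neg, hla] at this
    exact this.mono (by linarith)
  have hB : ScrUp fr (scrSh (-((N : ℤ) • scrNor fr) - a) Hi) := by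
    rw [scr232s_up_iff]
    have := hHi.sh (-((N : ℤ) • scrNor fr) - a)
    rw [sub_eq_add_neg, scr232s_lev_add, scr232s_lev_neg, scr232s_lev_neg, scr232s_lev_zsmul, hla, scr232s_lev_nor] at this
    exact this.mono (by linarith)
  have key := htr fr _ _ hA hB N
  rw [scr232s_fm_th ht1 ht2] at key
  have e : ∀ m : ℕ, scrFm t fr (scrTh fr (scrSh (-a) Lo)) (scrSh (((m + N : ℕ) : ℤ) • scrNor fr) (scrSh (-((N : ℤ) • scrNor fr) - a) Hi))
      = scrPl t (fun ω => Lo ω * scrSh ((m : ℤ) • scrNor fr) Hi ω) := by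
    intro m
    unfold scrFm
    rw [scr232s_th_th, scr232s_sh_sh]
    have e1 : ((m + N : ℕ) : ℤ) • scrNor fr + (-((N : ℤ) • scrNor fr) - a) = -a + (m : ℤ) • scrNor fr := by
      push_cast
      rw [add_smul]
      abel
    rw [e1, ← scr232s_sh_sh]
    have hloc : ScrLoc (fun ω => Lo ω * scrSh ((m : ℤ) • scrNor fr) Hi ω) := scr232s_loc_mul' hLo.loc (scr232s_loc_sh' hHi.loc _)
    exact scr232s_pl_sh ht1 ht2 hloc (-a)
  simp only [e] at key
  exact key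

open Classical in
/-- the families of the upper group of the move `j` in its frame (the moving ones if the move goes up, the still ones if it goes down) -/
noncomputable def scr232sGHi (j : Fin 6) : Finset Scr232Kind :=
  if scr232sSg j = 1 then Finset.univ.filter (fun f => scr232Mov j f) else Finset.univ.filter (fun f => ¬ scr232Mov j f)

open Classical in
/-- the families of the lower group of the move `j` in its frame -/
noncomputable def scr232sGLo (j : Fin 6) : Finset Scr232Kind :=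
  if scr232sSg j = 1 then Finset.univ.filter (fun f => ¬ scr232Mov j f) else Finset.univ.filter (fun f => scr232Mov j f)

omit ht1 ht2 in
open Classical in
/-- the product after the move `j` by `m` steps -/
theorem scr232s_no_update (j : Fin 6) (k : Fin 6 → ℕ) (hk : k j = 0) (Y : Scr232Kind → RswCfg → ℝ) (m : ℕ) (ω : RswCfg) :
    scr232sNo (scr232Disp (Function.update k j m)) Y Finset.univ ω
      = scr232sNo (scr232Disp k) Y (Finset.univ.filter fun f => ¬ scr232Mov j f) ω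
        * scrSh ((m : ℤ) • scr232Step j) (scr232sNo (scr232Disp k) Y (Finset.univ.filter fun f => scr232Mov j f)) ω := by
  have hu : ∀ f, scr232Disp (Function.update k j m) f = scr232Disp k f + if scr232Mov j f then (m : ℤ) • scr232Step j else 0 := by
    intro f
    have := scr232_disp_update k j m f
    rwa [hk, zero_add] at this
  rw [scr232s_no_split (scr232Mov j), scr232s_no_sh]
  congr 1
  · refine congrFun (scr232s_no_congr Y fun f hf => ?_) ω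
    rw [hu, if_neg (Finset.mem_filter.1 hf).2, add_zero]
  · refine congrFun (scr232s_no_congr Y fun f hf => ?_) ω
    rw [hu, if_pos (Finset.mem_filter.1 hf).2, add_comm]

/-- **one move = the upper group is translated upwards in the frame** -/
theorem scr232s_move_eq (j : Fin 6) (k : Fin 6 → ℕ) (hk : k j = 0) {Y : Scr232Kind → RswCfg → ℝ} (hY : ∀ f, ScrLoc (Y f)) (m : ℕ) :
    scrPl t (scr232sNo (scr232Disp (Function.update k j m)) Y Finset.univ)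
      = scrPl t (fun ω => scr232sNo (scr232Disp k) Y (scr232sGLo j) ω
          * scrSh ((m : ℤ) • scrNor (scr232sFr j)) (scr232sNo (scr232Disp k) Y (scr232sGHi j)) ω) := by
  classical
  have e0 : scr232sNo (scr232Disp (Function.update k j m)) Y Finset.univ = fun ω =>
      scr232sNo (scr232Disp k) Y (Finset.univ.filter fun f => ¬ scr232Mov j f) ω
        * scrSh ((m : ℤ) • scr232Step j) (scr232sNo (scr232Disp k) Y (Finset.univ.filter fun f => scr232Mov j f)) ω :=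
    funext (scr232s_no_update j k hk Y m)
  rw [e0, scr232s_step]
  rcases scr232s_sg_sq j with hs | hs
  · simp only [scr232sGLo, scr232sGHi, hs, if_true, one_smul]
  · have hne : ¬ ((-1 : ℤ) = 1) := by norm_num
    simp only [scr232sGLo, scr232sGHi, hs, hne, if_false]
    set St := scr232sNo (scr232Disp k) Y (Finset.univ.filter fun f => ¬ scr232Mov j f) with hSt
    set Mv := scr232sNo (scr232Disp k) Y (Finset.univ.filter fun f => scr232Mov j f) with hMv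
    have lSt : ScrLoc St := scr232s_no_loc fun f _ => hY f
    have lMv : ScrLoc Mv := scr232s_no_loc fun f _ => hY f
    have hloc : ScrLoc (fun ω => St ω * scrSh ((m : ℤ) • (-1 : ℤ) • scrNor (scr232sFr j)) Mv ω) :=
      scr232s_loc_mul' lSt (scr232s_loc_sh' lMv _)
    rw [← scr232s_pl_sh ht1 ht2 hloc ((m : ℤ) • scrNor (scr232sFr j))]
    congr 1
    funext ω
    show scrSh ((m : ℤ) • scrNor (scr232sFr j)) St ω
      * scrSh ((m : ℤ) • scrNor (scr232sFr j)) (scrSh ((m : ℤ) • (-1 : ℤ) • scrNor (scr232sFr j)) Mv) ω = _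
    rw [scr232s_sh_sh]
    have : (m : ℤ) • scrNor (scr232sFr j) + (m : ℤ) • (-1 : ℤ) • scrNor (scr232sFr j) = 0 := by
      rw [neg_one_smul, smul_neg, add_neg_cancel]
    rw [this, scr232s_sh_zero, mul_comm]

/-- **one move at one mesh**: the transfer representation -/
theorem scr232s_stage_at (htr : Scr232sTr t) (j : Fin 6) (ρ0 : ℤ) (N : ℕ) (k : Fin 6 → ℕ) (hk : k j = 0) {Y : Scr232Kind → RswCfg → ℝ} (hY : ∀ f, ScrLoc (Y f))
    (hLo : ∀ f ∈ scr232sGLo j, Scr232sLe (scr232sFr j) (ρ0 - 3) (scrSh (scr232Disp k f) (Y f)))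
    (hHi : ∀ f ∈ scr232sGHi j, Scr232sGe (scr232sFr j) (ρ0 + N * scr232sNq (scr232sFr j) + 1) (scrSh (scr232Disp k f) (Y f))) :
    PinTr ((scrFm t (scr232sFr j) (scr232sNo (fun f => -scr232sRv (scr232sFr j) ρ0 + scr232Disp k f) Y (scr232sGLo j))
          (scr232sNo (fun f => -scr232sRv (scr232sFr j) ρ0 + scr232Disp k f) Y (scr232sGLo j))
        + scrFm t (scr232sFr j)
          (scr232sNo (fun f => (-((N : ℤ) • scrNor (scr232sFr j)) - scr232sRv (scr232sFr j) ρ0) + scr232Disp k f) Y (scr232sGHi j))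
          (scr232sNo (fun f => (-((N : ℤ) • scrNor (scr232sFr j)) - scr232sRv (scr232sFr j) ρ0) + scr232Disp k f) Y (scr232sGHi j))) / 2) N
      (fun m => ((scrPl t (scr232sNo (scr232Disp (Function.update k j m)) Y Finset.univ) : ℝ) : ℂ)) := by
  have h := scr232s_frame_tr ht1 ht2 htr (scr232sFr j) ρ0 N (Lo := scr232sNo (scr232Disp k) Y (scr232sGLo j))
    (Hi := scr232sNo (scr232Disp k) Y (scr232sGHi j)) (scr232s_le_prod _ hLo) (scr232s_ge_prod _ hHi)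
  rw [scr232s_no_sh, scr232s_no_sh] at h
  simp only [scr232s_move_eq ht1 ht2 j k hk hY]
  exact h

end plane

/-! ## 6. the contracts -/

/-- the real level functional of the frame `fr` (NOT normalised) -/
def scr232sLevE (fr : Fin 4) (p : ℝ × ℝ) : ℝ := ((scrNor fr).1 : ℝ) * p.1 + ((scrNor fr).2 : ℝ) * p.2

theorem scr232s_levE_add (fr : Fin 4) (p q : ℝ × ℝ) : scr232sLevE fr (p + q) = scr232sLevE fr p + scr232sLevE fr q := by
  simp only [scr232sLevE, Prod.fst_add, Prod.snd_add]; ring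

theorem scr232s_levE_P (fr : Fin 4) (δ : ℝ) (v : ℤ × ℤ) : scr232sLevE fr (scr232P δ v) = δ * scrLev fr v := by
  simp only [scr232sLevE, scr232P, scrLev]; push_cast; ring

theorem scr232s_fn_levE (j : Fin 6) (p : ℝ × ℝ) : scr232Fn j p = (scr232sSg j : ℝ) * scr232sLevE (scr232sFr j) p := by
  fin_cases j <;> simp [scr232Fn, scr232sSg, scr232sLevE, scrNor, scr232sFr] <;> ring

/-- **the bound on doubled arrangements at one mesh** (TEX[lem:screen-reflection-bound]): every group `G` of families, displaced by `τ`, pairwise `m0`-separated, on ONE side of the row of level `0` of a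
frame at (unnormalised) level distance `≥ m0`, has reflection norm squared `≤ C` -/
def Scr232sDbAt (t δ : ℝ) (obj : Scr232Kind → Set (ℝ × ℝ)) (Y : Scr232Kind → RswCfg → ℝ) (m0 C : ℝ) : Prop :=
  ∀ (fr : Fin 4) (G : Finset Scr232Kind) (τ : Scr232Kind → ℤ × ℤ),
    (∀ f ∈ G, ∀ g ∈ G, f ≠ g → ∀ p ∈ obj f, ∀ q ∈ obj g, m0 ≤ dist (p + scr232P δ (τ f)) (q + scr232P δ (τ g))) →
    ((∀ f ∈ G, ∀ p ∈ obj f, m0 ≤ scr232sLevE fr (p + scr232P δ (τ f))) ∨ (∀ f ∈ G, ∀ p ∈ obj f, scr232sLevE fr (p + scr232P δ (τ f)) ≤ -m0)) →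
    scrFm t fr (scr232sNo τ Y G) (scr232sNo τ Y G) ≤ C

/-- **CONTRACT (Lemma 5.3)**: the constant depends on the margin only -/
def Scr232sDb (t : ℝ) (δ : ℕ → ℝ) (obj : Scr232Kind → Set (ℝ × ℝ)) {I : ℕ → Type} (Y : ∀ n, I n → Scr232Kind → RswCfg → ℝ) : Prop :=
  ∀ m0 : ℝ, 0 < m0 → ∃ C : ℝ, 0 ≤ C ∧ ∀ᶠ n in atTop, ∀ i : I n, Scr232sDbAt t (δ n) obj (Y n i) m0 C

/-- **CONTRACT (cor:reflection-null)**: horizontal site rows `r n` with `δ n r n → y0`, the core below `y0 - m0` -/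
def Scr232sR3 (t : ℝ) (δ : ℕ → ℝ) (core : Set (ℝ × ℝ)) (X : ℕ → RswCfg → ℝ) : Prop :=
  ∀ (r : ℕ → ℤ) (y0 m0 : ℝ), 0 < m0 → Tendsto (fun n => δ n * (r n : ℝ)) atTop (𝓝 y0) → (∀ p ∈ core, p.2 ≤ y0 - m0) →
    Tendsto (fun n => scrFm t 0 (scrSh (-scr232sRv 0 (r n)) (X n)) (scrSh (-scr232sRv 0 (r n)) (X n))) atTop (𝓝 0)

/-- **CONTRACT**: the plane law is linear on local observables (99, Sym99) -/
structure Scr232sLin (t : ℝ) : Prop where
  add : ∀ X Y : RswCfg → ℝ, ScrLoc X → ScrLoc Y → scrPl t (fun ω => X ω + Y ω) = scrPl t X + scrPl t Y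
  smul : ∀ (s : ℝ) (X : RswCfg → ℝ), ScrLoc X → scrPl t (fun ω => s * X ω) = s * scrPl t X

/-! ## 7. reflection Cauchy-Schwarz -/

section cs

variable {t : ℝ} (ht1 : 1 / 2 ≤ t) (ht2 : t < 1)
include ht1 ht2

theorem scr232s_fm_symm (j : Fin 4) {A B : RswCfg → ℝ} (hA : ScrLoc A) (hB : ScrLoc B) : scrFm t j A B = scrFm t j B A := by
  unfold scrFm
  have hloc : ScrLoc (fun ω => scrTh j A ω * B ω) := scr232s_loc_mul' (scr232s_loc_th' hA j) hB
  rw [← scr232s_pl_th ht1 ht2 hloc j]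
  congr 1
  funext ω
  show scrTh j (scrTh j A) ω * scrTh j B ω = _
  rw [scr232s_th_th, mul_comm]

/-- **reflection Cauchy-Schwarz** -/
theorem scr232s_cs (hrp : Scr232sRp t) (hL : Scr232sLin t) (j : Fin 4) {A B : RswCfg → ℝ} (hA : ScrUp j A) (hB : ScrUp j B) :
    scrFm t j A B ^ 2 ≤ scrFm t j A A * scrFm t j B B := by
  have lA : ScrLoc A := ((scr232s_up_iff j A).1 hA).loc
  have lB : ScrLoc B := ((scr232s_up_iff j B).1 hB).loc
  have lθA := scr232s_loc_th' lA j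
  have lθB := scr232s_loc_th' lB j
  have key : ∀ x : ℝ, 0 ≤ scrFm t j B B * (x * x) + (2 * scrFm t j A B) * x + scrFm t j A A := by
    intro x
    have hup : ScrUp j (fun ω => A ω + x * B ω) :=
      (scr232s_up_iff j _).2 (((scr232s_up_iff j A).1 hA).add (((scr232s_up_iff j B).1 hB).smul x))
    have h0 := (hrp j _ hup).1
    have e : scrFm t j (fun ω => A ω + x * B ω) (fun ω => A ω + x * B ω)
        = scrFm t j A A + x * scrFm t j A B + (x * scrFm t j B A + x * (x * scrFm t j B B)) := by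
      unfold scrFm
      have e1 : (fun ω => scrTh j (fun ω => A ω + x * B ω) ω * (A ω + x * B ω))
          = fun ω => (scrTh j A ω * A ω + x * (scrTh j A ω * B ω)) + (x * (scrTh j B ω * A ω) + x * (x * (scrTh j B ω * B ω))) := by
        funext ω
        show (scrTh j A ω + x * scrTh j B ω) * (A ω + x * B ω) = _
        ring
      have l1 := scr232s_loc_mul' lθA lA
      have l2 := scr232s_loc_mul' lθA lB
      have l3 := scr232s_loc_mul' lθB lA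
      have l4 := scr232s_loc_mul' lθB lB
      have sm : ∀ {X : RswCfg → ℝ} (y : ℝ), ScrLoc X → ScrLoc (fun ω => y * X ω) := by
        intro X y hX
        obtain ⟨R, R', h⟩ := hX
        exact ⟨R, R', scr232s_loc_smul h y⟩
      have ad : ∀ {X Y : RswCfg → ℝ}, ScrLoc X → ScrLoc Y → ScrLoc (fun ω => X ω + Y ω) := by
        intro X Y hX hY
        obtain ⟨R, R', h⟩ := hX
        obtain ⟨Q, Q', k⟩ := hY
        exact ⟨_, _, scr232s_loc_add h k⟩
      rw [e1, hL.add _ _ (ad l1 (sm x l2)) (ad (sm x l3) (sm x (sm x l4))), hL.add _ _ l1 (sm x l2), hL.add _ _ (sm x l3) (sm x (sm x l4)),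
        hL.smul x _ l2, hL.smul x _ l3, hL.smul x _ (sm x l4), hL.smul x _ l4]
    rw [e, scr232s_fm_symm ht1 ht2 j lB lA] at h0
    linarith
  have hd := discrim_le_zero key
  unfold discrim at hd
  nlinarith

end cs

/-! ## 8. one move: geometry of Place232 + the contracts -/

theorem scr232s_le_of_row_pos {j : Fin 6} (hs : scr232sSg j = 1) {c : ℤ} {X : RswCfg → ℝ}
    (h : ∃ (R : Finset (ℤ × ℤ)) (R' : Finset ((ℤ × ℤ) × Bool)), RswLoc R R' X ∧ (∀ v ∈ R, scr232Row j v ≤ c) ∧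
      ∀ e ∈ R', scr232Row j e.1 ≤ c ∧ scr232Row j (rswEnd e) ≤ c) : Scr232sLe (scr232sFr j) c X := by
  obtain ⟨R, R', h1, h2, h3⟩ := h
  simp only [scr232s_row, hs, one_mul] at h2 h3
  exact ⟨R, R', h1, h2, h3⟩

theorem scr232s_ge_of_row_pos {j : Fin 6} (hs : scr232sSg j = 1) {c : ℤ} {X : RswCfg → ℝ}
    (h : ∃ (R : Finset (ℤ × ℤ)) (R' : Finset ((ℤ × ℤ) × Bool)), RswLoc R R' X ∧ (∀ v ∈ R, c ≤ scr232Row j v) ∧
      ∀ e ∈ R', c ≤ scr232Row j e.1 ∧ c ≤ scr232Row j (rswEnd e)) : Scr232sGe (scr232sFr j) c X := by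
  obtain ⟨R, R', h1, h2, h3⟩ := h
  simp only [scr232s_row, hs, one_mul] at h2 h3
  exact ⟨R, R', h1, h2, h3⟩

theorem scr232s_ge_of_row_neg {j : Fin 6} (hs : scr232sSg j = -1) {c : ℤ} {X : RswCfg → ℝ}
    (h : ∃ (R : Finset (ℤ × ℤ)) (R' : Finset ((ℤ × ℤ) × Bool)), RswLoc R R' X ∧ (∀ v ∈ R, scr232Row j v ≤ c) ∧
      ∀ e ∈ R', scr232Row j e.1 ≤ c ∧ scr232Row j (rswEnd e) ≤ c) : Scr232sGe (scr232sFr j) (-c) X := by
  obtain ⟨R, R', h1, h2, h3⟩ := h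
  simp only [scr232s_row, hs, neg_mul, one_mul] at h2 h3
  exact ⟨R, R', h1, fun v hv => by linarith [h2 v hv], fun e he => ⟨by linarith [(h3 e he).1], by linarith [(h3 e he).2]⟩⟩

theorem scr232s_le_of_row_neg {j : Fin 6} (hs : scr232sSg j = -1) {c : ℤ} {X : RswCfg → ℝ}
    (h : ∃ (R : Finset (ℤ × ℤ)) (R' : Finset ((ℤ × ℤ) × Bool)), RswLoc R R' X ∧ (∀ v ∈ R, c ≤ scr232Row j v) ∧
      ∀ e ∈ R', c ≤ scr232Row j e.1 ∧ c ≤ scr232Row j (rswEnd e)) : Scr232sLe (scr232sFr j) (-c) X := by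
  obtain ⟨R, R', h1, h2, h3⟩ := h
  simp only [scr232s_row, hs, neg_mul, one_mul] at h2 h3
  exact ⟨R, R', h1, fun v hv => by linarith [h2 v hv], fun e he => ⟨by linarith [(h3 e he).1], by linarith [(h3 e he).2]⟩⟩

/-- pairwise separation survives a common translation -/
theorem scr232s_pair {M κ ρ U0 lm lp μ : ℝ} {obj : Scr232Kind → Set (ℝ × ℝ)} (hS : Scr232Sc M κ ρ U0 lm lp obj) (hμ : 0 < μ) {δ : ℝ} {k : Fin 6 → ℕ} {j : ℕ}
    (hadm : Scr232Adm M μ (fun i => (k i : ℝ) * δ) j) (c : ℤ × ℤ) {f g : Scr232Kind} (hfg : f ≠ g) {p q : ℝ × ℝ} (hp : p ∈ obj f) (hq : q ∈ obj g) :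
    scr232Mg κ ρ μ / 4 ≤ dist (p + scr232P δ (c + scr232Disp k f)) (q + scr232P δ (c + scr232Disp k g)) := by
  have h := scr232_pair hS hμ.le hadm hfg hp hq
  have hm := scr232_mg_pos hS.κ0 hS.ρ0 hμ
  rw [← scr232_disp, ← scr232_disp] at h
  have e1 : p + scr232P δ (c + scr232Disp k f) = (p + scr232P δ (scr232Disp k f)) + scr232P δ c := by
    rw [scr232_P_add]; abel
  have e2 : q + scr232P δ (c + scr232Disp k g) = (q + scr232P δ (scr232Disp k g)) + scr232P δ c := by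
    rw [scr232_P_add]; abel
  rw [e1, e2, dist_add_right]
  linarith

theorem scr232s_levE_shift (fr : Fin 4) (δ : ℝ) (p : ℝ × ℝ) (c d : ℤ × ℤ) :
    scr232sLevE fr (p + scr232P δ (c + d)) = scr232sLevE fr (p + scr232P δ d) + δ * scrLev fr c := by
  rw [scr232_P_add, scr232s_levE_add, scr232s_levE_add, scr232s_levE_add, scr232s_levE_P fr δ c]
  ring

/-- the four blocks -/
def scr232sBlk : Finset Scr232Kind := {.T, .D, .L, .R}

theorem scr232s_blk_ne {f : Scr232Kind} (hf : f ∈ scr232sBlk) : f ≠ .K := by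
  intro h
  subst h
  simp [scr232sBlk] at hf

theorem scr232s_no_K (τ : Scr232Kind → ℤ × ℤ) (Y : Scr232Kind → RswCfg → ℝ) (ω : RswCfg) :
    scr232sNo τ Y Finset.univ ω = scrSh (τ .K) (Y .K) ω * scr232sNo τ Y scr232sBlk ω := by
  have hu : (Finset.univ : Finset Scr232Kind) = insert Scr232Kind.K scr232sBlk := by
    ext f; cases f <;> simp [scr232sBlk]
  unfold scr232sNo
  rw [hu, Finset.prod_insert (by simp [scr232sBlk])]

section geo

variable {t : ℝ} (ht1 : 1 / 2 ≤ t) (ht2 : t < 1)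
include ht1 ht2

/-- **one move from the geometry and the bound on doubled arrangements** -/
theorem scr232s_stage_geo (htr : Scr232sTr t) {M κ ρ U0 lm lp μ : ℝ} {obj : Scr232Kind → Set (ℝ × ℝ)} (hS : Scr232Sc M κ ρ U0 lm lp obj) (hμ : 0 < μ) {δ : ℝ} (hδ : 0 < δ)
    (hδm : 16 * δ ≤ scr232Mg κ ρ μ) (j : Fin 6) {k : Fin 6 → ℕ} (hadm : Scr232Adm M μ (fun i => (k i : ℝ) * δ) j.val)
    {N : ℕ} (hN : (N : ℝ) * ((scr232Nsq j : ℝ) * δ) ≤ scr232Mg κ ρ μ / 4)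
    {Y : Scr232Kind → RswCfg → ℝ} (hY : ∀ f, Scr232sAt δ (obj f) (Y f)) {C : ℝ} (hDb : Scr232sDbAt t δ obj Y (scr232Mg κ ρ μ / 4) C) :
    PinTr C N (fun m => ((scrPl t (scr232sNo (scr232Disp (Function.update k j m)) Y Finset.univ) : ℝ) : ℂ)) := by
  classical
  obtain ⟨m, hm⟩ : ∃ m, m = scr232Mg κ ρ μ := ⟨_, rfl⟩
  rw [← hm] at hδm hN hDb
  have hm0 : 0 < m := by rw [hm]; exact scr232_mg_pos hS.κ0 hS.ρ0 hμ
  have hk : k j = 0 := by
    have := hadm.zero j le_rfl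
    have h2 : (k j : ℝ) = 0 := by
      rcases mul_eq_zero.1 this with h | h
      · exact h
      · exact absurd h hδ.ne'
    exact_mod_cast h2
  obtain ⟨r0, h1, h2⟩ := scr232_row hδ (scr232Lev M κ ρ U0 lm lp (fun i => (k i : ℝ) * δ) j + m / 4)
  have hst : ∀ f, ¬ scr232Mov j f → ∀ p ∈ obj f, scr232Fn j (p + scr232P δ (scr232Disp k f)) ≤ δ * r0 - m / 4 := by
    intro f hf p hp
    have := (scr232_gap hS hμ.le hadm f hp).1 hf
    rw [scr232_disp]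
    linarith
  have hmv : ∀ f, scr232Mov j f → ∀ p ∈ obj f, δ * r0 + 3 * m / 4 - δ ≤ scr232Fn j (p + scr232P δ (scr232Disp k f)) := by
    intro f hf p hp
    have := (scr232_gap hS hμ.le hadm f hp).2 hf
    rw [← hm] at this
    rw [scr232_disp]
    linarith
  have hYl : ∀ f, ScrLoc (Y f) := fun f => (hY f).loc
  have hnq : (scr232sNq (scr232sFr j) : ℝ) = (scr232Nsq j : ℝ) := by
    have := scr232s_nq j
    exact_mod_cast this
  rcases scr232s_sg_sq j with hs | hs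
  · -- the move goes up in its frame
    have hsR : (scr232sSg j : ℝ) = 1 := by exact_mod_cast hs
    have gLo : scr232sGLo j = Finset.univ.filter (fun f => ¬ scr232Mov j f) := by simp [scr232sGLo, hs]
    have gHi : scr232sGHi j = Finset.univ.filter (fun f => scr232Mov j f) := by simp [scr232sGHi, hs]
    have hLo : ∀ f ∈ scr232sGLo j, Scr232sLe (scr232sFr j) (r0 - 3) (scrSh (scr232Disp k f) (Y f)) := by
      intro f hf
      rw [gLo] at hf
      refine scr232s_le_of_row_pos hs (scr232s_at_row_le hδ (hY f) j _ _ fun p hp => ?_)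
      have := hst f (Finset.mem_filter.1 hf).2 p hp
      push_cast
      linarith
    have hHi : ∀ f ∈ scr232sGHi j, Scr232sGe (scr232sFr j) (r0 + N * scr232sNq (scr232sFr j) + 1) (scrSh (scr232Disp k f) (Y f)) := by
      intro f hf
      rw [gHi] at hf
      refine scr232s_ge_of_row_pos hs (scr232s_at_row_ge hδ (hY f) j _ _ fun p hp => ?_)
      have := hmv f (Finset.mem_filter.1 hf).2 p hp
      push_cast
      rw [hnq]
      linarith
    refine scr232s_tr_mono (scr232s_stage_at ht1 ht2 htr j r0 N k hk hYl hLo hHi) ?_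
    have b1 := hDb (scr232sFr j) (scr232sGLo j) (fun f => -scr232sRv (scr232sFr j) r0 + scr232Disp k f)
      (fun f _ g _ hfg p hp q hq => by rw [hm]; exact scr232s_pair hS hμ hadm _ hfg hp hq)
      (Or.inr fun f hf p hp => by
        rw [gLo] at hf
        have := hst f (Finset.mem_filter.1 hf).2 p hp
        rw [scr232s_fn_levE, hsR, one_mul] at this
        rw [scr232s_levE_shift, scr232s_lev_neg, scr232s_lev_rv]
        push_cast
        linarith)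
    have b2 := hDb (scr232sFr j) (scr232sGHi j) (fun f => (-((N : ℤ) • scrNor (scr232sFr j)) - scr232sRv (scr232sFr j) r0) + scr232Disp k f)
      (fun f _ g _ hfg p hp q hq => by rw [hm]; exact scr232s_pair hS hμ hadm _ hfg hp hq)
      (Or.inl fun f hf p hp => by
        rw [gHi] at hf
        have := hmv f (Finset.mem_filter.1 hf).2 p hp
        rw [scr232s_fn_levE, hsR, one_mul] at this
        rw [scr232s_levE_shift, sub_eq_add_neg, scr232s_lev_add, scr232s_lev_neg, scr232s_lev_neg, scr232s_lev_zsmul, scr232s_lev_rv, scr232s_lev_nor]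
        push_cast
        rw [hnq]
        linarith)
    linarith
  · -- the move goes down in its frame
    have hsR : (scr232sSg j : ℝ) = -1 := by exact_mod_cast hs
    have hne : ¬ ((-1 : ℤ) = 1) := by norm_num
    have gLo : scr232sGLo j = Finset.univ.filter (fun f => scr232Mov j f) := by simp [scr232sGLo, hs]
    have gHi : scr232sGHi j = Finset.univ.filter (fun f => ¬ scr232Mov j f) := by simp [scr232sGHi, hs]
    obtain ⟨ρ0, hρ0⟩ : ∃ ρ0 : ℤ, ρ0 = -r0 - N * scr232sNq (scr232sFr j) := ⟨_, rfl⟩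
    have hρR : (ρ0 : ℝ) = -(r0 : ℝ) - N * (scr232Nsq j : ℝ) := by
      rw [hρ0]; push_cast; rw [hnq]
    have hLo : ∀ f ∈ scr232sGLo j, Scr232sLe (scr232sFr j) (ρ0 - 3) (scrSh (scr232Disp k f) (Y f)) := by
      intro f hf
      rw [gLo] at hf
      have h3 : Scr232sLe (scr232sFr j) (-(r0 + N * scr232sNq (scr232sFr j) + 3)) (scrSh (scr232Disp k f) (Y f)) := by
        refine scr232s_le_of_row_neg hs (scr232s_at_row_ge hδ (hY f) j _ _ fun p hp => ?_)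
        have := hmv f (Finset.mem_filter.1 hf).2 p hp
        push_cast
        rw [hnq]
        linarith
      exact h3.mono (by rw [hρ0]; linarith)
    have hHi : ∀ f ∈ scr232sGHi j, Scr232sGe (scr232sFr j) (ρ0 + N * scr232sNq (scr232sFr j) + 1) (scrSh (scr232Disp k f) (Y f)) := by
      intro f hf
      rw [gHi] at hf
      have h3 : Scr232sGe (scr232sFr j) (-(r0 - 3)) (scrSh (scr232Disp k f) (Y f)) := by
        refine scr232s_ge_of_row_neg hs (scr232s_at_row_le hδ (hY f) j _ _ fun p hp => ?_)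
        have := hst f (Finset.mem_filter.1 hf).2 p hp
        push_cast
        linarith
      exact h3.mono (by rw [hρ0]; linarith)
    refine scr232s_tr_mono (scr232s_stage_at ht1 ht2 htr j ρ0 N k hk hYl hLo hHi) ?_
    have b1 := hDb (scr232sFr j) (scr232sGLo j) (fun f => -scr232sRv (scr232sFr j) ρ0 + scr232Disp k f)
      (fun f _ g _ hfg p hp q hq => by rw [hm]; exact scr232s_pair hS hμ hadm _ hfg hp hq)
      (Or.inr fun f hf p hp => by
        rw [gLo] at hf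
        have := hmv f (Finset.mem_filter.1 hf).2 p hp
        rw [scr232s_fn_levE, hsR] at this
        rw [scr232s_levE_shift, scr232s_lev_neg, scr232s_lev_rv]
        push_cast
        rw [hρR]
        nlinarith)
    have b2 := hDb (scr232sFr j) (scr232sGHi j) (fun f => (-((N : ℤ) • scrNor (scr232sFr j)) - scr232sRv (scr232sFr j) ρ0) + scr232Disp k f)
      (fun f _ g _ hfg p hp q hq => by rw [hm]; exact scr232s_pair hS hμ hadm _ hfg hp hq)
      (Or.inl fun f hf p hp => by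
        rw [gHi] at hf
        have := hst f (Finset.mem_filter.1 hf).2 p hp
        rw [scr232s_fn_levE, hsR] at this
        rw [scr232s_levE_shift, sub_eq_add_neg, scr232s_lev_add, scr232s_lev_neg, scr232s_lev_neg, scr232s_lev_zsmul, scr232s_lev_rv, scr232s_lev_nor]
        push_cast
        rw [hnq, hρR]
        nlinarith)
    linarith

/-- **the final placement**: reflection Cauchy-Schwarz in a horizontal row between the core and all the blocks -/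
theorem scr232s_last_geo (hrp : Scr232sRp t) (hL : Scr232sLin t) {M κ ρ U0 lm lp μ : ℝ} {obj : Scr232Kind → Set (ℝ × ℝ)} (hS : Scr232Sc M κ ρ U0 lm lp obj) (hμ : 0 < μ)
    {δ : ℝ} (hδ : 0 < δ) (hδm : 16 * δ ≤ scr232Mg κ ρ μ) {k : Fin 6 → ℕ} (hadm : Scr232Adm M μ (fun i => (k i : ℝ) * δ) 6)
    {r0 : ℤ} (h1 : lp - κ + scr232Mg κ ρ μ / 4 ≤ δ * r0) (h2 : δ * r0 ≤ lp - κ + scr232Mg κ ρ μ / 4 + δ)
    {Y : Scr232Kind → RswCfg → ℝ} (hY : ∀ f, Scr232sAt δ (obj f) (Y f)) {C : ℝ} (hDb : Scr232sDbAt t δ obj Y (scr232Mg κ ρ μ / 4) C) :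
    scrPl t (scr232sNo (scr232Disp k) Y Finset.univ) ^ 2
      ≤ scrFm t 0 (scrSh (-scr232sRv 0 r0) (Y .K)) (scrSh (-scr232sRv 0 r0) (Y .K)) * C := by
  classical
  obtain ⟨m, hm⟩ : ∃ m, m = scr232Mg κ ρ μ := ⟨_, rfl⟩
  rw [← hm] at hδm h1 h2 hDb
  have hm0 : 0 < m := by rw [hm]; exact scr232_mg_pos hS.κ0 hS.ρ0 hμ
  have hs0 : scr232sSg 0 = 1 := rfl
  have hfr0 : scr232sFr 0 = 0 := rfl
  have hK : ∀ p ∈ obj .K, scr232Fn 0 (p + scr232P δ (scr232Disp k .K)) ≤ δ * r0 - m / 4 := by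
    intro p hp
    have := (scr232_final hS hμ.le hadm .K hp).1 rfl
    rw [scr232_disp]
    show (p + scr232Tau _ Scr232Kind.K).2 ≤ _
    linarith
  have hO : ∀ f, f ≠ .K → ∀ p ∈ obj f, δ * r0 + 3 * m / 4 - δ ≤ scr232Fn 0 (p + scr232P δ (scr232Disp k f)) := by
    intro f hf p hp
    have := (scr232_final hS hμ.le hadm f hp).2 hf
    rw [← hm] at this
    rw [scr232_disp]
    show _ ≤ (p + scr232Tau _ f).2
    linarith
  have eK : scrSh (scr232Disp k .K) (Y .K) = Y .K := scr232s_sh_zero (Y .K)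
  set a := scr232sRv 0 r0 with ha
  have hla : scrLev 0 a = r0 := scr232s_lev_rv 0 r0
  set Hi := scr232sNo (scr232Disp k) Y scr232sBlk with hHi
  have hYl : ∀ f, ScrLoc (Y f) := fun f => (hY f).loc
  have lHi : ScrLoc Hi := scr232s_no_loc fun f _ => hYl f
  -- the product splits
  have e0 : scr232sNo (scr232Disp k) Y Finset.univ = fun ω => Y .K ω * Hi ω := by
    funext ω
    rw [scr232s_no_K, eK]
  -- levels
  have hLoL : Scr232sLe 0 (r0 - 3) (Y .K) := by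
    have := scr232s_le_of_row_pos (j := 0) hs0 (scr232s_at_row_le hδ (hY .K) 0 (scr232Disp k .K) (r0 - 3) fun p hp => by
      have := hK p hp
      push_cast
      linarith)
    rw [eK] at this
    exact this
  have hHiL : Scr232sGe 0 (r0 + 1) Hi := by
    refine scr232s_ge_prod _ fun f hf => ?_
    exact scr232s_ge_of_row_pos (j := 0) hs0 (scr232s_at_row_ge hδ (hY f) 0 (scr232Disp k f) (r0 + 1) fun p hp => by
      have := hO f (scr232s_blk_ne hf) p hp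
      push_cast
      linarith)
  have hA : ScrUp 0 (scrTh 0 (scrSh (-a) (Y .K))) := by
    rw [scr232s_up_iff]
    apply Scr232sLe.th
    have := hLoL.sh (-a)
    rw [scr232s_lev_neg, hla] at this
    exact this.mono (by linarith)
  have hB : ScrUp 0 (scrSh (-a) Hi) := by
    rw [scr232s_up_iff]
    have := hHiL.sh (-a)
    rw [scr232s_lev_neg, hla] at this
    exact this.mono (by linarith)
  have e1 : scrPl t (fun ω => Y .K ω * Hi ω) = scrFm t 0 (scrTh 0 (scrSh (-a) (Y .K))) (scrSh (-a) Hi) := by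
    unfold scrFm
    rw [scr232s_th_th]
    exact (scr232s_pl_sh ht1 ht2 (scr232s_loc_mul' (hYl .K) lHi) (-a)).symm
  rw [e0, e1]
  refine (scr232s_cs ht1 ht2 hrp hL 0 hA hB).trans ?_
  rw [scr232s_fm_th ht1 ht2]
  have hnn : 0 ≤ scrFm t 0 (scrSh (-a) (Y .K)) (scrSh (-a) (Y .K)) := by
    have := (hrp 0 _ hA).1
    rwa [scr232s_fm_th ht1 ht2] at this
  refine mul_le_mul_of_nonneg_left ?_ hnn
  rw [hHi, scr232s_no_sh]
  refine hDb 0 _ _ (fun f _ g _ hfg p hp q hq => by rw [hm]; exact scr232s_pair hS hμ hadm _ hfg hp hq) (Or.inl fun f hf p hp => ?_)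
  have := hO f (scr232s_blk_ne hf) p hp
  rw [scr232s_fn_levE] at this
  have hsR : ((scr232sSg 0 : ℤ) : ℝ) = 1 := by rw [hs0]; norm_num
  rw [hsR, one_mul, hfr0] at this
  rw [scr232s_levE_shift, scr232s_lev_neg, hla]
  push_cast
  linarith

end geo

/-! ## 9. SEP -/

theorem scr232s_sq_lim {v w : ℕ → ℝ} {K : ℝ} (hw : Tendsto w atTop (𝓝 0)) (h : ∀ᶠ n in atTop, v n ^ 2 ≤ w n * K) : Tendsto v atTop (𝓝 0) := by
  have h1 : Tendsto (fun n => v n ^ 2) atTop (𝓝 0) := by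
    have h0 : Tendsto (fun n => w n * K) atTop (𝓝 0) := by simpa using hw.mul_const K
    exact squeeze_zero' (Eventually.of_forall fun n => sq_nonneg _) h h0
  have h2 := (Real.continuous_sqrt.tendsto 0).comp h1
  rw [Real.sqrt_zero] at h2
  rw [tendsto_zero_iff_abs_tendsto_zero]
  refine h2.congr fun n => ?_
  show Real.sqrt (v n ^ 2) = |v n|
  exact Real.sqrt_sq_eq_abs _

theorem scr232s_disp_zero (f : Scr232Kind) : scr232Disp 0 f = 0 := by
  cases f <;> simp [scr232Disp] <;> rfl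

/-- **THE GAPPED PATTERN IDENTITY (Lemma 5.5) ON THE PLANE LAW**, from the contracts.  `Y n i f`, `f = T D L R`: the normalised pattern indicator times the bounded factor of the block `f`;
`Y n i K = X n`: the insertion. -/
theorem scr232s_sep {t : ℝ} (ht1 : 1 / 2 ≤ t) (ht2 : t < 1) (hrp : Scr232sRp t) (htr : Scr232sTr t) (hL : Scr232sLin t) {M κ ρ U0 lm lp : ℝ} {obj : Scr232Kind → Set (ℝ × ℝ)}
    (hS : Scr232Sc M κ ρ U0 lm lp obj) {δ : ℕ → ℝ} (hδ : ∀ n, 0 < δ n) (hδ0 : Tendsto δ atTop (𝓝 0))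
    {I : ℕ → Type} [∀ n, Nonempty (I n)] {Y : ∀ n, I n → Scr232Kind → RswCfg → ℝ}
    (hY : ∀ᶠ n in atTop, ∀ (i : I n) (f : Scr232Kind), Scr232sAt (δ n) (obj f) (Y n i f))
    {X : ℕ → RswCfg → ℝ} (hX : ∀ n (i : I n), Y n i .K = X n) (hDb : Scr232sDb t δ obj Y) (hR3 : Scr232sR3 t δ (obj .K) X)
    {ε : ℝ} (hε : 0 < ε) : ∀ᶠ n in atTop, ∀ i : I n, |scrPl t (fun ω => ∏ f, Y n i f ω)| ≤ ε := by
  have main := scg99_uniform (K := 6) (I := I) (b := δ) (thr := scr232Thr M)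
    (M := fun n i k => ((scrPl t (scr232sNo (scr232Disp k) (Y n i) Finset.univ) : ℝ) : ℂ)) (scr232_thr_dep M) ?_ ?_ hε
  · refine main.mono fun n hn i => ?_
    have := hn i
    rw [Complex.norm_real, Real.norm_eq_abs] at this
    have e : scr232sNo (scr232Disp 0) (Y n i) Finset.univ = fun ω => ∏ f, Y n i f ω := by
      funext ω
      refine Finset.prod_congr rfl fun f _ => ?_
      rw [scr232s_disp_zero, scr232s_sh_zero]
    rwa [e] at this
  · -- the final placement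
    intro s a ha1 ha2 k hk1 hk2
    obtain ⟨μ, hμ, hadm⟩ := scr232_adm_ev (M := M) (fun n => (hδ n).le) (j := 6) (a := a) (fun i hi => ha1 i hi) hk1
      (fun n i hi => hk2 n i hi)
    have hm : 0 < scr232Mg κ ρ μ := scr232_mg_pos hS.κ0 hS.ρ0 hμ
    obtain ⟨C, hC, hDbE⟩ := hDb (scr232Mg κ ρ μ / 4) (by positivity)
    choose r hr1 hr2 using fun n => scr232_row (hδ n) (lp - κ + scr232Mg κ ρ μ / 4)
    have hrt : Tendsto (fun n => δ n * (r n : ℝ)) atTop (𝓝 (lp - κ + scr232Mg κ ρ μ / 4)) := by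
      have h0 : Tendsto (fun n => lp - κ + scr232Mg κ ρ μ / 4 + δ n) atTop (𝓝 (lp - κ + scr232Mg κ ρ μ / 4)) := by
        simpa using (tendsto_const_nhds (x := lp - κ + scr232Mg κ ρ μ / 4)).add hδ0
      exact tendsto_of_tendsto_of_tendsto_of_le_of_le tendsto_const_nhds h0 hr1 hr2
    have hx := hR3 r _ (scr232Mg κ ρ μ / 4) (by positivity) hrt (fun p hp => by
      have := (hS.mid .K (by simp) (by simp) p hp).2
      linarith)
    have hsm : ∀ᶠ n in atTop, 16 * δ n ≤ scr232Mg κ ρ μ := by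
      have : Tendsto (fun n => 16 * δ n) atTop (𝓝 0) := by simpa using hδ0.const_mul 16
      exact (this.eventually (gt_mem_nhds hm)).mono fun n hn => hn.le
    have hreal : Tendsto (fun n => scrPl t (scr232sNo (scr232Disp (k n)) (Y n (s n)) Finset.univ)) atTop (𝓝 0) := by
      refine scr232s_sq_lim hx (K := C) ?_
      filter_upwards [hadm, hDbE, hsm, hY] with n h1 h2 h3 h4
      have := scr232s_last_geo ht1 ht2 hrp hL hS hμ (hδ n) h3 h1 (hr1 n) (hr2 n) (h4 (s n)) (h2 (s n))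
      rwa [hX] at this
    have := (Complex.continuous_ofReal.tendsto 0).comp hreal
    rw [Complex.ofReal_zero] at this
    exact this
  · -- one move
    intro s j a ha1 ha2 k hk1 hk2
    obtain ⟨μ, hμ, hadm⟩ := scr232_adm_ev (M := M) (fun n => (hδ n).le) (j := j.val) (a := a) (fun i hi => ha1 i hi) hk1
      (fun n i hi => hk2 n i hi)
    have hm : 0 < scr232Mg κ ρ μ := scr232_mg_pos hS.κ0 hS.ρ0 hμ
    obtain ⟨C, hC, hDbE⟩ := hDb (scr232Mg κ ρ μ / 4) (by positivity)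
    have hsm : ∀ᶠ n in atTop, 16 * δ n ≤ scr232Mg κ ρ μ := by
      have : Tendsto (fun n => 16 * δ n) atTop (𝓝 0) := by simpa using hδ0.const_mul 16
      exact (this.eventually (gt_mem_nhds hm)).mono fun n hn => hn.le
    refine ⟨C, scr232Mg κ ρ μ / 8, fun n => ⌊scr232Mg κ ρ μ / 8 / δ n⌋₊, hC, by positivity, (scr232_steps hδ hδ0 (by positivity)).1, ?_⟩
    filter_upwards [hadm, hDbE, hsm, hY] with n h1 h2 h3 h4
    exact scr232s_stage_geo ht1 ht2 htr hS hμ (hδ n) h3 j h1 (scr232_backoff hδ hm.le j n) (h4 (s n)) (h2 (s n))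

end Claimed.Agent.R292

/-!
# PART II : (GAP) = LEMMA 5.5 ON THE PLANE LAW, VERBATIM `scr_cut_gap`      (helper232; prefix `scr232g`)

`scr232g_cut_gap` = the statement `scr_cut_gap` of `Screen/Cut229b`, from `scr232s_sep` (PART I: six moves + analytic translation + reflection Cauchy-Schwarz), the API of the plane law (Sym99),
cor:reflection-null = `asd_R3` (79, Spec/ScrDict79) and TWO RECORDS which enter as HYPOTHESES (sec. 0):
* `Scr232gPat t`   prop:pattern-comparison, upper bound, finitely many windows inside pairwise separated closed BOXES (rectangular buffers)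
* `Scr232gMom t`   Lemma 5.2, `p = 2`, product form, insertion `scrIns δ z φ` of ARBITRARY centre `z`, moved by a lattice vector
`Scr232gMom t` is REDUCED (sec. 8, `scr232g_mom`) to the general array bound of 221 (shapes of `mom221_pl`, `mom221_const`, as hypotheses `Scr232gArr`, `Scr232gCst`).
PROVED HERE: covariance of the pattern indicators under translations and the four reflections, locality of `ScrIn` observables of bounded windows, locality of `scrIns` in its core,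
Lemma 5.3 (normalised reflection bound, `Scr232sDb`) from the two first records, the assembly.
-/

namespace Claimed.Agent.R292

open Claims Claims.C0468 Filter Topology

/-! ## 0. the typed records -/

/-- closed axis parallel box with sides `≤ M` (possibly empty) -/
def Scr232gBox (M : ℝ) (H : Set (ℝ × ℝ)) : Prop := ∃ a b : ℝ × ℝ, H = Set.Icc a b ∧ b.1 - a.1 ≤ M ∧ b.2 - a.2 ≤ M

/-- windows `U i` inside boxes `H i` at mutual sup-distance `≥ c0` -/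
structure Scr232gWin {ι : Type} (c0 M : ℝ) (U H : ι → Set (ℝ × ℝ)) : Prop where
  sub : ∀ i, U i ⊆ H i
  box : ∀ i, Scr232gBox M (H i)
  sep : ∀ i j, i ≠ j → ∀ p ∈ H i, ∀ q ∈ H j, c0 ≤ dist p q

/-- **RECORD (prop:pattern-comparison, upper bound)**: finitely many windows inside pairwise separated boxes. -/
def Scr232gPat (t : ℝ) : Prop :=
  ∀ (c0 M : ℝ), 0 < c0 → ∀ (ι : Type) [Fintype ι],
    ∃ C δ₀ : ℝ, 0 ≤ C ∧ 0 < δ₀ ∧ ∀ δ : ℝ, 0 < δ → δ < δ₀ → ∀ (U H : ι → Set (ℝ × ℝ)) (π : ι → RswCfg), Scr232gWin c0 M U H →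
      scrPl t (fun ω => ∏ i, scrPatI δ (U i) (π i) ω) ≤ C * ∏ i, scrPl t (scrPatI δ (U i) (π i))

/-- **RECORD (Lemma 5.2, `p = 2`, product form)**: the insertion of ARBITRARY centre `z` moved by the lattice vector `a`; the boxes at sup-distance `≥ r + c0` of the moved centre. -/
def Scr232gMom (t : ℝ) : Prop :=
  ∀ (r c0 M : ℝ), 0 < r → 0 < c0 → ∀ (ι : Type) [Fintype ι] (z : ℝ × ℝ) (φ : ℝ × ℝ → ℝ), ContDiff ℝ ((⊤ : ℕ∞) : WithTop ℕ∞) φ →
    tsupport φ ⊆ Metric.ball z (r / 2) →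
    ∃ C δ₀ : ℝ, 0 ≤ C ∧ 0 < δ₀ ∧ ∀ δ : ℝ, 0 < δ → δ < δ₀ → ∀ (a : ℤ × ℤ) (U H : ι → Set (ℝ × ℝ)) (π : ι → RswCfg), Scr232gWin c0 M U H →
      (∀ i, ∀ p ∈ H i, r + c0 ≤ dist p (z + scr232P δ a)) →
      scrPl t (fun ω => (scrSh a (scrIns δ z φ) ω) ^ 2 * ∏ i, scrPatI δ (U i) (π i) ω)
        ≤ C * scrPl t (fun ω => ∏ i, scrPatI δ (U i) (π i) ω)

/-! ## 1. real reflections, moved windows, boxes -/

/-- the real reflection of the frame `fr` -/
def scr232gRf (fr : Fin 4) (p : ℝ × ℝ) : ℝ × ℝ := ![(p.1, -p.2), (-p.2, -p.1), (-p.1, p.2), (p.2, p.1)] fr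

theorem scr232g_rf_rf (fr : Fin 4) (p : ℝ × ℝ) : scr232gRf fr (scr232gRf fr p) = p := by
  fin_cases fr <;> simp [scr232gRf]

theorem scr232g_P_re (δ : ℝ) (fr : Fin 4) (v : ℤ × ℤ) : scr232P δ ((scrRe fr).c v) = scr232gRf fr (scr232P δ v) := by
  fin_cases fr <;> simp [scr232gRf, scr232P, scrRe]

theorem scr232g_rf_dist (fr : Fin 4) (p q : ℝ × ℝ) : dist (scr232gRf fr p) (scr232gRf fr q) = dist p q := by
  fin_cases fr <;> simp [scr232gRf, Prod.dist_eq, Real.dist_eq, max_comm]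

theorem scr232g_levE_rf (fr : Fin 4) (p : ℝ × ℝ) : scr232sLevE fr (scr232gRf fr p) = -scr232sLevE fr p := by
  fin_cases fr <;> simp [scr232gRf, scr232sLevE, scrNor]

theorem scr232g_levE_dist (fr : Fin 4) (p q : ℝ × ℝ) : |scr232sLevE fr p - scr232sLevE fr q| ≤ 2 * dist p q := by
  have h1 : |p.1 - q.1| ≤ dist p q := by rw [Prod.dist_eq, Real.dist_eq]; exact le_max_left _ _
  have h2 : |p.2 - q.2| ≤ dist p q := by rw [Prod.dist_eq, Real.dist_eq (p.2)]; exact le_max_right _ _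
  rw [abs_le] at h1 h2 ⊢
  fin_cases fr <;> simp [scr232sLevE, scrNor] <;> constructor <;> linarith [h1.1, h1.2, h2.1, h2.2]

/-- the window `U` moved by `c` -/
def scr232gMv (c : ℝ × ℝ) (U : Set (ℝ × ℝ)) : Set (ℝ × ℝ) := {p | p - c ∈ U}

/-- the mirrored window -/
def scr232gMi (fr : Fin 4) (U : Set (ℝ × ℝ)) : Set (ℝ × ℝ) := {p | scr232gRf fr p ∈ U}

theorem Scr232gBox.mv {M : ℝ} {H : Set (ℝ × ℝ)} (h : Scr232gBox M H) (c : ℝ × ℝ) : Scr232gBox M (scr232gMv c H) := by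
  obtain ⟨a, b, rfl, h1, h2⟩ := h
  refine ⟨a + c, b + c, ?_, by simpa using h1, by simpa using h2⟩
  ext p
  simp only [scr232gMv, Set.mem_ofPred_eq, Set.mem_Icc, Prod.le_def, Prod.fst_sub, Prod.snd_sub, Prod.fst_add, Prod.snd_add]
  constructor <;> rintro ⟨⟨h1, h2⟩, h3, h4⟩ <;> refine ⟨⟨?_, ?_⟩, ?_, ?_⟩ <;> linarith

theorem Scr232gBox.mi {M : ℝ} {H : Set (ℝ × ℝ)} (h : Scr232gBox M H) (fr : Fin 4) : Scr232gBox M (scr232gMi fr H) := by
  obtain ⟨a, b, rfl, h1, h2⟩ := h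
  refine ⟨![(a.1, -b.2), (-b.2, -b.1), (-b.1, a.2), (a.2, a.1)] fr, ![(b.1, -a.2), (-a.2, -a.1), (-a.1, b.2), (b.2, b.1)] fr, ?_, ?_, ?_⟩
  · ext p
    fin_cases fr <;> simp only [scr232gMi, scr232gRf, Set.mem_ofPred_eq, Set.mem_Icc, Prod.le_def] <;> simp <;>
      constructor <;> rintro ⟨⟨h1, h2⟩, h3, h4⟩ <;> refine ⟨⟨?_, ?_⟩, ?_, ?_⟩ <;> linarith
  · fin_cases fr <;> simp <;> linarith
  · fin_cases fr <;> simp <;> linarith

theorem scr232g_box_empty {M : ℝ} (hM : 0 ≤ M) : Scr232gBox M ∅ :=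
  ⟨(1, 1), (0, 0), by rw [Set.Icc_eq_empty]; simp [Prod.le_def], by simp; linarith, by simp; linarith⟩

/-! ## 2. the pattern indicators: equality of patterns, covariance, locality -/

theorem scr232g_filter_eq {α : Type*} [DecidableEq α] (A B : Finset α) (q : α → Prop) [DecidablePred q] :
    A.filter q = B.filter q ↔ ∀ v, q v → (v ∈ A ↔ v ∈ B) := by
  constructor
  · intro h v hv
    have := Finset.ext_iff.1 h v
    simpa [Finset.mem_filter, hv] using this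
  · intro h
    ext v
    simp only [Finset.mem_filter]
    constructor
    · rintro ⟨h1, h2⟩; exact ⟨(h v h2).1 h1, h2⟩
    · rintro ⟨h1, h2⟩; exact ⟨(h v h2).2 h1, h2⟩

theorem scr232g_pat_eq (δ : ℝ) (U : Set (ℝ × ℝ)) (ω π : RswCfg) :
    scrPat δ U ω = scrPat δ U π ↔ (∀ v, scr232P δ v ∈ U → (v ∈ ω.S ↔ v ∈ π.S)) ∧
      ∀ e : (ℤ × ℤ) × Bool, scr232P δ e.1 ∈ U ∧ scr232P δ (rswEnd e) ∈ U → (e ∈ ω.O ↔ e ∈ π.O) := by
  classical
  unfold scrPat
  rw [Prod.mk.injEq, scr232g_filter_eq, scr232g_filter_eq]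

theorem scr232g_mem_image {α : Type*} [DecidableEq α] {g gi : α → α} (h1 : ∀ x, g (gi x) = x) (h2 : ∀ x, gi (g x) = x) (A : Finset α) (v : α) :
    v ∈ A.image gi ↔ g v ∈ A := by
  rw [Finset.mem_image]
  constructor
  · rintro ⟨u, hu, rfl⟩; rwa [h1]
  · intro h; exact ⟨g v, h, h2 v⟩

/-- covariance of the pattern indicator under a bijection of the corners and of the edges -/
theorem scr232g_pat_act (δ : ℝ) (U U' : Set (ℝ × ℝ)) (g gi : ScrMapD) (hc1 : ∀ v, g.c (gi.c v) = v) (hc2 : ∀ v, gi.c (g.c v) = v)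
    (he1 : ∀ e, g.e (gi.e e) = e) (he2 : ∀ e, gi.e (g.e e) = e) (hU : ∀ v, scr232P δ (g.c v) ∈ U' ↔ scr232P δ v ∈ U)
    (hE : ∀ e, (scr232P δ (g.e e).1 ∈ U' ∧ scr232P δ (rswEnd (g.e e)) ∈ U') ↔ (scr232P δ e.1 ∈ U ∧ scr232P δ (rswEnd e) ∈ U)) (π ω : RswCfg) :
    scrPatI δ U π (scrAct gi ω) = scrPatI δ U' (scrAct g π) ω := by
  classical
  unfold scrPatI
  have : scrPat δ U (scrAct gi ω) = scrPat δ U π ↔ scrPat δ U' ω = scrPat δ U' (scrAct g π) := by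
    rw [scr232g_pat_eq, scr232g_pat_eq]
    simp only [scrAct, scr232g_mem_image hc1 hc2, scr232g_mem_image hc2 hc1, scr232g_mem_image he1 he2, scr232g_mem_image he2 he1]
    constructor
    · rintro ⟨h1, h2⟩
      refine ⟨fun v hv => ?_, fun e he => ?_⟩
      · have := h1 (gi.c v) ((hU _).1 (by rwa [hc1]))
        rwa [hc1] at this
      · have := h2 (gi.e e) ((hE _).1 (by rwa [he1]))
        rwa [he1] at this
    · rintro ⟨h1, h2⟩
      refine ⟨fun v hv => ?_, fun e he => ?_⟩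
      · have := h1 (g.c v) ((hU _).2 hv)
        rwa [hc2] at this
      · have := h2 (g.e e) ((hE _).2 he)
        rwa [he2] at this
  simp only [this]

theorem scr232g_pat_sh (δ : ℝ) (a : ℤ × ℤ) (U : Set (ℝ × ℝ)) (π : RswCfg) :
    scrSh a (scrPatI δ U π) = scrPatI δ (scr232gMv (scr232P δ a) U) (scrAct (scrTr a) π) := by
  funext ω
  refine scr232g_pat_act δ U _ (scrTr a) (scrTr (-a)) (by intro v; simp [scrTr]) (by intro v; simp [scrTr])
    (by intro e; simp [scrTr]) (by intro e; simp [scrTr]) ?_ ?_ π ω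
  · intro v
    simp only [scrTr, scr232gMv, Set.mem_ofPred_eq, scr232_P_add, add_sub_cancel_right]
  · intro e
    simp only [scrTr, scr232gMv, Set.mem_ofPred_eq, scr232_P_add, add_sub_cancel_right, scr232s_end_add]

theorem scr232g_pat_th (δ : ℝ) (fr : Fin 4) (U : Set (ℝ × ℝ)) (π : RswCfg) :
    scrTh fr (scrPatI δ U π) = scrPatI δ (scr232gMi fr U) (scrAct (scrRe fr) π) := by
  funext ω
  refine scr232g_pat_act δ U _ (scrRe fr) (scrRe fr) (scr232s_re_c_c fr) (scr232s_re_c_c fr) (scr232s_re_e_e fr) (scr232s_re_e_e fr) ?_ ?_ π ω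
  · intro v
    simp only [scr232gMi, Set.mem_ofPred_eq, scr232g_P_re, scr232g_rf_rf]
  · intro e
    rcases scr232s_re_edge fr e with ⟨h1, h2⟩ | ⟨h1, h2⟩
    · simp only [h1, h2, scr232gMi, Set.mem_ofPred_eq, scr232g_P_re, scr232g_rf_rf]
    · simp only [h1, h2, scr232gMi, Set.mem_ofPred_eq, scr232g_P_re, scr232g_rf_rf]
      exact and_comm

theorem scr232g_pat_empty (δ : ℝ) (π : RswCfg) : scrPatI δ ∅ π = fun _ => 1 := by
  classical
  funext ω
  unfold scrPatI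
  rw [if_pos]
  rw [scr232g_pat_eq]
  simp

theorem scr232g_pat_nonneg (δ : ℝ) (U : Set (ℝ × ℝ)) (π ω : RswCfg) : 0 ≤ scrPatI δ U π ω := by
  classical
  unfold scrPatI
  split_ifs <;> simp

theorem scr232g_pat_le_one (δ : ℝ) (U : Set (ℝ × ℝ)) (π ω : RswCfg) : scrPatI δ U π ω ≤ 1 := by
  classical
  unfold scrPatI
  split_ifs <;> simp

theorem scr232g_pat_sq (δ : ℝ) (U : Set (ℝ × ℝ)) (π ω : RswCfg) : scrPatI δ U π ω ^ 2 = scrPatI δ U π ω := by
  classical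
  unfold scrPatI
  split_ifs <;> simp

theorem scr232g_pat_in (δ : ℝ) (U : Set (ℝ × ℝ)) (π : RswCfg) : ScrIn δ U (scrPatI δ U π) := by
  classical
  intro ω ω' h1 _ h3
  unfold scrPatI
  have : scrPat δ U ω = scrPat δ U ω' := by
    rw [scr232g_pat_eq]
    exact ⟨h1, fun e he => h3 e he.1 he.2⟩
  rw [this]

theorem ScrIn.mono232 {δ : ℝ} {U U' : Set (ℝ × ℝ)} {X : RswCfg → ℝ} (h : ScrIn δ U X) (hU : U ⊆ U') : ScrIn δ U' X :=
  fun ω ω' h1 h2 h3 => h ω ω' (fun v hv => h1 v (hU hv)) (fun v hv => h2 v (hU hv)) (fun e he he' => h3 e (hU he) (hU he'))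

/-- the lattice points of a bounded window -/
theorem scr232g_fin {δ : ℝ} (hδ : 0 < δ) {U : Set (ℝ × ℝ)} {M : ℝ} (hU : ∀ p ∈ U, |p.1| ≤ M ∧ |p.2| ≤ M) : {v : ℤ × ℤ | scr232P δ v ∈ U}.Finite := by
  refine (Set.finite_Icc ((-⌈M / δ⌉, -⌈M / δ⌉) : ℤ × ℤ) (⌈M / δ⌉, ⌈M / δ⌉)).subset ?_
  intro v hv
  have h := hU _ hv
  simp only [scr232P] at h
  have key : ∀ x : ℤ, |δ * (x : ℝ)| ≤ M → -⌈M / δ⌉ ≤ x ∧ x ≤ ⌈M / δ⌉ := by
    intro x hx
    rw [abs_le] at hx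
    have h1 : (x : ℝ) ≤ M / δ := by rw [le_div_iff₀ hδ]; linarith [hx.2]
    have h2 : -(M / δ) ≤ (x : ℝ) := by
      rw [neg_le]
      rw [le_div_iff₀ hδ]; linarith [hx.1]
    have h3 : (M / δ) ≤ (⌈M / δ⌉ : ℝ) := Int.le_ceil _
    constructor
    · have : (-(⌈M / δ⌉ : ℤ) : ℝ) ≤ (x : ℝ) := by linarith
      exact_mod_cast this
    · have : (x : ℝ) ≤ (⌈M / δ⌉ : ℝ) := by linarith
      exact_mod_cast this
  rw [Set.mem_Icc, Prod.le_def, Prod.le_def]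
  exact ⟨⟨(key _ h.1).1, (key _ h.2).1⟩, (key _ h.1).2, (key _ h.2).2⟩

/-- an observable which reads only in a bounded window is local, with explicit support -/
theorem scr232g_in_at {δ : ℝ} (hδ : 0 < δ) {U : Set (ℝ × ℝ)} {M : ℝ} (hU : ∀ p ∈ U, |p.1| ≤ M ∧ |p.2| ≤ M) {X : RswCfg → ℝ} (hX : ScrIn δ U X) :
    Scr232sAt δ U X := by
  classical
  have hf := scr232g_fin hδ hU
  have hf' : {e : (ℤ × ℤ) × Bool | scr232P δ e.1 ∈ U ∧ scr232P δ (rswEnd e) ∈ U}.Finite := by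
    refine ((hf.prod (Set.finite_univ (α := Bool)))).subset ?_
    intro e he
    exact ⟨he.1, Set.mem_univ _⟩
  refine ⟨hf.toFinset, hf'.toFinset, ?_, fun v hv => by simpa using hv, fun e he => by simpa using he⟩
  intro ω ω' h1 h2 h3
  refine hX ω ω' (fun v hv => ?_) (fun v hv => ?_) (fun e he he' => ?_)
  · have := Finset.ext_iff.1 h1 v
    simpa [Finset.mem_inter, hv] using this
  · have := Finset.ext_iff.1 h2 v
    simpa [Finset.mem_inter, hv] using this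
  · have := Finset.ext_iff.1 h3 e
    simpa [Finset.mem_inter, he, he'] using this

/-! ## 3. the Laplace insertion reads only in its core -/

/-- the closed square of centre `z` and half side `r` -/
def scr232gQ (z : ℝ × ℝ) (r : ℝ) : Set (ℝ × ℝ) := {p | |p.1 - z.1| ≤ r ∧ |p.2 - z.2| ≤ r}

theorem scr232g_osum_congr {a b : ℤ} {g g' : ℤ → ℝ} (h : ∀ x, min a b ≤ x → x < max a b → g x = g' x) : scrOsum a b g = scrOsum a b g' := by
  unfold scrOsum
  split_ifs with hab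
  · refine Finset.sum_congr rfl fun x hx => h x ?_ ?_
    · rw [min_eq_left hab]; exact (Finset.mem_Ico.1 hx).1
    · rw [max_eq_right hab]; exact (Finset.mem_Ico.1 hx).2
  · push Not at hab
    congr 1
    refine Finset.sum_congr rfl fun x hx => h x ?_ ?_
    · rw [min_eq_right hab.le]; exact (Finset.mem_Ico.1 hx).1
    · rw [max_eq_left hab.le]; exact (Finset.mem_Ico.1 hx).2

theorem scr232g_step_congr {ω ω' : RswCfg} {e : (ℤ × ℤ) × Bool} (h1 : e.1 ∈ ω.S ↔ e.1 ∈ ω'.S) (h2 : rswEnd e ∈ ω.S ↔ rswEnd e ∈ ω'.S)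
    (h3 : e.1 ∈ ω.D ↔ e.1 ∈ ω'.D) : scrStep ω e = scrStep ω' e := by
  simp only [scrStep, scrS, scrD, h1, h2, h3]

theorem scr232g_between {δ : ℝ} (hδ : 0 < δ) {c r : ℝ} {a b x : ℤ} (ha : |δ * (a : ℝ) - c| ≤ r) (hb : |δ * (b : ℝ) - c| ≤ r)
    (h1 : min a b ≤ x) (h2 : x ≤ max a b) : |δ * (x : ℝ) - c| ≤ r := by
  rw [abs_le] at *
  rcases le_total a b with h | h
  · rw [min_eq_left h] at h1
    rw [max_eq_right h] at h2
    have e1 : δ * (a : ℝ) ≤ δ * (x : ℝ) := mul_le_mul_of_nonneg_left (by exact_mod_cast h1) hδ.le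
    have e2 : δ * (x : ℝ) ≤ δ * (b : ℝ) := mul_le_mul_of_nonneg_left (by exact_mod_cast h2) hδ.le
    constructor <;> linarith [ha.1, hb.2]
  · rw [min_eq_right h] at h1
    rw [max_eq_left h] at h2
    have e1 : δ * (b : ℝ) ≤ δ * (x : ℝ) := mul_le_mul_of_nonneg_left (by exact_mod_cast h1) hδ.le
    have e2 : δ * (x : ℝ) ≤ δ * (a : ℝ) := mul_le_mul_of_nonneg_left (by exact_mod_cast h2) hδ.le
    constructor <;> linarith [hb.1, ha.2]

theorem scr232g_inc_congr {δ : ℝ} (hδ : 0 < δ) {z : ℝ × ℝ} {r : ℝ} {v₀ v : ℤ × ℤ} (h0 : scr232P δ v₀ ∈ scr232gQ z r) (hv : scr232P δ v ∈ scr232gQ z r)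
    {ω ω' : RswCfg} (hS : ∀ u, scr232P δ u ∈ scr232gQ z r → (u ∈ ω.S ↔ u ∈ ω'.S)) (hD : ∀ u, scr232P δ u ∈ scr232gQ z r → (u ∈ ω.D ↔ u ∈ ω'.D)) :
    scrInc ω v₀ v = scrInc ω' v₀ v := by
  simp only [scr232gQ, scr232P, Set.mem_ofPred_eq] at h0 hv
  unfold scrInc
  congr 1
  · refine scr232g_osum_congr fun x h1 h2 => ?_
    have m1 : scr232P δ (x, v₀.2) ∈ scr232gQ z r := ⟨scr232g_between hδ h0.1 hv.1 h1 h2.le, h0.2⟩
    have m2 : scr232P δ (x + 1, v₀.2) ∈ scr232gQ z r := ⟨scr232g_between hδ h0.1 hv.1 (by omega) (by omega), h0.2⟩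
    exact scr232g_step_congr (hS _ m1) (by simpa [rswEnd] using hS _ m2) (hD _ m1)
  · refine scr232g_osum_congr fun y h1 h2 => ?_
    have m1 : scr232P δ (v.1, y) ∈ scr232gQ z r := ⟨hv.1, scr232g_between hδ h0.2 hv.2 h1 h2.le⟩
    have m2 : scr232P δ (v.1, y + 1) ∈ scr232gQ z r := ⟨hv.1, scr232g_between hδ h0.2 hv.2 (by omega) (by omega)⟩
    exact scr232g_step_congr (hS _ m1) (by simpa [rswEnd] using hS _ m2) (hD _ m1)

theorem scr232g_supp {δ : ℝ} (f : ℝ × ℝ → ℝ) {v : ℤ × ℤ} (hv : v ∈ (aspW δ f).support) : ∃ p ∈ aspCell δ v, f p ≠ 0 := by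
  classical
  by_contra h
  push Not at h
  have h0 : aspWt δ f v = 0 := by
    unfold aspWt
    exact MeasureTheory.setIntegral_eq_zero_of_forall_eq_zero h
  rw [Finsupp.mem_support_iff] at hv
  apply hv
  unfold aspW
  split_ifs with hf
  · simpa [Finsupp.ofSupportFinite_coe] using h0
  · rfl

theorem scr232g_ins_in {δ : ℝ} (hδ : 0 < δ) {z : ℝ × ℝ} {r : ℝ} (hδr : δ ≤ r / 2) {φ : ℝ × ℝ → ℝ} (hφ : ContDiff ℝ ((⊤ : ℕ∞) : WithTop ℕ∞) φ)
    (hφs : tsupport φ ⊆ Metric.ball z (r / 2)) : ScrIn δ (scr232gQ z r) (scrIns δ z φ) := by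
  intro ω ω' hS hD _
  unfold scrIns scrArr
  refine Finsupp.sum_congr fun v hv => ?_
  congr 1
  refine scr232g_inc_congr hδ ?_ ?_ hS hD
  · exact ⟨(scr52_base_near hδ z.1).trans (by linarith), (scr52_base_near hδ z.2).trans (by linarith)⟩
  · obtain ⟨p, hp, hfp⟩ := scr232g_supp _ hv
    have hp2 : p ∈ Metric.ball z (r / 2) := hφs (scr52_lap_tsupport hφ (subset_tsupport _ hfp))
    rw [Metric.mem_ball, Prod.dist_eq, max_lt_iff, Real.dist_eq, Real.dist_eq] at hp2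
    simp only [aspCell, Set.mem_prod, Set.mem_Ioc] at hp
    obtain ⟨⟨a1, a2⟩, a3, a4⟩ := hp
    have b1 := abs_lt.1 hp2.1
    have b2 := abs_lt.1 hp2.2
    constructor
    · simp only [scr232P]
      rw [abs_le]
      constructor <;> nlinarith
    · simp only [scr232P]
      rw [abs_le]
      constructor <;> nlinarith

/-! ## 4. Lemma 5.3: the normalised reflection bound -/

theorem scr232g_loc_prod {ι : Type*} (s : Finset ι) {X : ι → RswCfg → ℝ} (hX : ∀ i ∈ s, ScrLoc (X i)) : ScrLoc (fun ω => ∏ i ∈ s, X i ω) := by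
  classical
  induction s using Finset.induction_on with
  | empty => simpa using scr99_loc_const 1
  | insert a s ha ih =>
    have h1 := scr99_loc_mul (hX a (Finset.mem_insert_self a s)) (ih fun i hi => hX i (Finset.mem_insert_of_mem hi))
    refine (congrArg ScrLoc ?_).mp h1
    funext ω
    rw [Finset.prod_insert ha]

/-- conditional Cauchy-Schwarz, abstract form -/
theorem scr232g_db_abs {t : ℝ} (ht1 : 1 / 2 ≤ t) (ht2 : t < 1) (fr : Fin 4) {Pt Bd W : RswCfg → ℝ} (hPt : ScrLoc Pt) (hBd : ScrLoc Bd) (hW : ScrLoc W)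
    (hP0 : ∀ ω, 0 ≤ Pt ω) (hB1 : ∀ ω, |Bd ω| ≤ 1) (c : ℝ) :
    scrFm t fr (fun ω => c * (W ω * (Pt ω * Bd ω))) (fun ω => c * (W ω * (Pt ω * Bd ω)))
      ≤ c ^ 2 * scrPl t (fun ω => W ω ^ 2 * (scrTh fr Pt ω * Pt ω)) := by
  have hT1 : ScrLoc (fun ω => W ω ^ 2 * (scrTh fr Pt ω * Pt ω)) := scr99_loc_mul (scr99_loc_pow hW 2) (scr99_loc_mul (scr99_loc_th hPt fr) hPt)
  have hth := scr99_pl_th ht1 ht2 hT1 fr
  have hup : scrPl t (fun ω => c ^ 2 * (1 / 2 * ((fun ω => W ω ^ 2 * (scrTh fr Pt ω * Pt ω)) ω + scrTh fr (fun ω => W ω ^ 2 * (scrTh fr Pt ω * Pt ω)) ω)))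
      = c ^ 2 * scrPl t (fun ω => W ω ^ 2 * (scrTh fr Pt ω * Pt ω)) := by
    rw [scr99_pl_smul ht1 ht2 (scr99_loc_smul (scr99_loc_add hT1 (scr99_loc_th hT1 fr)) _), scr99_pl_smul ht1 ht2 (scr99_loc_add hT1 (scr99_loc_th hT1 fr)),
      scr99_pl_add ht1 ht2 hT1 (scr99_loc_th hT1 fr), hth]
    ring
  rw [← hup]
  have hA : ScrLoc (fun ω => c * (W ω * (Pt ω * Bd ω))) := scr99_loc_smul (scr99_loc_mul hW (scr99_loc_mul hPt hBd)) c
  unfold scrFm
  refine scr99_pl_mono ht1 ht2 (scr99_loc_mul (scr99_loc_th hA fr) hA) (scr99_loc_smul (scr99_loc_smul (scr99_loc_add hT1 (scr99_loc_th hT1 fr)) _) _) fun ω => ?_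
  simp only [scrTh, scr232s_act_re_re]
  generalize scrAct (scrRe fr) ω = ω'
  have h1 : W ω' * W ω * (Bd ω' * Bd ω) ≤ (W ω ^ 2 + W ω' ^ 2) / 2 := by
    have a1 : |W ω' * W ω * (Bd ω' * Bd ω)| ≤ |W ω' * W ω| * 1 := by
      rw [abs_mul]
      refine mul_le_mul_of_nonneg_left ?_ (abs_nonneg _)
      rw [abs_mul]
      exact mul_le_one₀ (hB1 _) (abs_nonneg _) (hB1 _)
    have a2 : |W ω' * W ω| ≤ (W ω ^ 2 + W ω' ^ 2) / 2 := by
      rw [abs_mul]
      nlinarith [sq_nonneg (|W ω'| - |W ω|), sq_abs (W ω), sq_abs (W ω')]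
    linarith [le_abs_self (W ω' * W ω * (Bd ω' * Bd ω))]
  calc c * (W ω' * (Pt ω' * Bd ω')) * (c * (W ω * (Pt ω * Bd ω))) = c ^ 2 * (Pt ω' * Pt ω) * (W ω' * W ω * (Bd ω' * Bd ω)) := by ring
    _ ≤ c ^ 2 * (Pt ω' * Pt ω) * ((W ω ^ 2 + W ω' ^ 2) / 2) :=
        mul_le_mul_of_nonneg_left h1 (mul_nonneg (sq_nonneg _) (mul_nonneg (hP0 _) (hP0 _)))
    _ = c ^ 2 * (1 / 2 * (W ω ^ 2 * (Pt ω' * Pt ω) + W ω' ^ 2 * (Pt ω * Pt ω'))) := by ring

/-- the doubled windows -/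
def scr232gU {ι : Type} (fr : Fin 4) (V : ι → Set (ℝ × ℝ)) (k : ι × Bool) : Set (ℝ × ℝ) := if k.2 then scr232gMi fr (V k.1) else V k.1

/-- the doubled patterns -/
def scr232gR {ι : Type} (fr : Fin 4) (ρ : ι → RswCfg) (k : ι × Bool) : RswCfg := if k.2 then scrAct (scrRe fr) (ρ k.1) else ρ k.1

theorem scr232g_dbl_prod {δ : ℝ} (fr : Fin 4) {ι : Type} [Fintype ι] (V : ι → Set (ℝ × ℝ)) (ρ : ι → RswCfg) :
    (fun ω => ∏ k, scrPatI δ (scr232gU fr V k) (scr232gR fr ρ k) ω)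
      = fun ω => scrTh fr (fun ω => ∏ i, scrPatI δ (V i) (ρ i) ω) ω * ∏ i, scrPatI δ (V i) (ρ i) ω := by
  funext ω
  rw [Fintype.prod_prod_type]
  simp only [Fintype.prod_bool, scr232gU, scr232gR, if_true, Bool.false_eq_true, if_false, Finset.prod_mul_distrib, ← scr232g_pat_th]
  rfl

theorem scr232g_dbl_J {t : ℝ} (ht1 : 1 / 2 ≤ t) (ht2 : t < 1) {δ : ℝ} (fr : Fin 4) {ι : Type} [Fintype ι] (V : ι → Set (ℝ × ℝ)) (ρ : ι → RswCfg)
    (hV : ∀ i, ScrLoc (scrPatI δ (V i) (ρ i))) :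
    ∏ k, scrPl t (scrPatI δ (scr232gU fr V k) (scr232gR fr ρ k)) = (∏ i, scrPl t (scrPatI δ (V i) (ρ i))) ^ 2 := by
  rw [Fintype.prod_prod_type]
  simp only [Fintype.prod_bool, scr232gU, scr232gR, if_true, Bool.false_eq_true, if_false, ← scr232g_pat_th]
  rw [sq, ← Finset.prod_mul_distrib]
  refine Finset.prod_congr rfl fun i _ => ?_
  rw [scr99_pl_th ht1 ht2 (hV i)]

/-- **Lemma 5.3** from the pattern comparison and the moment bound of the doubled arrangement -/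
theorem scr232g_db_core {t : ℝ} (ht1 : 1 / 2 ≤ t) (ht2 : t < 1) {δ : ℝ} (fr : Fin 4) {ι : Type} [Fintype ι] (V : ι → Set (ℝ × ℝ)) (ρ : ι → RswCfg)
    (B : ι → RswCfg → ℝ) (W : RswCfg → ℝ) (hV : ∀ i, ScrLoc (scrPatI δ (V i) (ρ i))) (hB1 : ∀ i ω, |B i ω| ≤ 1) (hB : ∀ i, ScrLoc (B i)) (hW : ScrLoc W)
    {C1 C2 : ℝ} (hC1 : 0 ≤ C1) (hC2 : 0 ≤ C2)
    (hpat : scrPl t (fun ω => ∏ k, scrPatI δ (scr232gU fr V k) (scr232gR fr ρ k) ω) ≤ C1 * ∏ k, scrPl t (scrPatI δ (scr232gU fr V k) (scr232gR fr ρ k)))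
    (hmom : scrPl t (fun ω => W ω ^ 2 * ∏ k, scrPatI δ (scr232gU fr V k) (scr232gR fr ρ k) ω)
      ≤ C2 * scrPl t (fun ω => ∏ k, scrPatI δ (scr232gU fr V k) (scr232gR fr ρ k) ω)) :
    scrFm t fr (fun ω => W ω * ∏ i, ((scrPl t (scrPatI δ (V i) (ρ i)))⁻¹ * (scrPatI δ (V i) (ρ i) ω * B i ω)))
      (fun ω => W ω * ∏ i, ((scrPl t (scrPatI δ (V i) (ρ i)))⁻¹ * (scrPatI δ (V i) (ρ i) ω * B i ω))) ≤ C2 * C1 := by
  have hA : (fun ω => W ω * ∏ i, ((scrPl t (scrPatI δ (V i) (ρ i)))⁻¹ * (scrPatI δ (V i) (ρ i) ω * B i ω)))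
      = fun ω => (∏ i, scrPl t (scrPatI δ (V i) (ρ i)))⁻¹ * (W ω * ((fun ω => ∏ i, scrPatI δ (V i) (ρ i) ω) ω * (fun ω => ∏ i, B i ω) ω)) := by
    funext ω
    simp only [Finset.prod_mul_distrib, Finset.prod_inv_distrib]
    ring
  rw [hA]
  have h1 := scr232g_db_abs ht1 ht2 fr (Pt := fun ω => ∏ i, scrPatI δ (V i) (ρ i) ω) (Bd := fun ω => ∏ i, B i ω) (W := W)
    (scr232g_loc_prod _ fun i _ => hV i) (scr232g_loc_prod _ fun i _ => hB i) hW (fun ω => Finset.prod_nonneg fun i _ => scr232g_pat_nonneg _ _ _ _)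
    (fun ω => by
      rw [Finset.abs_prod]
      exact Finset.prod_le_one (fun i _ => abs_nonneg _) fun i _ => hB1 i ω) (∏ i, scrPl t (scrPatI δ (V i) (ρ i)))⁻¹
  refine h1.trans ?_
  rw [scr232g_dbl_J ht1 ht2 fr V ρ hV] at hpat
  have e := scr232g_dbl_prod (δ := δ) fr V ρ
  have e2 : (fun ω => W ω ^ 2 * ∏ k, scrPatI δ (scr232gU fr V k) (scr232gR fr ρ k) ω)
      = fun ω => W ω ^ 2 * (scrTh fr (fun ω => ∏ i, scrPatI δ (V i) (ρ i) ω) ω * ∏ i, scrPatI δ (V i) (ρ i) ω) := by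
    funext ω
    rw [congrFun e ω]
  rw [e2] at hmom
  generalize scrPl t (fun ω => W ω ^ 2 * (scrTh fr (fun ω => ∏ i, scrPatI δ (V i) (ρ i) ω) ω * ∏ i, scrPatI δ (V i) (ρ i) ω)) = a at hmom ⊢
  generalize scrPl t (fun ω => ∏ k, scrPatI δ (scr232gU fr V k) (scr232gR fr ρ k) ω) = b at hmom hpat
  generalize (∏ i, scrPl t (scrPatI δ (V i) (ρ i))) = J at hpat ⊢
  have h2 : a ≤ C2 * (C1 * J ^ 2) := hmom.trans (mul_le_mul_of_nonneg_left hpat hC2)
  by_cases hJ : J = 0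
  · subst hJ
    simp only [inv_zero, ne_eq, OfNat.ofNat_ne_zero, not_false_eq_true, zero_pow, zero_mul]
    positivity
  · calc J⁻¹ ^ 2 * a ≤ J⁻¹ ^ 2 * (C2 * (C1 * J ^ 2)) := mul_le_mul_of_nonneg_left h2 (sq_nonneg _)
      _ = C2 * C1 := by field_simp

/-! ## 5. the four blocks and the core: dictionary `Fin 4` <-> `Scr232Kind` -/

/-- the four block families -/
def scr232gKd (i : Fin 4) : Scr232Kind := ![Scr232Kind.T, Scr232Kind.D, Scr232Kind.L, Scr232Kind.R] i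

/-- the number of a block family -/
def scr232gIx : Scr232Kind → Fin 4
  | .T => 0
  | .D => 1
  | .L => 2
  | .R => 3
  | .K => 0

theorem scr232g_ix_kd (i : Fin 4) : scr232gIx (scr232gKd i) = i := by fin_cases i <;> rfl

theorem scr232g_kd_ix {f : Scr232Kind} (hf : f ≠ .K) : scr232gKd (scr232gIx f) = f := by
  cases f <;> first | rfl | exact absurd rfl hf

theorem scr232g_kd_ne (i : Fin 4) : scr232gKd i ≠ .K := by fin_cases i <;> simp [scr232gKd]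

theorem scr232g_kd_inj {i j : Fin 4} (h : scr232gKd i = scr232gKd j) : i = j := by
  rw [← scr232g_ix_kd i, h, scr232g_ix_kd]

theorem scr232g_prod_kind (g : Scr232Kind → ℝ) : ∏ f, g f = g .K * ∏ i : Fin 4, g (scr232gKd i) := by
  have hu : (Finset.univ : Finset Scr232Kind) = insert Scr232Kind.K scr232sBlk := by
    ext f; cases f <;> simp [scr232sBlk]
  rw [hu, Finset.prod_insert (by simp [scr232sBlk]), Fin.prod_univ_four]
  simp [scr232sBlk, scr232gKd, mul_assoc]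

theorem scr232g_no_eq (τ : Scr232Kind → ℤ × ℤ) (Y : Scr232Kind → RswCfg → ℝ) (G : Finset Scr232Kind) (ω : RswCfg) :
    scr232sNo τ Y G ω = (if Scr232Kind.K ∈ G then scrSh (τ .K) (Y .K) ω else 1)
      * ∏ i : Fin 4, (if scr232gKd i ∈ G then scrSh (τ (scr232gKd i)) (Y (scr232gKd i)) ω else 1) := by
  rw [← scr232g_prod_kind (fun f => if f ∈ G then scrSh (τ f) (Y f) ω else 1), Finset.prod_ite_mem, Finset.univ_inter]
  rfl

/-- the normalised factors: `Y K = X`, `Y f = p_f⁻¹ 1_{P_f} F_f` -/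
noncomputable def scr232gY (t δ : ℝ) (blk : Fin 4 → Set (ℝ × ℝ)) (π : Fin 4 → RswCfg) (Fc : Fin 4 → RswCfg → ℝ) (X : RswCfg → ℝ) (f : Scr232Kind) :
    RswCfg → ℝ :=
  if f = .K then X else fun ω => (scrPl t (scrPatI δ (blk (scr232gIx f)) (π (scr232gIx f))))⁻¹
    * (scrPatI δ (blk (scr232gIx f)) (π (scr232gIx f)) ω * Fc (scr232gIx f) ω)

theorem scr232g_Y_K (t δ : ℝ) (blk : Fin 4 → Set (ℝ × ℝ)) (π : Fin 4 → RswCfg) (Fc : Fin 4 → RswCfg → ℝ) (X : RswCfg → ℝ) :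
    scr232gY t δ blk π Fc X .K = X := if_pos rfl

theorem scr232g_Y_kd (t δ : ℝ) (blk : Fin 4 → Set (ℝ × ℝ)) (π : Fin 4 → RswCfg) (Fc : Fin 4 → RswCfg → ℝ) (X : RswCfg → ℝ) (i : Fin 4) :
    scr232gY t δ blk π Fc X (scr232gKd i) = fun ω => (scrPl t (scrPatI δ (blk i) (π i)))⁻¹ * (scrPatI δ (blk i) (π i) ω * Fc i ω) := by
  unfold scr232gY
  rw [if_neg (scr232g_kd_ne i), scr232g_ix_kd]

/-- the displaced windows of the families of `G` (empty for the other ones) -/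
def scr232gV (δ : ℝ) (G : Finset Scr232Kind) (τ : Scr232Kind → ℤ × ℤ) (bl : Fin 4 → Set (ℝ × ℝ)) (i : Fin 4) : Set (ℝ × ℝ) :=
  if scr232gKd i ∈ G then scr232gMv (scr232P δ (τ (scr232gKd i))) (bl i) else ∅

theorem scr232g_mem_V {δ : ℝ} {G : Finset Scr232Kind} {τ : Scr232Kind → ℤ × ℤ} {bl : Fin 4 → Set (ℝ × ℝ)} {i : Fin 4} {p : ℝ × ℝ} :
    p ∈ scr232gV δ G τ bl i ↔ scr232gKd i ∈ G ∧ p - scr232P δ (τ (scr232gKd i)) ∈ bl i := by
  unfold scr232gV
  split_ifs with h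
  · simp [h, scr232gMv]
  · simp [h]

/-- a point of a doubled window, unfolded -/
theorem scr232g_mem_U {δ : ℝ} {G : Finset Scr232Kind} {τ : Scr232Kind → ℤ × ℤ} {bl : Fin 4 → Set (ℝ × ℝ)} {fr : Fin 4} {k : Fin 4 × Bool} {p : ℝ × ℝ}
    (hp : p ∈ scr232gU fr (scr232gV δ G τ bl) k) :
    scr232gKd k.1 ∈ G ∧ ∃ p0 ∈ bl k.1, (if k.2 then scr232gRf fr p else p) = p0 + scr232P δ (τ (scr232gKd k.1)) := by
  obtain ⟨i, b⟩ := k
  cases b
  · simp only [scr232gU, Bool.false_eq_true, if_false] at hp ⊢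
    obtain ⟨h1, h2⟩ := scr232g_mem_V.1 hp
    exact ⟨h1, _, h2, by abel⟩
  · simp only [scr232gU, if_true, scr232gMi, Set.mem_ofPred_eq] at hp ⊢
    obtain ⟨h1, h2⟩ := scr232g_mem_V.1 hp
    exact ⟨h1, _, h2, by abel⟩

/-- two points on opposite sides of the row are far apart -/
theorem scr232g_far {fr : Fin 4} {m0 : ℝ} {p q : ℝ × ℝ}
    (h : (m0 ≤ scr232sLevE fr p ∧ scr232sLevE fr q ≤ -m0) ∨ (scr232sLevE fr p ≤ -m0 ∧ m0 ≤ scr232sLevE fr q)) : m0 ≤ dist p q := by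
  have h1 := scr232g_levE_dist fr p q
  rw [abs_le] at h1
  rcases h with ⟨a, b⟩ | ⟨a, b⟩ <;> linarith [h1.1, h1.2]

section geom

variable {δ m0 M : ℝ} {fr : Fin 4} {obj : Scr232Kind → Set (ℝ × ℝ)} {G : Finset Scr232Kind} {τ : Scr232Kind → ℤ × ℤ}

/-- **the doubled arrangement is a family of windows in separated boxes** -/
theorem scr232g_win (hM : 0 ≤ M) {blk : Fin 4 → Set (ℝ × ℝ)} (hblk : ∀ i, blk i ⊆ obj (scr232gKd i)) (hbox : ∀ i, Scr232gBox M (obj (scr232gKd i)))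
    (hsep : ∀ f ∈ G, ∀ g ∈ G, f ≠ g → ∀ p ∈ obj f, ∀ q ∈ obj g, m0 ≤ dist (p + scr232P δ (τ f)) (q + scr232P δ (τ g)))
    (hside : (∀ f ∈ G, ∀ p ∈ obj f, m0 ≤ scr232sLevE fr (p + scr232P δ (τ f))) ∨ (∀ f ∈ G, ∀ p ∈ obj f, scr232sLevE fr (p + scr232P δ (τ f)) ≤ -m0)) :
    Scr232gWin m0 M (scr232gU fr (scr232gV δ G τ blk)) (scr232gU fr (scr232gV δ G τ fun i => obj (scr232gKd i))) where
  sub := by
    have h0 : ∀ i, scr232gV δ G τ blk i ⊆ scr232gV δ G τ (fun i => obj (scr232gKd i)) i := by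
      intro i p hp
      obtain ⟨h1, h2⟩ := scr232g_mem_V.1 hp
      exact scr232g_mem_V.2 ⟨h1, hblk i h2⟩
    rintro ⟨i, b⟩ p hp
    cases b
    · exact h0 i hp
    · exact h0 i hp
  box := by
    have h0 : ∀ i, Scr232gBox M (scr232gV δ G τ (fun i => obj (scr232gKd i)) i) := by
      intro i
      unfold scr232gV
      split_ifs
      · exact (hbox i).mv _
      · exact scr232g_box_empty hM
    rintro ⟨i, b⟩
    cases b
    · exact h0 i
    · exact (h0 i).mi fr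
  sep := by
    rintro ⟨i, b⟩ ⟨i', b'⟩ hne p hp q hq
    obtain ⟨hi, p0, hp0, ep⟩ := scr232g_mem_U hp
    obtain ⟨hi', q0, hq0, eq⟩ := scr232g_mem_U hq
    simp only at hi hi' hp0 hq0 ep eq
    have same : i ≠ i' → m0 ≤ dist (p0 + scr232P δ (τ (scr232gKd i))) (q0 + scr232P δ (τ (scr232gKd i'))) := fun h =>
      hsep _ hi _ hi' (fun e => h (scr232g_kd_inj e)) p0 hp0 q0 hq0
    cases b <;> cases b'
    · simp only [Bool.false_eq_true, if_false] at ep eq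
      rw [ep, eq]
      exact same fun e => hne (by rw [e])
    · simp only [Bool.false_eq_true, if_false, if_true] at ep eq
      have e2 : scr232sLevE fr q = -scr232sLevE fr (q0 + scr232P δ (τ (scr232gKd i'))) := by
        rw [← eq, scr232g_levE_rf, neg_neg]
      apply scr232g_far (fr := fr)
      rw [e2, ep]
      rcases hside with hs | hs
      · exact Or.inl ⟨hs _ hi _ hp0, by linarith [hs _ hi' _ hq0]⟩
      · exact Or.inr ⟨hs _ hi _ hp0, by linarith [hs _ hi' _ hq0]⟩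
    · simp only [Bool.false_eq_true, if_false, if_true] at ep eq
      have e2 : scr232sLevE fr p = -scr232sLevE fr (p0 + scr232P δ (τ (scr232gKd i))) := by
        rw [← ep, scr232g_levE_rf, neg_neg]
      apply scr232g_far (fr := fr)
      rw [e2, eq]
      rcases hside with hs | hs
      · exact Or.inr ⟨by linarith [hs _ hi _ hp0], hs _ hi' _ hq0⟩
      · exact Or.inl ⟨by linarith [hs _ hi _ hp0], hs _ hi' _ hq0⟩
    · simp only [if_true] at ep eq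
      rw [← scr232g_rf_dist fr p q, ep, eq]
      exact same fun e => hne (by rw [e])

theorem scr232g_clamp {r d : ℝ} (hr : 0 ≤ r) (hm0 : 0 < m0) (hd : |d| < r + m0) : ∃ e : ℝ, |e| ≤ r ∧ |d - e| < m0 := by
  rw [abs_lt] at hd
  rcases le_or_gt |d| r with h | h
  · exact ⟨d, h, by simpa using hm0⟩
  · rcases lt_abs.1 h with h | h
    · refine ⟨r, by rw [abs_of_nonneg hr], ?_⟩
      rw [abs_lt]; constructor <;> linarith [hd.2]
    · refine ⟨-r, by rw [abs_neg, abs_of_nonneg hr], ?_⟩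
      rw [abs_lt]; constructor <;> linarith [hd.1]

/-- a point at distance `≥ m0` of a closed square is at distance `≥ r + m0` of its centre -/
theorem scr232g_proj {z c p : ℝ × ℝ} {r : ℝ} (hr : 0 ≤ r) (hm0 : 0 < m0) (h : ∀ q ∈ scr232gQ z r, m0 ≤ dist p (q + c)) : r + m0 ≤ dist p (z + c) := by
  by_contra hlt
  push Not at hlt
  rw [Prod.dist_eq, max_lt_iff, Real.dist_eq, Real.dist_eq] at hlt
  obtain ⟨e1, a1, b1⟩ := scr232g_clamp hr hm0 hlt.1
  obtain ⟨e2, a2, b2⟩ := scr232g_clamp hr hm0 hlt.2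
  have := h (z.1 + e1, z.2 + e2) ⟨by simpa using a1, by simpa using a2⟩
  rw [Prod.dist_eq, Real.dist_eq, Real.dist_eq] at this
  have c1 : |p.1 - ((z.1 + e1, z.2 + e2) + c : ℝ × ℝ).1| < m0 := by
    have : p.1 - ((z.1 + e1, z.2 + e2) + c : ℝ × ℝ).1 = p.1 - (z + c).1 - e1 := by simp; ring
    rw [this]; exact b1
  have c2 : |p.2 - ((z.1 + e1, z.2 + e2) + c : ℝ × ℝ).2| < m0 := by
    have : p.2 - ((z.1 + e1, z.2 + e2) + c : ℝ × ℝ).2 = p.2 - (z + c).2 - e2 := by simp; ring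
    rw [this]; exact b2
  exact absurd this (not_le.2 (max_lt c1 c2))

/-- **the doubled windows are far from the moved core** -/
theorem scr232g_win_core {z : ℝ × ℝ} {r : ℝ} (hr : 0 ≤ r) (hm0 : 0 < m0) (hK : obj .K = scr232gQ z r) (hKG : Scr232Kind.K ∈ G)
    (hsep : ∀ f ∈ G, ∀ g ∈ G, f ≠ g → ∀ p ∈ obj f, ∀ q ∈ obj g, m0 ≤ dist (p + scr232P δ (τ f)) (q + scr232P δ (τ g)))
    (hside : (∀ f ∈ G, ∀ p ∈ obj f, m0 ≤ scr232sLevE fr (p + scr232P δ (τ f))) ∨ (∀ f ∈ G, ∀ p ∈ obj f, scr232sLevE fr (p + scr232P δ (τ f)) ≤ -m0))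
    (k : Fin 4 × Bool) (p : ℝ × ℝ) (hp : p ∈ scr232gU fr (scr232gV δ G τ fun i => obj (scr232gKd i)) k) :
    r + m0 ≤ dist p (z + scr232P δ (τ .K)) := by
  refine scr232g_proj hr hm0 fun q hq => ?_
  rw [← hK] at hq
  obtain ⟨i, b⟩ := k
  obtain ⟨hi, p0, hp0, ep⟩ := scr232g_mem_U hp
  simp only at hi hp0 ep
  cases b
  · simp only [Bool.false_eq_true, if_false] at ep
    rw [ep]
    exact hsep _ hi _ hKG (scr232g_kd_ne i) p0 hp0 q hq
  · simp only [if_true] at ep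
    have e2 : scr232sLevE fr p = -scr232sLevE fr (p0 + scr232P δ (τ (scr232gKd i))) := by
      rw [← ep, scr232g_levE_rf, neg_neg]
    apply scr232g_far (fr := fr)
    rw [e2]
    rcases hside with hs | hs
    · exact Or.inr ⟨by linarith [hs _ hi _ hp0], hs _ hKG _ hq⟩
    · exact Or.inl ⟨by linarith [hs _ hi _ hp0], hs _ hKG _ hq⟩

end geom

/-! ## 6. Lemma 5.3 for the displaced blocks -/

/-- the displaced patterns -/
def scr232gRho (τ : Scr232Kind → ℤ × ℤ) (π : Fin 4 → RswCfg) (i : Fin 4) : RswCfg := scrAct (scrTr (τ (scr232gKd i))) (π i)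

/-- the displaced bounded factors -/
def scr232gB (G : Finset Scr232Kind) (τ : Scr232Kind → ℤ × ℤ) (Fc : Fin 4 → RswCfg → ℝ) (i : Fin 4) : RswCfg → ℝ :=
  if scr232gKd i ∈ G then scrSh (τ (scr232gKd i)) (Fc i) else fun _ => 1

/-- the displaced insertion -/
def scr232gW (G : Finset Scr232Kind) (τ : Scr232Kind → ℤ × ℤ) (X : RswCfg → ℝ) : RswCfg → ℝ :=
  if Scr232Kind.K ∈ G then scrSh (τ .K) X else fun _ => 1

section db

variable {t : ℝ} (ht1 : 1 / 2 ≤ t) (ht2 : t < 1)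
include ht1 ht2

theorem scr232g_factor {δ : ℝ} (G : Finset Scr232Kind) (τ : Scr232Kind → ℤ × ℤ) (blk : Fin 4 → Set (ℝ × ℝ)) (π : Fin 4 → RswCfg) (Fc : Fin 4 → RswCfg → ℝ)
    (X : RswCfg → ℝ) (hPl : ∀ i, ScrLoc (scrPatI δ (blk i) (π i))) (i : Fin 4) (ω : RswCfg) :
    (if scr232gKd i ∈ G then scrSh (τ (scr232gKd i)) (scr232gY t δ blk π Fc X (scr232gKd i)) ω else 1)
      = (scrPl t (scrPatI δ (scr232gV δ G τ blk i) (scr232gRho τ π i)))⁻¹
        * (scrPatI δ (scr232gV δ G τ blk i) (scr232gRho τ π i) ω * scr232gB G τ Fc i ω) := by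
  unfold scr232gV scr232gB scr232gRho
  split_ifs with h
  · rw [scr232g_Y_kd, ← scr232g_pat_sh, scr99_pl_sh ht1 ht2 (hPl i)]
    rfl
  · rw [scr232g_pat_empty, scr99_pl_const ht1 ht2]
    simp

omit ht1 ht2 in
theorem scr232g_V_loc {δ : ℝ} (G : Finset Scr232Kind) (τ : Scr232Kind → ℤ × ℤ) (blk : Fin 4 → Set (ℝ × ℝ)) (π : Fin 4 → RswCfg)
    (hPl : ∀ i, ScrLoc (scrPatI δ (blk i) (π i))) (i : Fin 4) : ScrLoc (scrPatI δ (scr232gV δ G τ blk i) (scr232gRho τ π i)) := by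
  unfold scr232gV scr232gRho
  split_ifs with h
  · rw [← scr232g_pat_sh]
    exact scr99_loc_sh (hPl i) _
  · rw [scr232g_pat_empty]
    exact scr99_loc_const 1

omit ht1 ht2 in
theorem scr232g_dbl_loc {δ : ℝ} (fr : Fin 4) {ι : Type} (V : ι → Set (ℝ × ℝ)) (ρ : ι → RswCfg) (hV : ∀ i, ScrLoc (scrPatI δ (V i) (ρ i))) (k : ι × Bool) :
    ScrLoc (scrPatI δ (scr232gU fr V k) (scr232gR fr ρ k)) := by
  obtain ⟨i, b⟩ := k
  cases b
  · exact hV i
  · simp only [scr232gU, scr232gR, if_true]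
    rw [← scr232g_pat_th]
    exact scr99_loc_th (hV i) fr

/-- **Lemma 5.3 at one mesh** -/
theorem scr232g_db_at {δ m0 M r C1 C2 : ℝ} (hm0 : 0 < m0) (hM : 0 ≤ M) (hr : 0 ≤ r) (hC1 : 0 ≤ C1)
    {obj : Scr232Kind → Set (ℝ × ℝ)} {z : ℝ × ℝ} (hK : obj .K = scr232gQ z r) {blk : Fin 4 → Set (ℝ × ℝ)} (hblk : ∀ i, blk i ⊆ obj (scr232gKd i))
    (hbox : ∀ i, Scr232gBox M (obj (scr232gKd i))) {X : RswCfg → ℝ} (hX : ScrLoc X)
    (H1 : ∀ (U H : Fin 4 × Bool → Set (ℝ × ℝ)) (π : Fin 4 × Bool → RswCfg), Scr232gWin m0 M U H →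
      scrPl t (fun ω => ∏ i, scrPatI δ (U i) (π i) ω) ≤ C1 * ∏ i, scrPl t (scrPatI δ (U i) (π i)))
    (H2 : ∀ (a : ℤ × ℤ) (U H : Fin 4 × Bool → Set (ℝ × ℝ)) (π : Fin 4 × Bool → RswCfg), Scr232gWin m0 M U H →
      (∀ i, ∀ p ∈ H i, r + m0 ≤ dist p (z + scr232P δ a)) →
      scrPl t (fun ω => (scrSh a X ω) ^ 2 * ∏ i, scrPatI δ (U i) (π i) ω) ≤ C2 * scrPl t (fun ω => ∏ i, scrPatI δ (U i) (π i) ω))
    (π : Fin 4 → RswCfg) (Fc : Fin 4 → RswCfg → ℝ) (hF1 : ∀ i ω, |Fc i ω| ≤ 1) (hFl : ∀ i, ScrLoc (Fc i)) (hPl : ∀ i, ScrLoc (scrPatI δ (blk i) (π i))) :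
    Scr232sDbAt t δ obj (scr232gY t δ blk π Fc X) m0 (max C2 1 * C1) := by
  intro fr G τ hsep hside
  have hwin := scr232g_win (fr := fr) hM hblk hbox hsep hside
  have hNo : scr232sNo τ (scr232gY t δ blk π Fc X) G = fun ω => scr232gW G τ X ω
      * ∏ i, ((scrPl t (scrPatI δ (scr232gV δ G τ blk i) (scr232gRho τ π i)))⁻¹
        * (scrPatI δ (scr232gV δ G τ blk i) (scr232gRho τ π i) ω * scr232gB G τ Fc i ω)) := by
    funext ω
    rw [scr232g_no_eq, scr232g_Y_K]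
    congr 1
    · unfold scr232gW
      split_ifs <;> rfl
    · exact Finset.prod_congr rfl fun i _ => scr232g_factor ht1 ht2 G τ blk π Fc X hPl i ω
  rw [hNo]
  have hV := scr232g_V_loc G τ blk π hPl
  have hS0 : 0 ≤ scrPl t (fun ω => ∏ k, scrPatI δ (scr232gU fr (scr232gV δ G τ blk) k) (scr232gR fr (scr232gRho τ π) k) ω) :=
    scr99_pl_nonneg ht1 ht2 (scr232g_loc_prod _ fun k _ => scr232g_dbl_loc fr _ _ hV k)
      fun ω => Finset.prod_nonneg fun k _ => scr232g_pat_nonneg _ _ _ _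
  refine scr232g_db_core ht1 ht2 fr _ _ (scr232gB G τ Fc) (scr232gW G τ X) hV ?_ ?_ ?_ hC1 (le_trans zero_le_one (le_max_right _ _)) (H1 _ _ _ hwin) ?_
  · intro i ω
    unfold scr232gB
    split_ifs
    · exact hF1 i _
    · simp
  · intro i
    unfold scr232gB
    split_ifs
    · exact scr99_loc_sh (hFl i) _
    · exact scr99_loc_const 1
  · unfold scr232gW
    split_ifs
    · exact scr99_loc_sh hX _
    · exact scr99_loc_const 1
  · by_cases hKG : Scr232Kind.K ∈ G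
    · have e : scr232gW G τ X = scrSh (τ .K) X := if_pos hKG
      rw [e]
      exact (H2 (τ .K) _ _ _ hwin (scr232g_win_core hr hm0 hK hKG hsep hside)).trans (mul_le_mul_of_nonneg_right (le_max_left _ _) hS0)
    · have e : scr232gW G τ X = fun _ => 1 := if_neg hKG
      rw [e]
      simp only [one_pow, one_mul]
      exact le_mul_of_one_le_left hS0 (le_max_right _ _)

end db

/-! ## 7. the scene of the paper: boxes, index set, contracts, assembly -/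

theorem scr232g_hull_box {x0 y0 s w h g r : ℝ} (hsc : ScrScene s w h g r) (i : Fin 4) : Scr232gBox (2 * s) (scr232Obj x0 y0 s w h g r (scr232gKd i)) := by
  obtain ⟨hg, hhs, hw, hws, hr0, hr, hr8⟩ := hsc
  refine ⟨![(x0 - s, y0 + (h + g)), (x0 - s, y0 - s), (x0 - s, y0 - (h - g)), (x0 + w, y0 - (h - g))] i,
    ![(x0 + s, y0 + s), (x0 + s, y0 - (h + g)), (x0 - w, y0 + (h - g)), (x0 + s, y0 + (h - g))] i, ?_, ?_, ?_⟩
  · ext p
    fin_cases i <;> simp only [scr232gKd, scr232Obj, Set.mem_ofPred_eq, Set.mem_Icc, Prod.le_def, abs_le] <;> simp <;>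
      constructor <;> intro hh <;> simp only [and_assoc] at hh ⊢ <;> obtain ⟨a, b, c, d⟩ := hh <;> refine ⟨?_, ?_, ?_, ?_⟩ <;> linarith
  · fin_cases i <;> simp <;> linarith
  · fin_cases i <;> simp <;> linarith

/-- the index set: patterns and bounded factors of the four blocks at the mesh `δ` -/
def Scr232gI (δ : ℝ) (blk : Fin 4 → Set (ℝ × ℝ)) : Type :=
  {d : (Fin 4 → RswCfg) × (Fin 4 → RswCfg → ℝ) // (∀ i ω, |d.2 i ω| ≤ 1) ∧ ∀ i, ScrIn δ (blk i) (d.2 i)}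

instance scr232gINonempty (δ : ℝ) (blk : Fin 4 → Set (ℝ × ℝ)) : Nonempty (Scr232gI δ blk) :=
  ⟨⟨(fun _ => ⟨∅, ∅, ∅⟩, fun _ _ => 0), by simp, fun _ _ _ _ _ _ => rfl⟩⟩

theorem scr232g_at {t δ Mb : ℝ} (hδ : 0 < δ) {obj : Scr232Kind → Set (ℝ × ℝ)} (hbd : ∀ f, ∀ p ∈ obj f, |p.1| ≤ Mb ∧ |p.2| ≤ Mb) {blk : Fin 4 → Set (ℝ × ℝ)}
    (hblk : ∀ i, blk i ⊆ obj (scr232gKd i)) {X : RswCfg → ℝ} (hX : ScrIn δ (obj .K) X) (π : Fin 4 → RswCfg) (Fc : Fin 4 → RswCfg → ℝ)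
    (hF2 : ∀ i, ScrIn δ (blk i) (Fc i)) (f : Scr232Kind) : Scr232sAt δ (obj f) (scr232gY t δ blk π Fc X f) := by
  refine scr232g_in_at hδ (hbd f) ?_
  by_cases hf : f = .K
  · subst hf
    rw [scr232g_Y_K]
    exact hX
  · obtain ⟨i, rfl⟩ : ∃ i, f = scr232gKd i := ⟨_, (scr232g_kd_ix hf).symm⟩
    rw [scr232g_Y_kd]
    refine ScrIn.mono232 ?_ (hblk _)
    intro ω ω' h1 h2 h3
    simp only [scr232g_pat_in δ _ _ ω ω' h1 h2 h3, hF2 _ ω ω' h1 h2 h3]

theorem scr232g_lin {t : ℝ} (ht1 : 1 / 2 ≤ t) (ht2 : t < 1) : Scr232sLin t :=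
  ⟨fun _ _ hX hY => scr99_pl_add ht1 ht2 hX hY, fun s _ hX => scr99_pl_smul ht1 ht2 hX s⟩

/-- **(GAP) = Lemma 5.5 = the statement of `scr_cut_gap` (Screen/Cut229b), VERBATIM after the hypotheses**: (P2) `hrp` and (P3) `htr` = the statements of `scr_cut_rp`, `scr_cut_tr` after
`t ht1 ht2`; the two records `Scr232gPat t` (pattern comparison) and `Scr232gMom t` (Lemma 5.2). -/
theorem scr232g_cut_gap (t : ℝ) (ht1 : 1 / 2 ≤ t) (ht2 : t < 1)
    (hrp : ∀ (j : Fin 4) (X : RswCfg → ℝ), ScrUp j X → 0 ≤ scrFm t j X X ∧ 0 ≤ scrFm t j X (scrSh (scrNor j) X))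
    (htr : ∀ (j : Fin 4) (A B : RswCfg → ℝ), ScrUp j A → ScrUp j B → ∀ N : ℕ,
      Claimed.Agent.R291.PinTr ((scrFm t j A A + scrFm t j B B) / 2) N
        (fun m => ((scrFm t j A (scrSh (((m + N : ℕ) : ℤ) • scrNor j) B) : ℝ) : ℂ)))
    (hpat : Scr232gPat t) (hmom : Scr232gMom t)
    (x0 y0 s w h g r : ℝ) (hsc : ScrScene s w h g r)
    (blk : Fin 4 → Set (ℝ × ℝ)) (hblk : ∀ i, blk i ⊆ scrHull x0 y0 s w h g r i)
    (φ : ℝ × ℝ → ℝ) (hφ : ContDiff ℝ ((⊤ : ℕ∞) : WithTop ℕ∞) φ) (hφs : tsupport φ ⊆ Metric.ball (x0, y0) (r / 2))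
    (δ : ℕ → ℝ) (hδ : ∀ n, 0 < δ n) (hδ0 : Tendsto δ atTop (𝓝 0)) (ε : ℝ) (hε : 0 < ε) :
    ∀ᶠ n in atTop, ∀ (π : Fin 4 → RswCfg) (Fc : Fin 4 → RswCfg → ℝ), (∀ i ω, |Fc i ω| ≤ 1) →
      (∀ i, ScrIn (δ n) (blk i) (Fc i)) →
      |scrPl t fun ω => scrIns (δ n) (x0, y0) φ ω * ∏ i, (scrPatI (δ n) (blk i) (π i) ω * Fc i ω)|
        ≤ ε * ∏ i, scrPl t (scrPatI (δ n) (blk i) (π i)) := by
  have hS := scr232_scene (x0 := x0) (y0 := y0) hsc.hg hsc.hhs hsc.hw hsc.hws hsc.hr0.le hsc.hr hsc.hr8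
  have hbd : ∀ f, ∀ p ∈ scr232Obj x0 y0 s w h g r f, |p.1| ≤ |x0| + |y0| + s ∧ |p.2| ≤ |x0| + |y0| + s := fun f p hp => ⟨hS.bdX f p hp, hS.bdY f p hp⟩
  have hblk' : ∀ i, blk i ⊆ scr232Obj x0 y0 s w h g r (scr232gKd i) := hblk
  have hKq : scr232Obj x0 y0 s w h g r .K = scr232gQ (x0, y0) r := rfl
  have hs0 : 0 ≤ 2 * s := by
    have := hsc.hg; have := hsc.hhs; have := hsc.hr0; have := hsc.hr
    linarith
  have hsm : ∀ᶠ n in atTop, δ n ≤ r / 2 := (hδ0.eventually (gt_mem_nhds (by have := hsc.hr0; positivity : (0 : ℝ) < r / 2))).mono fun n hn => hn.le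
  -- locality of the three kinds of factors
  have hXin : ∀ᶠ n in atTop, ScrIn (δ n) (scr232Obj x0 y0 s w h g r .K) (scrIns (δ n) (x0, y0) φ) := hsm.mono fun n hn => scr232g_ins_in (hδ n) hn hφ hφs
  have hlocIn : ∀ n i (Z : RswCfg → ℝ), ScrIn (δ n) (blk i) Z → ScrLoc Z := fun n i Z hZ =>
    (scr232g_in_at (hδ n) (fun p hp => hbd _ p (hblk' i hp)) hZ).loc
  -- the contracts
  have hY : ∀ᶠ n in atTop, ∀ (d : Scr232gI (δ n) blk) (f : Scr232Kind),
      Scr232sAt (δ n) (scr232Obj x0 y0 s w h g r f) (scr232gY t (δ n) blk d.1.1 d.1.2 (scrIns (δ n) (x0, y0) φ) f) :=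
    hXin.mono fun n hn d f => scr232g_at (hδ n) hbd hblk' hn d.1.1 d.1.2 d.2.2 f
  have hDb : Scr232sDb t δ (scr232Obj x0 y0 s w h g r) (I := fun n => Scr232gI (δ n) blk)
      (fun n d => scr232gY t (δ n) blk d.1.1 d.1.2 (scrIns (δ n) (x0, y0) φ)) := by
    intro m0 hm0
    obtain ⟨C1, δ1, hC1, hδ1, H1⟩ := hpat m0 (2 * s) hm0 (Fin 4 × Bool)
    obtain ⟨C2, δ2, hC2, hδ2, H2⟩ := hmom r m0 (2 * s) hsc.hr0 hm0 (Fin 4 × Bool) (x0, y0) φ hφ hφs
    refine ⟨max C2 1 * C1, mul_nonneg (le_trans zero_le_one (le_max_right _ _)) hC1, ?_⟩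
    filter_upwards [hδ0.eventually (gt_mem_nhds hδ1), hδ0.eventually (gt_mem_nhds hδ2), hXin] with n h1 h2 h3 d
    exact scr232g_db_at ht1 ht2 hm0 hs0 hsc.hr0.le hC1 hKq hblk' (scr232g_hull_box hsc)
      (scr232g_in_at (hδ n) (hbd .K) h3).loc (H1 (δ n) (hδ n) h1) (H2 (δ n) (hδ n) h2) d.1.1 d.1.2 d.2.1
      (fun i => hlocIn n i _ (d.2.2 i)) (fun i => hlocIn n i _ (scr232g_pat_in _ _ _))
  have hφT : AspTest φ := ⟨hφ, IsCompact.of_isClosed_subset (isCompact_closedBall _ _) (isClosed_tsupport φ) (hφs.trans Metric.ball_subset_closedBall)⟩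
  have hcore : tsupport φ ⊆ scr232Obj x0 y0 s w h g r .K := by
    intro p hp
    have := hφs hp
    rw [Metric.mem_ball, Prod.dist_eq, max_lt_iff, Real.dist_eq, Real.dist_eq] at this
    have hr0 := hsc.hr0
    exact ⟨by linarith [this.1], by linarith [this.2]⟩
  have hR3 : Scr232sR3 t δ (scr232Obj x0 y0 s w h g r .K) (fun n => scrIns (δ n) (x0, y0) φ) := fun ρ y1 m0 h1 h2 h3 => by
    simpa [scr232sRv] using asd_R3 ht1 ht2 hδ hδ0 hφT (fun _ => (x0, y0)) hcore ρ y1 m0 h1 h2 h3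
  have main := scr232s_sep ht1 ht2 hrp htr (scr232g_lin ht1 ht2) hS hδ hδ0 (I := fun n => Scr232gI (δ n) blk)
    (Y := fun n d => scr232gY t (δ n) blk d.1.1 d.1.2 (scrIns (δ n) (x0, y0) φ)) hY (X := fun n => scrIns (δ n) (x0, y0) φ)
    (fun n d => scr232g_Y_K _ _ _ _ _ _) hDb hR3 hε
  filter_upwards [main, hXin] with n hn hXn π Fc hF1 hF2
  have h0 := hn ⟨(π, Fc), hF1, hF2⟩
  simp only at h0
  have hXl : ScrLoc (scrIns (δ n) (x0, y0) φ) := (scr232g_in_at (hδ n) (hbd .K) hXn).loc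
  have hPl : ∀ i, ScrLoc (scrPatI (δ n) (blk i) (π i)) := fun i => hlocIn n i _ (scr232g_pat_in _ _ _)
  have hFl : ∀ i, ScrLoc (Fc i) := fun i => hlocIn n i _ (hF2 i)
  have hZl : ScrLoc (fun ω => scrIns (δ n) (x0, y0) φ ω * ∏ i, (scrPatI (δ n) (blk i) (π i) ω * Fc i ω)) :=
    scr99_loc_mul hXl (scr232g_loc_prod _ fun i _ => scr99_loc_mul (hPl i) (hFl i))
  have hp0 : ∀ i, 0 ≤ scrPl t (scrPatI (δ n) (blk i) (π i)) := fun i => scr99_pl_nonneg ht1 ht2 (hPl i) fun ω => scr232g_pat_nonneg _ _ _ _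
  by_cases hz : ∃ i, scrPl t (scrPatI (δ n) (blk i) (π i)) = 0
  · -- a pattern of probability zero
    obtain ⟨i, hi⟩ := hz
    rw [Finset.prod_eq_zero (Finset.mem_univ i) hi, mul_zero]
    have e : (fun ω => scrIns (δ n) (x0, y0) φ ω * ∏ i, (scrPatI (δ n) (blk i) (π i) ω * Fc i ω))
        = fun ω => scrPatI (δ n) (blk i) (π i) ω * (fun ω => scrIns (δ n) (x0, y0) φ ω * ∏ i, (scrPatI (δ n) (blk i) (π i) ω * Fc i ω)) ω := by
      funext ω
      by_cases h1 : scrPatI (δ n) (blk i) (π i) ω = 0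
      · rw [h1, zero_mul, Finset.prod_eq_zero (Finset.mem_univ i) (by rw [h1, zero_mul]), mul_zero]
      · have h2 := scr232g_pat_sq (δ n) (blk i) (π i) ω
        have h3 : scrPatI (δ n) (blk i) (π i) ω = 1 := by
          have : scrPatI (δ n) (blk i) (π i) ω * (scrPatI (δ n) (blk i) (π i) ω - 1) = 0 := by linear_combination h2
          rcases mul_eq_zero.1 this with h | h
          · exact absurd h h1
          · linarith
        rw [h3, one_mul]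
    have hc := scr99_pl_cauchy ht1 ht2 (hPl i) hZl
    rw [← e] at hc
    simp only [scr232g_pat_sq] at hc
    rw [hi, zero_mul] at hc
    have : scrPl t (fun ω => scrIns (δ n) (x0, y0) φ ω * ∏ i, (scrPatI (δ n) (blk i) (π i) ω * Fc i ω)) = 0 := by
      have := sq_nonneg (scrPl t (fun ω => scrIns (δ n) (x0, y0) φ ω * ∏ i, (scrPatI (δ n) (blk i) (π i) ω * Fc i ω)))
      exact pow_eq_zero_iff (two_ne_zero) |>.1 (le_antisymm hc this)
    rw [this, abs_zero]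
  · push Not at hz
    have hJ : 0 < ∏ i, scrPl t (scrPatI (δ n) (blk i) (π i)) := Finset.prod_pos fun i _ => lt_of_le_of_ne (hp0 i) (hz i).symm
    have e : (fun ω => ∏ f, scr232gY t (δ n) blk π Fc (scrIns (δ n) (x0, y0) φ) f ω)
        = fun ω => (∏ i, scrPl t (scrPatI (δ n) (blk i) (π i)))⁻¹ * (fun ω => scrIns (δ n) (x0, y0) φ ω * ∏ i, (scrPatI (δ n) (blk i) (π i) ω * Fc i ω)) ω := by
      funext ω
      rw [scr232g_prod_kind, scr232g_Y_K]
      simp only [scr232g_Y_kd, Finset.prod_mul_distrib, Finset.prod_inv_distrib]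
      ring
    rw [e, scr99_pl_smul ht1 ht2 hZl, abs_mul, abs_of_pos (inv_pos.2 hJ), inv_mul_le_iff₀ hJ] at h0
    linarith

/-! ## 8. the record `Scr232gMom` from the general array bound of 221 (shapes of `mom221_pl`, `mom221_const`; they enter as hypotheses) -/

/-- Lemma 5.2 for a general neutral array: the shape of `mom221_pl` (Screen/Mom221) with any constant `Bd κ ρ I` -/
def Scr232gArr (t : ℝ) (Bd : ℝ → ℕ → ℕ → ℝ) : Prop :=
  ∀ (b : (ℤ × ℤ) →₀ ℝ) (v₀ : ℤ × ℤ) (ρ I : ℕ) (κ δ M R : ℝ) (m : ℕ) (U : Fin m → Set (ℝ × ℝ))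
      (π : Fin m → RswCfg), 0 < δ → δ * ((ρ + 4 * 2 ^ I : ℕ) : ℝ) < R →
      (∀ i, ∃ c : ℝ × ℝ, U i ⊆ Metric.closedBall c M) → (∀ i, ∀ p ∈ U i, R ≤ dist p (scr232P δ v₀)) →
      (∀ v ∈ b.support, (v₀.1 - ρ < v.1 ∧ v.1 < v₀.1 + ρ) ∧ (v₀.2 - ρ < v.2 ∧ v.2 < v₀.2 + ρ)) →
      b.sum (fun _ x => x) = 0 → (∀ v, 2 * |b v| ≤ κ) →
      scrPl t (fun ω => (scrArr b v₀ ω) ^ 2 * ∏ i, scrPatI δ (U i) (π i) ω)
        ≤ Bd κ ρ I * scrPl t (fun ω => ∏ i, scrPatI δ (U i) (π i) ω)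

/-- the constant is uniform in the mesh: the shape of `mom221_const` -/
def Scr232gCst (Bd : ℝ → ℕ → ℕ → ℝ) : Prop :=
  ∀ (r c0 Kc : ℝ), 0 < r → 0 < c0 → 0 ≤ Kc → ∃ C : ℝ, ∀ δ : ℝ, 0 < δ → δ < min (r / 4) (c0 / 4) →
      Bd (Kc * δ ^ 2) (⌊r / (2 * δ)⌋₊ + 2) (Nat.log 2 ⌊c0 / (4 * δ)⌋₊) ≤ C ∧
      δ * ((⌊r / (2 * δ)⌋₊ + 2 + 4 * 2 ^ (Nat.log 2 ⌊c0 / (4 * δ)⌋₊) : ℕ) : ℝ) < r + c0

/-- a constant factor in front of the bound does not matter -/
theorem scr232g_cst8 {Bd : ℝ → ℕ → ℕ → ℝ} (h : Scr232gCst Bd) (k : ℝ) (hk : 0 ≤ k) : Scr232gCst (fun κ ρ I => k * Bd κ ρ I) := by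
  intro r c0 Kc hr hc0 hK
  obtain ⟨C, hC⟩ := h r c0 Kc hr hc0 hK
  exact ⟨k * C, fun δ hδ hδ0 => ⟨mul_le_mul_of_nonneg_left (hC δ hδ hδ0).1 hk, (hC δ hδ hδ0).2⟩⟩

theorem scr232g_mem_box {z v : ℤ × ℤ} {n : ℕ} :
    v ∈ rswBox z n ↔ (z.1 - n ≤ v.1 ∧ v.1 < z.1 + n) ∧ (z.2 - n ≤ v.2 ∧ v.2 < z.2 + n) := by
  unfold rswBox
  rw [Finset.mem_product, Finset.mem_Ico, Finset.mem_Ico]

theorem scr232g_box_ball {M : ℝ} {H : Set (ℝ × ℝ)} (h : Scr232gBox M H) : ∃ c : ℝ × ℝ, H ⊆ Metric.closedBall c M := by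
  obtain ⟨a, b, rfl, h1, h2⟩ := h
  refine ⟨a, fun p hp => ?_⟩
  rw [Metric.mem_closedBall, Prod.dist_eq, max_le_iff, Real.dist_eq, Real.dist_eq]
  obtain ⟨⟨a1, a2⟩, b1, b2⟩ := hp
  constructor <;> rw [abs_le] <;> constructor <;> linarith

theorem scr232g_pat_loc {δ : ℝ} (hδ : 0 < δ) {U : Set (ℝ × ℝ)} {M : ℝ} (h : ∃ c : ℝ × ℝ, U ⊆ Metric.closedBall c M) (π : RswCfg) : ScrLoc (scrPatI δ U π) := by
  obtain ⟨c, hc⟩ := h
  refine (scr232g_in_at hδ (M := |c.1| + |c.2| + M) (fun p hp => ?_) (scr232g_pat_in δ U π)).loc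
  have := hc hp
  rw [Metric.mem_closedBall, Prod.dist_eq, max_le_iff, Real.dist_eq, Real.dist_eq] at this
  have h1 := abs_le.1 this.1
  have h2 := abs_le.1 this.2
  have c1 := abs_nonneg c.1
  have c2 := abs_nonneg c.2
  have d1 := le_abs_self c.1
  have d2 := le_abs_self c.2
  have e1 := neg_abs_le c.1
  have e2 := neg_abs_le c.2
  constructor <;> rw [abs_le] <;> constructor <;> linarith [h1.1, h1.2, h2.1, h2.2]

/-- the Laplace array of a test function centred at `z` -/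
theorem scr232g_array {z : ℝ × ℝ} {r : ℝ} {φ : ℝ × ℝ → ℝ} (hφ : ContDiff ℝ ((⊤ : ℕ∞) : WithTop ℕ∞) φ) (hφs : tsupport φ ⊆ Metric.ball z (r / 2)) :
    ∃ Kc : ℝ, 0 ≤ Kc ∧ ∀ δ : ℝ, 0 < δ → (∀ v, |aspW δ (lap2 φ) v| ≤ Kc * δ ^ 2) ∧ (aspW δ (lap2 φ)).sum (fun _ x => x) = 0 ∧
      ∀ v ∈ (aspW δ (lap2 φ)).support, |δ * (v.1 : ℝ) - z.1| ≤ r / 2 + δ / 2 ∧ |δ * (v.2 : ℝ) - z.2| ≤ r / 2 + δ / 2 := by
  have hc : HasCompactSupport φ := IsCompact.of_isClosed_subset (isCompact_closedBall _ _) (isClosed_tsupport φ) (hφs.trans Metric.ball_subset_closedBall)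
  have s0 : ContDiff ℝ ((⊤ : ℕ∞) : WithTop ℕ∞) (lap2 φ) ∧ HasCompactSupport (lap2 φ) ∧ ∫ x, lap2 φ x = 0 := Claimed.Agent.R291.pcv_lap_test hφ hc
  obtain ⟨s1, s2, s3⟩ := s0
  obtain ⟨K, hK⟩ := s1.continuous.bounded_above_of_compact_support s2
  have hK0 : 0 ≤ K := (norm_nonneg _).trans (hK 0)
  refine ⟨K, hK0, fun δ hδ => ⟨fun v => ?_, asd_W_lap_tot hδ ⟨hφ, hc⟩, fun v hv => ?_⟩⟩
  · rw [riem262_W_apply hδ s2, mul_comm]
    exact riem262_Wt_abs_le hδ (fun x => by simpa using hK x) v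
  · obtain ⟨p, hp, hfp⟩ := scr232g_supp _ hv
    have hp2 : p ∈ Metric.ball z (r / 2) := hφs (scr52_lap_tsupport hφ (subset_tsupport _ hfp))
    rw [Metric.mem_ball, Prod.dist_eq, max_lt_iff, Real.dist_eq, Real.dist_eq] at hp2
    simp only [aspCell, Set.mem_prod, Set.mem_Ioc] at hp
    obtain ⟨⟨a1, a2⟩, a3, a4⟩ := hp
    have b1 := abs_lt.1 hp2.1
    have b2 := abs_lt.1 hp2.2
    constructor <;> rw [abs_le] <;> constructor <;> nlinarith

theorem scr232g_tr_facts (a v₀ : ℤ × ℤ) (b : (ℤ × ℤ) →₀ ℝ) (ρ : ℕ) (κ : ℝ)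
    (hb : ∀ v ∈ b.support, (v₀.1 - ρ < v.1 ∧ v.1 < v₀.1 + ρ) ∧ (v₀.2 - ρ < v.2 ∧ v.2 < v₀.2 + ρ))
    (hneu : b.sum (fun _ x => x) = 0) (hκ : ∀ v, 2 * |b v| ≤ κ) :
    (∀ v ∈ (aspTr a b).support, ((v₀ + a).1 - ρ < v.1 ∧ v.1 < (v₀ + a).1 + ρ) ∧ ((v₀ + a).2 - ρ < v.2 ∧ v.2 < (v₀ + a).2 + ρ)) ∧
      (aspTr a b).sum (fun _ x => x) = 0 ∧ ∀ v, 2 * |aspTr a b v| ≤ κ := by
  classical
  refine ⟨fun v hv => ?_, ?_, fun v => ?_⟩
  · have := Finsupp.mapDomain_support hv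
    obtain ⟨u, hu, rfl⟩ := Finset.mem_image.1 this
    have h2 := hb u hu
    simp only [Prod.fst_add, Prod.snd_add]
    omega
  · unfold aspTr
    rw [Finsupp.sum_mapDomain_index (fun _ => rfl) (fun _ _ _ => rfl)]
    exact hneu
  · have e : aspTr a b v = b (v - a) := by
      have := Finsupp.mapDomain_apply (f := fun u : ℤ × ℤ => u + a) (add_left_injective a) b (v - a)
      simpa [aspTr] using this
    rw [e]
    exact hκ _

/-- **the record `Scr232gMom`** (Lemma 5.2 at an arbitrary centre) from the general array bound of 221.   Wiring: `obtain ⟨C₂, hC₂, hpl⟩ := mom221_pl t ht1 ht2`, then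
`scr232g_mom ht1 ht2 (Bd := fun κ ρ I => 8 * mom221Bd C₂ κ ρ I) hpl (fun r c0 Kc hr hc0 hK => (mom221_const r c0 Kc C₂ hr hc0 hK hC₂).imp fun C h => ...)` (scale `C` by 8; see `scr232g_cst8`). -/
theorem scr232g_mom {t : ℝ} (ht1 : 1 / 2 ≤ t) (ht2 : t < 1) {Bd : ℝ → ℕ → ℕ → ℝ} (hpl : Scr232gArr t Bd) (hcst : Scr232gCst Bd) : Scr232gMom t := by
  intro r c0 M hr hc0 ι _ z φ hφ hφs
  obtain ⟨Kc, hKc, harr⟩ := scr232g_array hφ hφs
  obtain ⟨C, hC⟩ := hcst (r + c0 / 2) (c0 / 4) (2 * Kc) (by positivity) (by positivity) (by positivity)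
  refine ⟨max C 0, min ((r + c0 / 2) / 4) (c0 / 4 / 4), le_max_right _ _, by positivity, fun δ hδ hδ0 a U H π hwin hfar => ?_⟩
  obtain ⟨hbd, hW⟩ := hC δ hδ hδ0
  obtain ⟨hκ, hneu, hsupp⟩ := harr δ hδ
  have hδc : δ < c0 / 16 := by
    have := lt_of_lt_of_le hδ0 (min_le_right _ _)
    linarith
  -- the support in the box around the base point
  have hfl : (r + c0 / 2) / (2 * δ) < (⌊(r + c0 / 2) / (2 * δ)⌋₊ : ℝ) + 1 := Nat.lt_floor_add_one _
  have hρ : r / 2 + 2 * δ < δ * ((⌊(r + c0 / 2) / (2 * δ)⌋₊ + 2 : ℕ) : ℝ) := by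
    rw [div_lt_iff₀ (by positivity)] at hfl
    push_cast
    nlinarith
  generalize ⌊(r + c0 / 2) / (2 * δ)⌋₊ + 2 = ρ at hbd hW hρ
  generalize Nat.log 2 ⌊c0 / 4 / (4 * δ)⌋₊ = I at hbd hW
  have hb0 : ∀ v ∈ (aspW δ (lap2 φ)).support, (⌊z.1 / δ⌋ - (ρ : ℤ) < v.1 ∧ v.1 < ⌊z.1 / δ⌋ + (ρ : ℤ)) ∧ (⌊z.2 / δ⌋ - (ρ : ℤ) < v.2 ∧ v.2 < ⌊z.2 / δ⌋ + (ρ : ℤ)) := by
    intro v hv
    obtain ⟨h1, h2⟩ := hsupp v hv
    have key : ∀ (x : ℤ) (c : ℝ), |δ * (x : ℝ) - c| ≤ r / 2 + δ / 2 → ⌊c / δ⌋ - (ρ : ℤ) < x ∧ x < ⌊c / δ⌋ + (ρ : ℤ) := by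
      intro x c hx
      have hn := abs_le.1 (scr52_base_near hδ c)
      have hx' := abs_le.1 hx
      constructor
      · have : δ * ((⌊c / δ⌋ : ℝ) - (ρ : ℝ)) < δ * (x : ℝ) := by nlinarith [hn.1, hn.2, hx'.1, hx'.2]
        have := lt_of_mul_lt_mul_left this hδ.le
        have h3 : ((⌊c / δ⌋ - (ρ : ℤ) : ℤ) : ℝ) < (x : ℝ) := by push_cast; exact this
        exact Int.cast_lt.1 h3
      · have : δ * (x : ℝ) < δ * ((⌊c / δ⌋ : ℝ) + (ρ : ℝ)) := by nlinarith [hn.1, hn.2, hx'.1, hx'.2]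
        have := lt_of_mul_lt_mul_left this hδ.le
        have h3 : (x : ℝ) < ((⌊c / δ⌋ + (ρ : ℤ) : ℤ) : ℝ) := by push_cast; exact this
        exact Int.cast_lt.1 h3
    exact ⟨key _ _ h1, key _ _ h2⟩
  obtain ⟨h1, h2, h3⟩ := scr232g_tr_facts a (⌊z.1 / δ⌋, ⌊z.2 / δ⌋) (aspW δ (lap2 φ)) ρ (2 * Kc * δ ^ 2) hb0 hneu
    (fun v => by have := hκ v; linarith)
  have hX : scrSh a (scrIns δ z φ) = scrArr (aspTr a (aspW δ (lap2 φ))) ((⌊z.1 / δ⌋, ⌊z.2 / δ⌋) + a) := by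
    rw [← asd_sh_arr]
    rfl
  have hM : ∀ i, ∃ c : ℝ × ℝ, U i ⊆ Metric.closedBall c M := fun i => by
    obtain ⟨c, hc⟩ := scr232g_box_ball (hwin.box i)
    exact ⟨c, (hwin.sub i).trans hc⟩
  have hU : ∀ i, ∀ p ∈ U i, r + c0 / 2 + c0 / 4 ≤ dist p (scr232P δ ((⌊z.1 / δ⌋, ⌊z.2 / δ⌋) + a)) := by
    intro i p hp
    have f1 := hfar i p (hwin.sub i hp)
    have f2 := dist_triangle p (scr232P δ ((⌊z.1 / δ⌋, ⌊z.2 / δ⌋) + a)) (z + scr232P δ a)
    have f3 : dist (scr232P δ ((⌊z.1 / δ⌋, ⌊z.2 / δ⌋) + a)) (z + scr232P δ a) ≤ δ := by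
      rw [scr232_P_add, dist_add_right, Prod.dist_eq, max_le_iff, Real.dist_eq, Real.dist_eq]
      exact ⟨scr52_base_near hδ z.1, scr52_base_near hδ z.2⟩
    linarith
  have key := hpl (aspTr a (aspW δ (lap2 φ))) ((⌊z.1 / δ⌋, ⌊z.2 / δ⌋) + a) ρ I (2 * Kc * δ ^ 2) δ M (r + c0 / 2 + c0 / 4) (Fintype.card ι)
    (fun j => U ((Fintype.equivFin ι).symm j)) (fun j => π ((Fintype.equivFin ι).symm j)) hδ hW (fun j => hM _) (fun j => hU _) h1 h2 h3
  have e : ∀ ω, ∏ j, scrPatI δ (U ((Fintype.equivFin ι).symm j)) (π ((Fintype.equivFin ι).symm j)) ω = ∏ i, scrPatI δ (U i) (π i) ω := fun ω =>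
    Equiv.prod_comp (Fintype.equivFin ι).symm (fun i => scrPatI δ (U i) (π i) ω)
  simp only [e] at key
  have hP : 0 ≤ scrPl t (fun ω => ∏ i, scrPatI δ (U i) (π i) ω) :=
    scr99_pl_nonneg ht1 ht2 (scr232g_loc_prod _ fun i _ => scr232g_pat_loc hδ (hM i) _) fun ω => Finset.prod_nonneg fun i _ => scr232g_pat_nonneg _ _ _ _
  rw [hX]
  exact key.trans (mul_le_mul_of_nonneg_right (hbd.trans (le_max_left _ _)) hP)

/-- **the record `Scr232gMom` CLOSED** on 221's `mom221_pl`, `mom221_const` (Screen/Mom221). -/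
theorem scr232g_mom_closed (t : ℝ) (ht1 : 1 / 2 ≤ t) (ht2 : t < 1) : Scr232gMom t := by
  obtain ⟨C₂, hC₂, hpl⟩ := mom221_pl t ht1 ht2
  exact scr232g_mom ht1 ht2 (Bd := fun κ ρ I => 8 * mom221Bd C₂ κ ρ I) hpl
    (scr232g_cst8 (fun r c0 Kc hr hc0 hK => mom221_const r c0 Kc C₂ hr hc0 hK hC₂) 8 (by norm_num))

/-! # PART III : the record `Scr232gPat` for rectangles -/

/-! ## 9. PATTERN COMPARISON FOR RECTANGLES (record `Scr232gPat`) from (S0), (S1), the plane law; tools of 141 (four batches, abstract geometry), 191 (atoms, FKG over a family), 101 (abstract cover) -/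

/-- (S1) `exit_mdl_circ` at the ratio `k = 0` and one scale `n`, normalised -/
def Pat232Circ (t : ℝ) (n : ℕ) (p : ℝ) : Prop :=
  ∀ (F : Finset (ℤ × ℤ)) (z : ℤ × ℤ) (b a : Bool) (L : RswCfg → Prop),
    RswJordan F → rswBox z (3 * n) ⊆ F → MdlExt (rswBox z (3 * n)) L →
    p * rswP t F b L ≤ rswP t F b fun ω => L ω ∧ RswSep F a ω (rswBox z n) (F \ rswBox z (2 * n))

theorem pat232_circ_of {t : ℝ} {n : ℕ} {p : ℝ} (h : Mdl141pCirc t 0 n p) : Pat232Circ t n p := by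
  intro F z b a L hF hB hL
  have := h F z b a L hF (by simpa using hB) (mdl141p_mdlExt_mono (by simpa using Finset.sdiff_subset) hL)
  simpa using this

theorem pat232_pin_ext {B : Finset (ℤ × ℤ)} {K : MdlPin} (hv : ∀ v ∈ K.Sp ∪ K.Sm, OnPolygon B v) (he : ∀ e ∈ K.Oo ∪ K.Oc, e ∉ rswInt B) :
    MdlExt B K.Holds := by
  intro ω ω' h1 h2
  unfold MdlPin.Holds
  constructor
  · rintro ⟨a1, a2, a3, a4⟩
    exact ⟨fun v hv' => (h1 v (hv v (Finset.mem_union_left _ hv'))).1 (a1 hv'),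
      fun v hv' hc => a2 v hv' ((h1 v (hv v (Finset.mem_union_right _ hv'))).2 hc),
      fun e he' => (h2 e (he e (Finset.mem_union_left _ he'))).1 (a3 he'),
      fun e he' hc => a4 e he' ((h2 e (he e (Finset.mem_union_right _ he'))).2 hc)⟩
  · rintro ⟨a1, a2, a3, a4⟩
    exact ⟨fun v hv' => (h1 v (hv v (Finset.mem_union_left _ hv'))).2 (a1 hv'),
      fun v hv' hc => a2 v hv' ((h1 v (hv v (Finset.mem_union_right _ hv'))).1 hc),
      fun e he' => (h2 e (he e (Finset.mem_union_left _ he'))).2 (a3 he'),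
      fun e he' hc => a4 e he' ((h2 e (he e (Finset.mem_union_right _ he'))).1 hc)⟩

theorem pat232_atom_ext {F B : Finset (ℤ × ℤ)} {S₀ : Finset (ℤ × ℤ)} {O₀ : Finset ((ℤ × ℤ) × Bool)} (hS : S₀ ⊆ mdlVext F B) (hO : O₀ ⊆ mdlEext F B) :
    MdlExt B (mdlAtom F B S₀ O₀).Holds := by
  refine pat232_pin_ext (fun v hv => mdl_atom_pins hS hv) fun e he => ?_
  have he' : e ∈ O₀ ∪ (mdlEext F B \ O₀) := he
  have : e ∈ mdlEext F B := by
    rcases Finset.mem_union.1 he' with h | h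
    · exact hO h
    · exact (Finset.mem_sdiff.1 h).1
  exact (Finset.mem_sdiff.1 this).2

theorem pat232_P_pin (t : ℝ) (F : Finset (ℤ × ℤ)) (b : Bool) (K : MdlPin) (E : RswCfg → Prop) :
    rswP t F b (fun ω => K.Holds ω ∧ E ω) = mdlSumK t F b K (mdlInd E) / rswSum t F b (fun _ => 1) := by
  classical
  rw [mdl141p_P_and_sum]
  congr 1
  unfold mdlSumK
  refine mdl_sum_congr t F b fun ω => ?_
  by_cases h : K.Holds ω
  · rw [mdl_ind_pos h, if_pos h, one_mul]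
  · rw [mdl_ind_neg h, if_neg h, zero_mul]

/-- **simultaneous separations around finitely many small boxes**, given any exterior data of a region which contains their buffers -/
theorem pat232_multi {t : ℝ} (ht0 : 0 < t) (ht2 : t < 1) (hcmp : Mdl141pCmp t) {n : ℕ} {p : ℝ} (hp : 0 ≤ p) (hc : Pat232Circ t n p)
    {F : Finset (ℤ × ℤ)} (hF : RswJordan F) (b a : Bool) (J : Finset (ℤ × ℤ)) {B : Finset (ℤ × ℤ)} (hJB : ∀ z ∈ J, rswBox z (3 * n) ⊆ B) (hBF : B ⊆ F)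
    {L : RswCfg → Prop} (hL : MdlExt B L) :
    p ^ J.card * rswP t F b L ≤ rswP t F b (fun ω => L ω ∧ ∀ z ∈ J, RswSep F a ω (rswBox z n) (F \ rswBox z (2 * n))) := by
  refine mdl_P_of_atoms ht0 ht2.le F B b hL _ _ fun S₀ hS O₀ hO => ?_
  refine mdl_fkg_prod ht0.le ht2.le (hcmp F hF b a _ (mdl_atom_ok hO)) J (fun z ω => RswSep F a ω (rswBox z n) (F \ rswBox z (2 * n)))
    (fun z _ ω ω' hle h => cg101_sep_le hle h) hp fun z hz => ?_
  have h1 := hc F z b a _ hF ((hJB z hz).trans hBF) (mdl141p_mdlExt_mono (hJB z hz) (pat232_atom_ext hS hO))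
  rw [mdl141p_P_eq_sumK, pat232_P_pin, ← mul_div_assoc, div_le_div_iff_of_pos_right (rsk_sum_one_pos ht0 ht2.le F b)] at h1
  exact h1

/-! ### rectangles of faces -/

/-- the rectangle of faces `[a, b)` enlarged by `m` -/
noncomputable def pat232R (a b : ℤ × ℤ) (m : ℤ) : Finset (ℤ × ℤ) := Finset.Ico (a.1 - m) (b.1 + m) ×ˢ Finset.Ico (a.2 - m) (b.2 + m)

theorem pat232_mem_R {a b f : ℤ × ℤ} {m : ℤ} :
    f ∈ pat232R a b m ↔ (a.1 - m ≤ f.1 ∧ f.1 < b.1 + m) ∧ (a.2 - m ≤ f.2 ∧ f.2 < b.2 + m) := by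
  unfold pat232R
  rw [Finset.mem_product, Finset.mem_Ico, Finset.mem_Ico]

theorem pat232_R_mono (a b : ℤ × ℤ) {m m' : ℤ} (h : m ≤ m') : pat232R a b m ⊆ pat232R a b m' := by
  intro f hf
  rw [pat232_mem_R] at hf ⊢
  omega

theorem pat232_R_deep (a b : ℤ × ℤ) {m m' : ℤ} (h : m + 1 ≤ m') : ∀ v ∈ cornersOf (pat232R a b m), ¬ OnPolygon (pat232R a b m') v := by
  intro v hv
  rw [rsk_mem_corners] at hv
  simp only [pat232_mem_R] at hv
  unfold OnPolygon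
  rw [not_not]
  simp only [pat232_mem_R]
  omega

theorem pat232_layer_R (a b : ℤ × ℤ) (m : ℤ) {g : ℤ × ℤ} (hg : g ∈ rswLayer (pat232R a b (m + 1))) : g ∉ pat232R a b m := by
  intro hc
  obtain ⟨-, v, hv, hP⟩ := rsx_mem_layer.1 hg
  apply hP
  rw [pat232_mem_R] at hc
  simp only [Finset.mem_insert, Finset.mem_singleton] at hv
  simp only [pat232_mem_R]
  rcases hv with rfl | rfl | rfl | rfl <;> (try simp only) <;> omega

theorem pat232_seal_of_sep {F : Finset (ℤ × ℤ)} {a b : ℤ × ℤ} {m : ℤ} (hΛ : pat232R a b (m + 1) ⊆ F) {c : Bool} {ω : RswCfg}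
    {R : Finset (ℤ × ℤ)} (h : RswSep F c ω R (F \ pat232R a b m)) :
    RswSep (pat232R a b (m + 1)) c ω R (rswLayer (pat232R a b (m + 1))) := by
  intro f hf g hg hpath
  refine h f hf g (Finset.mem_sdiff.2 ⟨hΛ (rsx_layer_sub _ hg), pat232_layer_R a b m hg⟩) ?_
  have hmono : RswStep (pat232R a b (m + 1)) c ω ≤ RswStep F c ω := fun x y hxy => ⟨hΛ hxy.1, hΛ hxy.2.1, hxy.2.2⟩
  exact Relation.ReflTransGen.mono hmono f g hpath

theorem pat232_step_near {F : Finset (ℤ × ℤ)} {c : Bool} {ω : RswCfg} {x y : ℤ × ℤ} (h : RswStep F c ω x y) :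
    x.1 - 1 ≤ y.1 ∧ y.1 ≤ x.1 + 1 ∧ x.2 - 1 ≤ y.2 ∧ y.2 ≤ x.2 + 1 := by
  obtain ⟨-, -, ⟨⟨u, v⟩, d⟩, he, -⟩ := h
  cases d <;> simp only [rswCo, Bool.false_eq_true, if_false, if_true] at he <;>
    rcases he with ⟨rfl, rfl⟩ | ⟨rfl, rfl⟩ <;> simp only <;> omega

open Classical in
/-- the net of centres: spacing `n`, around the ring at distance `4 n` of the rectangle -/
noncomputable def pat232J (a b : ℤ × ℤ) (n N1 : ℕ) : Finset (ℤ × ℤ) :=
  ((Finset.Icc (0 : ℤ) N1 ×ˢ Finset.Icc (0 : ℤ) N1).image fun q : ℤ × ℤ =>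
      (a.1 - (4 * (n : ℤ) + 1) + n * q.1, a.2 - (4 * (n : ℤ) + 1) + n * q.2)).filter
    fun z => rswBox z (3 * n) ⊆ pat232R a b (8 * n + 1) \ pat232R a b 0

theorem pat232_J_card (a b : ℤ × ℤ) (n N1 : ℕ) : (pat232J a b n N1).card ≤ (N1 + 1) ^ 2 := by
  classical
  unfold pat232J
  refine (Finset.card_filter_le _ _).trans (Finset.card_image_le.trans ?_)
  rw [Finset.card_product, Int.card_Icc]
  simp [sq]

theorem pat232_J_sub {a b : ℤ × ℤ} {n N1 : ℕ} {z : ℤ × ℤ} (hz : z ∈ pat232J a b n N1) :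
    rswBox z (3 * n) ⊆ pat232R a b (8 * n + 1) \ pat232R a b 0 := by
  classical
  unfold pat232J at hz
  exact (Finset.mem_filter.1 hz).2

/-- the net: every face one step out of the ring has a centre -/
theorem pat232_net {a b : ℤ × ℤ} {n N1 : ℕ} (hn : 1 ≤ n) (hW1 : b.1 - a.1 + 2 * (4 * (n : ℤ) + 1) ≤ n * ((N1 : ℤ) + 1))
    (hW2 : b.2 - a.2 + 2 * (4 * (n : ℤ) + 1) ≤ n * ((N1 : ℤ) + 1)) {y : ℤ × ℤ} (hy1 : y ∈ pat232R a b (4 * n + 1)) (hy0 : y ∉ pat232R a b (4 * n)) :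
    ∃ z ∈ pat232J a b n N1, y ∈ rswBox z n ∧ rswBox z (2 * n) ⊆ pat232R a b (7 * n + 1) := by
  classical
  have hn' : (0 : ℤ) < n := by exact_mod_cast hn
  rw [pat232_mem_R] at hy1 hy0
  have key : ∀ (y1 a1 b1 : ℤ), a1 - (4 * (n : ℤ) + 1) ≤ y1 → y1 < b1 + (4 * (n : ℤ) + 1) → b1 - a1 + 2 * (4 * (n : ℤ) + 1) ≤ n * ((N1 : ℤ) + 1) →
      ∃ q : ℤ, 0 ≤ q ∧ q ≤ N1 ∧ (n : ℤ) * q ≤ y1 - (a1 - (4 * (n : ℤ) + 1)) ∧ y1 - (a1 - (4 * (n : ℤ) + 1)) < n * q + n := by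
    intro y1 a1 b1 h1 h2 h3
    refine ⟨(y1 - (a1 - (4 * (n : ℤ) + 1))) / n, Int.ediv_nonneg (by omega) hn'.le, ?_, ?_, ?_⟩
    · have : (y1 - (a1 - (4 * (n : ℤ) + 1))) / n < (N1 : ℤ) + 1 := Int.ediv_lt_of_lt_mul hn' (by
        rw [mul_comm ((N1 : ℤ) + 1) (n : ℤ)]
        generalize (n : ℤ) * ((N1 : ℤ) + 1) = w at *
        omega)
      omega
    · exact Int.mul_ediv_self_le hn'.ne'
    · exact Int.lt_mul_ediv_self_add hn'
  obtain ⟨q1, c1, c2, c3, c4⟩ := key y.1 a.1 b.1 hy1.1.1 hy1.1.2 hW1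
  obtain ⟨q2, d1, d2, d3, d4⟩ := key y.2 a.2 b.2 hy1.2.1 hy1.2.2 hW2
  refine ⟨(a.1 - (4 * (n : ℤ) + 1) + n * q1, a.2 - (4 * (n : ℤ) + 1) + n * q2), ?_, ?_, ?_⟩
  · unfold pat232J
    refine Finset.mem_filter.2 ⟨Finset.mem_image.2 ⟨(q1, q2), ?_, rfl⟩, ?_⟩
    · rw [Finset.mem_product, Finset.mem_Icc, Finset.mem_Icc]
      exact ⟨⟨c1, c2⟩, d1, d2⟩
    · intro f hf
      rw [mdl141p_mem_box] at hf
      rw [Finset.mem_sdiff, pat232_mem_R, pat232_mem_R]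
      simp only at hf
      push_cast at hf
      generalize (n : ℤ) * q1 = w1 at *
      generalize (n : ℤ) * q2 = w2 at *
      omega
  · rw [mdl141p_mem_box]
    simp only
    generalize (n : ℤ) * q1 = w1 at *
    generalize (n : ℤ) * q2 = w2 at *
    omega
  · intro f hf
    rw [mdl141p_mem_box] at hf
    rw [pat232_mem_R]
    simp only at hf
    push_cast at hf
    generalize (n : ℤ) * q1 = w1 at *
    generalize (n : ℤ) * q2 = w2 at *
    omega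

/-- **the small separations of the net seal the rectangle** -/
theorem pat232_cover {a b : ℤ × ℤ} {n N1 : ℕ} (hn : 1 ≤ n) (hW1 : b.1 - a.1 + 2 * (4 * (n : ℤ) + 1) ≤ n * ((N1 : ℤ) + 1))
    (hW2 : b.2 - a.2 + 2 * (4 * (n : ℤ) + 1) ≤ n * ((N1 : ℤ) + 1)) {F : Finset (ℤ × ℤ)} {c : Bool} {ω : RswCfg}
    (h : ∀ z ∈ pat232J a b n N1, RswSep F c ω (rswBox z n) (F \ rswBox z (2 * n))) :
    RswSep F c ω (pat232R a b 1) (F \ pat232R a b (7 * n + 1)) := by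
  have hn' : (1 : ℤ) ≤ n := by exact_mod_cast hn
  refine cg101_cover (ι := ℤ × ℤ) (fun f => f ∈ pat232R a b (4 * n)) (fun z => rswBox z n) (fun z => rswBox z (2 * n))
    (fun f hf => pat232_R_mono a b (by omega) hf) (fun g hg hc => (Finset.mem_sdiff.1 hg).2 (pat232_R_mono a b (by omega) hc)) ?_
  intro x y hx hy hxy
  have hnear := pat232_step_near hxy
  have hy1 : y ∈ pat232R a b (4 * n + 1) := by
    rw [pat232_mem_R] at hx ⊢
    omega
  obtain ⟨z, hz, h1, h2⟩ := pat232_net hn hW1 hW2 hy1 hy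
  exact ⟨z, h1, fun g hg => Finset.mem_sdiff.2 ⟨(Finset.mem_sdiff.1 hg).1, fun hc => (Finset.mem_sdiff.1 hg).2 (h2 hc)⟩, h z hz⟩

/-- **the sealing circuit of a rectangle**, given exterior data of the buffer and prescriptions in the rectangle -/
theorem pat232_seal {t : ℝ} (ht0 : 0 < t) (ht2 : t < 1) (hcmp : Mdl141pCmp t) {n N1 : ℕ} {p : ℝ} (hp0 : 0 ≤ p) (hp1 : p ≤ 1) (hc : Pat232Circ t n p)
    (hn : 1 ≤ n) {a b : ℤ × ℤ} (hW1 : b.1 - a.1 + 2 * (4 * (n : ℤ) + 1) ≤ n * ((N1 : ℤ) + 1))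
    (hW2 : b.2 - a.2 + 2 * (4 * (n : ℤ) + 1) ≤ n * ((N1 : ℤ) + 1)) {F : Finset (ℤ × ℤ)} (hF : RswJordan F) (hB : pat232R a b (8 * n + 1) ⊆ F) (b' c : Bool)
    {K : MdlPin} (hKQ : Mdl141pInQ (pat232R a b 0) K) {L : RswCfg → Prop} (hL : MdlExt (pat232R a b (8 * n + 1)) L) :
    p ^ ((N1 + 1) ^ 2) * rswP t F b' (fun ω => L ω ∧ K.Holds ω) ≤
      rswP t F b' (fun ω => (L ω ∧ K.Holds ω) ∧
        RswSep (pat232R a b (7 * n + 1 + 1)) c ω (pat232R a b 1) (rswLayer (pat232R a b (7 * n + 1 + 1)))) := by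
  have hn' : (1 : ℤ) ≤ n := by exact_mod_cast hn
  have hext : MdlExt (pat232R a b (8 * n + 1) \ pat232R a b 0) (fun ω => L ω ∧ K.Holds ω) :=
    mdl141p_ext_and (mdl141p_mdlExt_mono Finset.sdiff_subset hL) (mdl141p_rd_ext Finset.disjoint_sdiff (mdl141p_inQ_rd hKQ))
  have h1 := pat232_multi ht0 ht2 hcmp hp0 hc hF b' c (pat232J a b n N1) (fun z hz => pat232_J_sub hz) (Finset.sdiff_subset.trans hB) hext
  have h2 : p ^ ((N1 + 1) ^ 2) ≤ p ^ (pat232J a b n N1).card := pow_le_pow_of_le_one hp0 hp1 (pat232_J_card a b n N1)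
  refine (mul_le_mul_of_nonneg_right h2 (rsb_P_nonneg ht0 ht2.le F b' _)).trans (h1.trans ?_)
  refine rsb_P_mono ht0 ht2.le fun ω _ _ h => ⟨h.1, pat232_seal_of_sep ((pat232_R_mono a b (by omega)).trans hB) (pat232_cover hn hW1 hW2 h.2)⟩

/-- **one rectangle**: complete patterns, two-sided, any exterior data of the buffer of width `8 n + 1` -/
theorem pat232_one {t : ℝ} (ht0 : 0 < t) (ht2 : t < 1) (hcmp : Mdl141pCmp t) {n N1 : ℕ} {p : ℝ} (hp0 : 0 ≤ p) (hp1 : p ≤ 1) (hc : Pat232Circ t n p)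
    (hn : 2 ≤ n) {a b : ℤ × ℤ} (hab1 : a.1 < b.1) (hab2 : a.2 < b.2) (hW1 : b.1 - a.1 + 2 * (4 * (n : ℤ) + 1) ≤ n * ((N1 : ℤ) + 1))
    (hW2 : b.2 - a.2 + 2 * (4 * (n : ℤ) + 1) ≤ n * ((N1 : ℤ) + 1)) (ω₀ : RswCfg) :
    ∃ lam : ℝ, 0 ≤ lam ∧ ∀ (F : Finset (ℤ × ℤ)) (b' : Bool) (L : RswCfg → Prop), RswJordan F → pat232R a b (8 * n + 1) ⊆ F →
      MdlExt (pat232R a b (8 * n + 1)) L →
      (p ^ ((N1 + 1) ^ 2)) ^ 4 * lam * rswP t F b' L ≤ rswP t F b' (fun ω => L ω ∧ MdlPat (pat232R a b 0) ω₀ ω) ∧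
      rswP t F b' (fun ω => L ω ∧ MdlPat (pat232R a b 0) ω₀ ω) ≤ lam * rswP t F b' L := by
  have hn' : (2 : ℤ) ≤ n := by exact_mod_cast hn
  have hR : pat232R a b 1 ⊆ pat232R a b (7 * n + 1 + 1) := pat232_R_mono a b (by omega)
  have hΛ : pat232R a b (7 * n + 1 + 1) ⊆ pat232R a b (8 * n + 1) := pat232_R_mono a b (by omega)
  have hQR : ∀ v ∈ cornersOf (pat232R a b 0), ¬ OnPolygon (pat232R a b 1) v := pat232_R_deep a b (by omega)
  have hdeep : ∀ v ∈ cornersOf (pat232R a b (7 * n + 1 + 1)), ¬ OnPolygon (pat232R a b (8 * n + 1)) v := pat232_R_deep a b (by omega)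
  have hΛJ : RswJordan (pat232R a b (7 * n + 1 + 1)) := bp101_jordan_rect _ _ _ _ (by omega) (by omega)
  by_cases hf : Mdl141pFeas (pat232R a b 0) ω₀
  · refine ⟨mdl141pLam t (pat232R a b (7 * n + 1 + 1)) (pat232R a b 0) ω₀, mdl141p_lam_nonneg ht0 ht2.le _ _ _, fun F b' L hF hB hL => ?_⟩
    exact mdl141p_four_batches ht0 ht2 hR hΛ hB hQR hdeep b' (fun c K hK => hcmp F hF b' c K hK)
      (fun c K hK => hcmp _ hΛJ c c K hK) ω₀ hf hL (pow_nonneg hp0 _)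
      (fun c K hKQ => pat232_seal ht0 ht2 hcmp hp0 hp1 hc (by omega) hW1 hW2 hF hB b' c hKQ hL)
  · refine ⟨0, le_rfl, fun F b' L hF hB hL => ?_⟩
    have hQF : mdlEd (pat232R a b 0) ⊆ rswInt F := fun e he => rsk_int_mono ((hR.trans hΛ).trans hB) (mdl_ed_int hQR he)
    have e : rswP t F b' (fun ω => L ω ∧ MdlPat (pat232R a b 0) ω₀ ω) = 0 := by
      rw [rsb_P_congr (L' := fun _ => False) fun ω _ hw => ⟨fun h => mdl141p_pat_infeas hQF hf hw h.2, False.elim⟩]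
      exact rsb_P_false t F b'
    rw [e]
    simp

/-! ### chain rule (helper221 for 232), plane step, one mesh -/

/-- **(E) CHAIN RULE FOR EVENTS** (helper221; also done by helper287) -/
theorem pat232_chain {t : ℝ} (ht0 : 0 < t) (ht1 : t ≤ 1) {ι : Type} {F : Finset (ℤ × ℤ)} (b : Bool) (Q B : ι → Finset (ℤ × ℤ))
    (E : ι → RswCfg → Prop) (hE : ∀ i, Mdl141pRd (Q i) (E i)) (Lam : ι → ℝ) (hl0 : ∀ i, 0 ≤ Lam i)
    (hlam : ∀ i, ∀ L : RswCfg → Prop, MdlExt (B i) L → rswP t F b (fun ω => L ω ∧ E i ω) ≤ Lam i * rswP t F b L)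
    (hd : ∀ i j, i ≠ j → Disjoint (Q i) (B j)) (s : Finset ι) :
    rswP t F b (fun ω => ∀ i ∈ s, E i ω) ≤ ∏ i ∈ s, Lam i := by
  classical
  induction s using Finset.induction_on with
  | empty =>
    rw [Finset.prod_empty, mdl141p_P_congr t F b (L' := fun _ => True) fun ω => by simp, mdl141p_P_true ht0 ht1]
  | insert i s hi ih =>
    rw [Finset.prod_insert hi]
    have hL : MdlExt (B i) (fun ω => ∀ j ∈ s, E j ω) :=
      mdl141p_ext_forall s fun j hj => mdl141p_rd_ext (hd j i fun h => hi (h ▸ hj)) (hE j)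
    have h1 := hlam i _ hL
    rw [mdl141p_P_congr t F b (L' := fun ω => (∀ j ∈ s, E j ω) ∧ E i ω) fun ω => by
      rw [Finset.forall_mem_insert, and_comm]]
    exact h1.trans (mul_le_mul_of_nonneg_left ih (hl0 i))

/-- the two-sided record of one region `Q` with buffer `B` -/
def Pat232Rec (t c : ℝ) (Q B : Finset (ℤ × ℤ)) : Prop :=
  ∀ ω₀ : RswCfg, ∃ lam : ℝ, 0 ≤ lam ∧ ∀ (F : Finset (ℤ × ℤ)) (b' : Bool) (L : RswCfg → Prop), RswJordan F → B ⊆ F → MdlExt B L →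
      c * lam * rswP t F b' L ≤ rswP t F b' (fun ω => L ω ∧ MdlPat Q ω₀ ω) ∧
      rswP t F b' (fun ω => L ω ∧ MdlPat Q ω₀ ω) ≤ lam * rswP t F b' L

theorem pat232_pat_rd (Q : Finset (ℤ × ℤ)) (ω₀ : RswCfg) : Mdl141pRd Q (MdlPat Q ω₀) := by
  intro ω ω' h1 h2 h
  exact ⟨fun v hv => (h1 v hv).symm.trans (h.1 v hv), fun e he => (h2 e he).symm.trans (h.2 e he)⟩

theorem pat232_rec_empty {t c : ℝ} (ht0 : 0 < t) (ht1 : t ≤ 1) (hc : c ≤ 1) : Pat232Rec t c ∅ ∅ := by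
  intro ω₀
  refine ⟨1, zero_le_one, fun F b' L _ _ _ => ?_⟩
  have e : rswP t F b' (fun ω => L ω ∧ MdlPat ∅ ω₀ ω) = rswP t F b' L := by
    refine mdl141p_P_congr t F b' fun ω => ⟨fun h => h.1, fun h => ⟨h, ?_, ?_⟩⟩
    · intro v hv
      simp [cornersOf] at hv
    · intro e he
      rcases mdl_mem_ed.1 he with h | h <;> simp at h
  rw [e, mul_one, one_mul]
  exact ⟨mul_le_of_le_one_left (rsb_P_nonneg ht0 ht1 F b' _) hc, le_rfl⟩

/-- **one mesh, lattice form**: regions with the two-sided record and pairwise disjoint (region, buffer) -/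
theorem pat232_lat {t : ℝ} (ht1 : 1 / 2 ≤ t) (ht2 : t < 1) (hpl : Mdl141pPlane t) {c : ℝ} (hc : 0 < c) {m : ℕ} (Q B : Fin m → Finset (ℤ × ℤ))
    (hrec : ∀ i, Pat232Rec t c (Q i) (B i)) (hd : ∀ i j, i ≠ j → Disjoint (Q i) (B j)) :
    ∀ᶠ N : ℕ in atTop, ∀ ω₀ : Fin m → RswCfg,
      rswP t (rswBox 0 N) true (fun ω => ∀ i, MdlPat (Q i) (ω₀ i) ω) ≤ (c⁻¹) ^ m * ∏ i, mdlPiP t (MdlPat (Q i) (ω₀ i)) := by
  have ht0 : 0 < t := by linarith
  have hbig : ∀ᶠ N : ℕ in atTop, ∀ i ∈ (Finset.univ : Finset (Fin m)), B i ⊆ rswBox 0 N :=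
    (eventually_all_finset _).2 fun i _ => scr32p_ev_box _
  obtain ⟨N1, hN1⟩ := Filter.eventually_atTop.1 hbig
  filter_upwards [eventually_ge_atTop N1, eventually_ge_atTop 1] with N hN hN' ω₀
  choose lam hl0 hlam using fun i => hrec i (ω₀ i)
  have h1 := pat232_chain ht0 ht2.le (F := rswBox 0 N) true Q B (fun i => MdlPat (Q i) (ω₀ i)) (fun i => pat232_pat_rd _ _) lam hl0
    (fun i L hL => (hlam i _ true L (scr99_box_jordan 0 hN') (hN1 N hN i (Finset.mem_univ i)) hL).2) hd Finset.univ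
  have e : rswP t (rswBox 0 N) true (fun ω => ∀ i ∈ (Finset.univ : Finset (Fin m)), MdlPat (Q i) (ω₀ i) ω) =
      rswP t (rswBox 0 N) true (fun ω => ∀ i, MdlPat (Q i) (ω₀ i) ω) := mdl141p_P_congr t _ true fun ω => by simp
  rw [e] at h1
  refine h1.trans ?_
  have h2 : ∀ i, lam i ≤ c⁻¹ * mdlPiP t (MdlPat (Q i) (ω₀ i)) := by
    intro i
    have := (mdl141p_plane_bounds ht0 ht2.le hpl (fun z n hn => scr99_box_jordan z hn) (N1 := N1)
      (fun N hN => hN1 N hN i (Finset.mem_univ i)) (ω₀ i) (c := c * lam i) (lam := lam i) (hlam i)).1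
    rw [le_inv_mul_iff₀ hc]
    exact this
  calc ∏ i, lam i ≤ ∏ i, c⁻¹ * mdlPiP t (MdlPat (Q i) (ω₀ i)) := Finset.prod_le_prod (fun i _ => hl0 i) fun i _ => h2 i
    _ = (c⁻¹) ^ m * ∏ i, mdlPiP t (MdlPat (Q i) (ω₀ i)) := by
      rw [Finset.prod_mul_distrib, Finset.prod_const, Finset.card_univ, Fintype.card_fin]

/-! ### from real boxes to lattice rectangles -/

theorem pat232g_in {δ α β : ℝ} (hδ : 0 < δ) {v : ℤ} (h1 : α ≤ δ * v) (h2 : δ * v ≤ β) : ⌊α / δ⌋ - 1 ≤ v ∧ v < ⌈β / δ⌉ + 1 := by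
  have a1 : α / δ ≤ v := by rw [div_le_iff₀ hδ]; linarith
  have a2 : (v : ℝ) ≤ β / δ := by rw [le_div_iff₀ hδ]; linarith
  have b1 : ((⌊α / δ⌋ : ℤ) : ℝ) ≤ v := (Int.floor_le _).trans a1
  have b2 : (v : ℝ) ≤ ((⌈β / δ⌉ : ℤ) : ℝ) := a2.trans (Int.le_ceil _)
  have c1 : ⌊α / δ⌋ ≤ v := by exact_mod_cast b1
  have c2 : v ≤ ⌈β / δ⌉ := by exact_mod_cast b2
  omega

theorem pat232g_lt {δ α β : ℝ} (hδ : 0 < δ) (h : α ≤ β) : ⌊α / δ⌋ - 1 < ⌈β / δ⌉ + 1 := by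
  have a1 : α / δ ≤ β / δ := div_le_div_of_nonneg_right h hδ.le
  have b1 : ((⌊α / δ⌋ : ℤ) : ℝ) ≤ ((⌈β / δ⌉ : ℤ) : ℝ) := ((Int.floor_le _).trans a1).trans (Int.le_ceil _)
  have c1 : ⌊α / δ⌋ ≤ ⌈β / δ⌉ := by exact_mod_cast b1
  omega

theorem pat232g_len {δ α β M : ℝ} (hδ : 0 < δ) (h : β - α ≤ M) : ((⌈β / δ⌉ + 1 - (⌊α / δ⌋ - 1) : ℤ) : ℝ) ≤ M / δ + 4 := by
  have a1 := Int.ceil_lt_add_one (β / δ)
  have a2 := Int.lt_floor_add_one (α / δ)
  have a3 : β / δ - α / δ ≤ M / δ := by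
    rw [← sub_div]
    exact div_le_div_of_nonneg_right h hδ.le
  push_cast
  linarith

theorem pat232g_near {δ α β : ℝ} (hδ : 0 < δ) (hab : α ≤ β) {k x : ℤ} (hk : 0 ≤ k) (h1 : ⌊α / δ⌋ - 1 - k ≤ x) (h2 : x < ⌈β / δ⌉ + 1 + k) :
    ∃ p : ℝ, α ≤ p ∧ p ≤ β ∧ |p - δ * x| ≤ ((k : ℝ) + 2) * δ := by
  have a1 := Int.ceil_lt_add_one (β / δ)
  have a2 := Int.lt_floor_add_one (α / δ)
  rw [div_lt_iff₀ hδ] at a2
  have a1' : ((⌈β / δ⌉ : ℤ) : ℝ) - 1 < β / δ := by linarith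
  rw [lt_div_iff₀ hδ] at a1'
  have b1 : ((⌊α / δ⌋ : ℤ) : ℝ) - 1 - k ≤ x := by exact_mod_cast h1
  have b2 : (x : ℝ) ≤ ((⌈β / δ⌉ : ℤ) : ℝ) + k := by
    have : x ≤ ⌈β / δ⌉ + k := by omega
    exact_mod_cast this
  have c1 := mul_le_mul_of_nonneg_left b1 hδ.le
  have c2 := mul_le_mul_of_nonneg_left b2 hδ.le
  have hk' : (0 : ℝ) ≤ k := by exact_mod_cast hk
  have hkδ : 0 ≤ (k : ℝ) * δ := mul_nonneg hk' hδ.le
  rcases lt_or_ge (δ * x) α with h | h
  · refine ⟨α, le_rfl, hab, ?_⟩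
    rw [abs_le]
    constructor <;> nlinarith
  · rcases lt_or_ge β (δ * x) with h' | h'
    · refine ⟨β, hab, le_rfl, ?_⟩
      rw [abs_le]
      constructor <;> nlinarith
    · refine ⟨δ * x, h, h', ?_⟩
      rw [sub_self, abs_zero]
      nlinarith

/-- lower left / upper right lattice corners of the real box `[α, β]` at the mesh `δ` -/
noncomputable def pat232A (δ : ℝ) (α : ℝ × ℝ) : ℤ × ℤ := (⌊α.1 / δ⌋ - 1, ⌊α.2 / δ⌋ - 1)

noncomputable def pat232B (δ : ℝ) (β : ℝ × ℝ) : ℤ × ℤ := (⌈β.1 / δ⌉ + 1, ⌈β.2 / δ⌉ + 1)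

theorem pat232g_mem {δ : ℝ} (hδ : 0 < δ) {α β : ℝ × ℝ} {v : ℤ × ℤ} (hv : scr232P δ v ∈ Set.Icc α β) : v ∈ pat232R (pat232A δ α) (pat232B δ β) 0 := by
  obtain ⟨⟨a1, a2⟩, b1, b2⟩ := hv
  rw [pat232_mem_R]
  have h1 := pat232g_in hδ a1 b1
  have h2 := pat232g_in hδ a2 b2
  simp only [pat232A, pat232B]
  omega

theorem pat232g_disj {δ c0 : ℝ} (hδ : 0 < δ) {n : ℕ} (hn : (8 * (n : ℝ) + 5) * δ < c0) {α β α' β' : ℝ × ℝ} (h : α ≤ β) (h' : α' ≤ β')
    (hsep : ∀ p ∈ Set.Icc α β, ∀ q ∈ Set.Icc α' β', c0 ≤ dist p q) :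
    Disjoint (pat232R (pat232A δ α) (pat232B δ β) 0) (pat232R (pat232A δ α') (pat232B δ β') (8 * n + 1)) := by
  rw [Finset.disjoint_left]
  intro f hf hf'
  rw [pat232_mem_R] at hf hf'
  simp only [pat232A, pat232B] at hf hf'
  obtain ⟨p1, a1, a2, a3⟩ := pat232g_near hδ h.1 (k := 0) (x := f.1) le_rfl (by omega) (by omega)
  obtain ⟨p2, b1, b2, b3⟩ := pat232g_near hδ h.2 (k := 0) (x := f.2) le_rfl (by omega) (by omega)
  obtain ⟨q1, c1, c2, c3⟩ := pat232g_near hδ h'.1 (k := 8 * n + 1) (x := f.1) (by omega) (by omega) (by omega)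
  obtain ⟨q2, d1, d2, d3⟩ := pat232g_near hδ h'.2 (k := 8 * n + 1) (x := f.2) (by omega) (by omega) (by omega)
  have := hsep (p1, p2) ⟨⟨a1, b1⟩, a2, b2⟩ (q1, q2) ⟨⟨c1, d1⟩, c2, d2⟩
  have hlt : dist (p1, p2) (q1, q2) < c0 := by
    rw [Prod.dist_eq, max_lt_iff, Real.dist_eq, Real.dist_eq]
    push_cast at a3 b3 c3 d3
    rw [abs_le] at a3 b3 c3 d3
    constructor <;> rw [abs_lt] <;> constructor <;> nlinarith [a3.1, a3.2, b3.1, b3.2, c3.1, c3.2, d3.1, d3.2]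
  linarith

/-- the size condition of `pat232_one` -/
theorem pat232g_size {δ c0 M α β : ℝ} (hδ : 0 < δ) (hc0 : 0 < c0) (hab : α ≤ β) (hM : β - α ≤ M) {n : ℕ} (hn : 2 ≤ n) (hn2 : c0 / (20 * δ) < (n : ℝ) + 1) :
    (⌈β / δ⌉ + 1) - (⌊α / δ⌋ - 1) + 2 * (4 * (n : ℤ) + 1) ≤ n * (((⌈40 * M / c0⌉₊ + 14 : ℕ) : ℤ) + 1) := by
  have h1 := pat232g_len hδ hM
  have hM0 : 0 ≤ M := by linarith
  have h2 := Nat.le_ceil (40 * M / c0)
  rw [div_le_iff₀ hc0] at h2
  rw [div_lt_iff₀ (by positivity)] at hn2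
  have hn' : (2 : ℝ) ≤ n := by exact_mod_cast hn
  -- M / δ ≤ 40 M n / c0 ≤ n * ceil
  have h3 : M / δ ≤ n * (⌈40 * M / c0⌉₊ : ℝ) := by
    rw [div_le_iff₀ hδ]
    have e1 : c0 ≤ 40 * (n : ℝ) * δ := by nlinarith
    have e2 : M * c0 ≤ M * (40 * (n : ℝ) * δ) := mul_le_mul_of_nonneg_left e1 hM0
    have e3 : (n : ℝ) * δ * (40 * M) ≤ (n : ℝ) * δ * ((⌈40 * M / c0⌉₊ : ℝ) * c0) := mul_le_mul_of_nonneg_left h2 (by positivity)
    have e4 : M * c0 ≤ ((n : ℝ) * (⌈40 * M / c0⌉₊ : ℝ) * δ) * c0 := by nlinarith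
    exact le_of_mul_le_mul_right e4 hc0
  have : (((⌈β / δ⌉ + 1) - (⌊α / δ⌋ - 1) + 2 * (4 * (n : ℤ) + 1) : ℤ) : ℝ) ≤ ((n * (((⌈40 * M / c0⌉₊ + 14 : ℕ) : ℤ) + 1) : ℤ) : ℝ) := by
    push_cast at h1 ⊢
    nlinarith
  exact_mod_cast this

/-! ### the record -/

/-- (REC-PAT) for RECTANGLES, index `Fin m` -/
theorem pat232_fin {t : ℝ} (ht1 : 1 / 2 ≤ t) (ht2 : t < 1) (hcmp : Mdl141pCmp t) (hpl : Mdl141pPlane t)
    (hcirc : ∃ p : ℝ, 0 < p ∧ ∃ n0 : ℕ, ∀ n : ℕ, n0 ≤ n → Mdl141pCirc t 0 n p) (c0 M : ℝ) (hc0 : 0 < c0) (m : ℕ) :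
    ∃ C δ₀ : ℝ, 0 ≤ C ∧ 0 < δ₀ ∧ ∀ δ : ℝ, 0 < δ → δ < δ₀ → ∀ (U H : Fin m → Set (ℝ × ℝ)) (π : Fin m → RswCfg), Scr232gWin c0 M U H →
      scrPl t (fun ω => ∏ i, scrPatI δ (U i) (π i) ω) ≤ C * ∏ i, scrPl t (scrPatI δ (U i) (π i)) := by
  classical
  have ht0 : 0 < t := by linarith
  obtain ⟨p, hp, n0, hc⟩ := hcirc
  obtain ⟨q, hq0, hq1, hcq⟩ : ∃ q : ℝ, 0 < q ∧ q ≤ 1 ∧ ∀ n, n0 ≤ n → Pat232Circ t n q := by
    refine ⟨min p 1, lt_min hp one_pos, min_le_right _ _, fun n hn F z b a L hF hB hL => ?_⟩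
    exact (mul_le_mul_of_nonneg_right (min_le_left _ _) (rsb_P_nonneg ht0 ht2.le F b _)).trans
      (pat232_circ_of (hc n hn) F z b a L hF hB hL)
  obtain ⟨N1, hN1⟩ : ∃ N1 : ℕ, N1 = ⌈40 * M / c0⌉₊ + 14 := ⟨_, rfl⟩
  obtain ⟨c, hcdef⟩ : ∃ c : ℝ, c = (q ^ ((N1 + 1) ^ 2)) ^ 4 := ⟨_, rfl⟩
  have hcpos : 0 < c := by rw [hcdef]; positivity
  have hc1 : c ≤ 1 := by rw [hcdef]; exact pow_le_one₀ (by positivity) (pow_le_one₀ hq0.le hq1)
  refine ⟨(c⁻¹) ^ m, c0 / (20 * ((n0 : ℝ) + 2)), by positivity, by positivity, fun δ hδ hδ0 U H π hwin => ?_⟩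
  choose α β hH hM1 hM2 using hwin.box
  obtain ⟨n, hn⟩ : ∃ n : ℕ, n = ⌊c0 / (20 * δ)⌋₊ := ⟨_, rfl⟩
  have hx : (n0 : ℝ) + 2 ≤ c0 / (20 * δ) := by
    rw [lt_div_iff₀ (by positivity)] at hδ0
    rw [le_div_iff₀ (by positivity)]
    nlinarith
  have hn_ge : n0 + 2 ≤ n := by
    rw [hn]
    apply Nat.le_floor
    push_cast
    exact hx
  have hn_le : (n : ℝ) ≤ c0 / (20 * δ) := by rw [hn]; exact Nat.floor_le (by positivity)
  have hn_lt : c0 / (20 * δ) < (n : ℝ) + 1 := by rw [hn]; exact Nat.lt_floor_add_one _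
  have hsmall : (8 * (n : ℝ) + 5) * δ < c0 := by
    rw [le_div_iff₀ (by positivity)] at hn_le hx
    have : (0 : ℝ) ≤ n0 := Nat.cast_nonneg _
    nlinarith
  refine pat176_mesh ht1 ht2 U π (fun i => if α i ≤ β i then pat232R (pat232A δ (α i)) (pat232B δ (β i)) 0 else ∅) ?_
    (pat232_lat ht1 ht2 hpl hcpos _ (fun i => if α i ≤ β i then pat232R (pat232A δ (α i)) (pat232B δ (β i)) (8 * n + 1) else ∅) ?_ ?_)
  · intro i v hv
    have h1 : scr232P δ v ∈ Set.Icc (α i) (β i) := hH i ▸ hwin.sub i hv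
    have h2 : α i ≤ β i := h1.1.trans h1.2
    simp only [if_pos h2]
    exact pat232g_mem hδ h1
  · intro i
    by_cases h : α i ≤ β i
    · simp only [if_pos h]
      rw [hcdef]
      exact fun ω₀ => pat232_one ht0 ht2 hcmp hq0.le hq1 (hcq n (by omega)) (by omega) (pat232g_lt hδ h.1) (pat232g_lt hδ h.2)
        (by rw [hN1]; exact pat232g_size hδ hc0 h.1 (hM1 i) (by omega) hn_lt)
        (by rw [hN1]; exact pat232g_size hδ hc0 h.2 (hM2 i) (by omega) hn_lt) ω₀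
    · simp only [if_neg h]
      exact pat232_rec_empty ht0 ht2.le hc1
  · intro i j hij
    by_cases h : α i ≤ β i
    · by_cases h' : α j ≤ β j
      · simp only [if_pos h, if_pos h']
        exact pat232g_disj hδ hsmall h h' (fun p hp q hq => hwin.sep i j hij p (hH i ▸ hp) q (hH j ▸ hq))
      · simp only [if_neg h']
        exact Finset.disjoint_empty_right _
    · simp only [if_neg h]
      exact Finset.disjoint_empty_left _

/-- **the record `Scr232gPat`** (prop:pattern-comparison, upper bound, windows inside pairwise separated RECTANGLES) from (S0), (S1) at `k = 0`, the plane law -/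
theorem pat232_pat {t : ℝ} (ht1 : 1 / 2 ≤ t) (ht2 : t < 1) (hcmp : Mdl141pCmp t) (hpl : Mdl141pPlane t)
    (hcirc : ∃ p : ℝ, 0 < p ∧ ∃ n0 : ℕ, ∀ n : ℕ, n0 ≤ n → Mdl141pCirc t 0 n p) : Scr232gPat t := by
  classical
  intro c0 M hc0 ι _
  obtain ⟨C, δ₀, hC, hδ₀, H⟩ := pat232_fin ht1 ht2 hcmp hpl hcirc c0 M hc0 (Fintype.card ι)
  refine ⟨C, δ₀, hC, hδ₀, fun δ hδ hδ0 U Hb π hwin => ?_⟩
  obtain ⟨e⟩ : Nonempty (Fin (Fintype.card ι) ≃ ι) := ⟨(Fintype.equivFin ι).symm⟩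
  have h := H δ hδ hδ0 (fun i => U (e i)) (fun i => Hb (e i)) (fun i => π (e i))
    ⟨fun i => hwin.sub _, fun i => hwin.box _, fun i j hij => hwin.sep _ _ (e.injective.ne hij)⟩
  have e1 : ∀ ω, ∏ i, scrPatI δ (U (e i)) (π (e i)) ω = ∏ i, scrPatI δ (U i) (π i) ω := fun ω =>
    Equiv.prod_comp e (fun i => scrPatI δ (U i) (π i) ω)
  have e2 : ∏ i, scrPl t (scrPatI δ (U (e i)) (π (e i))) = ∏ i, scrPl t (scrPatI δ (U i) (π i)) :=
    Equiv.prod_comp e (fun i => scrPl t (scrPatI δ (U i) (π i)))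
  simp only [e1] at h
  rw [e2] at h
  exact h

/-- **the record `Scr232gPat` CLOSED** on the exits `exit_mdl_cmp` (S0), `exit_mdl_circ` (S1, `k = 0`), `exit_rsw_plane`. -/
theorem pat232_pat_closed (t : ℝ) (ht1 : 1 / 2 ≤ t) (ht2 : t < 1) : Scr232gPat t :=
  pat232_pat ht1 ht2 (exit_mdl_cmp t ht1 ht2) (exit_rsw_plane t ht1 ht2) (exit_mdl_circ t ht1 ht2 0)

/-- **`scr_cut_gap` from (P2), (P3) alone**: both records discharged (`pat232_pat_closed`, `scr232g_mom_closed`). -/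
theorem scr232g_cut_gap_closed (t : ℝ) (ht1 : 1 / 2 ≤ t) (ht2 : t < 1)
    (hrp : ∀ (j : Fin 4) (X : RswCfg → ℝ), ScrUp j X → 0 ≤ scrFm t j X X ∧ 0 ≤ scrFm t j X (scrSh (scrNor j) X))
    (htr : ∀ (j : Fin 4) (A B : RswCfg → ℝ), ScrUp j A → ScrUp j B → ∀ N : ℕ,
      Claimed.Agent.R291.PinTr ((scrFm t j A A + scrFm t j B B) / 2) N
        (fun m => ((scrFm t j A (scrSh (((m + N : ℕ) : ℤ) • scrNor j) B) : ℝ) : ℂ)))
    (x0 y0 s w h g r : ℝ) (hsc : ScrScene s w h g r)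
    (blk : Fin 4 → Set (ℝ × ℝ)) (hblk : ∀ i, blk i ⊆ scrHull x0 y0 s w h g r i)
    (φ : ℝ × ℝ → ℝ) (hφ : ContDiff ℝ ((⊤ : ℕ∞) : WithTop ℕ∞) φ) (hφs : tsupport φ ⊆ Metric.ball (x0, y0) (r / 2))
    (δ : ℕ → ℝ) (hδ : ∀ n, 0 < δ n) (hδ0 : Tendsto δ atTop (𝓝 0)) (ε : ℝ) (hε : 0 < ε) :
    ∀ᶠ n in atTop, ∀ (π : Fin 4 → RswCfg) (Fc : Fin 4 → RswCfg → ℝ), (∀ i ω, |Fc i ω| ≤ 1) →
      (∀ i, ScrIn (δ n) (blk i) (Fc i)) →
      |scrPl t fun ω => scrIns (δ n) (x0, y0) φ ω * ∏ i, (scrPatI (δ n) (blk i) (π i) ω * Fc i ω)|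
        ≤ ε * ∏ i, scrPl t (scrPatI (δ n) (blk i) (π i)) :=
  scr232g_cut_gap t ht1 ht2 hrp htr (pat232_pat_closed t ht1 ht2) (scr232g_mom_closed t ht1 ht2) x0 y0 s w h g r hsc blk hblk φ hφ hφs δ hδ hδ0 ε hε

end Claimed.Agent.R292
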