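import Claimed.Agent.R292.Defs.ScreenIns
import Claimed.Agent.R292.Exit.RSW
import Claimed.Agent.R292.Screen.Cut229
import Claimed.Agent.R292.Screen.Cut229c
import Claimed.Agent.R292.Screen.Sep232
import Claimed.Agent.R292.Screen.Col61
import Claimed.Agent.R292.Screen.Asm129
import Claimed.Agent.R292.Screen.Flat32

/-!
# Row 292 (S0540), Screen/Cut229b : TYPED LEAVES OF THE UNIT "SCREEN", PART 2 = THE CHAIN OF SEC 5      (typed by helper229; prefix `scr_cut_`)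

`at_screen ⇐ (FLAT) ⇐ (PL) ⇐ (SEP) + (COL) + moments;   (COL) ⇐ (GAP) + (M52) + counts + colours;   (GAP) ⇐ (P3) + (R53) + reflection-null + Place232 + Gap99;   (R53) ⇐ (M52) + pattern comparison`.
DESIGN.  (a) blocks `blk i` = ARBITRARY subsets of the four solid rectangles `scrHull` (the indentations = holes of the trials are subsets; pattern comparison only uses the rectangular buffers);
(b) all conditional `L¹` norms are in DUAL form (`sup` over `|G| ≤ 1`), all normalisations in PRODUCT form (no division);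
(c) the coupling of Lemma 5.8 is made in FINITE volume (a flat domain containing a huge box), never in the plane: (SEP) is a statement on `rswE t F true`.
* (GAP) `scr_cut_gap`     Lemma 5.5 gapped pattern identity, plane law
* (M52) `scr_cut_mom`     Lemma 5.2 second moments of the insertion under separated patterns, plane law (product form), original + mirrored blocks at every placement
* (COL) `scr_cut_col`     Lemma 5.6 adding core colours, plane law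
* (SEP) `scr_cut_sep`     Lemmas 5.7 + 5.8 + (5.13): the separation inequality, ANY bounded observable of the core
* (PL)  `scr_cut_plane`   Prop 5.1 in the plane
* (FLAT) `scr_cut_flat`   Prop 5.1 in flat domains, insertion `scrIns`
ALL CLOSED (22:25Z Oct 15): (PAT) = 232 `pat232_pat_closed` (rectangles; seal by a net of small circuits + four batches of 141 + chain 287 + mesh 176);  (M52) = 221 `mom221_pl` + 232 `scr232g_mom_closed`;
(GAP) = 232 `scr232g_cut_gap` (Sep232) from (P2) (P3) (PAT) (M52);  (COL) = 32 + 176 + 61 `scr61_col`;  (SEP) = 129 `scs129_cut_sep` from Cut229c;  (PL) = 262 `scp262_cut_plane`;  (FLAT) = 32 `scr32f_cut_flat` (+ 252, 262).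
NO sorry of the unit SCREEN is left; the chain owes only exits of the units RSW and MODEL.
-/

set_option autoImplicit false

namespace Claimed.Agent.R292

open Claims Claims.C0468 Filter Topology

/-- (PAT) prop:pattern-comparison, upper bound, plane law, windows in separated boxes (record of 232, `Sep232`).   From (S3) `exit_mdl_pattern` + the plane limit. -/
theorem scr_cut_pat (t : ℝ) (ht1 : 1 / 2 ≤ t) (ht2 : t < 1) : Scr232gPat t :=
  pat232_pat_closed t ht1 ht2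

/-- (M52) Lemma 5.2, `p = 2`, product form, insertion of ARBITRARY real centre `z` moved by a lattice vector (record of 232, `Sep232`). -/
theorem scr_cut_mom (t : ℝ) (ht1 : 1 / 2 ≤ t) (ht2 : t < 1) : Scr232gMom t :=
  scr232g_mom_closed t ht1 ht2

/-- (GAP) Lemma 5.5. -/
theorem scr_cut_gap (t : ℝ) (ht1 : 1 / 2 ≤ t) (ht2 : t < 1) (x0 y0 s w h g r : ℝ) (hsc : ScrScene s w h g r)
    (blk : Fin 4 → Set (ℝ × ℝ)) (hblk : ∀ i, blk i ⊆ scrHull x0 y0 s w h g r i)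
    (φ : ℝ × ℝ → ℝ) (hφ : ContDiff ℝ ((⊤ : ℕ∞) : WithTop ℕ∞) φ) (hφs : tsupport φ ⊆ Metric.ball (x0, y0) (r / 2))
    (δ : ℕ → ℝ) (hδ : ∀ n, 0 < δ n) (hδ0 : Tendsto δ atTop (𝓝 0)) (ε : ℝ) (hε : 0 < ε) :
    ∀ᶠ n in atTop, ∀ (π : Fin 4 → RswCfg) (Fc : Fin 4 → RswCfg → ℝ), (∀ i ω, |Fc i ω| ≤ 1) →
      (∀ i, ScrIn (δ n) (blk i) (Fc i)) →
      |scrPl t fun ω => scrIns (δ n) (x0, y0) φ ω * ∏ i, (scrPatI (δ n) (blk i) (π i) ω * Fc i ω)|
        ≤ ε * ∏ i, scrPl t (scrPatI (δ n) (blk i) (π i)) :=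
  scr232g_cut_gap t ht1 ht2 (scr_cut_rp t ht1 ht2) (scr_cut_tr t ht1 ht2) (scr_cut_pat t ht1 ht2) (scr_cut_mom t ht1 ht2)
    x0 y0 s w h g r hsc blk hblk φ hφ hφs δ hδ hδ0 ε hε

/-- (COL) Lemma 5.6. -/
theorem scr_cut_col (t : ℝ) (ht1 : 1 / 2 ≤ t) (ht2 : t < 1) (x0 y0 s w h g r c0 : ℝ) (hsc : ScrScene s w h g r) (hc0 : 0 < c0)
    (blk : Fin 4 → Set (ℝ × ℝ)) (hblk : ∀ i, blk i ⊆ scrHull x0 y0 s w h g r i)
    (φ : ℝ × ℝ → ℝ) (hφ : ContDiff ℝ ((⊤ : ℕ∞) : WithTop ℕ∞) φ) (hφs : tsupport φ ⊆ Metric.ball (x0, y0) (r / 2))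
    (δ : ℕ → ℝ) (hδ : ∀ n, 0 < δ n) (hδ0 : Tendsto δ atTop (𝓝 0)) (ε : ℝ) (hε : 0 < ε) :
    ∀ᶠ n in atTop, ∀ (sel : (Fin 4 → ScrPatT) → Finset (ℤ × ℤ)), ScrCore (δ n) c0 blk sel →
      ∀ G : (Fin 4 → ScrPatT) × Finset (ℤ × ℤ) → ℝ, (∀ y, |G y| ≤ 1) →
      |scrPl t fun ω => scrIns (δ n) (x0, y0) φ ω * G (scrY (δ n) blk sel ω)| ≤ ε :=
  scr61_col t ht1 ht2 (scr_cut_gap t ht1 ht2) x0 y0 s w h g r c0 hsc hc0 blk hblk φ hφ hφs δ hδ hδ0 ε hε

/-- (SEP) Lemmas 5.7, 5.8 and the chain (5.13): for every tolerance there is a layout inside `Q = scrSq z r` such that every bounded observable `X` of the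
core is, up to the tolerance, no more correlated with the exterior of `Q` than with the data `Y` of some pattern-measurable selection of core colours. -/
theorem scr_cut_sep (t : ℝ) (ht1 : 1 / 2 ≤ t) (ht2 : t < 1) (z : ℝ × ℝ) (r : ℝ) (hr : 0 < r) (η : ℝ) (hη : 0 < η) :
    ∃ (s w h g c0 : ℝ) (blk : Fin 4 → Set (ℝ × ℝ)), ScrScene s w h g (r / 400) ∧ s < r ∧ 0 < c0 ∧
      (∀ i, blk i ⊆ scrHull z.1 z.2 s w h g (r / 400) i) ∧
      ∀ δ : ℕ → ℝ, (∀ n, 0 < δ n) → Tendsto δ atTop (𝓝 0) → ∀ᶠ n in atTop, ∃ n0 : ℕ, ∀ F : Finset (ℤ × ℤ), RswJordan F →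
        rswBox 0 n0 ⊆ F → ∀ X G : RswCfg → ℝ, (∀ ω, |X ω| ≤ 1) → (∀ ω, |G ω| ≤ 1) →
        ScrIn (δ n) (Metric.closedBall z (r / 400)) X → ScrIn (δ n) (scrSq z r)ᶜ G →
        ∃ (sel : (Fin 4 → ScrPatT) → Finset (ℤ × ℤ)) (G' : (Fin 4 → ScrPatT) × Finset (ℤ × ℤ) → ℝ),
          ScrCore (δ n) c0 blk sel ∧ (∀ y, |G' y| ≤ 1) ∧
          |rswE t F true fun ω => X ω * G ω| ≤ |rswE t F true fun ω => X ω * G' (scrY (δ n) blk sel ω)| + η :=
  scs129_cut_sep t ht1 ht2 (scr_cut_ci t ht1 ht2) (scr_cut_tv t ht1 ht2) (scr_cut_shield t ht1 ht2) z r hr η hη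

/-- (PL) Prop 5.1 in the plane. -/
theorem scr_cut_plane (t : ℝ) (ht1 : 1 / 2 ≤ t) (ht2 : t < 1) (z : ℝ × ℝ) (r : ℝ) (hr : 0 < r)
    (φ : ℝ × ℝ → ℝ) (hφ : ContDiff ℝ ((⊤ : ℕ∞) : WithTop ℕ∞) φ) (hφs : tsupport φ ⊆ Metric.ball z (r / 900))
    (δ : ℕ → ℝ) (hδ : ∀ n, 0 < δ n) (hδ0 : Tendsto δ atTop (𝓝 0)) (ε : ℝ) (hε : 0 < ε) :
    ∀ᶠ n in atTop, ∀ G : RswCfg → ℝ, ScrLoc G → (∀ ω, |G ω| ≤ 1) → ScrIn (δ n) (scrSq z r)ᶜ G →
      |scrPl t fun ω => scrIns (δ n) z φ ω * G ω| ≤ ε :=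
  scp262_cut_plane (by linarith) ht2.le (exit_rsw_plane t ht1 ht2) (exit_rsw_mom_plane t ht1 ht2) (scr_cut_sep t ht1 ht2)
    (scr_cut_col t ht1 ht2) z r hr φ hφ hφs δ hδ hδ0 ε hε

/-- (FLAT) Prop 5.1 in flat domains. -/
theorem scr_cut_flat (t : ℝ) (ht1 : 1 / 2 ≤ t) (ht2 : t < 1) (z : ℝ × ℝ) (r r' : ℝ) (hr : 0 < r) (hrr : r < r')
    (φ : ℝ × ℝ → ℝ) (hφ : ContDiff ℝ ((⊤ : ℕ∞) : WithTop ℕ∞) φ) (hφs : tsupport φ ⊆ Metric.ball z (r / 900))
    (δ : ℕ → ℝ) (hδ : ∀ n, 0 < δ n) (hδ0 : Tendsto δ atTop (𝓝 0)) (ε : ℝ) (hε : 0 < ε) :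
    ∀ᶠ n in atTop, ∀ F : Finset (ℤ × ℤ), ScrFlat (δ n) F → scrSq z r' ⊆ faceRegionSq (δ n) F →
      ∀ G : RswCfg → ℝ, (∀ ω, |G ω| ≤ 1) → ScrIn (δ n) (scrSq z r)ᶜ G →
      |rswE t F true fun ω => scrIns (δ n) z φ ω * G ω| ≤ ε :=
  scr32f_cut_flat t ht1 ht2 (scr_cut_plane t ht1 ht2) z r r' hr hrr φ hφ hφs δ hδ hδ0 ε hε

end Claimed.Agent.R292
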