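import Claimed.Agent.R292.Screen.Shield99
import Claimed.Agent.R292.Rsw.Dual251
import Claimed.Agent.R292.Model.Arm101

/-!
# Row 292 (S0540), unit SCREEN, Screen/Arm25 : (SHIELD) (a) = THE TWO TUBES = `ScrShArm t`      (pen helper25; prefix `scr25`)

`scr25_arm (t) (ht1 : 1/2 ≤ t) (ht2 : t < 1) : ScrShArm t`   (record of `Screen/Shield99`, chief 99), from (S0) `exit_mdl_cmp`, (S1) `exit_mdl_circ` (ratio `k = 0`), the planar duality `rdu251_duality'` of 251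
and the atoms / FKG over a finite family of `Model/Basic` (191).
PLAN.  `n = ⌊wh / (8 δ)⌋`.  Each arm lives in a tube of faces `[xc, xc + 2 n + 1) × [Y0, Y1)` next to the hole; `m = ⌈4 / q⌉` plus circuits in the annuli `Λ_{2n}(xc, c_i) \ Λ_n(xc, c_i)`
(`c_i = min (Y0 + n + 2 n i) Y1`) forbid every left-right chain of faces of the tube (it starts in some `Λ_n(xc, c_i)` and ends off `Λ_{2n}(xc, c_i)`), so the tube is crossed from bottom to top by plus good edges.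
* sec. 1  probability: `scr25_prob` (atoms of the buffer + FKG under pins + (S1) on every atom)
* sec. 2  the tube: `scr25_tube`
* sec. 3  geometry of the layout: `scr25_hull`, `scr25_not_hole`
* sec. 4  a crossing of the tube is an arm;  sec. 5  numbers;  sec. 6  assembly: `scr25_arm`  (0 own sorry; cites the contracts `exit_mdl_cmp`, `exit_mdl_circ` of MODEL)
-/

set_option autoImplicit false

namespace Claimed.Agent.R292

open Claims Claims.C0468 Filter Topology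

/-! ## 1. probability -/

/-- a separation by good edges of colour `a` is increasing in the order (3.4) of colour `a` -/
theorem scr25_sep_inc (F : Finset (ℤ × ℤ)) (a : Bool) (A T : Finset (ℤ × ℤ)) :
    MdlIncP a (fun ω => RswSep F a ω A T) := by
  intro ω ω' hle h f hf g hg hp
  refine h f hf g hg (Relation.ReflTransGen.mono ?_ f g hp)
  rintro x y ⟨hx, hy, e, he, hne⟩
  exact ⟨hx, hy, e, he, fun hg' => hne (hle.2.1 e hg')⟩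

/-- an atom of the buffer `B` is exterior data of `B` -/
theorem scr25_atom_ext {F B : Finset (ℤ × ℤ)} {S₀ : Finset (ℤ × ℤ)} {O₀ : Finset ((ℤ × ℤ) × Bool)}
    (hS : S₀ ⊆ mdlVext F B) (hO : O₀ ⊆ mdlEext F B) : MdlExt B (fun ω => (mdlAtom F B S₀ O₀).Holds ω) := by
  intro ω ω' h1 h2
  show (mdlAtom F B S₀ O₀).Holds ω ↔ (mdlAtom F B S₀ O₀).Holds ω'
  rw [mdl_atom_holds hS hO, mdl_atom_holds hS hO]
  have e1 : ω.S ∩ mdlVext F B = ω'.S ∩ mdlVext F B := by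
    ext v
    simp only [Finset.mem_inter]
    constructor
    · rintro ⟨a, b⟩; exact ⟨(h1 v (mdl_mem_vext.1 b).2).1 a, b⟩
    · rintro ⟨a, b⟩; exact ⟨(h1 v (mdl_mem_vext.1 b).2).2 a, b⟩
  have e2 : ω.O ∩ mdlEext F B = ω'.O ∩ mdlEext F B := by
    ext e
    simp only [Finset.mem_inter]
    constructor
    · rintro ⟨a, b⟩; exact ⟨(h2 e (Finset.mem_sdiff.1 b).2).1 a, b⟩
    · rintro ⟨a, b⟩; exact ⟨(h2 e (Finset.mem_sdiff.1 b).2).2 a, b⟩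
  rw [e1, e2]

theorem scr25_sumK_mono {t : ℝ} (ht0 : 0 ≤ t) (ht1 : t ≤ 1) (F : Finset (ℤ × ℤ)) (b : Bool) (K : MdlPin)
    {X Y : RswCfg → ℝ} (h : ∀ ω, X ω ≤ Y ω) : mdlSumK t F b K X ≤ mdlSumK t F b K Y := by
  classical
  unfold mdlSumK
  rw [mdl_sum_idx, mdl_sum_idx]
  refine Finset.sum_le_sum fun x _ => mul_le_mul_of_nonneg_left ?_ (rsk_wt_nonneg ht0 ht1 F b _)
  split_ifs
  · exact h _
  · exact le_rfl

/-- from probabilities to unnormalised sums under prescriptions -/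
theorem scr25_sumK_of_P {t : ℝ} (ht0 : 0 < t) (ht1 : t ≤ 1) (F : Finset (ℤ × ℤ)) (b : Bool) (K : MdlPin) {p : ℝ}
    {E : RswCfg → Prop}
    (h : p * rswP t F b (fun ω => K.Holds ω) ≤ rswP t F b fun ω => K.Holds ω ∧ E ω) :
    p * mdlSumK t F b K (fun _ => 1) ≤ mdlSumK t F b K (mdlInd E) := by
  classical
  have hZ := rsk_sum_one_pos ht0 ht1 F b
  rw [mdl_P_eq, mdl_P_eq] at h
  unfold rswE at h
  rw [← mul_div_assoc, div_le_div_iff_of_pos_right hZ] at h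
  have e1 : rswSum t F b (mdlInd fun ω => K.Holds ω) = mdlSumK t F b K (fun _ => 1) := by
    unfold mdlSumK
    refine mdl_sum_congr t F b fun ω => ?_
    by_cases h1 : K.Holds ω
    · rw [mdl_ind_pos h1, if_pos h1]
    · rw [mdl_ind_neg h1, if_neg h1]
  have e2 : rswSum t F b (mdlInd fun ω => K.Holds ω ∧ E ω) = mdlSumK t F b K (mdlInd E) := by
    unfold mdlSumK
    refine mdl_sum_congr t F b fun ω => ?_
    rw [mdl_ind_and]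
    by_cases h1 : K.Holds ω
    · rw [mdl_ind_pos h1, if_pos h1, one_mul]
    · rw [mdl_ind_neg h1, if_neg h1, zero_mul]
  rw [e1, e2] at h
  exact h

/-- **PROBABILITY**: a finite family of increasing events, each of conditional probability `≥ p` given any exterior data of the buffer `B`, holds simultaneously with
conditional probability `≥ p ^ card` given any exterior data of `B`. -/
theorem scr25_prob {t : ℝ} (ht1 : 1 / 2 ≤ t) (ht2 : t < 1) {F B : Finset (ℤ × ℤ)} (hF : RswJordan F)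
    {L : RswCfg → Prop} (hL : MdlExt B L) {ι : Type} (J : Finset ι) (T : ι → RswCfg → Prop)
    (hinc : ∀ j ∈ J, MdlIncP true (T j)) {p : ℝ} (hp : 0 ≤ p)
    (hT : ∀ j ∈ J, ∀ L' : RswCfg → Prop, MdlExt B L' →
      p * rswP t F true L' ≤ rswP t F true fun ω => L' ω ∧ T j ω)
    (E : RswCfg → Prop) (hE : ∀ ω, (∀ j ∈ J, T j ω) → E ω) :
    p ^ J.card * rswP t F true L ≤ rswP t F true fun ω => L ω ∧ E ω := by
  have ht0 : 0 < t := by linarith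
  refine mdl_P_of_atoms ht0 ht2.le F B true hL _ E fun S₀ hS O₀ hO => ?_
  have hfkg : MdlFkgAt t F true true (mdlAtom F B S₀ O₀) := fun X Y hX hY =>
    exit_mdl_cmp t ht1 ht2 F hF true true _ (mdl_atom_ok hO) X Y hX hY
  have h1 := mdl_fkg_prod ht0.le ht2.le hfkg J T hinc hp fun j hj =>
    scr25_sumK_of_P ht0 ht2.le F true _ (hT j hj _ (scr25_atom_ext hS hO))
  refine h1.trans (scr25_sumK_mono ht0.le ht2.le F true _ fun ω => ?_)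
  by_cases h : ∀ j ∈ J, T j ω
  · rw [mdl_ind_pos (E := fun ω => ∀ j ∈ J, T j ω) h, mdl_ind_pos (hE ω h)]
  · rw [mdl_ind_neg (E := fun ω => ∀ j ∈ J, T j ω) h]
    exact mdl_ind_nonneg _ _

/-! ## 2. the tube -/

/-- the heights of the centres of the annuli -/
def scr25C (Y0 Y1 : ℤ) (n i : ℕ) : ℤ := min (Y0 + n + 2 * n * i) Y1

/-- **THE TUBE**: `m` plus circuits in small annuli centred on the left column forbid every left-right chain of faces, so the tube is crossed from bottom to top by plus good edges. -/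
theorem scr25_tube {F : Finset (ℤ × ℤ)} {ω : RswCfg} {xc Y0 Y1 : ℤ} {n m : ℕ} (hn : 1 ≤ n) (hY : Y0 < Y1)
    (hm : Y1 - Y0 ≤ 2 * n * m)
    (hR : ∀ f : ℤ × ℤ, f ∈ rdu251Rect xc (xc + 2 * n + 1) Y0 Y1 → f ∈ F)
    (hT : ∀ i ∈ Finset.range m,
      RswSep F true ω (rswBox (xc, scr25C Y0 Y1 n i) n) (F \ rswBox (xc, scr25C Y0 Y1 n i) (2 * n))) :
    Rdu251PrimBT xc (xc + 2 * n + 1) Y0 Y1 {e | RswGood true ω e} := by
  rw [rdu251_duality' (by omega) hY]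
  rintro ⟨f, g, hf, hf1, hg, hg1, hch⟩
  have hf' := hf
  obtain ⟨-, -, hfc, hfd⟩ := hf'
  have hn' : (0 : ℤ) < 2 * n := by omega
  have hq0 : 0 ≤ (f.2 - Y0) / (2 * n) := Int.ediv_nonneg (by omega) hn'.le
  obtain ⟨i, hi⟩ := Int.eq_ofNat_of_zero_le hq0
  have h1 : (i : ℤ) * (2 * n) ≤ f.2 - Y0 := by rw [← hi]; exact Int.ediv_mul_le _ hn'.ne'
  have h2 : f.2 - Y0 < ((i : ℤ) + 1) * (2 * n) := by rw [← hi]; exact Int.lt_ediv_add_one_mul_self _ hn'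
  have him : i < m := by
    have h3 : (i : ℤ) * (2 * n) < (m : ℤ) * (2 * n) := by nlinarith
    have h4 : (i : ℤ) < m := lt_of_mul_lt_mul_right h3 hn'.le
    exact_mod_cast h4
  have hsep := hT i (Finset.mem_range.2 him)
  refine hsep f ?_ g ?_ (Relation.ReflTransGen.mono ?_ f g hch)
  · unfold rswBox scr25C
    simp only [Finset.mem_product, Finset.mem_Ico]
    refine ⟨⟨by omega, by omega⟩, ?_, ?_⟩
    · have := min_le_left (Y0 + n + 2 * n * i) Y1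
      nlinarith
    · have : f.2 - n < min (Y0 + n + 2 * n * i) Y1 := lt_min (by nlinarith) (by omega)
      linarith
  · refine Finset.mem_sdiff.2 ⟨hR g hg, ?_⟩
    unfold rswBox
    simp only [Finset.mem_product, Finset.mem_Ico, not_and, not_lt]
    intro h _
    exfalso
    have := h.2
    push_cast at this
    omega
  · rintro x y ⟨hx, hy, e, he, hne⟩
    exact ⟨hR x hx, hR y hy, e, he, hne⟩

/-! ## 3. geometry of the layout -/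

/-- vertical direction of the arm `b` of the gap `k` -/
def scr25Dir (k : Fin 4) (b : Bool) : ℝ := (if b then -1 else 1) * (![1, 1, -1, -1] k : ℝ)

theorem scr25_dir_cases (k : Fin 4) (b : Bool) : scr25Dir k b = 1 ∨ scr25Dir k b = -1 := by
  fin_cases k <;> cases b <;> simp [scr25Dir]

theorem scr25_Rt_pos {Λ : ScrLay} (hΛ : Λ.Ok) : 0 < Λ.Rt := by
  unfold ScrLay.Rt
  have h1 : (0 : ℝ) < Λ.M := by exact_mod_cast hΛ.hM
  have h2 := hΛ.hws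
  exact div_pos (by linarith) (by linarith)

theorem scr25_Rt_M {Λ : ScrLay} (hΛ : Λ.Ok) : 2 * (Λ.M : ℝ) * Λ.Rt = Λ.s - Λ.w := by
  unfold ScrLay.Rt
  have h1 : (0 : ℝ) < Λ.M := by exact_mod_cast hΛ.hM
  field_simp

theorem scr25_j {Λ : ScrLay} (hΛ : Λ.Ok) {j : ℕ} (hj : j < Λ.M) :
    0 ≤ (j : ℝ) * Λ.Rt ∧ Λ.w + (2 * (j : ℝ) + 1) * Λ.Rt + Λ.Rt ≤ Λ.s := by
  have h0 := scr25_Rt_pos hΛ
  have h1 := scr25_Rt_M hΛ
  have h2 : (j : ℝ) + 1 ≤ Λ.M := by exact_mod_cast hj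
  constructor
  · positivity
  · nlinarith

theorem scr25_wh {Λ : ScrLay} (hΛ : Λ.Ok) : 0 < Λ.wh ∧ Λ.wh ≤ Λ.Rt / 40 := by
  have h0 := scr25_Rt_pos hΛ
  have h1 := hΛ.hq
  have h2 := hΛ.hq'
  unfold ScrLay.wh
  constructor
  · positivity
  · nlinarith

/-- a point in the half strip over (under) the centre of the trial lies in the hull of the neighbouring block -/
theorem scr25_hull {Λ : ScrLay} (hΛ : Λ.Ok) (k : Fin 4) (b : Bool) {j : ℕ} (hj : j < Λ.M) {p : ℝ × ℝ}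
    (hx : |p.1 - (Λ.cen k j).1| ≤ 3 / 10 * Λ.Rt) (hy1 : Λ.g ≤ scr25Dir k b * (p.2 - (Λ.cen k j).2))
    (hy2 : scr25Dir k b * (p.2 - (Λ.cen k j).2) ≤ 7 / 10 * Λ.Rt) : p ∈ Λ.hull (ScrLay.adj k b) := by
  have h0 := scr25_Rt_pos hΛ
  obtain ⟨hj0, hj1⟩ := scr25_j hΛ hj
  have hK := hΛ.hK
  have hT := hΛ.hT
  have hg := hΛ.sc.hg
  have hr0 := hΛ.sc.hr0
  have hw := hΛ.sc.hw
  obtain ⟨hx1, hx2⟩ := abs_le.1 hx
  clear hx
  fin_cases k <;> cases b <;>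
    simp [ScrLay.cen, scr25Dir] at hx1 hx2 hy1 hy2 <;>
    simp [ScrLay.hull, scrHull, ScrLay.adj, scr232Obj, abs_le] <;>
    (repeat' apply And.intro) <;> nlinarith

theorem scr25_cen_snd (Λ : ScrLay) (k : Fin 4) (j : ℕ) :
    (Λ.cen k j).2 = Λ.y0 + Λ.h ∨ (Λ.cen k j).2 = Λ.y0 - Λ.h := by
  fin_cases k <;> simp [ScrLay.cen, sub_eq_add_neg]

theorem scr25_not_hole {Λ : ScrLay} (hΛ : Λ.Ok) (k : Fin 4) (j : ℕ) {p : ℝ × ℝ}
    (hy1 : Λ.wh ≤ |p.2 - (Λ.cen k j).2|) (hy2 : |p.2 - (Λ.cen k j).2| ≤ Λ.Rt / 2) (k' : Fin 4) (j' : ℕ) :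
    p ∉ Λ.hole k' j' := by
  intro hmem
  unfold ScrLay.hole at hmem
  rw [Metric.mem_ball, Prod.dist_eq, max_lt_iff, Real.dist_eq, Real.dist_eq] at hmem
  obtain ⟨-, h2⟩ := hmem
  have h0 := scr25_Rt_pos hΛ
  obtain ⟨hw0, hw1⟩ := scr25_wh hΛ
  have hK := hΛ.hK
  have hg := hΛ.sc.hg
  have hr0 := hΛ.sc.hr0
  obtain ⟨h3, h4⟩ := abs_lt.1 h2
  obtain ⟨h5, h6⟩ := abs_le.1 hy2
  rcases scr25_cen_snd Λ k j with e | e <;> rcases scr25_cen_snd Λ k' j' with e' | e' <;>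
    rw [e] at hy1 h5 h6 <;> rw [e'] at h3 h4 <;> rcases le_abs'.1 hy1 with h7 | h7 <;> linarith

theorem scr25_abs_dir {d x : ℝ} (hd : d = 1 ∨ d = -1) : |d * x| = |x| := by
  rcases hd with rfl | rfl <;> simp

/-- the tube lies in the block and in the half trial square -/
theorem scr25_region {Λ : ScrLay} (hΛ : Λ.Ok) (k : Fin 4) (b : Bool) {j : ℕ} (hj : j < Λ.M) {p : ℝ × ℝ}
    (hx : |p.1 - (Λ.cen k j).1| ≤ Λ.wh / 2) (hy1 : Λ.wh ≤ scr25Dir k b * (p.2 - (Λ.cen k j).2))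
    (hy2 : scr25Dir k b * (p.2 - (Λ.cen k j).2) ≤ Λ.Rt / 2) :
    p ∈ Λ.blk (ScrLay.adj k b) ∩ Metric.closedBall (Λ.cen k j) (Λ.Rt / 2) := by
  have h0 := scr25_Rt_pos hΛ
  obtain ⟨hw0, hw1⟩ := scr25_wh hΛ
  have hg := hΛ.hg
  have habs : |p.2 - (Λ.cen k j).2| = scr25Dir k b * (p.2 - (Λ.cen k j).2) := by
    rw [← scr25_abs_dir (scr25_dir_cases k b), abs_of_nonneg (by linarith)]
  refine ⟨⟨scr25_hull hΛ k b hj (by linarith) (by linarith) (by linarith), ?_⟩, ?_⟩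
  · simp only [Set.mem_iUnion, not_exists]
    intro k' j' _
    exact scr25_not_hole hΛ k j (by rw [habs]; exact hy1) (by rw [habs]; exact hy2) k' j'
  · rw [Metric.mem_closedBall, Prod.dist_eq, Real.dist_eq, Real.dist_eq, habs]
    exact max_le (by linarith) hy2

/-- the far end of the tube lies in the core of the block -/
theorem scr25_core {Λ : ScrLay} (hΛ : Λ.Ok) (k : Fin 4) (b : Bool) {j : ℕ} (hj : j < Λ.M) {p : ℝ × ℝ} {δ : ℝ}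
    (hδ : δ ≤ Λ.Rt / 40)
    (hx : |p.1 - (Λ.cen k j).1| ≤ Λ.wh / 2) (hy1 : Λ.Rt / 2 - δ < scr25Dir k b * (p.2 - (Λ.cen k j).2))
    (hy2 : scr25Dir k b * (p.2 - (Λ.cen k j).2) ≤ Λ.Rt / 2) : p ∈ Λ.core (ScrLay.adj k b) := by
  have h0 := scr25_Rt_pos hΛ
  obtain ⟨hw0, hw1⟩ := scr25_wh hΛ
  have hg := hΛ.hg
  intro p' hp'
  rw [Metric.mem_closedBall, Prod.dist_eq, Real.dist_eq, Real.dist_eq, max_le_iff] at hp'
  unfold ScrLay.c1 at hp'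
  obtain ⟨h1, h2⟩ := hp'
  have h3 : |scr25Dir k b * (p'.2 - p.2)| ≤ Λ.Rt / 5 := by rw [scr25_abs_dir (scr25_dir_cases k b)]; exact h2
  obtain ⟨h4, h5⟩ := abs_le.1 h3
  have e : scr25Dir k b * (p'.2 - (Λ.cen k j).2)
      = scr25Dir k b * (p.2 - (Λ.cen k j).2) + scr25Dir k b * (p'.2 - p.2) := by ring
  refine scr25_hull hΛ k b hj ?_ (by rw [e]; linarith) (by rw [e]; linarith)
  have := abs_sub_le p'.1 p.1 (Λ.cen k j).1
  linarith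

/-! ## 4. a crossing of the tube is an arm -/

/-- a plus good edge with both ends in one block is plus good in the configuration rebuilt from the block patterns -/
theorem scr25_good_pc {Λ : ScrLay} {δ : ℝ} {ω : RswCfg} {e : (ℤ × ℤ) × Bool} (i : Fin 4) (hg : RswGood true ω e)
    (h1 : scr232P δ e.1 ∈ Λ.blk i) (h2 : scr232P δ (rswEnd e) ∈ Λ.blk i) : RswGood true (scrPc Λ δ ω) e := by
  classical
  obtain ⟨hO, hS1, hS2⟩ := hg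
  have a1 : e.1 ∈ ω.S := hS1.2 rfl
  have a2 : rswEnd e ∈ ω.S := hS2.2 rfl
  refine ⟨?_, ⟨fun _ => rfl, fun _ => ?_⟩, ⟨fun _ => rfl, fun _ => ?_⟩⟩
  · show e ∈ Finset.univ.biUnion fun i => (scrPats δ Λ.blk ω i).2
    exact Finset.mem_biUnion.2 ⟨i, Finset.mem_univ _, Finset.mem_filter.2 ⟨hO, h1, h2⟩⟩
  · show e.1 ∈ Finset.univ.biUnion fun i => (scrPats δ Λ.blk ω i).1
    exact Finset.mem_biUnion.2 ⟨i, Finset.mem_univ _, Finset.mem_filter.2 ⟨a1, h1⟩⟩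
  · show rswEnd e ∈ Finset.univ.biUnion fun i => (scrPats δ Λ.blk ω i).1
    exact Finset.mem_biUnion.2 ⟨i, Finset.mem_univ _, Finset.mem_filter.2 ⟨a2, h2⟩⟩

/-- the closed rectangle of corners -/
def Scr25In (xc x1 Y0 Y1 : ℤ) (c : ℤ × ℤ) : Prop := xc ≤ c.1 ∧ c.1 ≤ x1 ∧ Y0 ≤ c.2 ∧ c.2 ≤ Y1

theorem scr25_step {Λ : ScrLay} {δ : ℝ} {ω : RswCfg} {i : Fin 4} {V : Set (ℝ × ℝ)} {xc x1 Y0 Y1 : ℤ}
    (hV : ∀ c, Scr25In xc x1 Y0 Y1 c → scr232P δ c ∈ Λ.blk i ∩ V) {u v : ℤ × ℤ}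
    (h : rdu251PStep (rdu251Rect xc x1 Y0 Y1) {e | RswGood true ω e} u v) :
    ScrGStep δ (Λ.blk i ∩ V) (scrPc Λ δ ω) u v ∧ Scr25In xc x1 Y0 Y1 u ∧ Scr25In xc x1 Y0 Y1 v := by
  obtain ⟨e, heG, he1, -, huv⟩ := h
  obtain ⟨a1, a2, a3, a4⟩ := he1
  have I1 : Scr25In xc x1 Y0 Y1 e.1 := ⟨a1, a2.le, a3, a4.le⟩
  have I2 : Scr25In xc x1 Y0 Y1 (rswEnd e) := by
    unfold rswEnd Scr25In
    split_ifs
    · exact ⟨a1, a2.le, by show Y0 ≤ e.1.2 + 1; omega, by show e.1.2 + 1 ≤ Y1; omega⟩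
    · exact ⟨by show xc ≤ e.1.1 + 1; omega, by show e.1.1 + 1 ≤ x1; omega, a3, a4.le⟩
  have hg : RswGood true (scrPc Λ δ ω) e := scr25_good_pc i heG (hV _ I1).1 (hV _ I2).1
  rcases huv with ⟨rfl, rfl⟩ | ⟨rfl, rfl⟩
  · exact ⟨⟨hV _ I1, hV _ I2, e, hg, Or.inl ⟨rfl, rfl⟩⟩, I1, I2⟩
  · exact ⟨⟨hV _ I2, hV _ I1, e, hg, Or.inr ⟨rfl, rfl⟩⟩, I2, I1⟩

theorem scr25_gstep_symm {δ : ℝ} {U : Set (ℝ × ℝ)} {ω : RswCfg} {x y : ℤ × ℤ} (h : ScrGStep δ U ω x y) :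
    ScrGStep δ U ω y x := by
  obtain ⟨h1, h2, e, hg, h⟩ := h
  exact ⟨h2, h1, e, hg, h.symm⟩

theorem scr25_chain_symm {δ : ℝ} {U : Set (ℝ × ℝ)} {ω : RswCfg} {x y : ℤ × ℤ}
    (h : Relation.ReflTransGen (ScrGStep δ U ω) x y) : Relation.ReflTransGen (ScrGStep δ U ω) y x := by
  induction h with
  | refl => exact Relation.ReflTransGen.refl
  | tail _ hbc ih => exact Relation.ReflTransGen.head (scr25_gstep_symm hbc) ih

/-- an arm from a chain of plus good edges of the tube -/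
theorem scr25_arm_of_chain {Λ : ScrLay} (hΛ : Λ.Ok) {δ : ℝ} (hδ : δ ≤ Λ.Rt / 40) (k : Fin 4) (b : Bool) {j : ℕ}
    (hj : j < Λ.M) {ω' : RswCfg} {a c : ℤ × ℤ}
    (hax : |δ * a.1 - (Λ.cen k j).1| ≤ Λ.wh / 2) (hay1 : Λ.wh ≤ scr25Dir k b * (δ * a.2 - (Λ.cen k j).2))
    (hay2 : scr25Dir k b * (δ * a.2 - (Λ.cen k j).2) < Λ.wh + δ) (hay3 : scr25Dir k b * (δ * a.2 - (Λ.cen k j).2) ≤ Λ.Rt / 2)
    (hcx : |δ * c.1 - (Λ.cen k j).1| ≤ Λ.wh / 2) (hcy1 : Λ.Rt / 2 - δ < scr25Dir k b * (δ * c.2 - (Λ.cen k j).2))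
    (hcy2 : scr25Dir k b * (δ * c.2 - (Λ.cen k j).2) ≤ Λ.Rt / 2)
    (hch : Relation.ReflTransGen
      (ScrGStep δ (Λ.blk (ScrLay.adj k b) ∩ Metric.closedBall (Λ.cen k j) (Λ.Rt / 2)) ω') a c) :
    ScrArm Λ δ k j b ω' a := by
  obtain ⟨hw0, hw1⟩ := scr25_wh hΛ
  refine ⟨⟨(scr25_region hΛ k b hj (p := scr232P δ a) hax hay1 hay3).1, hax, ?_⟩, c,
    scr25_core hΛ k b hj (p := scr232P δ c) hδ hcx hcy1 hcy2, hch⟩
  rw [← scr25_abs_dir (scr25_dir_cases k b), abs_of_nonneg (by linarith)]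
  exact hay2

/-- **a crossing of the tube is an arm** -/
theorem scr25_arm_of_cross {Λ : ScrLay} (hΛ : Λ.Ok) {δ : ℝ} (hδ0 : 0 < δ) (hδ : δ ≤ Λ.Rt / 40) (k : Fin 4) (b : Bool)
    {j : ℕ} (hj : j < Λ.M) {ω : RswCfg} {xc x1 Y0 Y1 : ℤ} (hY : Y0 < Y1)
    (hxl : (Λ.cen k j).1 - Λ.wh / 2 ≤ δ * xc) (hxr : δ * x1 ≤ (Λ.cen k j).1 + Λ.wh / 2)
    (hrow : ∀ y : ℤ, Y0 ≤ y → y ≤ Y1 → Λ.wh ≤ scr25Dir k b * (δ * y - (Λ.cen k j).2) ∧
      scr25Dir k b * (δ * y - (Λ.cen k j).2) ≤ Λ.Rt / 2)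
    (hend : (scr25Dir k b * (δ * Y0 - (Λ.cen k j).2) < Λ.wh + δ ∧ Λ.Rt / 2 - δ < scr25Dir k b * (δ * Y1 - (Λ.cen k j).2)) ∨
      (scr25Dir k b * (δ * Y1 - (Λ.cen k j).2) < Λ.wh + δ ∧ Λ.Rt / 2 - δ < scr25Dir k b * (δ * Y0 - (Λ.cen k j).2)))
    (hcr : Rdu251PrimBT xc x1 Y0 Y1 {e | RswGood true ω e}) : ∃ a, ScrArm Λ δ k j b (scrPc Λ δ ω) a := by
  obtain ⟨u, v, hu, hv, hch⟩ := hcr
  have hX : ∀ c, Scr25In xc x1 Y0 Y1 c → |δ * c.1 - (Λ.cen k j).1| ≤ Λ.wh / 2 := by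
    intro c hc
    have h1 : δ * (xc : ℝ) ≤ δ * c.1 := mul_le_mul_of_nonneg_left (by exact_mod_cast hc.1) hδ0.le
    have h2 : δ * (c.1 : ℝ) ≤ δ * x1 := mul_le_mul_of_nonneg_left (by exact_mod_cast hc.2.1) hδ0.le
    rw [abs_le]
    constructor <;> linarith
  have hV : ∀ c, Scr25In xc x1 Y0 Y1 c →
      scr232P δ c ∈ Λ.blk (ScrLay.adj k b) ∩ Metric.closedBall (Λ.cen k j) (Λ.Rt / 2) := fun c hc =>
    scr25_region hΛ k b hj (p := scr232P δ c) (hX c hc) (hrow c.2 hc.2.2.1 hc.2.2.2).1 (hrow c.2 hc.2.2.1 hc.2.2.2).2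
  have hch' := Relation.ReflTransGen.mono (fun x y h => scr25_step (Λ := Λ) (δ := δ) hV h) u v hch
  have hne : u ≠ v := by
    intro h
    rw [h, hv] at hu
    omega
  have hIu : Scr25In xc x1 Y0 Y1 u := by
    rcases Relation.ReflTransGen.cases_head hch' with h | ⟨c, hc, -⟩
    · exact absurd h hne
    · exact hc.2.1
  have hIv : Scr25In xc x1 Y0 Y1 v := by
    rcases Relation.ReflTransGen.cases_tail hch' with h | ⟨c, -, hc⟩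
    · exact absurd h.symm hne
    · exact hc.2.2
  have hG := Relation.ReflTransGen.mono (fun x y h => And.left h) u v hch'
  have hr0 := hrow Y0 le_rfl hY.le
  have hr1 := hrow Y1 hY.le le_rfl
  rcases hend with ⟨h1, h2⟩ | ⟨h1, h2⟩
  · refine ⟨u, scr25_arm_of_chain hΛ hδ k b hj (c := v) (hX u hIu) ?_ ?_ ?_ (hX v hIv) ?_ ?_ hG⟩
    · rw [hu]; exact hr0.1
    · rw [hu]; exact h1
    · rw [hu]; exact hr0.2
    · rw [hv]; exact h2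
    · rw [hv]; exact hr1.2
  · refine ⟨v, scr25_arm_of_chain hΛ hδ k b hj (c := u) (hX v hIv) ?_ ?_ ?_ (hX u hIu) ?_ ?_
      (scr25_chain_symm hG)⟩
    · rw [hv]; exact hr1.1
    · rw [hv]; exact h1
    · rw [hv]; exact hr1.2
    · rw [hu]; exact h2
    · rw [hu]; exact hr0.2

/-! ## 5. numbers -/

theorem scr25_grid {lo hi δ : ℝ} (hδ0 : 0 < δ) (h : lo + 2 * δ ≤ hi) :
    ∃ Y0 Y1 : ℤ, Y0 < Y1 ∧ lo ≤ δ * Y0 ∧ δ * Y0 < lo + δ ∧ hi - δ < δ * Y1 ∧ δ * Y1 ≤ hi := by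
  have a1 : lo ≤ δ * (⌈lo / δ⌉ : ℤ) := by
    have := Int.le_ceil (lo / δ)
    rw [div_le_iff₀ hδ0] at this
    linarith
  have a2 : δ * (⌈lo / δ⌉ : ℤ) < lo + δ := by
    have := Int.ceil_lt_add_one (lo / δ)
    have h2 : ((⌈lo / δ⌉ : ℤ) : ℝ) * δ < (lo / δ + 1) * δ := mul_lt_mul_of_pos_right this hδ0
    have h3 : (lo / δ + 1) * δ = lo + δ := by field_simp
    linarith
  have a3 : hi - δ < δ * (⌊hi / δ⌋ : ℤ) := by
    have := Int.sub_one_lt_floor (hi / δ)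
    have h2 : (hi / δ - 1) * δ < ((⌊hi / δ⌋ : ℤ) : ℝ) * δ := mul_lt_mul_of_pos_right this hδ0
    have h3 : (hi / δ - 1) * δ = hi - δ := by field_simp
    linarith
  have a4 : δ * (⌊hi / δ⌋ : ℤ) ≤ hi := by
    have := Int.floor_le (hi / δ)
    rw [le_div_iff₀ hδ0] at this
    linarith
  refine ⟨⌈lo / δ⌉, ⌊hi / δ⌋, ?_, a1, a2, a3, a4⟩
  have h5 : δ * ((⌈lo / δ⌉ : ℤ) : ℝ) < δ * ((⌊hi / δ⌋ : ℤ) : ℝ) := by linarith
  have h6 := lt_of_mul_lt_mul_left h5 hδ0.le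
  exact_mod_cast h6

/-- the rows of the tube -/
theorem scr25_rows {c2 wh Rt δ d : ℝ} (hδ0 : 0 < δ) (hwh : 0 < wh) (h1 : wh + 2 * δ ≤ Rt / 2) (hd : d = 1 ∨ d = -1) :
    ∃ Y0 Y1 : ℤ, Y0 < Y1 ∧ ((Y1 : ℝ) - Y0) * δ ≤ Rt / 2 ∧
      (∀ y : ℤ, Y0 ≤ y → y ≤ Y1 → wh ≤ d * (δ * y - c2) ∧ d * (δ * y - c2) ≤ Rt / 2) ∧
      ((d * (δ * Y0 - c2) < wh + δ ∧ Rt / 2 - δ < d * (δ * Y1 - c2)) ∨
        (d * (δ * Y1 - c2) < wh + δ ∧ Rt / 2 - δ < d * (δ * Y0 - c2))) ∧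
      c2 - Rt / 2 ≤ δ * Y0 ∧ δ * Y1 ≤ c2 + Rt / 2 := by
  rcases hd with rfl | rfl
  · obtain ⟨Y0, Y1, hY, a1, a2, a3, a4⟩ := scr25_grid (lo := c2 + wh) (hi := c2 + Rt / 2) hδ0 (by linarith)
    refine ⟨Y0, Y1, hY, by nlinarith, fun y h0 h1 => ?_, Or.inl ⟨by linarith, by linarith⟩, by linarith, a4⟩
    have b1 : δ * (Y0 : ℝ) ≤ δ * y := mul_le_mul_of_nonneg_left (by exact_mod_cast h0) hδ0.le
    have b2 : δ * (y : ℝ) ≤ δ * Y1 := mul_le_mul_of_nonneg_left (by exact_mod_cast h1) hδ0.le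
    constructor <;> linarith
  · obtain ⟨Y0, Y1, hY, a1, a2, a3, a4⟩ := scr25_grid (lo := c2 - Rt / 2) (hi := c2 - wh) hδ0 (by linarith)
    refine ⟨Y0, Y1, hY, by nlinarith, fun y h0 h1 => ?_, Or.inr ⟨by linarith, by linarith⟩, a1, by linarith⟩
    have b1 : δ * (Y0 : ℝ) ≤ δ * y := mul_le_mul_of_nonneg_left (by exact_mod_cast h0) hδ0.le
    have b2 : δ * (y : ℝ) ≤ δ * Y1 := mul_le_mul_of_nonneg_left (by exact_mod_cast h1) hδ0.le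
    constructor <;> linarith

/-- the scale of the annuli -/
theorem scr25_scale {wh q Rt δ : ℝ} {n0 : ℕ} (hq : 0 < q) (hRt : 0 < Rt) (hwh : wh = q * Rt) (hδ0 : 0 < δ)
    (hδ : δ < wh / (16 * (n0 + 1))) :
    n0 ≤ ⌊wh / (8 * δ)⌋₊ ∧ 1 ≤ ⌊wh / (8 * δ)⌋₊ ∧ (⌊wh / (8 * δ)⌋₊ : ℝ) * δ ≤ wh / 8 ∧ wh / 16 ≤ (⌊wh / (8 * δ)⌋₊ : ℝ) * δ ∧
      δ ≤ wh / 16 ∧ Rt / 2 ≤ 2 * (⌊wh / (8 * δ)⌋₊ : ℝ) * (⌈4 / q⌉₊ : ℝ) * δ := by
  have hn0 : (0 : ℝ) ≤ n0 := Nat.cast_nonneg _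
  have hwh0 : 0 < wh := by rw [hwh]; positivity
  have h1 : δ * (16 * (n0 + 1)) < wh := by rwa [lt_div_iff₀ (by positivity)] at hδ
  have h2 : ((n0 + 1 : ℕ) : ℝ) ≤ wh / (8 * δ) := by
    rw [le_div_iff₀ (by positivity)]
    push_cast
    nlinarith
  have h3 : n0 + 1 ≤ ⌊wh / (8 * δ)⌋₊ := Nat.le_floor h2
  have h4 : (⌊wh / (8 * δ)⌋₊ : ℝ) ≤ wh / (8 * δ) := Nat.floor_le (by positivity)
  have h5 : wh / (8 * δ) < (⌊wh / (8 * δ)⌋₊ : ℝ) + 1 := Nat.lt_floor_add_one _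
  rw [le_div_iff₀ (by positivity)] at h4
  rw [div_lt_iff₀ (by positivity)] at h5
  have h6 : δ ≤ wh / 16 := by nlinarith
  have h7 : wh / 16 ≤ (⌊wh / (8 * δ)⌋₊ : ℝ) * δ := by nlinarith
  refine ⟨by omega, by omega, by nlinarith, h7, h6, ?_⟩
  have h8 : 4 / q ≤ (⌈4 / q⌉₊ : ℝ) := Nat.le_ceil _
  have h9 : wh / 16 * (4 / q) ≤ (⌊wh / (8 * δ)⌋₊ : ℝ) * δ * (⌈4 / q⌉₊ : ℝ) :=
    mul_le_mul h7 h8 (by positivity) (by positivity)
  have h10 : wh / 16 * (4 / q) = Rt / 4 := by rw [hwh]; field_simp; ring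
  nlinarith

theorem scr25_cen_dist {Λ : ScrLay} (hΛ : Λ.Ok) (k : Fin 4) {j : ℕ} (hj : j < Λ.M) :
    |(Λ.cen k j).1 - Λ.x0| ≤ Λ.s - Λ.Rt ∧ |(Λ.cen k j).2 - Λ.y0| ≤ Λ.s - Λ.Rt := by
  have h0 := scr25_Rt_pos hΛ
  obtain ⟨hj0, hj1⟩ := scr25_j hΛ hj
  have hK := hΛ.hK
  have hT := hΛ.hT
  have hg := hΛ.sc.hg
  have hr0 := hΛ.sc.hr0
  have hw := hΛ.sc.hw
  fin_cases k <;> simp [ScrLay.cen, abs_le] <;> (repeat' apply And.intro) <;> nlinarith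

/-- the faces near the centre of a trial belong to `F` -/
theorem scr25_fits {Λ : ScrLay} (hΛ : Λ.Ok) {δ : ℝ} {F : Finset (ℤ × ℤ)} (hfit : ScrFits Λ δ F) (k : Fin 4) {j : ℕ}
    (hj : j < Λ.M) {f : ℤ × ℤ} (hf : scr232P δ f ∈ Metric.closedBall (Λ.cen k j) Λ.Rt) : f ∈ F := by
  refine hfit f ?_
  obtain ⟨h1, h2⟩ := scr25_cen_dist hΛ k hj
  rw [Metric.mem_closedBall, Prod.dist_eq, Real.dist_eq, Real.dist_eq, max_le_iff] at hf ⊢
  obtain ⟨h3, h4⟩ := hf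
  have h5 := abs_sub_le (scr232P δ f).1 (Λ.cen k j).1 Λ.z.1
  have h6 := abs_sub_le (scr232P δ f).2 (Λ.cen k j).2 Λ.z.2
  have e1 : Λ.z.1 = Λ.x0 := rfl
  have e2 : Λ.z.2 = Λ.y0 := rfl
  rw [e1] at h5 ⊢
  rw [e2] at h6 ⊢
  constructor <;> linarith

/-! ## 6. assembly -/

/-- the faces at `≤ 3 n` columns / rows from the tube lie in the trial square -/
theorem scr25_near {Λ : ScrLay} (hΛ : Λ.Ok) {δ : ℝ} (hδ0 : 0 < δ) (k : Fin 4) (j : ℕ) {n : ℕ} {xc Y0 Y1 : ℤ}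
    (hn : (n : ℝ) * δ ≤ Λ.wh / 8) (hδ : δ ≤ Λ.wh / 16)
    (hxa : (Λ.cen k j).1 - δ - n * δ ≤ δ * xc) (hxb : δ * xc ≤ (Λ.cen k j).1 - n * δ)
    (hY0 : (Λ.cen k j).2 - Λ.Rt / 2 ≤ δ * Y0) (hY1 : δ * Y1 ≤ (Λ.cen k j).2 + Λ.Rt / 2) {f : ℤ × ℤ}
    (h1 : xc - 3 * n ≤ f.1) (h2 : f.1 ≤ xc + 3 * n) (h3 : Y0 - 3 * n ≤ f.2) (h4 : f.2 ≤ Y1 + 3 * n) :
    scr232P δ f ∈ Metric.closedBall (Λ.cen k j) Λ.Rt := by
  obtain ⟨hw0, hw1⟩ := scr25_wh hΛ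
  have a1 : δ * ((xc : ℝ) - 3 * n) ≤ δ * f.1 := mul_le_mul_of_nonneg_left (by exact_mod_cast h1) hδ0.le
  have a2 : δ * (f.1 : ℝ) ≤ δ * ((xc : ℝ) + 3 * n) := mul_le_mul_of_nonneg_left (by exact_mod_cast h2) hδ0.le
  have a3 : δ * ((Y0 : ℝ) - 3 * n) ≤ δ * f.2 := mul_le_mul_of_nonneg_left (by exact_mod_cast h3) hδ0.le
  have a4 : δ * (f.2 : ℝ) ≤ δ * ((Y1 : ℝ) + 3 * n) := mul_le_mul_of_nonneg_left (by exact_mod_cast h4) hδ0.le
  rw [Metric.mem_closedBall, Prod.dist_eq, Real.dist_eq, Real.dist_eq, max_le_iff, abs_le, abs_le]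
  show (_ ≤ δ * (f.1 : ℝ) - _ ∧ δ * (f.1 : ℝ) - _ ≤ _) ∧ (_ ≤ δ * (f.2 : ℝ) - _ ∧ δ * (f.2 : ℝ) - _ ≤ _)
  refine ⟨⟨?_, ?_⟩, ?_, ?_⟩ <;> nlinarith

open Classical in
/-- the buffer: the faces of the trial square -/
noncomputable def scr25B (F : Finset (ℤ × ℤ)) (Λ : ScrLay) (δ : ℝ) (k : Fin 4) (j : ℕ) : Finset (ℤ × ℤ) :=
  F.filter fun f => scr232P δ f ∈ Metric.closedBall (Λ.cen k j) Λ.Rt

theorem scr25_ext {Λ : ScrLay} (hΛ : Λ.Ok) {δ : ℝ} (F : Finset (ℤ × ℤ)) (k : Fin 4) (j : ℕ) {L : RswCfg → Prop}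
    (hL : ScrOutSW δ (Metric.ball (Λ.cen k j) (3 / 2 * Λ.Rt)) L) : MdlExt (scr25B F Λ δ k j) L := by
  classical
  have h0 := scr25_Rt_pos hΛ
  have key : ∀ v, scr232P δ v ∉ Metric.ball (Λ.cen k j) (3 / 2 * Λ.Rt) → v ∉ scr25B F Λ δ k j := by
    intro v hv hmem
    unfold scr25B at hmem
    have := (Finset.mem_filter.1 hmem).2
    exact hv (Metric.closedBall_subset_ball (by linarith) this)
  intro ω ω' h1 h2
  exact hL ω ω' (fun v hv => h1 v fun h => key v hv h.1) fun e he _ => h2 e fun h => key e.1 he (rsb_mem_int.1 h).1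

theorem scr25_C_mem {Y0 Y1 : ℤ} (hY : Y0 < Y1) (n i : ℕ) : Y0 ≤ scr25C Y0 Y1 n i ∧ scr25C Y0 Y1 n i ≤ Y1 := by
  unfold scr25C
  refine ⟨le_min ?_ hY.le, min_le_right _ _⟩
  have : (0 : ℤ) ≤ 2 * n * i := by positivity
  omega

/-- **(SHIELD) (a), THE TWO TUBES** = the record `ScrShArm t` of `Screen/Shield99`. -/
theorem scr25_arm (t : ℝ) (ht1 : 1 / 2 ≤ t) (ht2 : t < 1) : ScrShArm t := by
  classical
  obtain ⟨p₁, hp₁, n0, hcirc⟩ := exit_mdl_circ t ht1 ht2 0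
  have ht0 : 0 < t := by linarith
  have hp0 : 0 < min p₁ 1 := lt_min hp₁ one_pos
  refine ⟨fun q => (min p₁ 1) ^ (2 * ⌈4 / q⌉₊),
    fun q _ => ⟨pow_pos hp0 _, pow_le_one₀ hp0.le (min_le_right _ _)⟩, fun Λ hΛ => ?_⟩
  obtain ⟨hw0, hw1⟩ := scr25_wh hΛ
  have hRt := scr25_Rt_pos hΛ
  refine ⟨Λ.wh / (16 * (n0 + 1)), by positivity, fun δ hδ0 hδ F hF hfit k j hj L hL => ?_⟩
  obtain ⟨hn0, hn1, hnδ, -, hδ16, hm⟩ := scr25_scale (n0 := n0) hΛ.hq hRt (rfl : Λ.wh = Λ.q * Λ.Rt) hδ0 hδ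
  generalize ⌊Λ.wh / (8 * δ)⌋₊ = n at hn0 hn1 hnδ hm
  show (min p₁ 1) ^ (2 * ⌈4 / Λ.q⌉₊) * _ ≤ _
  generalize ⌈4 / Λ.q⌉₊ = m at hm
  obtain ⟨xc, hxa, hxb⟩ : ∃ xc : ℤ, (Λ.cen k j).1 - δ - n * δ ≤ δ * xc ∧ δ * xc ≤ (Λ.cen k j).1 - n * δ := by
    refine ⟨⌊(Λ.cen k j).1 / δ⌋ - n, ?_, ?_⟩
    · have := Int.sub_one_lt_floor ((Λ.cen k j).1 / δ)
      have h2 : ((Λ.cen k j).1 / δ - 1) * δ < ((⌊(Λ.cen k j).1 / δ⌋ : ℤ) : ℝ) * δ := mul_lt_mul_of_pos_right this hδ0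
      have h3 : ((Λ.cen k j).1 / δ - 1) * δ = (Λ.cen k j).1 - δ := by field_simp
      push_cast
      linarith
    · have := Int.floor_le ((Λ.cen k j).1 / δ)
      rw [le_div_iff₀ hδ0] at this
      push_cast
      linarith
  have hrows := fun b : Bool => scr25_rows (c2 := (Λ.cen k j).2) (Rt := Λ.Rt) (d := scr25Dir k b) hδ0 hw0
    (by linarith) (scr25_dir_cases k b)
  choose Y0 Y1 hY hlen hrow hend hlo hhi using hrows
  have hnear : ∀ (b : Bool) (f : ℤ × ℤ), xc - 3 * n ≤ f.1 → f.1 ≤ xc + 3 * n → Y0 b - 3 * n ≤ f.2 → f.2 ≤ Y1 b + 3 * n →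
      f ∈ scr25B F Λ δ k j := by
    intro b f h1 h2 h3 h4
    have h5 := scr25_near hΛ hδ0 k j hnδ hδ16 hxa hxb (hlo b) (hhi b) h1 h2 h3 h4
    exact Finset.mem_filter.2 ⟨scr25_fits hΛ hfit k hj h5, h5⟩
  have hBF : scr25B F Λ δ k j ⊆ F := Finset.filter_subset _ _
  have hbox : ∀ (b : Bool) (i : ℕ), rswBox (xc, scr25C (Y0 b) (Y1 b) n i) (3 * n) ⊆ scr25B F Λ δ k j := by
    intro b i f hf
    obtain ⟨c0, c1⟩ := scr25_C_mem (hY b) n i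
    unfold rswBox at hf
    simp only [Finset.mem_product, Finset.mem_Ico] at hf
    obtain ⟨⟨a1, a2⟩, a3, a4⟩ := hf
    push_cast at a1 a2 a3 a4
    exact hnear b f (by omega) (by omega) (by omega) (by omega)
  have hcard : ((Finset.univ : Finset Bool) ×ˢ Finset.range m).card = 2 * m := by
    rw [Finset.card_product, Finset.card_range]
    rfl
  rw [← hcard]
  refine scr25_prob ht1 ht2 hF (scr25_ext hΛ F k j hL) _
    (fun x ω => RswSep F true ω (rswBox (xc, scr25C (Y0 x.1) (Y1 x.1) n x.2) n)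
      (F \ rswBox (xc, scr25C (Y0 x.1) (Y1 x.1) n x.2) (2 * n)))
    (fun x _ => scr25_sep_inc F true _ _) hp0.le ?_ _ ?_
  · rintro ⟨b, i⟩ - L' hL'
    have h1 := hcirc n hn0 F (xc, scr25C (Y0 b) (Y1 b) n i) true true L' hF
      (by simpa only [zero_add] using (hbox b i).trans hBF)
      (arm101_ext_mono (by simpa only [zero_add] using Finset.sdiff_subset.trans (hbox b i)) hL')
    simp only [zero_add, one_mul] at h1
    refine le_trans ?_ h1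
    exact mul_le_mul_of_nonneg_right (min_le_left _ _) (rsb_P_nonneg ht0 ht2.le F true L')
  · intro ω hω b
    refine scr25_arm_of_cross hΛ hδ0 (by linarith) k b hj (hY b) (xc := xc) (x1 := xc + 2 * n + 1) (by linarith) ?_
      (hrow b) (hend b) ?_
    · push_cast
      nlinarith
    · refine scr25_tube (m := m) hn1 (hY b) ?_ ?_ fun i hi => hω (b, i) (Finset.mem_product.2 ⟨Finset.mem_univ _, hi⟩)
      · have h1 : ((Y1 b : ℝ) - Y0 b) * δ ≤ (2 * (n : ℝ) * m) * δ := (hlen b).trans hm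
        have h2 := le_of_mul_le_mul_right h1 hδ0
        exact_mod_cast h2
      · rintro f ⟨a1, a2, a3, a4⟩
        exact hBF (hnear b f (by omega) (by omega) (by omega) (by omega))

end Claimed.Agent.R292
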