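import Claimed.Agent.R292.Screen.Shield99
import Claimed.Agent.R292.Screen.Dual62

/-!
# Row 292 (S0540), unit SCREEN, Screen/Arm39 : (a) TWO TUBES = `ScrShArm t`      (pen helper39; order of 229, msg 121243; prefix `scr39a_`, exit `scr39_arm`)

TREE   `scr39_arm : ScrShArm t`  ⇐  (S1) `exit_mdl_circ` (Exit/MODEL, ratio `K = ⌈1/q⌉₊`, used twice) + (DUAL) `scr62_dual` (Screen/Dual62).
* scale `n = ⌊wh / (8 δ)⌋₊`; tube of the bar: corners `[a₁, a₁ + n] × [c₁, c₁ + N]`, `a₁ = ⌈(cx - wh/2)/δ⌉`, annulus on its left; tube of the side block: `[a₂, a₂ + n] × [c₂, c₂ + N]`,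
  `a₂ = ⌊(cx + wh/2)/δ⌋ - n`, annulus on its right; `N = ⌈c1/δ⌉₊ ≤ 2 (K + 1) n`.
* `scr39a_cross`: a separating circuit of the annulus crosses the tube lengthwise (else the dual path of (DUAL) joins the inner box to the outside);
* `scr39a_geo`: the tube lies in the block and in the half trial square, its far end in the core;  `scr39a_one`: a crossing of the tube is an arm;
* `scr39a_two`: two successive applications of (S1), the first circuit being exterior data of the second buffer.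
-/

set_option autoImplicit false

namespace Claimed.Agent.R292

open Claims Claims.C0468 Filter Topology

/-! ## 1. a circuit crosses the tube -/

theorem scr39a_rtg_mono {α : Type*} {r p : α → α → Prop} (h : ∀ a b, r a b → p a b) {a b : α}
    (hab : Relation.ReflTransGen r a b) : Relation.ReflTransGen p a b := by
  induction hab with
  | refl => exact Relation.ReflTransGen.refl
  | tail _ hs ih => exact ih.tail (h _ _ hs)

theorem scr39a_rtg_symm {α : Type*} {r : α → α → Prop} (h : ∀ a b, r a b → r b a) {a b : α}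
    (hab : Relation.ReflTransGen r a b) : Relation.ReflTransGen r b a := by
  induction hab with
  | refl => exact Relation.ReflTransGen.refl
  | tail _ hs ih => exact Relation.ReflTransGen.head (h _ _ hs) ih

theorem scr39a_dual_step {F : Finset (ℤ × ℤ)} {ω : RswCfg} {a c : ℤ} {m N : ℕ} (hF : ∀ f, ScrDuF a c m N f → f ∈ F)
    {f f' : ℤ × ℤ} (h : ScrDuD (RswGood true ω) a c m N f f') : RswStep F true ω f f' := by
  obtain ⟨h1, h2, e, he, _, _, h5⟩ := h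
  exact ⟨hF f h1, hF f' h2, e, h5, he⟩

theorem scr39a_cross {F A Q : Finset (ℤ × ℤ)} {ω : RswCfg} (a c : ℤ) (m N : ℕ) (hF : ∀ f, ScrDuF a c m N f → f ∈ F)
    (hsep : RswSep F true ω A (F \ Q))
    (h : ((∀ y, c ≤ y → y < c + N → (a - 1, y) ∈ A) ∧ (∀ y, c ≤ y → y < c + N → (a + m, y) ∉ Q)) ∨
      ((∀ y, c ≤ y → y < c + N → (a + m, y) ∈ A) ∧ (∀ y, c ≤ y → y < c + N → (a - 1, y) ∉ Q))) :
    ∃ x x' : ℤ, a ≤ x ∧ x ≤ a + m ∧ a ≤ x' ∧ x' ≤ a + m ∧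
      Relation.ReflTransGen (ScrDuP (RswGood true ω) a c m N) (x, c) (x', c + N) := by
  rcases scr62_dual (RswGood true ω) a c m N with h0 | ⟨y, y', h1, h2, h3, h4, hp⟩
  · exact h0
  exfalso
  have hp' : Relation.ReflTransGen (RswStep F true ω) (a - 1, y) (a + m, y') :=
    scr39a_rtg_mono (fun f f' hs => scr39a_dual_step hF hs) hp
  have hl : (a - 1, y) ∈ F := hF _ ⟨le_refl _, by simp only; omega, h1, h2⟩
  have hr : (a + (m : ℤ), y') ∈ F := hF _ ⟨by simp only; omega, le_refl _, h3, h4⟩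
  rcases h with ⟨hA, hQ⟩ | ⟨hA, hQ⟩
  · exact hsep _ (hA y h1 h2) _ (Finset.mem_sdiff.2 ⟨hr, hQ y' h3 h4⟩) hp'
  · have hsym : ∀ f g, RswStep F true ω f g → RswStep F true ω g f := by
      rintro f g ⟨g1, g2, e, g3, g4⟩
      exact ⟨g2, g1, e, g3.symm, g4⟩
    exact hsep _ (hA y' h3 h4) _ (Finset.mem_sdiff.2 ⟨hl, hQ y h1 h2⟩) (scr39a_rtg_symm hsym hp')

/-- a path of good edges of a rectangle inside one block is a path of the rebuilt configuration -/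
theorem scr39a_path {Λ : ScrLay} {δ : ℝ} {ω : RswCfg} {i : Fin 4} {B : Set (ℝ × ℝ)} {a c : ℤ} {m N : ℕ}
    (hU : ∀ v, ScrDuIn a c m N v → scr232P δ v ∈ Λ.blk i ∩ B) {v v' : ℤ × ℤ}
    (h : Relation.ReflTransGen (ScrDuP (RswGood true ω) a c m N) v v') :
    Relation.ReflTransGen (ScrGStep δ (Λ.blk i ∩ B) (scrPc Λ δ ω)) v v' := by
  refine scr39a_rtg_mono (fun f f' hs => ?_) h
  obtain ⟨h1, h2, e, he, h3⟩ := hs
  refine ⟨hU f h1, hU f' h2, e, (scr99s_good_pc Λ δ ω e).2 ⟨he, i, ?_⟩, h3⟩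
  rcases h3 with ⟨e1, e2⟩ | ⟨e1, e2⟩
  · rw [e1, e2]; exact ⟨(hU f h1).1, (hU f' h2).1⟩
  · rw [e1, e2]; exact ⟨(hU f' h2).1, (hU f h1).1⟩

theorem scr39a_gstep_symm (δ : ℝ) (U : Set (ℝ × ℝ)) (ω : RswCfg) : ∀ f g, ScrGStep δ U ω f g → ScrGStep δ U ω g f := by
  rintro f g ⟨g1, g2, e, g3, g4⟩
  exact ⟨g2, g1, e, g3, g4.symm⟩

/-! ## 2. geometry of one tube -/

set_option maxHeartbeats 3200000 in
theorem scr39a_geo {Λ : ScrLay} (hΛ : Λ.Ok) (k : Fin 4) {j : ℕ} (hj : j < Λ.M) (b : Bool) (d : ℝ)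
    (hd : d = (if b then -1 else 1) * (![1, 1, -1, -1] k : ℝ)) (p : ℝ × ℝ)
    (h1 : |p.1 - (Λ.cen k j).1| ≤ Λ.wh / 2) (h2 : Λ.wh ≤ d * (p.2 - (Λ.cen k j).2))
    (h3 : d * (p.2 - (Λ.cen k j).2) ≤ Λ.Rt / 2) :
    p ∈ Λ.blk (ScrLay.adj k b) ∩ Metric.closedBall (Λ.cen k j) (Λ.Rt / 2) ∧
      (Λ.g + Λ.c1 ≤ d * (p.2 - (Λ.cen k j).2) → p ∈ Λ.core (ScrLay.adj k b)) := by
  have hR := hΛ.Rt_pos
  have hM : (0 : ℝ) < Λ.M := by exact_mod_cast hΛ.hM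
  have hMR : 2 * (Λ.M : ℝ) * Λ.Rt = Λ.s - Λ.w := by
    unfold ScrLay.Rt; field_simp
  have hj' : (j : ℝ) + 1 ≤ Λ.M := by exact_mod_cast hj
  have hj0 : (0 : ℝ) ≤ j := Nat.cast_nonneg j
  have hsc := hΛ.sc
  have hg := hsc.hg
  have hr0 := hsc.hr0
  have hw := hsc.hw
  have hK := hΛ.hK
  have hT := hΛ.hT
  have hgw := hΛ.hg
  have hwh : Λ.wh ≤ Λ.Rt / 40 := by
    unfold ScrLay.wh
    nlinarith [hΛ.hq']
  have hc1 : Λ.c1 = Λ.Rt / 5 := rfl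
  obtain ⟨X, hX⟩ : ∃ X : ℝ, X = Λ.w + (2 * j + 1) * Λ.Rt := ⟨_, rfl⟩
  have hX1 : Λ.w + Λ.Rt ≤ X := by rw [hX]; nlinarith
  have hX2 : X ≤ Λ.s - Λ.Rt := by rw [hX]; nlinarith
  have hcx : (Λ.cen k j).1 = Λ.x0 + (![-1, 1, -1, 1] k : ℝ) * X := by rw [hX]; rfl
  have hcy : ∀ k' j', (Λ.cen k' j').2 = Λ.y0 + (![1, 1, -1, -1] k' : ℝ) * Λ.h := fun _ _ => rfl
  rw [hcx] at h1
  rw [hcy] at h2 h3
  rw [abs_le] at h1
  obtain ⟨h1a, h1b⟩ := h1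
  have hhole : ∀ k' j', p ∉ Λ.hole k' j' := by
    intro k' j' hp
    unfold ScrLay.hole at hp
    rw [Metric.mem_ball, Prod.dist_eq, max_lt_iff, Real.dist_eq, Real.dist_eq, hcy] at hp
    obtain ⟨hp1, hp2⟩ := abs_lt.1 hp.2
    subst hd
    fin_cases k <;> fin_cases k' <;> cases b <;> simp at h2 h3 hp1 hp2 <;> linarith
  have hball : p ∈ Metric.closedBall (Λ.cen k j) (Λ.Rt / 2) := by
    rw [Metric.mem_closedBall, Prod.dist_eq, Real.dist_eq, Real.dist_eq, hcx, hcy]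
    refine max_le (abs_le.2 ⟨by linarith, by linarith⟩) (abs_le.2 ?_)
    subst hd
    fin_cases k <;> cases b <;> simp at h2 h3 ⊢ <;> constructor <;> linarith
  have hhull : p ∈ Λ.hull (ScrLay.adj k b) := by
    subst hd
    fin_cases k <;> cases b <;>
      simp [ScrLay.hull, ScrLay.adj, scrHull, scr232Obj, abs_le] at h1a h1b h2 h3 ⊢ <;>
      refine ⟨?_, ?_, ?_⟩ <;> first | linarith | (constructor <;> linarith)
  refine ⟨⟨⟨hhull, ?_⟩, hball⟩, ?_⟩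
  · simp only [Set.mem_iUnion, not_exists]
    intro k' j' _
    exact hhole k' j'
  · intro h4
    rw [hcy] at h4
    intro u hu
    rw [Metric.mem_closedBall, Prod.dist_eq, Real.dist_eq, Real.dist_eq, max_le_iff, abs_le, abs_le] at hu
    obtain ⟨⟨u1, u2⟩, u3, u4⟩ := hu
    subst hd
    fin_cases k <;> cases b <;>
      simp [ScrLay.hull, ScrLay.adj, scrHull, scr232Obj, abs_le] at h1a h1b h2 h3 h4 ⊢ <;>
      refine ⟨?_, ?_, ?_⟩ <;> first | linarith | (constructor <;> linarith)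

theorem scr39a_ceil {δ : ℝ} (hδ : 0 < δ) (x : ℝ) : x ≤ δ * ((⌈x / δ⌉ : ℤ) : ℝ) ∧ δ * ((⌈x / δ⌉ : ℤ) : ℝ) < x + δ := by
  have h1 := Int.le_ceil (x / δ)
  have h2 := Int.ceil_lt_add_one (x / δ)
  rw [div_le_iff₀ hδ] at h1
  have h3 : ((⌈x / δ⌉ : ℤ) : ℝ) - 1 < x / δ := by linarith
  rw [lt_div_iff₀ hδ] at h3
  constructor <;> nlinarith

theorem scr39a_floor {δ : ℝ} (hδ : 0 < δ) (x : ℝ) : δ * ((⌊x / δ⌋ : ℤ) : ℝ) ≤ x ∧ x - δ < δ * ((⌊x / δ⌋ : ℤ) : ℝ) := by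
  have h1 := Int.floor_le (x / δ)
  have h2 := Int.lt_floor_add_one (x / δ)
  rw [le_div_iff₀ hδ] at h1
  rw [div_lt_iff₀ hδ] at h2
  constructor <;> nlinarith

theorem scr39a_nceil {δ : ℝ} (hδ : 0 < δ) {x : ℝ} (hx : 0 ≤ x) : x ≤ δ * ((⌈x / δ⌉₊ : ℕ) : ℝ) ∧ δ * ((⌈x / δ⌉₊ : ℕ) : ℝ) < x + δ := by
  have h1 := Nat.le_ceil (x / δ)
  have h2 := Nat.ceil_lt_add_one (div_nonneg hx hδ.le)
  rw [div_le_iff₀ hδ] at h1
  have h3 : ((⌈x / δ⌉₊ : ℕ) : ℝ) - 1 < x / δ := by linarith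
  rw [lt_div_iff₀ hδ] at h3
  constructor <;> nlinarith

theorem scr39a_mul_le {δ : ℝ} (hδ : 0 < δ) {y y' : ℤ} (h : y ≤ y') : δ * (y : ℝ) ≤ δ * (y' : ℝ) :=
  mul_le_mul_of_nonneg_left (Int.cast_le.2 h) hδ.le

/-! ## 3. a crossing of the tube is an arm -/

theorem scr39a_one {Λ : ScrLay} (hΛ : Λ.Ok) {δ : ℝ} (hδ : 0 < δ) (hδ1 : 20 * δ ≤ Λ.Rt) (k : Fin 4) {j : ℕ} (hj : j < Λ.M)
    (b : Bool) (a : ℤ) (n : ℕ) (ha : ∀ x : ℤ, a ≤ x → x ≤ a + n → |δ * (x : ℝ) - (Λ.cen k j).1| ≤ Λ.wh / 2) :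
    ∃ c : ℤ, |δ * (c : ℝ) - (Λ.cen k j).2| ≤ Λ.Rt / 2 ∧
      ∀ ω : RswCfg, (∃ x x' : ℤ, a ≤ x ∧ x ≤ a + n ∧ a ≤ x' ∧ x' ≤ a + n ∧
        Relation.ReflTransGen (ScrDuP (RswGood true ω) a c n ⌈Λ.c1 / δ⌉₊) (x, c) (x', c + (⌈Λ.c1 / δ⌉₊ : ℕ))) →
        ∃ v, ScrArm Λ δ k j b (scrPc Λ δ ω) v := by
  have hR := hΛ.Rt_pos
  have hgw := hΛ.hg
  have hg := hΛ.sc.hg
  have hwh : Λ.wh ≤ Λ.Rt / 40 := by
    unfold ScrLay.wh
    nlinarith [hΛ.hq']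
  have hc1 : Λ.c1 = Λ.Rt / 5 := rfl
  obtain ⟨hN1, hN2⟩ := scr39a_nceil hδ (x := Λ.c1) (by rw [hc1]; positivity)
  obtain ⟨N, hN⟩ : ∃ N : ℕ, N = ⌈Λ.c1 / δ⌉₊ := ⟨_, rfl⟩
  rw [← hN] at hN1 hN2 ⊢
  obtain ⟨cy, hcy⟩ : ∃ cy : ℝ, cy = (Λ.cen k j).2 := ⟨_, rfl⟩
  obtain ⟨d, hd⟩ : ∃ d : ℝ, d = (if b then -1 else 1) * (![1, 1, -1, -1] k : ℝ) := ⟨_, rfl⟩
  have hd1 : d = 1 ∨ d = -1 := by
    rw [hd]; fin_cases k <;> cases b <;> simp
  have key : ∀ c : ℤ, (∀ y : ℤ, c ≤ y → y ≤ c + N → Λ.wh ≤ d * (δ * (y : ℝ) - cy) ∧ d * (δ * (y : ℝ) - cy) ≤ Λ.Rt / 2) →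
      ∀ v, ScrDuIn a c n N v → scr232P δ v ∈ Λ.blk (ScrLay.adj k b) ∩ Metric.closedBall (Λ.cen k j) (Λ.Rt / 2) ∧
        (Λ.g + Λ.c1 ≤ d * (δ * (v.2 : ℝ) - cy) → scr232P δ v ∈ Λ.core (ScrLay.adj k b)) := by
    intro c hc v hv
    obtain ⟨v1, v2, v3, v4⟩ := hv
    have := hc v.2 v3 v4
    rw [hcy] at this ⊢
    exact scr39a_geo hΛ k hj b d hd (scr232P δ v) (ha v.1 v1 v2) this.1 this.2
  rw [← hcy]
  rcases hd1 with hd1 | hd1
  · -- upwards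
    obtain ⟨f1, f2⟩ := scr39a_ceil hδ (cy + Λ.wh)
    obtain ⟨c, hc⟩ : ∃ c : ℤ, c = ⌈(cy + Λ.wh) / δ⌉ := ⟨_, rfl⟩
    rw [← hc] at f1 f2
    have hrow : ∀ y : ℤ, c ≤ y → y ≤ c + N → Λ.wh ≤ d * (δ * (y : ℝ) - cy) ∧ d * (δ * (y : ℝ) - cy) ≤ Λ.Rt / 2 := by
      intro y y1 y2
      have e1 := scr39a_mul_le hδ y1
      have e2 := scr39a_mul_le hδ y2
      push_cast at e2
      rw [hd1]
      constructor <;> linarith
    refine ⟨c, abs_le.2 ⟨by linarith, by linarith⟩, ?_⟩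
    rintro ω ⟨x, x', x1, x2, x3, x4, hp⟩
    have i1 : ScrDuIn a c n N (x, c) := ⟨x1, x2, le_refl _, by simp only; omega⟩
    have i2 : ScrDuIn a c n N (x', c + N) := ⟨x3, x4, by simp only; omega, le_refl _⟩
    refine ⟨(x, c), ⟨(key c hrow _ i1).1.1, ha x x1 x2, ?_⟩, (x', c + N), (key c hrow _ i2).2 ?_,
      scr39a_path (fun v hv => (key c hrow v hv).1) hp⟩
    · rw [← hcy]
      exact abs_lt.2 ⟨by simp only; linarith, by simp only; linarith⟩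
    · rw [hd1]; push_cast; linarith
  · -- downwards
    obtain ⟨f1, f2⟩ := scr39a_floor hδ (cy - Λ.wh)
    obtain ⟨c', hc⟩ : ∃ c : ℤ, c = ⌊(cy - Λ.wh) / δ⌋ := ⟨_, rfl⟩
    rw [← hc] at f1 f2
    have hrow : ∀ y : ℤ, c' - N ≤ y → y ≤ c' - N + N → Λ.wh ≤ d * (δ * (y : ℝ) - cy) ∧ d * (δ * (y : ℝ) - cy) ≤ Λ.Rt / 2 := by
      intro y y1 y2
      have e1 := scr39a_mul_le hδ y1
      have e2 := scr39a_mul_le hδ y2
      push_cast at e1 e2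
      rw [hd1]
      constructor <;> linarith
    refine ⟨c' - N, abs_le.2 ⟨by push_cast; linarith, by push_cast; linarith⟩, ?_⟩
    rintro ω ⟨x, x', x1, x2, x3, x4, hp⟩
    have i1 : ScrDuIn a (c' - N) n N (x, c' - N) := ⟨x1, x2, le_refl _, by simp only; omega⟩
    have i2 : ScrDuIn a (c' - N) n N (x', c' - N + N) := ⟨x3, x4, by simp only; omega, le_refl _⟩
    refine ⟨(x', c' - N + N), ⟨(key _ hrow _ i2).1.1, ha x' x3 x4, ?_⟩, (x, c' - N), (key _ hrow _ i1).2 ?_,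
      scr39a_rtg_symm (scr39a_gstep_symm _ _ _) (scr39a_path (fun v hv => (key _ hrow v hv).1) hp)⟩
    · rw [← hcy]
      exact abs_lt.2 ⟨by simp only; push_cast; linarith, by simp only; push_cast; linarith⟩
    · rw [hd1]; push_cast; linarith

/-! ## 4. the two tubes and their annuli -/

/-- annulus on the left of the tube -/
theorem scr39a_tubeL {F : Finset (ℤ × ℤ)} {ω : RswCfg} (a c : ℤ) (m1 n N : ℕ) (hn : 1 ≤ n) (hN : N ≤ 2 * m1)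
    (hF : rswBox (a - m1, c + m1) (m1 + 2 * n) ⊆ F)
    (hsep : RswSep F true ω (rswBox (a - m1, c + m1) m1) (F \ rswBox (a - m1, c + m1) (m1 + n))) :
    ∃ x x' : ℤ, a ≤ x ∧ x ≤ a + n ∧ a ≤ x' ∧ x' ≤ a + n ∧
      Relation.ReflTransGen (ScrDuP (RswGood true ω) a c n N) (x, c) (x', c + N) := by
  refine scr39a_cross a c n N (fun f hf => hF ?_) hsep (Or.inl ⟨fun y y1 y2 => ?_, fun y y1 y2 => ?_⟩)
  · obtain ⟨f1, f2, f3, f4⟩ := hf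
    rw [scr99s_mem_box]
    simp only
    push_cast
    omega
  · rw [scr99s_mem_box]
    simp only
    omega
  · rw [scr99s_mem_box]
    simp only
    push_cast
    omega

/-- annulus on the right of the tube -/
theorem scr39a_tubeR {F : Finset (ℤ × ℤ)} {ω : RswCfg} (a c : ℤ) (m1 n N : ℕ) (hn : 1 ≤ n) (hN : N ≤ 2 * m1)
    (hF : rswBox (a + n + m1, c + m1) (m1 + 2 * n) ⊆ F)
    (hsep : RswSep F true ω (rswBox (a + n + m1, c + m1) m1) (F \ rswBox (a + n + m1, c + m1) (m1 + n))) :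
    ∃ x x' : ℤ, a ≤ x ∧ x ≤ a + n ∧ a ≤ x' ∧ x' ≤ a + n ∧
      Relation.ReflTransGen (ScrDuP (RswGood true ω) a c n N) (x, c) (x', c + N) := by
  refine scr39a_cross a c n N (fun f hf => hF ?_) hsep (Or.inr ⟨fun y y1 y2 => ?_, fun y y1 y2 => ?_⟩)
  · obtain ⟨f1, f2, f3, f4⟩ := hf
    rw [scr99s_mem_box]
    simp only
    push_cast
    omega
  · rw [scr99s_mem_box]
    simp only
    omega
  · rw [scr99s_mem_box]
    simp only
    push_cast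
    omega

theorem scr39a_box_dist {δ : ℝ} (hδ : 0 < δ) (z : ℤ × ℤ) (m : ℕ) (c : ℝ × ℝ) (ρ : ℝ)
    (h1 : |δ * (z.1 : ℝ) - c.1| + δ * (m : ℝ) ≤ ρ) (h2 : |δ * (z.2 : ℝ) - c.2| + δ * (m : ℝ) ≤ ρ) {f : ℤ × ℤ}
    (hf : f ∈ rswBox z m) : dist (scr232P δ f) c ≤ ρ := by
  rw [scr99s_mem_box] at hf
  obtain ⟨⟨a1, a2⟩, b1, b2⟩ := hf
  have key : ∀ (x : ℝ) (y y0 : ℤ), y0 - (m : ℤ) ≤ y → y < y0 + (m : ℤ) → |δ * (y0 : ℝ) - x| + δ * (m : ℝ) ≤ ρ →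
      |δ * (y : ℝ) - x| ≤ ρ := by
    intro x y y0 g1 g2 g3
    have e1 := scr39a_mul_le hδ g1
    have e2 := scr39a_mul_le hδ g2.le
    push_cast at e1 e2
    obtain ⟨e3, e4⟩ := abs_le.1 (le_refl |δ * (y0 : ℝ) - x|)
    exact abs_le.2 ⟨by linarith, by linarith⟩
  rw [Prod.dist_eq, Real.dist_eq, Real.dist_eq]
  exact max_le (key c.1 f.1 z.1 a1 a2 h1) (key c.2 f.2 z.2 b1 b2 h2)

/-- **two successive circuits** -/
theorem scr39a_two {t : ℝ} (h0 : 0 < t) (h1 : t ≤ 1) {pr : ℝ} (hpr : 0 < pr) {F : Finset (ℤ × ℤ)} {L E1 E2 T : RswCfg → Prop}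
    (s1 : pr * rswP t F true L ≤ rswP t F true fun ω => L ω ∧ E1 ω)
    (s2 : pr * rswP t F true (fun ω => L ω ∧ E1 ω) ≤ rswP t F true fun ω => (L ω ∧ E1 ω) ∧ E2 ω)
    (hT : ∀ ω, E1 ω → E2 ω → T ω) :
    min 1 (pr ^ 2) * rswP t F true L ≤ rswP t F true fun ω => L ω ∧ T ω := by
  have hL := rsb_P_nonneg h0 h1 F true L
  have s3 : rswP t F true (fun ω => (L ω ∧ E1 ω) ∧ E2 ω) ≤ rswP t F true fun ω => L ω ∧ T ω :=
    rsb_P_mono h0 h1 fun ω _ _ h => ⟨h.1.1, hT ω h.1.2 h.2⟩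
  have s4 : min 1 (pr ^ 2) * rswP t F true L ≤ pr ^ 2 * rswP t F true L :=
    mul_le_mul_of_nonneg_right (min_le_right _ _) hL
  have s5 : pr * (pr * rswP t F true L) ≤ pr * rswP t F true (fun ω => L ω ∧ E1 ω) :=
    mul_le_mul_of_nonneg_left s1 hpr.le
  nlinarith

/-! ## 5. the record -/

set_option maxHeartbeats 3200000 in
theorem scr39_arm (t : ℝ) (ht1 : 1 / 2 ≤ t) (ht2 : t < 1) : ScrShArm t := by
  classical
  have h0 : (0 : ℝ) < t := by linarith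
  choose pr hpr n0 hS1 using fun K : ℕ => exit_mdl_circ t ht1 ht2 K
  refine ⟨fun q => min 1 (pr ⌈1 / q⌉₊ ^ 2), fun q _ => ⟨lt_min one_pos (pow_pos (hpr _) 2), min_le_left _ _⟩, ?_⟩
  intro Λ hΛ
  have hR := hΛ.Rt_pos
  have hq := hΛ.hq
  have hwh0 : 0 < Λ.wh := mul_pos hq hR
  have hwh : Λ.wh ≤ Λ.Rt / 40 := by
    unfold ScrLay.wh
    nlinarith [hΛ.hq']
  have hc1 : Λ.c1 = Λ.Rt / 5 := rfl
  obtain ⟨K, hK⟩ : ∃ K : ℕ, K = ⌈1 / Λ.q⌉₊ := ⟨_, rfl⟩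
  have hK0 : (0 : ℝ) ≤ K := Nat.cast_nonneg K
  have hKw1 : Λ.Rt ≤ K * Λ.wh := by
    have := Nat.le_ceil (1 / Λ.q)
    rw [← hK, div_le_iff₀ hq] at this
    unfold ScrLay.wh
    nlinarith
  have hKw2 : K * Λ.wh ≤ Λ.Rt + Λ.wh := by
    have := Nat.ceil_lt_add_one (a := 1 / Λ.q) (by positivity)
    rw [← hK] at this
    have h3 : (K : ℝ) - 1 < 1 / Λ.q := by linarith
    rw [lt_div_iff₀ hq] at h3
    unfold ScrLay.wh
    nlinarith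
  refine ⟨min (Λ.wh / (8 * (n0 K + 1))) (Λ.Rt / (20 * (2 * K + 3))), lt_min (by positivity) (by positivity), ?_⟩
  intro δ hδ hδ0 F hF hfit k j hj L hL
  simp only
  rw [← hK]
  have hδa : δ * (8 * (n0 K + 1)) ≤ Λ.wh := by
    have := (hδ0.trans_le (min_le_left _ _)).le
    rwa [le_div_iff₀ (by positivity)] at this
  have hδb : δ * (20 * (2 * K + 3)) ≤ Λ.Rt := by
    have := (hδ0.trans_le (min_le_right _ _)).le
    rwa [le_div_iff₀ (by positivity)] at this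
  have hn00 : (0 : ℝ) ≤ n0 K := Nat.cast_nonneg _
  have hδ8 : 8 * δ ≤ Λ.wh := by nlinarith
  have hδ20 : 20 * δ ≤ Λ.Rt := by nlinarith
  -- the scale
  obtain ⟨n, hn⟩ : ∃ n : ℕ, n = ⌊Λ.wh / (8 * δ)⌋₊ := ⟨_, rfl⟩
  have hu1 : δ * (n : ℝ) ≤ Λ.wh / 8 := by
    have := Nat.floor_le (a := Λ.wh / (8 * δ)) (by positivity)
    rw [← hn, le_div_iff₀ (by positivity)] at this
    linarith
  have hu2 : Λ.wh / 8 < δ * (n : ℝ) + δ := by
    have := Nat.lt_floor_add_one (Λ.wh / (8 * δ))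
    rw [← hn, div_lt_iff₀ (by positivity)] at this
    linarith
  have hnn : n0 K + 1 ≤ n := by
    rw [hn]
    apply Nat.le_floor
    rw [le_div_iff₀ (by positivity)]
    push_cast
    linarith
  have hn1 : 1 ≤ n := by omega
  have hnn0 : n0 K ≤ n := by omega
  obtain ⟨m1, hm1⟩ : ∃ m1 : ℕ, m1 = (K + 1) * n := ⟨_, rfl⟩
  have e0 : K * n + n = m1 := by rw [hm1]; ring
  have e2 : (K + 2) * n = m1 + n := by rw [hm1]; ring
  have e3 : (K + 3) * n = m1 + 2 * n := by rw [hm1]; ring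
  have hm1r : δ * (m1 : ℝ) = K * (δ * n) + δ * n := by rw [hm1]; push_cast; ring
  have hU1a : δ * (m1 : ℝ) ≤ (Λ.Rt + Λ.wh) / 8 + Λ.wh / 8 := by
    rw [hm1r]
    have := mul_le_mul_of_nonneg_left hu1 hK0
    linarith
  have hU1b : Λ.Rt / 8 - K * δ - δ ≤ δ * (m1 : ℝ) := by
    rw [hm1r]
    have := mul_le_mul_of_nonneg_left hu2.le hK0
    nlinarith
  obtain ⟨hN1, hN2⟩ := scr39a_nceil hδ (x := Λ.c1) (by rw [hc1]; positivity)
  have hNm : ⌈Λ.c1 / δ⌉₊ ≤ 2 * m1 := by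
    have : δ * ((⌈Λ.c1 / δ⌉₊ : ℕ) : ℝ) ≤ δ * ((2 * m1 : ℕ) : ℝ) := by
      push_cast
      nlinarith
    exact_mod_cast le_of_mul_le_mul_left this hδ
  obtain ⟨cx, hcx⟩ : ∃ cx : ℝ, cx = (Λ.cen k j).1 := ⟨_, rfl⟩
  -- the columns
  obtain ⟨p1, p2⟩ := scr39a_ceil hδ (cx - Λ.wh / 2)
  obtain ⟨a1, ha1⟩ : ∃ a : ℤ, a = ⌈(cx - Λ.wh / 2) / δ⌉ := ⟨_, rfl⟩
  rw [← ha1] at p1 p2
  obtain ⟨p3, p4⟩ := scr39a_floor hδ (cx + Λ.wh / 2)
  obtain ⟨fl, hfl⟩ : ∃ a : ℤ, a = ⌊(cx + Λ.wh / 2) / δ⌋ := ⟨_, rfl⟩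
  rw [← hfl] at p3 p4
  have hc1' : ∀ x : ℤ, a1 ≤ x → x ≤ a1 + n → |δ * (x : ℝ) - (Λ.cen k j).1| ≤ Λ.wh / 2 := by
    intro x x1 x2
    have g1 := scr39a_mul_le hδ x1
    have g2 := scr39a_mul_le hδ x2
    push_cast at g2
    rw [← hcx]
    exact abs_le.2 ⟨by linarith, by linarith⟩
  have hc2' : ∀ x : ℤ, fl - n ≤ x → x ≤ fl - n + n → |δ * (x : ℝ) - (Λ.cen k j).1| ≤ Λ.wh / 2 := by
    intro x x1 x2
    have g1 := scr39a_mul_le hδ x1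
    have g2 := scr39a_mul_le hδ x2
    push_cast at g1 g2
    rw [← hcx]
    exact abs_le.2 ⟨by linarith, by linarith⟩
  have h12 : a1 + 3 * n ≤ fl := by
    have : δ * ((a1 + 3 * n : ℤ) : ℝ) < δ * ((fl + 1 : ℤ) : ℝ) := by
      push_cast
      linarith
    have := lt_of_mul_lt_mul_left this hδ.le
    have : a1 + 3 * (n : ℤ) < fl + 1 := by exact_mod_cast this
    omega
  obtain ⟨c1, hcc1, arm1⟩ := scr39a_one hΛ hδ hδ20 k hj false a1 n hc1'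
  obtain ⟨c2, hcc2, arm2⟩ := scr39a_one hΛ hδ hδ20 k hj true (fl - n) n hc2'
  obtain ⟨N, hN⟩ : ∃ N : ℕ, N = ⌈Λ.c1 / δ⌉₊ := ⟨_, rfl⟩
  rw [← hN] at arm1 arm2 hNm
  -- the boxes
  have hb1 : ∀ f ∈ rswBox (a1 - m1, c1 + m1) (m1 + 2 * n), dist (scr232P δ f) (Λ.cen k j) ≤ Λ.Rt := by
    intro f hf
    have q1 := abs_le.1 (hc1' a1 (le_refl _) (by omega))
    have q2 := abs_le.1 hcc1
    refine scr39a_box_dist hδ _ _ _ _ ?_ ?_ hf
    · have : |δ * (((a1 - m1 : ℤ)) : ℝ) - (Λ.cen k j).1| ≤ Λ.wh / 2 + δ * m1 := by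
        push_cast
        exact abs_le.2 ⟨by linarith [q1.1, q1.2], by nlinarith [q1.1, q1.2]⟩
      push_cast at this ⊢
      linarith
    · have : |δ * (((c1 + m1 : ℤ)) : ℝ) - (Λ.cen k j).2| ≤ Λ.Rt / 2 + δ * m1 := by
        push_cast
        exact abs_le.2 ⟨by nlinarith [q2.1, q2.2], by linarith [q2.1, q2.2]⟩
      push_cast at this ⊢
      linarith
  have hb2 : ∀ f ∈ rswBox (fl - n + n + m1, c2 + m1) (m1 + 2 * n), dist (scr232P δ f) (Λ.cen k j) ≤ Λ.Rt := by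
    intro f hf
    have q1 := abs_le.1 (hc2' fl (by omega) (by omega))
    have q2 := abs_le.1 hcc2
    refine scr39a_box_dist hδ _ _ _ _ ?_ ?_ hf
    · have : |δ * (((fl - n + n + m1 : ℤ)) : ℝ) - (Λ.cen k j).1| ≤ Λ.wh / 2 + δ * m1 := by
        push_cast
        exact abs_le.2 ⟨by nlinarith [q1.1, q1.2], by linarith [q1.1, q1.2]⟩
      push_cast at this ⊢
      linarith
    · have : |δ * (((c2 + m1 : ℤ)) : ℝ) - (Λ.cen k j).2| ≤ Λ.Rt / 2 + δ * m1 := by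
        push_cast
        exact abs_le.2 ⟨by nlinarith [q2.1, q2.2], by linarith [q2.1, q2.2]⟩
      push_cast at this ⊢
      linarith
  have hinF : ∀ f, dist (scr232P δ f) (Λ.cen k j) ≤ Λ.Rt → f ∈ F := by
    intro f hf
    apply hfit
    rw [Metric.mem_closedBall]
    have d2 := scr99s_cen_in hΛ k hj
    have d3 := dist_triangle (scr232P δ f) (Λ.cen k j) Λ.z
    linarith
  have hinU : ∀ f, dist (scr232P δ f) (Λ.cen k j) ≤ Λ.Rt → scr232P δ f ∈ Metric.ball (Λ.cen k j) (3 / 2 * Λ.Rt) := by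
    intro f hf
    rw [Metric.mem_ball]
    linarith
  have hF1 : rswBox (a1 - m1, c1 + m1) (m1 + 2 * n) ⊆ F := fun f hf => hinF f (hb1 f hf)
  have hF2 : rswBox (fl - n + n + m1, c2 + m1) (m1 + 2 * n) ⊆ F := fun f hf => hinF f (hb2 f hf)
  have s1 := hS1 K n hnn0 F (a1 - m1, c1 + m1) true true L hF (by rw [e3]; exact hF1)
    (scr99s_ext_of_out hL fun f hf => hinU f (hb1 f (by rw [← e3]; exact (Finset.mem_sdiff.1 hf).1)))
  have s2 := hS1 K n hnn0 F (fl - n + n + m1, c2 + m1) true true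
    (fun ω => L ω ∧ RswSep F true ω (rswBox (a1 - m1, c1 + m1) ((K + 1) * n)) (F \ rswBox (a1 - m1, c1 + m1) ((K + 2) * n)))
    hF (by rw [e3]; exact hF2)
    (scr99s_ext_and
      (scr99s_ext_of_out hL fun f hf => hinU f (hb2 f (by rw [← e3]; exact (Finset.mem_sdiff.1 hf).1)))
      (scr99s_ext_sep true ((scr99s_box_mono _ (by rw [← hm1]; omega)).trans hF1) (by
        rw [Finset.disjoint_left]
        intro f hf hf'
        have g1 := (Finset.mem_sdiff.1 hf).1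
        rw [e3, scr99s_mem_box] at g1
        rw [e2, scr99s_mem_box] at hf'
        simp only at g1 hf'
        push_cast at g1 hf'
        omega)))
  refine scr39a_two h0 ht2.le (hpr K) s1 s2 fun ω E1 E2 => ?_
  rw [← hm1, e2] at E1 E2
  intro b
  cases b
  · exact arm1 ω (scr39a_tubeL a1 c1 m1 n N hn1 hNm hF1 E1)
  · exact arm2 ω (scr39a_tubeR (fl - n) c2 m1 n N hn1 hNm hF2 E2)

end Claimed.Agent.R292
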