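import Claimed.Agent.R292.Rsw.CmpPin291

/-!
# Row 292 (S0540), Screen/Cmp129 : COMPARISON BETWEEN TWO PRESCRIPTIONS (generic multigraph)      (helper129; prefix `scc129_`, defs `scc129*`; exit `cmr91_AT_holley` typed by 91)

`prop:comparison` of the AT paper, second sentence: the `(s, W)` law given a legal record is increasing in the record, in the order `(s, W⁺, -W⁻)`; plus pins above.
This is THE ONLY INPUT of (TV) (`Scr91Cmp t F P` of Screen/Tv91).  It does not follow from (S0) (`exit_mdl_cmp`, association under ONE pin) by changing one coordinate at a time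
(a revealed closed edge would keep its pin while one of its ends is free).  It is an instance of `cmp291_holley` (Rsw/Cmp291 of 291) with SEPARATE couplings:
forced open with plus ends `(a, b) = (1, 0)`, forced open with minus ends `(0, 1)`, forced closed `(0, 0)`, free `((1+r)⁻¹, (1+r)⁻¹)`; the pair factor of a forced edge carries the
indicator of its pinned end values, so the factorwise Holley condition is an equality on the support.
* §1 generic (any finite multigraph): `scc129A`, `scc129H`, `scc129_edge`, `scc129_W_eq`, `scc129_sum2`, **`scc129_AT_holley`**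
* §2 **`cmr91_AT_holley`**: the same in the shape typed by 91 (prescription `(P, σ, Wp)`), VERBATIM (the twin Screen/CmpGen199 was withdrawn by 199: the names `cmr91*` live HERE only)
NB `Scr91Cmp t F P` itself is proved by 12: `hol12_scr91cmp` (Rsw/Holley12).
-/

set_option autoImplicit false
set_option linter.unusedSectionVars false
set_option linter.unusedVariables false
set_option linter.unusedSimpArgs false

namespace Claimed.Agent.R292

open Finset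
open Claims Claims.C0468
open Claimed.Agent.R291

/-! ## 1. generic: forced edges with pinned end values, separate couplings -/

section Gen

variable {V ι : Type*} [Fintype V] [DecidableEq V] [Fintype ι] [DecidableEq ι]

/-- couplings of colour `x` under forced edges: `1` on the forced open edges whose pinned ends have the colour `x`, `0` on the other forced edges -/
noncomputable def scc129A (p q : ι → V) (r : ℝ) (P₁ P₀ : Finset ι) (c : V → Bool) (x : Bool) (i : ι) : ℝ :=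
  if i ∈ P₁ then (if c (p i) = x ∧ c (q i) = x then 1 else 0) else if i ∈ P₀ then 0 else (1 + r)⁻¹

/-- pair factors under forced edges: indicator of the pinned end values times the constant of the edge -/
noncomputable def scc129H (p q : ι → V) (r : ℝ) (P₁ P₀ : Finset ι) (c : V → Bool) (i : ι) (x y : Bool) : ℝ :=
  if i ∈ P₁ then (if x = c (p i) ∧ y = c (q i) ∧ x = y then 1 else 0)
  else if i ∈ P₀ then (if x = c (p i) ∧ y = c (q i) then (if x = y then r else 1) else 0)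
  else cmp291H (1 + r) (1 + r) 1 x y

theorem scc129_A_mem (p q : ι → V) {r : ℝ} (hr : 0 ≤ r) (P₁ P₀ : Finset ι) (c : V → Bool) (x : Bool) (i : ι) :
    0 ≤ scc129A p q r P₁ P₀ c x i ∧ scc129A p q r P₁ P₀ c x i ≤ 1 := by
  unfold scc129A
  split_ifs
  · exact ⟨zero_le_one, le_rfl⟩
  · exact ⟨le_rfl, zero_le_one⟩
  · exact ⟨le_rfl, zero_le_one⟩
  · exact cmp291_inv_mem hr

theorem scc129_H_nonneg (p q : ι → V) {r : ℝ} (hr : 0 ≤ r) (P₁ P₀ : Finset ι) (c : V → Bool) (i : ι) (x y : Bool) :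
    0 ≤ scc129H p q r P₁ P₀ c i x y := by
  unfold scc129H
  split_ifs
  · exact zero_le_one
  · exact le_rfl
  · exact hr
  · exact zero_le_one
  · exact le_rfl
  · exact cmp291_H_nonneg (by linarith) (by linarith) zero_le_one x y

/-- the vertex factor under forced edges -/
noncomputable def scc129G (p q : ι → V) (r : ℝ) (P₁ P₀ : Finset ι) (c : V → Bool) (Φ : (V → Bool) → ℝ)
    (s : V → Bool) : ℝ :=
  Φ s * ∏ i, scc129H p q r P₁ P₀ c i (s (p i)) (s (q i))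

theorem scc129_G_nonneg (p q : ι → V) {r : ℝ} (hr : 0 ≤ r) (P₁ P₀ : Finset ι) (c : V → Bool)
    {Φ : (V → Bool) → ℝ} (h0 : ∀ s, 0 ≤ Φ s) (s : V → Bool) : 0 ≤ scc129G p q r P₁ P₀ c Φ s :=
  mul_nonneg (h0 s) (Finset.prod_nonneg fun i _ => scc129_H_nonneg p q hr P₁ P₀ c i _ _)

/-- the edge identity under forced states with pinned ends -/
theorem scc129_edge {r : ℝ} (hr : 0 ≤ r) (x y cp cq : Bool) (PA PB p1 p0 : Prop) [Decidable PA] [Decidable PB]
    [Decidable p1] [Decidable p0] (hA : PA → x = true ∧ y = true) (hB : PB → x = false ∧ y = false)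
    (hd : p1 → ¬ p0) (hc : p1 ∨ p0 → x = cp ∧ y = cq) :
    (if p1 then (if x = cp ∧ y = cq ∧ x = y then (1 : ℝ) else 0)
      else if p0 then (if x = cp ∧ y = cq then (if x = y then r else 1) else 0)
      else cmp291H (1 + r) (1 + r) 1 x y)
      * ((if PA then 2 * (if x = true ∧ y = true then
              (if p1 then (if cp = true ∧ cq = true then 1 else 0) else if p0 then 0 else (1 + r)⁻¹) else 0)
            else 1 - (if x = true ∧ y = true then
              (if p1 then (if cp = true ∧ cq = true then 1 else 0) else if p0 then 0 else (1 + r)⁻¹) else 0))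
        * (if PB then 2 * (if x = false ∧ y = false then
              (if p1 then (if cp = false ∧ cq = false then 1 else 0) else if p0 then 0 else (1 + r)⁻¹) else 0)
            else 1 - (if x = false ∧ y = false then
              (if p1 then (if cp = false ∧ cq = false then 1 else 0) else if p0 then 0 else (1 + r)⁻¹) else 0)))
      = (if PA ∨ PB then 2 else if x = y then r else 1)
        * (if (p1 → PA ∨ PB) ∧ (p0 → ¬ (PA ∨ PB)) then 1 else 0) := by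
  have h1 : (1 + r) ≠ 0 := by positivity
  by_cases c1 : p1
  · have c0 : ¬ p0 := hd c1
    obtain ⟨rfl, rfl⟩ := hc (Or.inl c1)
    cases x <;> cases y <;> by_cases h2 : PA <;> by_cases h3 : PB <;> simp_all
  · by_cases c0 : p0
    · obtain ⟨rfl, rfl⟩ := hc (Or.inr c0)
      cases x <;> cases y <;> by_cases h2 : PA <;> by_cases h3 : PB <;> simp_all
    · have := cmp291_edge_AT hr x y PA PB hA hB
      simp only [c1, c0, if_false, false_imp_iff, and_self, if_true, mul_one]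
      exact this

/-- the weight with forced edges in the variables `(s, W⁺, W⁻)` -/
theorem scc129_W_eq (p q : ι → V) {r : ℝ} (hr : 0 ≤ r) (P₁ P₀ : Finset ι) (hd : ∀ i ∈ P₁, i ∉ P₀)
    (c : V → Bool) (Φ : (V → Bool) → ℝ) (s : V → Bool)
    (hm : Φ s ≠ 0 → ∀ i, i ∈ P₁ ∨ i ∈ P₀ → s (p i) = c (p i) ∧ s (q i) = c (q i))
    {A B : Finset ι} (hA : A ⊆ cmp291Ep p q s) (hB : B ⊆ cmp291Em p q s) :
    cmp291W p q (scc129G p q r P₁ P₀ c Φ) (scc129A p q r P₁ P₀ c true) (scc129A p q r P₁ P₀ c false) s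
        (A, OrderDual.toDual B)
      = (Fintype.card (V → Bool) : ℝ) * (Φ s * cmp291AT p q r s (A ∪ B) * cmq291Pi P₁ P₀ (A ∪ B)) := by
  by_cases hΦ : Φ s = 0
  · unfold cmp291W scc129G
    rw [hΦ]
    ring
  have hm' := hm hΦ
  have hmono : ∀ i ∈ A ∪ B, s (p i) = s (q i) := fun i hi =>
    (cmp291_mono_iff p q s i).2 (Finset.union_subset_union hA hB hi)
  have hN : (iszN Bool p q A : ℝ) * (iszN Bool p q B : ℝ)
      = (Fintype.card (V → Bool) : ℝ) * (iszN Bool p q (A ∪ B) : ℝ) := by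
    exact_mod_cast cmp291_N_split p q s hA hB
  have hP : (∏ i, scc129H p q r P₁ P₀ c i (s (p i)) (s (q i)))
      * ((∏ i, (if i ∈ A then 2 * cmp291Up p q (scc129A p q r P₁ P₀ c true) s i
            else 1 - cmp291Up p q (scc129A p q r P₁ P₀ c true) s i))
        * ∏ i, (if i ∈ B then 2 * cmp291Um p q (scc129A p q r P₁ P₀ c false) s i
            else 1 - cmp291Um p q (scc129A p q r P₁ P₀ c false) s i))
      = (∏ i, (if i ∈ A ∪ B then 2 else if s (p i) = s (q i) then r else 1)) * cmq291Pi P₁ P₀ (A ∪ B) := by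
    rw [cmq291_Pi_prod, ← Finset.prod_mul_distrib, ← Finset.prod_mul_distrib, ← Finset.prod_mul_distrib]
    refine Finset.prod_congr rfl fun i _ => ?_
    have := scc129_edge hr (s (p i)) (s (q i)) (c (p i)) (c (q i)) (i ∈ A) (i ∈ B) (i ∈ P₁) (i ∈ P₀)
      (fun h => (cmp291_mem_Ep p q s i).1 (hA h)) (fun h => (cmp291_mem_Em p q s i).1 (hB h))
      (hd i) (hm' i)
    simp only [Finset.mem_union]
    exact this
  show scc129G p q r P₁ P₀ c Φ s * (cmp291FK p q (cmp291Up p q (scc129A p q r P₁ P₀ c true) s) A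
      * cmp291FK p q (cmp291Um p q (scc129A p q r P₁ P₀ c false) s) B) = _
  unfold cmp291AT cmp291FK scc129G
  rw [if_pos hmono]
  have hP' : Φ s * ((iszN Bool p q (A ∪ B) : ℝ)
        * ∏ i, (if i ∈ A ∪ B then 2 else if s (p i) = s (q i) then r else 1)) * cmq291Pi P₁ P₀ (A ∪ B)
      = Φ s * (iszN Bool p q (A ∪ B) : ℝ)
        * ((∏ i, (if i ∈ A ∪ B then 2 else if s (p i) = s (q i) then r else 1)) * cmq291Pi P₁ P₀ (A ∪ B)) := by
    ring
  rw [hP', ← hP]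
  linear_combination (Φ s * ((∏ i, scc129H p q r P₁ P₀ c i (s (p i)) (s (q i)))
      * ((∏ i, (if i ∈ A then 2 * cmp291Up p q (scc129A p q r P₁ P₀ c true) s i
            else 1 - cmp291Up p q (scc129A p q r P₁ P₀ c true) s i))
        * ∏ i, (if i ∈ B then 2 * cmp291Um p q (scc129A p q r P₁ P₀ c false) s i
            else 1 - cmp291Um p q (scc129A p q r P₁ P₀ c false) s i)))) * hN

theorem scc129_sum2 (p q : ι → V) {r : ℝ} (hr : 0 ≤ r) (P₁ P₀ : Finset ι) (hd : ∀ i ∈ P₁, i ∉ P₀)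
    (c : V → Bool) (Φ : (V → Bool) → ℝ)
    (hm : ∀ s, Φ s ≠ 0 → ∀ i, i ∈ P₁ ∨ i ∈ P₀ → s (p i) = c (p i) ∧ s (q i) = c (q i))
    (f : (V → Bool) → Finset ι → ℝ) :
    ∑ s, ∑ y, cmp291W p q (scc129G p q r P₁ P₀ c Φ) (scc129A p q r P₁ P₀ c true) (scc129A p q r P₁ P₀ c false) s y
        * cmp291Ext p q f s y
      = (Fintype.card (V → Bool) : ℝ)
        * ∑ s, ∑ W, Φ s * cmp291AT p q r s W * (cmq291Pi P₁ P₀ W * f s W) := by
  rw [Finset.mul_sum]
  refine Finset.sum_congr rfl fun s _ => ?_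
  rw [Finset.mul_sum]
  have := cmq291_sum_dict p q s
    (cmp291W p q (scc129G p q r P₁ P₀ c Φ) (scc129A p q r P₁ P₀ c true) (scc129A p q r P₁ P₀ c false) s)
    (fun W => (Fintype.card (V → Bool) : ℝ) * (Φ s * cmp291AT p q r s W * cmq291Pi P₁ P₀ W))
    (fun y hy => by
      rw [not_and_or] at hy
      unfold cmp291W
      rcases hy with h | h
      · rw [cmp291_FK_Up_zero p q _ s h]; ring
      · rw [cmp291_FK_Um_zero p q _ s h]; ring)
    (fun W hW => by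
      have : ¬ ∀ i ∈ W, s (p i) = s (q i) := fun h => hW fun i hi => (cmp291_mono_iff p q s i).1 (h i hi)
      unfold cmp291AT
      rw [if_neg this]
      ring)
    (fun A B hA hB => scc129_W_eq p q hr P₁ P₀ hd c Φ s (hm s) hA hB) (f s)
  unfold cmp291Ext
  rw [this]
  refine Finset.sum_congr rfl fun W _ => ?_
  ring

/-- the order between two sets of forced edges with pinned end values -/
structure Scc129Le (p q : ι → V) (P₁ P₀ : Finset ι) (c : V → Bool) (P₁' P₀' : Finset ι) (c' : V → Bool) : Prop where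
  sub : ∀ i, i ∈ P₁ ∨ i ∈ P₀ → i ∈ P₁' ∨ i ∈ P₀'
  ends : ∀ i, i ∈ P₁ ∨ i ∈ P₀ → c (p i) ≤ c' (p i) ∧ c (q i) ≤ c' (q i)
  new : ∀ i, ¬ (i ∈ P₁ ∨ i ∈ P₀) → i ∈ P₁' ∨ i ∈ P₀' → i ∈ P₁' ∧ c' (p i) = true ∧ c' (q i) = true
  up : ∀ i ∈ P₁, c (p i) = true → c (q i) = true → i ∈ P₁' ∧ c' (p i) = true ∧ c' (q i) = true
  dn : ∀ i ∈ P₁', c' (p i) = false → c' (q i) = false → i ∈ P₁ ∧ c (p i) = false ∧ c (q i) = false

theorem scc129_A_up {p q : ι → V} {r : ℝ} (hr : 0 ≤ r) {P₁ P₀ P₁' P₀' : Finset ι} {c c' : V → Bool}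
    (L : Scc129Le p q P₁ P₀ c P₁' P₀' c') (i : ι) :
    scc129A p q r P₁ P₀ c true i ≤ scc129A p q r P₁' P₀' c' true i := by
  have hn := (scc129_A_mem p q hr P₁' P₀' c' true i).1
  by_cases h1 : i ∈ P₁
  · by_cases hc : c (p i) = true ∧ c (q i) = true
    · obtain ⟨h1', e1, e2⟩ := L.up i h1 hc.1 hc.2
      simp [scc129A, h1, hc, h1', e1, e2]
    · have : scc129A p q r P₁ P₀ c true i = 0 := by simp only [scc129A, if_pos h1, if_neg hc]
      rw [this]; exact hn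
  · by_cases h0 : i ∈ P₀
    · have : scc129A p q r P₁ P₀ c true i = 0 := by simp only [scc129A, if_neg h1, if_pos h0]
      rw [this]; exact hn
    · have e : scc129A p q r P₁ P₀ c true i = (1 + r)⁻¹ := by simp only [scc129A, if_neg h1, if_neg h0]
      rw [e]
      by_cases hf : i ∈ P₁' ∨ i ∈ P₀'
      · obtain ⟨h1', e1, e2⟩ := L.new i (not_or.2 ⟨h1, h0⟩) hf
        have : scc129A p q r P₁' P₀' c' true i = 1 := by simp [scc129A, h1', e1, e2]
        rw [this]; exact (cmp291_inv_mem hr).2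
      · obtain ⟨g1, g0⟩ := not_or.1 hf
        have : scc129A p q r P₁' P₀' c' true i = (1 + r)⁻¹ := by simp only [scc129A, if_neg g1, if_neg g0]
        rw [this]

theorem scc129_A_dn {p q : ι → V} {r : ℝ} (hr : 0 ≤ r) {P₁ P₀ P₁' P₀' : Finset ι} {c c' : V → Bool}
    (L : Scc129Le p q P₁ P₀ c P₁' P₀' c') (i : ι) :
    scc129A p q r P₁' P₀' c' false i ≤ scc129A p q r P₁ P₀ c false i := by
  have hn := (scc129_A_mem p q hr P₁ P₀ c false i).1
  by_cases h1 : i ∈ P₁'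
  · by_cases hc : c' (p i) = false ∧ c' (q i) = false
    · obtain ⟨h1', e1, e2⟩ := L.dn i h1 hc.1 hc.2
      simp [scc129A, h1, hc, h1', e1, e2]
    · have : scc129A p q r P₁' P₀' c' false i = 0 := by simp only [scc129A, if_pos h1, if_neg hc]
      rw [this]; exact hn
  · by_cases h0 : i ∈ P₀'
    · have : scc129A p q r P₁' P₀' c' false i = 0 := by simp only [scc129A, if_neg h1, if_pos h0]
      rw [this]; exact hn
    · have e : scc129A p q r P₁' P₀' c' false i = (1 + r)⁻¹ := by simp only [scc129A, if_neg h1, if_neg h0]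
      rw [e]
      have hf : ¬ (i ∈ P₁ ∨ i ∈ P₀) := fun h => (not_or.2 ⟨h1, h0⟩) (L.sub i h)
      obtain ⟨g1, g0⟩ := not_or.1 hf
      have : scc129A p q r P₁ P₀ c false i = (1 + r)⁻¹ := by simp only [scc129A, if_neg g1, if_neg g0]
      rw [this]

/-- the pair factor of a forced edge lives on the pinned end values -/
theorem scc129_H_supp {p q : ι → V} {r : ℝ} {P₁ P₀ : Finset ι} {c : V → Bool} {i : ι} (hi : i ∈ P₁ ∨ i ∈ P₀) {x y : Bool}
    (h : scc129H p q r P₁ P₀ c i x y ≠ 0) : x = c (p i) ∧ y = c (q i) := by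
  unfold scc129H at h
  by_cases h1 : i ∈ P₁
  · rw [if_pos h1] at h
    by_contra hc
    exact h (if_neg fun hh => hc ⟨hh.1, hh.2.1⟩)
  · have h0 : i ∈ P₀ := hi.resolve_left h1
    rw [if_neg h1, if_pos h0] at h
    by_contra hc
    exact h (if_neg hc)

theorem scc129_H_holley {p q : ι → V} {r : ℝ} (hr : 0 ≤ r) {P₁ P₀ P₁' P₀' : Finset ι} {c c' : V → Bool}
    (L : Scc129Le p q P₁ P₀ c P₁' P₀' c') (i : ι) (x y x' y' : Bool) :
    scc129H p q r P₁ P₀ c i x y * scc129H p q r P₁' P₀' c' i x' y'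
      ≤ scc129H p q r P₁ P₀ c i (x ⊓ x') (y ⊓ y') * scc129H p q r P₁' P₀' c' i (x ⊔ x') (y ⊔ y') := by
  have hnn : 0 ≤ scc129H p q r P₁ P₀ c i (x ⊓ x') (y ⊓ y') * scc129H p q r P₁' P₀' c' i (x ⊔ x') (y ⊔ y') :=
    mul_nonneg (scc129_H_nonneg p q hr _ _ _ _ _ _) (scc129_H_nonneg p q hr _ _ _ _ _ _)
  by_cases z1 : scc129H p q r P₁ P₀ c i x y = 0
  · rw [z1, zero_mul]; exact hnn
  by_cases z2 : scc129H p q r P₁' P₀' c' i x' y' = 0
  · rw [z2, mul_zero]; exact hnn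
  by_cases hf' : i ∈ P₁' ∨ i ∈ P₀'
  · obtain ⟨e1', e2'⟩ := scc129_H_supp hf' z2
    by_cases hf : i ∈ P₁ ∨ i ∈ P₀
    · obtain ⟨e1, e2⟩ := scc129_H_supp hf z1
      obtain ⟨l1, l2⟩ := L.ends i hf
      have a1 : x ≤ x' := by rw [e1, e1']; exact l1
      have a2 : y ≤ y' := by rw [e2, e2']; exact l2
      rw [inf_eq_left.2 a1, inf_eq_left.2 a2, sup_eq_right.2 a1, sup_eq_right.2 a2]
    · obtain ⟨-, t1, t2⟩ := L.new i hf hf'
      have a1 : x ≤ x' := by rw [e1', t1]; exact le_top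
      have a2 : y ≤ y' := by rw [e2', t2]; exact le_top
      rw [inf_eq_left.2 a1, inf_eq_left.2 a2, sup_eq_right.2 a1, sup_eq_right.2 a2]
  · have hf : ¬ (i ∈ P₁ ∨ i ∈ P₀) := fun h => hf' (L.sub i h)
    obtain ⟨g1, g0⟩ := not_or.1 hf
    obtain ⟨g1', g0'⟩ := not_or.1 hf'
    simp only [scc129H, if_neg g1, if_neg g0, if_neg g1', if_neg g0']
    exact cmp291_H_super (by nlinarith) x y x' y'

theorem scc129_G_holley (p q : ι → V) {r : ℝ} (hr : 0 ≤ r) {P₁ P₀ P₁' P₀' : Finset ι} {c c' : V → Bool}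
    (L : Scc129Le p q P₁ P₀ c P₁' P₀' c') {Φ Φ' : (V → Bool) → ℝ} (h0 : ∀ s, 0 ≤ Φ s) (h0' : ∀ s, 0 ≤ Φ' s)
    (h : ∀ s s', Φ s * Φ' s' ≤ Φ (s ⊓ s') * Φ' (s ⊔ s')) (s s' : V → Bool) :
    scc129G p q r P₁ P₀ c Φ s * scc129G p q r P₁' P₀' c' Φ' s'
      ≤ scc129G p q r P₁ P₀ c Φ (s ⊓ s') * scc129G p q r P₁' P₀' c' Φ' (s ⊔ s') := by
  have hH0 := scc129_H_nonneg p q hr P₁ P₀ c
  have hH0' := scc129_H_nonneg p q hr P₁' P₀' c'
  have e := cmp291_G_holley p q (fld₁ := fun _ _ => 1) (fld₂ := fun _ _ => 1)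
    (H₁ := scc129H p q r P₁ P₀ c) (H₂ := scc129H p q r P₁' P₀' c')
    (fun _ _ => zero_le_one) (fun _ _ => zero_le_one) hH0 hH0'
    (fun _ _ _ => le_rfl) (scc129_H_holley hr L) s s'
  simp only [cmp291G, Finset.prod_const_one, one_mul] at e
  unfold scc129G
  have n1 : 0 ≤ (∏ i, scc129H p q r P₁ P₀ c i (s (p i)) (s (q i)))
      * ∏ i, scc129H p q r P₁' P₀' c' i (s' (p i)) (s' (q i)) :=
    mul_nonneg (Finset.prod_nonneg fun i _ => hH0 _ _ _) (Finset.prod_nonneg fun i _ => hH0' _ _ _)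
  calc Φ s * (∏ i, scc129H p q r P₁ P₀ c i (s (p i)) (s (q i)))
        * (Φ' s' * ∏ i, scc129H p q r P₁' P₀' c' i (s' (p i)) (s' (q i)))
      = (Φ s * Φ' s') * ((∏ i, scc129H p q r P₁ P₀ c i (s (p i)) (s (q i)))
          * ∏ i, scc129H p q r P₁' P₀' c' i (s' (p i)) (s' (q i))) := by ring
    _ ≤ _ := mul_le_mul (h s s') e n1 (mul_nonneg (h0 _) (h0' _))
    _ = _ := by ring

/-- **Proposition 3.2 with forced edges, comparison**: two sets of forced edges with pinned ends, ordered in (3.4). -/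
theorem scc129_AT_holley (p q : ι → V) {r : ℝ} (hr : 0 ≤ r) {P₁ P₀ P₁' P₀' : Finset ι}
    (hd : ∀ i ∈ P₁, i ∉ P₀) (hd' : ∀ i ∈ P₁', i ∉ P₀') {c c' : V → Bool}
    (L : Scc129Le p q P₁ P₀ c P₁' P₀' c') {Φ Φ' : (V → Bool) → ℝ} (h0 : ∀ s, 0 ≤ Φ s) (h0' : ∀ s, 0 ≤ Φ' s)
    (hΦ : ∀ s s', Φ s * Φ' s' ≤ Φ (s ⊓ s') * Φ' (s ⊔ s'))
    (hm : ∀ s, Φ s ≠ 0 → ∀ i, i ∈ P₁ ∨ i ∈ P₀ → s (p i) = c (p i) ∧ s (q i) = c (q i))
    (hm' : ∀ s, Φ' s ≠ 0 → ∀ i, i ∈ P₁' ∨ i ∈ P₀' → s (p i) = c' (p i) ∧ s (q i) = c' (q i))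
    {f : (V → Bool) → Finset ι → ℝ} (hf : cmp291Inc p q f) :
    (∑ s, ∑ W, Φ s * cmp291AT p q r s W * (cmq291Pi P₁ P₀ W * f s W))
        * (∑ s, ∑ W, Φ' s * cmp291AT p q r s W * (cmq291Pi P₁' P₀' W * 1))
      ≤ (∑ s, ∑ W, Φ s * cmp291AT p q r s W * (cmq291Pi P₁ P₀ W * 1))
        * ∑ s, ∑ W, Φ' s * cmp291AT p q r s W * (cmq291Pi P₁' P₀' W * f s W) := by
  have key := cmp291_holley p q (scc129_G_nonneg p q hr P₁ P₀ c h0) (scc129_G_nonneg p q hr P₁' P₀' c' h0')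
    (scc129_G_holley p q hr L h0 h0' hΦ)
    (a₁ := scc129A p q r P₁ P₀ c true) (a₂ := scc129A p q r P₁' P₀' c' true)
    (b₁ := scc129A p q r P₁ P₀ c false) (b₂ := scc129A p q r P₁' P₀' c' false)
    (fun i => (scc129_A_mem p q hr P₁ P₀ c true i).1) (scc129_A_up hr L)
    (fun i => (scc129_A_mem p q hr P₁' P₀' c' true i).2)
    (fun i => (scc129_A_mem p q hr P₁' P₀' c' false i).1) (scc129_A_dn hr L)
    (fun i => (scc129_A_mem p q hr P₁ P₀ c false i).2)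
    (cmp291_Ext_mono p q hf)
  have e1 := scc129_sum2 p q hr P₁ P₀ hd c Φ hm (fun _ _ => 1)
  have e2 := scc129_sum2 p q hr P₁' P₀' hd' c' Φ' hm' (fun _ _ => 1)
  have e3' : ∀ s y, cmp291Ext p q (fun _ _ => (1 : ℝ)) s y = 1 := fun _ _ => rfl
  simp only [e3', mul_one] at e1 e2
  rw [scc129_sum2 p q hr P₁ P₀ hd c Φ hm f, scc129_sum2 p q hr P₁' P₀' hd' c' Φ' hm' f, e1, e2] at key
  have hc : (0 : ℝ) < (Fintype.card (V → Bool) : ℝ) := by exact_mod_cast Fintype.card_pos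
  refine le_of_mul_le_mul_left ?_ (mul_pos hc hc)
  simp only [mul_one]
  nlinarith [key]

/-! ## 2. the shape typed by 91 -/

/-- couplings of colour `c` under the prescription `(P, σ, Wp)` -/
noncomputable def cmr91A (p q : ι → V) (r : ℝ) (P : Finset ι) (σ : V → Bool) (Wp : Finset ι) (c : Bool) (i : ι) : ℝ :=
  if i ∈ P then (if i ∈ Wp ∧ σ (p i) = c ∧ σ (q i) = c then 1 else 0) else (1 + r)⁻¹

/-- pair factors under the prescription -/
noncomputable def cmr91H (p q : ι → V) (r : ℝ) (P : Finset ι) (σ : V → Bool) (Wp : Finset ι) (i : ι) (x y : Bool) : ℝ :=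
  if i ∈ P then
    (if x = σ (p i) ∧ y = σ (q i) then
      (if i ∈ Wp then (if σ (p i) = σ (q i) then 1 else 0) else (if σ (p i) = σ (q i) then r else 1)) else 0)
  else cmp291H (1 + r) (1 + r) 1 x y

/-- the indicator of the prescribed edge states -/
noncomputable def cmr91Pi (P Wp W : Finset ι) : ℝ := if ∀ i ∈ P, (i ∈ W ↔ i ∈ Wp) then 1 else 0

theorem scc129_Pi_eq (P Wp W : Finset ι) : cmr91Pi P Wp W = cmq291Pi (P ∩ Wp) (P \ Wp) W := by
  unfold cmr91Pi cmq291Pi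
  have : (∀ i ∈ P, (i ∈ W ↔ i ∈ Wp)) ↔ ∀ i, (i ∈ P ∩ Wp → i ∈ W) ∧ (i ∈ P \ Wp → i ∉ W) := by
    simp only [Finset.mem_inter, Finset.mem_sdiff]
    constructor
    · intro h i
      exact ⟨fun hi => (h i hi.1).2 hi.2, fun hi hw => hi.2 ((h i hi.1).1 hw)⟩
    · intro h i hi
      constructor
      · intro hw
        by_contra hc
        exact (h i).2 ⟨hi, hc⟩ hw
      · intro hw
        exact (h i).1 ⟨hi, hw⟩
  by_cases hh : ∀ i ∈ P, (i ∈ W ↔ i ∈ Wp)
  · rw [if_pos hh, if_pos (this.1 hh)]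
  · rw [if_neg hh, if_neg (fun h => hh (this.2 h))]

theorem scc129_mem_forced (P Wp : Finset ι) (i : ι) : (i ∈ P ∩ Wp ∨ i ∈ P \ Wp) ↔ i ∈ P := by
  simp only [Finset.mem_inter, Finset.mem_sdiff]
  by_cases h : i ∈ Wp <;> simp [h]

theorem cmr91_AT_holley (p q : ι → V) {r : ℝ} (hr : 0 ≤ r) {P₁ P₂ : Finset ι} (hP : P₁ ⊆ P₂) (σ₁ σ₂ : V → Bool)
    (W₁ W₂ : Finset ι)
    (hσ : ∀ i ∈ P₁, σ₁ (p i) ≤ σ₂ (p i) ∧ σ₁ (q i) ≤ σ₂ (q i))
    (hgp : ∀ i ∈ P₁, (i ∈ W₁ ∧ σ₁ (p i) = true ∧ σ₁ (q i) = true) → (i ∈ W₂ ∧ σ₂ (p i) = true ∧ σ₂ (q i) = true))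
    (hgm : ∀ i ∈ P₁, (i ∈ W₂ ∧ σ₂ (p i) = false ∧ σ₂ (q i) = false) → (i ∈ W₁ ∧ σ₁ (p i) = false ∧ σ₁ (q i) = false))
    (hnew : ∀ i ∈ P₂, i ∉ P₁ → (i ∈ W₂ ∧ σ₂ (p i) = true ∧ σ₂ (q i) = true))
    {Φ₁ Φ₂ : (V → Bool) → ℝ} (h1 : ∀ s, 0 ≤ Φ₁ s) (h2 : ∀ s, 0 ≤ Φ₂ s)
    (hΦ : ∀ s s', Φ₁ s * Φ₂ s' ≤ Φ₁ (s ⊓ s') * Φ₂ (s ⊔ s'))
    (hm₁ : ∀ s, Φ₁ s ≠ 0 → ∀ i ∈ P₁, s (p i) = σ₁ (p i) ∧ s (q i) = σ₁ (q i))
    (hm₂ : ∀ s, Φ₂ s ≠ 0 → ∀ i ∈ P₂, s (p i) = σ₂ (p i) ∧ s (q i) = σ₂ (q i))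
    {f : (V → Bool) → Finset ι → ℝ} (hf : cmp291Inc p q f) :
    (∑ s, ∑ W, Φ₁ s * cmp291AT p q r s W * (cmr91Pi P₁ W₁ W * f s W))
        * (∑ s, ∑ W, Φ₂ s * cmp291AT p q r s W * (cmr91Pi P₂ W₂ W * 1))
      ≤ (∑ s, ∑ W, Φ₁ s * cmp291AT p q r s W * (cmr91Pi P₁ W₁ W * 1))
        * ∑ s, ∑ W, Φ₂ s * cmp291AT p q r s W * (cmr91Pi P₂ W₂ W * f s W) := by
  have L : Scc129Le p q (P₁ ∩ W₁) (P₁ \ W₁) σ₁ (P₂ ∩ W₂) (P₂ \ W₂) σ₂ := by
    refine ⟨fun i hi => ?_, fun i hi => ?_, fun i hi hi' => ?_, fun i hi e1 e2 => ?_, fun i hi e1 e2 => ?_⟩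
    · rw [scc129_mem_forced] at hi ⊢
      exact hP hi
    · rw [scc129_mem_forced] at hi
      exact hσ i hi
    · rw [scc129_mem_forced] at hi hi'
      obtain ⟨a, b, c⟩ := hnew i hi' hi
      exact ⟨Finset.mem_inter.2 ⟨hi', a⟩, b, c⟩
    · obtain ⟨a, b⟩ := Finset.mem_inter.1 hi
      obtain ⟨a', b', c'⟩ := hgp i a ⟨b, e1, e2⟩
      exact ⟨Finset.mem_inter.2 ⟨hP a, a'⟩, b', c'⟩
    · obtain ⟨a, b⟩ := Finset.mem_inter.1 hi
      by_cases hi1 : i ∈ P₁
      · obtain ⟨a', b', c'⟩ := hgm i hi1 ⟨b, e1, e2⟩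
        exact ⟨Finset.mem_inter.2 ⟨hi1, a'⟩, b', c'⟩
      · obtain ⟨-, b', -⟩ := hnew i a hi1
        rw [e1] at b'
        exact absurd b' Bool.false_ne_true
  have key := scc129_AT_holley p q hr (P₁ := P₁ ∩ W₁) (P₀ := P₁ \ W₁) (P₁' := P₂ ∩ W₂) (P₀' := P₂ \ W₂)
    (fun i hi hi' => (Finset.mem_sdiff.1 hi').2 (Finset.mem_inter.1 hi).2)
    (fun i hi hi' => (Finset.mem_sdiff.1 hi').2 (Finset.mem_inter.1 hi).2) L h1 h2 hΦ
    (fun s hs i hi => hm₁ s hs i ((scc129_mem_forced P₁ W₁ i).1 hi))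
    (fun s hs i hi => hm₂ s hs i ((scc129_mem_forced P₂ W₂ i).1 hi)) hf
  simp only [scc129_Pi_eq]
  exact key

end Gen

/-- the equation and congruence lemmas of the definitions of this file are generated HERE, once (RULES.md, rule 6) -/
theorem scc129_eqns_cite : True := by
  have := @scc129A.eq_1.{0,0}
  have := @scc129H.eq_1.{0,0}
  have := @scc129G.eq_1.{0,0}
  have := @cmr91A.eq_1.{0,0}
  have := @cmr91H.eq_1.{0,0}
  have := @cmr91Pi.eq_1.{0}
  have := @scc129A.congr_simp.{0,0}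
  have := @scc129H.congr_simp.{0,0}
  have := @scc129G.congr_simp.{0,0}
  have := @cmr91A.congr_simp.{0,0}
  have := @cmr91H.congr_simp.{0,0}
  have := @cmr91Pi.congr_simp.{0}
  trivial

end Claimed.Agent.R292
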