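import Claimed.Agent.R292.Defs.ScreenIns
import Claimed.Agent.R292.Exit.RSW
import Claimed.Agent.R292.Screen.Ring32
import Claimed.Agent.R292.Model.Jump61
import Claimed.Agent.R292.Rsw.Base122

/-!
# Row 292 (S0540), Screen/Col32 : (COL) LEMMA 5.6, ADDING CORE COLOURS      (owner helper32; prefix `scr32c_`, `Scr32c`)

AT paper, Lemma 5.6 (`lem:screen-core-colors`), 05-screening.tex l.302-346.   No `sorry` in this file.   TARGET = the statement of `scr_cut_col` (Cut229b).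
METHOD: every identity is made in FINITE volume `rswBox 0 N` and passed to the plane term by term (finitely many local observables at one mesh).
1. `Scr32cStep / Conn / Seal`   the restricted `N` graph of a pattern `P` (steps across prescribed closed `W` edges), its classes, sealed classes;
   `scr32cRep`, `scr32cR`, `scr32cRs`, `scr32cT`   one representative in `A = sel P` of every class that meets `A`; sealed ones; TERMINALS
2. `scr32cAvg`, `scr32c_avg_flip`   average over the colours of the sealed representatives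
3. one pattern, finite volume: `scr32c_const` (the face spin is constant on the classes, from `mdl61_wt_const`), `scr32c_flip` (from `mdl61_E_flip` of 61: a sealed class
   is a union of components of `N`, its faces lie in the blocks, the insertion does not read them), `scr32c_avg_id`, `scr32c_expand`,
   **`scr32c_pattern_id`**  `E[X 1_P g(D ∩ A)] = ∑_{T' ⊆ T} ĝ(T') E[X ∏_i 1_{P_i} Fc_i]`, `|ĝ| ≤ 1`, `Fc_i` a bounded test function of the block `i`
4. windows: `scr32c_loc` (`ScrIn` a square ⟹ `ScrLoc`), the finite family of the patterns `scr32cFam`, `scr32c_patI_sum`, `scr32c_decomp`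
5. **`scr32c_mesh`**   one mesh: `|E[X G(Y)]| ≤ 2^M e + a/2 E[X²] + 1/(2a) P(more than M terminals)`   (`e` = the constant of the gapped identity at this mesh)
6. **`scr32c_col`**    the statement of `scr_cut_col`, from `hgapL` (= the statement of `scr_cut_gap` after `t ht1 ht2`) and the RECORDS
   * `Scr32cLim t`      the plane expectation of a local observable is the limit along the boxes      (= `exit_rsw_plane` + `RswJordan (rswBox 0 N)`)
   * `Scr32cMom`        `E[(scrIns δ z φ)²] ≤ C`      (M52 without patterns; `scr_cut_mom` is typed at the centre `0` only)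
   * `Scr32cIns`        `scrIns δ z φ` reads only the core square `scrSq z r`
   * `Scr32cTail`       (S2) tightness of the number of terminals `(scr32cT ..).card`, uniformly in the mesh and in the selection
-/

set_option autoImplicit false

namespace Claimed.Agent.R292

open Claims Claims.C0468 Filter Topology

/-! ## 1. the restricted `N` graph of a pattern: classes, representatives, sealed classes, terminals -/

section graph

variable (δ : ℝ) (blk : Fin 4 → Set (ℝ × ℝ))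

/-- the state of the edge `e` is prescribed by the pattern in the block `i`. -/
def Scr32cPre (i : Fin 4) (e : (ℤ × ℤ) × Bool) : Prop :=
  scr232P δ e.1 ∈ blk i ∧ scr232P δ (rswEnd e) ∈ blk i

/-- one step of the restricted `N` graph of the pattern `P`: across a prescribed closed `W` edge. -/
def Scr32cStep (P : Fin 4 → ScrPatT) (f g : ℤ × ℤ) : Prop :=
  ∃ (e : (ℤ × ℤ) × Bool) (i : Fin 4), Scr32cPre δ blk i e ∧ e ∉ (P i).2 ∧
    ((f = e.1 ∧ g = rswCo e) ∨ (g = e.1 ∧ f = rswCo e))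

/-- same class of the restricted `N` graph. -/
def Scr32cConn (P : Fin 4 → ScrPatT) : ℤ × ℤ → ℤ × ℤ → Prop := Relation.EqvGen (Scr32cStep δ blk P)

/-- the class of `f` is sealed: no face of the class is incident to an unprescribed edge. -/
def Scr32cSeal (P : Fin 4 → ScrPatT) (f : ℤ × ℤ) : Prop :=
  ∀ g, Scr32cConn δ blk P f g → ∀ e : (ℤ × ℤ) × Bool, (e.1 = g ∨ rswCo e = g) → ∃ i, Scr32cPre δ blk i e

/-- a choice function on finite sets. -/
noncomputable def scr32cPick (s : Finset (ℤ × ℤ)) : ℤ × ℤ :=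
  open Classical in if h : s.Nonempty then h.choose else 0

theorem scr32c_pick_mem {s : Finset (ℤ × ℤ)} (h : s.Nonempty) : scr32cPick s ∈ s := by
  unfold scr32cPick
  rw [dif_pos h]
  exact h.choose_spec

/-- the representative in `A` of the class of `f`. -/
noncomputable def scr32cRep (P : Fin 4 → ScrPatT) (A : Finset (ℤ × ℤ)) (f : ℤ × ℤ) : ℤ × ℤ :=
  open Classical in scr32cPick (A.filter fun g => Scr32cConn δ blk P f g)

variable {δ blk}

theorem scr32c_conn_refl (P : Fin 4 → ScrPatT) (f : ℤ × ℤ) : Scr32cConn δ blk P f f := Relation.EqvGen.refl f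

theorem scr32c_conn_symm {P : Fin 4 → ScrPatT} {f g : ℤ × ℤ} (h : Scr32cConn δ blk P f g) :
    Scr32cConn δ blk P g f := Relation.EqvGen.symm _ _ h

theorem scr32c_conn_trans {P : Fin 4 → ScrPatT} {f g k : ℤ × ℤ} (h : Scr32cConn δ blk P f g)
    (h' : Scr32cConn δ blk P g k) : Scr32cConn δ blk P f k := Relation.EqvGen.trans _ _ _ h h'

theorem scr32c_rep_spec {P : Fin 4 → ScrPatT} {A : Finset (ℤ × ℤ)} {f : ℤ × ℤ} (hf : f ∈ A) :
    scr32cRep δ blk P A f ∈ A ∧ Scr32cConn δ blk P f (scr32cRep δ blk P A f) := by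
  classical
  have h : (A.filter fun g => Scr32cConn δ blk P f g).Nonempty :=
    ⟨f, Finset.mem_filter.2 ⟨hf, scr32c_conn_refl P f⟩⟩
  have := scr32c_pick_mem h
  exact Finset.mem_filter.1 this

theorem scr32c_rep_eq {P : Fin 4 → ScrPatT} (A : Finset (ℤ × ℤ)) {f g : ℤ × ℤ} (h : Scr32cConn δ blk P f g) :
    scr32cRep δ blk P A f = scr32cRep δ blk P A g := by
  classical
  unfold scr32cRep
  congr 1
  refine Finset.filter_congr fun k _ => ?_
  exact ⟨fun hk => scr32c_conn_trans (scr32c_conn_symm h) hk, fun hk => scr32c_conn_trans h hk⟩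

theorem scr32c_seal_congr {P : Fin 4 → ScrPatT} {f g : ℤ × ℤ} (h : Scr32cConn δ blk P f g)
    (hf : Scr32cSeal δ blk P f) : Scr32cSeal δ blk P g :=
  fun k hk e he => hf k (scr32c_conn_trans h hk) e he

variable (δ blk)

/-- the representatives of the classes that meet `A`. -/
noncomputable def scr32cR (P : Fin 4 → ScrPatT) (A : Finset (ℤ × ℤ)) : Finset (ℤ × ℤ) :=
  A.image (scr32cRep δ blk P A)

/-- the representatives of the sealed classes. -/
noncomputable def scr32cRs (P : Fin 4 → ScrPatT) (A : Finset (ℤ × ℤ)) : Finset (ℤ × ℤ) :=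
  open Classical in (scr32cR δ blk P A).filter fun f => Scr32cSeal δ blk P f

/-- the representatives of the TERMINALS (the classes that meet `A` and are not sealed). -/
noncomputable def scr32cT (P : Fin 4 → ScrPatT) (A : Finset (ℤ × ℤ)) : Finset (ℤ × ℤ) :=
  open Classical in (scr32cR δ blk P A).filter fun f => ¬ Scr32cSeal δ blk P f

variable {δ blk}

theorem scr32c_R_sub (P : Fin 4 → ScrPatT) (A : Finset (ℤ × ℤ)) : scr32cR δ blk P A ⊆ A := by
  intro r hr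
  obtain ⟨f, hf, rfl⟩ := Finset.mem_image.1 hr
  exact (scr32c_rep_spec hf).1

theorem scr32c_rep_R {P : Fin 4 → ScrPatT} {A : Finset (ℤ × ℤ)} {r : ℤ × ℤ} (hr : r ∈ scr32cR δ blk P A) :
    scr32cRep δ blk P A r = r := by
  obtain ⟨f, hf, rfl⟩ := Finset.mem_image.1 hr
  exact (scr32c_rep_eq A (scr32c_rep_spec hf).2).symm

theorem scr32c_R_inj {P : Fin 4 → ScrPatT} {A : Finset (ℤ × ℤ)} {r r' : ℤ × ℤ} (hr : r ∈ scr32cR δ blk P A)
    (hr' : r' ∈ scr32cR δ blk P A) (h : Scr32cConn δ blk P r r') : r = r' := by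
  rw [← scr32c_rep_R hr, ← scr32c_rep_R hr']
  exact scr32c_rep_eq A h

theorem scr32c_Rs_sub (P : Fin 4 → ScrPatT) (A : Finset (ℤ × ℤ)) : scr32cRs δ blk P A ⊆ scr32cR δ blk P A := by
  classical
  exact Finset.filter_subset _ _

theorem scr32c_T_sub (P : Fin 4 → ScrPatT) (A : Finset (ℤ × ℤ)) : scr32cT δ blk P A ⊆ scr32cR δ blk P A := by
  classical
  exact Finset.filter_subset _ _

theorem scr32c_mem_Rs {P : Fin 4 → ScrPatT} {A : Finset (ℤ × ℤ)} {r : ℤ × ℤ} :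
    r ∈ scr32cRs δ blk P A ↔ r ∈ scr32cR δ blk P A ∧ Scr32cSeal δ blk P r := by
  classical
  exact Finset.mem_filter

theorem scr32c_mem_T {P : Fin 4 → ScrPatT} {A : Finset (ℤ × ℤ)} {r : ℤ × ℤ} :
    r ∈ scr32cT δ blk P A ↔ r ∈ scr32cR δ blk P A ∧ ¬ Scr32cSeal δ blk P r := by
  classical
  exact Finset.mem_filter

/-- removing the sealed representatives leaves the terminals. -/
theorem scr32c_sdiff_Rs (P : Fin 4 → ScrPatT) (A D : Finset (ℤ × ℤ)) :
    symmDiff (D ∩ scr32cR δ blk P A) (D ∩ scr32cRs δ blk P A) = D ∩ scr32cT δ blk P A := by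
  ext r
  simp only [Finset.mem_symmDiff, Finset.mem_inter, scr32c_mem_Rs, scr32c_mem_T]
  tauto

end graph

/-! ## 2. averaging over the colours of the sealed classes -/

/-- the average of `g` over the flips of the subsets of `Rs`. -/
noncomputable def scr32cAvg (Rs : Finset (ℤ × ℤ)) (g : Finset (ℤ × ℤ) → ℝ) (R' : Finset (ℤ × ℤ)) : ℝ :=
  (∑ 𝒜 ∈ Rs.powerset, g (symmDiff R' 𝒜)) / 2 ^ Rs.card

theorem scr32c_avg_abs (Rs : Finset (ℤ × ℤ)) {g : Finset (ℤ × ℤ) → ℝ} (hg : ∀ x, |g x| ≤ 1) (R' : Finset (ℤ × ℤ)) :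
    |scr32cAvg Rs g R'| ≤ 1 := by
  unfold scr32cAvg
  rw [abs_div, abs_of_pos (by positivity : (0 : ℝ) < 2 ^ Rs.card), div_le_one (by positivity)]
  calc |∑ 𝒜 ∈ Rs.powerset, g (symmDiff R' 𝒜)| ≤ ∑ 𝒜 ∈ Rs.powerset, |g (symmDiff R' 𝒜)| :=
        Finset.abs_sum_le_sum_abs _ _
    _ ≤ ∑ _𝒜 ∈ Rs.powerset, (1 : ℝ) := Finset.sum_le_sum fun _ _ => hg _
    _ = 2 ^ Rs.card := by simp [Finset.card_powerset]

theorem scr32c_symm_mem {Rs ℬ 𝒜 : Finset (ℤ × ℤ)} (hℬ : ℬ ⊆ Rs) (h𝒜 : 𝒜 ∈ Rs.powerset) :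
    symmDiff ℬ 𝒜 ∈ Rs.powerset := by
  rw [Finset.mem_powerset] at h𝒜 ⊢
  intro x hx
  rcases Finset.mem_symmDiff.1 hx with h | h
  · exact hℬ h.1
  · exact h𝒜 h.1

/-- the average does not see the flips of subsets of `Rs`. -/
theorem scr32c_avg_flip (Rs : Finset (ℤ × ℤ)) (g : Finset (ℤ × ℤ) → ℝ) (R' : Finset (ℤ × ℤ)) {ℬ : Finset (ℤ × ℤ)}
    (hℬ : ℬ ⊆ Rs) : scr32cAvg Rs g (symmDiff R' ℬ) = scr32cAvg Rs g R' := by
  unfold scr32cAvg
  congr 1
  refine Finset.sum_nbij' (fun 𝒜 => symmDiff ℬ 𝒜) (fun 𝒜 => symmDiff ℬ 𝒜) ?_ ?_ ?_ ?_ ?_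
  · intro 𝒜 h; exact scr32c_symm_mem hℬ h
  · intro 𝒜 h; exact scr32c_symm_mem hℬ h
  · intro 𝒜 _; exact symmDiff_symmDiff_cancel_left _ _
  · intro 𝒜 _; exact symmDiff_symmDiff_cancel_left _ _
  · intro 𝒜 _; rw [symmDiff_assoc]

/-! ## 3. one pattern in finite volume -/

section finite

variable {δ : ℝ} {blk : Fin 4 → Set (ℝ × ℝ)}

open Classical in
/-- indicator of the four patterns. -/
noncomputable def scr32cI (δ : ℝ) (blk : Fin 4 → Set (ℝ × ℝ)) (P : Fin 4 → ScrPatT) (ω : RswCfg) : ℝ :=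
  if scrPats δ blk ω = P then 1 else 0

theorem scr32c_pat_edge {P : Fin 4 → ScrPatT} {ω : RswCfg} (hP : scrPats δ blk ω = P) {i : Fin 4}
    {e : (ℤ × ℤ) × Bool} (he : Scr32cPre δ blk i e) : e ∈ (P i).2 ↔ e ∈ ω.O := by
  classical
  rw [← hP]
  unfold scrPats scrPat
  simp only [Finset.mem_filter]
  exact ⟨fun h => h.1, fun h => ⟨h, he⟩⟩

/-- the patterns do not read the face spins. -/
theorem scr32c_pats_D (δ : ℝ) (blk : Fin 4 → Set (ℝ × ℝ)) (S D D' : Finset (ℤ × ℤ)) (O : Finset ((ℤ × ℤ) × Bool)) :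
    scrPats δ blk ⟨S, D, O⟩ = scrPats δ blk ⟨S, D', O⟩ := rfl

/-- on the support of the law, the face spin is constant on the classes of the pattern. -/
theorem scr32c_const {t : ℝ} {F : Finset (ℤ × ℤ)} {b : Bool} (hF1 : ∀ i e, Scr32cPre δ blk i e → e ∈ rswInt F)
    {P : Fin 4 → ScrPatT} {ω : RswCfg} (hP : scrPats δ blk ω = P) (hw : rswWt t F b ω ≠ 0) {f g : ℤ × ℤ}
    (h : Scr32cConn δ blk P f g) : f ∈ ω.D ↔ g ∈ ω.D := by
  classical
  have hc : Mdl61Const F ω.O ω.D := by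
    by_contra hc
    have := mdl61_wt_const t F b ω.S ω.D ω.O
    rw [if_neg hc] at this
    exact hw this
  induction h with
  | rel f g hs =>
    obtain ⟨e, i, hpre, hcl, h | h⟩ := hs
    · rw [h.1, h.2]
      exact hc e (hF1 i e hpre) fun hO => hcl ((scr32c_pat_edge hP hpre).2 hO)
    · rw [h.1, h.2]
      exact (hc e (hF1 i e hpre) fun hO => hcl ((scr32c_pat_edge hP hpre).2 hO)).symm
  | refl f => exact Iff.rfl
  | symm f g _ ih => exact ih.symm
  | trans f g k _ _ ih1 ih2 => exact ih1.trans ih2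

/-- the colours on `A` from the colours of the representatives. -/
noncomputable def scr32cPsi (δ : ℝ) (blk : Fin 4 → Set (ℝ × ℝ)) (P : Fin 4 → ScrPatT) (A R' : Finset (ℤ × ℤ)) :
    Finset (ℤ × ℤ) :=
  A.filter fun f => scr32cRep δ blk P A f ∈ R'

theorem scr32c_psi {t : ℝ} {F : Finset (ℤ × ℤ)} {b : Bool} (hF1 : ∀ i e, Scr32cPre δ blk i e → e ∈ rswInt F)
    {P : Fin 4 → ScrPatT} {ω : RswCfg} (hP : scrPats δ blk ω = P) (hw : rswWt t F b ω ≠ 0) (A : Finset (ℤ × ℤ)) :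
    ω.D ∩ A = scr32cPsi δ blk P A (ω.D ∩ scr32cR δ blk P A) := by
  ext f
  unfold scr32cPsi
  simp only [Finset.mem_inter, Finset.mem_filter]
  constructor
  · rintro ⟨hD, hA⟩
    exact ⟨hA, (scr32c_const hF1 hP hw (scr32c_rep_spec hA).2).1 hD, Finset.mem_image_of_mem _ hA⟩
  · rintro ⟨hA, hD, -⟩
    exact ⟨(scr32c_const hF1 hP hw (scr32c_rep_spec hA).2).2 hD, hA⟩

open Classical in
/-- the union of the classes of `𝒜`, on the pattern `P`; empty off the pattern. -/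
noncomputable def scr32cC (δ : ℝ) (blk : Fin 4 → Set (ℝ × ℝ)) (P : Fin 4 → ScrPatT) (F 𝒜 : Finset (ℤ × ℤ))
    (S : Finset (ℤ × ℤ)) (O : Finset ((ℤ × ℤ) × Bool)) : Finset (ℤ × ℤ) :=
  if scrPats δ blk ⟨S, ∅, O⟩ = P then F.filter fun g => ∃ r ∈ 𝒜, Scr32cConn δ blk P r g else ∅

theorem scr32c_C_cl {P : Fin 4 → ScrPatT} {F 𝒜 : Finset (ℤ × ℤ)} (h𝒜 : ∀ r ∈ 𝒜, Scr32cSeal δ blk P r)
    (S : Finset (ℤ × ℤ)) (O : Finset ((ℤ × ℤ) × Bool)) : Mdl61Cl F O (scr32cC δ blk P F 𝒜 S O) := by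
  classical
  unfold scr32cC
  by_cases hP : scrPats δ blk ⟨S, ∅, O⟩ = P
  · rw [if_pos hP]
    refine ⟨Finset.filter_subset _ _, fun e he heO => ?_⟩
    have hint := mdl61_mem_int.1 he
    simp only [Finset.mem_filter, hint.1, hint.2, true_and]
    constructor
    · rintro ⟨r, hr, hc⟩
      obtain ⟨i, hpre⟩ := h𝒜 r hr _ hc e (Or.inl rfl)
      exact ⟨r, hr, scr32c_conn_trans hc (Relation.EqvGen.rel _ _
        ⟨e, i, hpre, fun h => heO ((scr32c_pat_edge hP hpre).1 h), Or.inl ⟨rfl, rfl⟩⟩)⟩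
    · rintro ⟨r, hr, hc⟩
      obtain ⟨i, hpre⟩ := h𝒜 r hr _ hc e (Or.inr rfl)
      exact ⟨r, hr, scr32c_conn_trans hc (Relation.EqvGen.rel _ _
        ⟨e, i, hpre, fun h => heO ((scr32c_pat_edge hP hpre).1 h), Or.inr ⟨rfl, rfl⟩⟩)⟩
  · rw [if_neg hP]
    exact ⟨Finset.empty_subset _, fun e _ _ => by simp⟩

/-- the faces of the sealed classes lie in the blocks. -/
theorem scr32c_C_blk {P : Fin 4 → ScrPatT} {F 𝒜 : Finset (ℤ × ℤ)} (h𝒜 : ∀ r ∈ 𝒜, Scr32cSeal δ blk P r)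
    (S : Finset (ℤ × ℤ)) (O : Finset ((ℤ × ℤ) × Bool)) {g : ℤ × ℤ} (hg : g ∈ scr32cC δ blk P F 𝒜 S O) :
    ∃ i, scr232P δ g ∈ blk i := by
  classical
  unfold scr32cC at hg
  by_cases hP : scrPats δ blk ⟨S, ∅, O⟩ = P
  · rw [if_pos hP] at hg
    obtain ⟨-, r, hr, hc⟩ := Finset.mem_filter.1 hg
    obtain ⟨i, hpre⟩ := h𝒜 r hr _ hc (g, false) (Or.inl rfl)
    exact ⟨i, hpre.1⟩
  · rw [if_neg hP] at hg
    simp at hg

/-- the flip of the classes of `𝒜`, read on the representatives. -/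
theorem scr32c_C_R {P : Fin 4 → ScrPatT} {F A 𝒜 : Finset (ℤ × ℤ)} (hA : A ⊆ F) (h𝒜 : 𝒜 ⊆ scr32cR δ blk P A)
    {ω : RswCfg} (hP : scrPats δ blk ω = P) :
    symmDiff ω.D (scr32cC δ blk P F 𝒜 ω.S ω.O) ∩ scr32cR δ blk P A = symmDiff (ω.D ∩ scr32cR δ blk P A) 𝒜 := by
  classical
  have hC : ∀ x ∈ scr32cR δ blk P A, (x ∈ scr32cC δ blk P F 𝒜 ω.S ω.O ↔ x ∈ 𝒜) := by
    intro x hx
    unfold scr32cC
    rw [if_pos (show scrPats δ blk ⟨ω.S, ∅, ω.O⟩ = P from hP)]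
    simp only [Finset.mem_filter]
    constructor
    · rintro ⟨-, r, hr, hc⟩
      rwa [← scr32c_R_inj (h𝒜 hr) hx hc]
    · intro h
      exact ⟨hA (scr32c_R_sub P A hx), x, h, scr32c_conn_refl P x⟩
  ext x
  simp only [Finset.mem_inter, Finset.mem_symmDiff]
  by_cases hx : x ∈ scr32cR δ blk P A
  · have := hC x hx
    tauto
  · have : x ∉ 𝒜 := fun h => hx (h𝒜 h)
    tauto

/-- **flip identity**: the colours of the sealed classes can be flipped. -/
theorem scr32c_flip (t : ℝ) {F : Finset (ℤ × ℤ)} (b : Bool) {P : Fin 4 → ScrPatT} {A 𝒜 : Finset (ℤ × ℤ)} (hA : A ⊆ F)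
    (h𝒜 : 𝒜 ⊆ scr32cRs δ blk P A) {X : RswCfg → ℝ} {W : Set (ℝ × ℝ)} (hX : ScrIn δ W X)
    (hW : ∀ i, Disjoint W (blk i)) (g : Finset (ℤ × ℤ) → ℝ) :
    rswE t F b (fun ω => X ω * scr32cI δ blk P ω * g (symmDiff (ω.D ∩ scr32cR δ blk P A) 𝒜)) =
      rswE t F b (fun ω => X ω * scr32cI δ blk P ω * g (ω.D ∩ scr32cR δ blk P A)) := by
  classical
  have hs : ∀ r ∈ 𝒜, Scr32cSeal δ blk P r := fun r hr => (scr32c_mem_Rs.1 (h𝒜 hr)).2
  have hR : 𝒜 ⊆ scr32cR δ blk P A := fun r hr => (scr32c_mem_Rs.1 (h𝒜 hr)).1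
  rw [← mdl61_E_flip t F b (scr32cC δ blk P F 𝒜) (scr32c_C_cl hs)
    (fun ω => X ω * scr32cI δ blk P ω * g (ω.D ∩ scr32cR δ blk P A))]
  congr 1
  funext ω
  have hI : scr32cI δ blk P (mdl61Flip (scr32cC δ blk P F 𝒜 ω.S ω.O) ω) = scr32cI δ blk P ω := rfl
  rw [hI]
  by_cases hP : scrPats δ blk ω = P
  · have hXe : X (mdl61Flip (scr32cC δ blk P F 𝒜 ω.S ω.O) ω) = X ω := by
      refine hX _ _ (fun v _ => Iff.rfl) (fun f hf => ?_) (fun e _ _ => Iff.rfl)
      have hfC : f ∉ scr32cC δ blk P F 𝒜 ω.S ω.O := by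
        intro h
        obtain ⟨i, hi⟩ := scr32c_C_blk hs _ _ h
        exact Set.disjoint_left.1 (hW i) hf hi
      unfold mdl61Flip
      simp only [Finset.mem_symmDiff]
      tauto
    rw [hXe]
    congr 2
    exact (scr32c_C_R hA hR hP).symm
  · have h0 : scr32cI δ blk P ω = 0 := by unfold scr32cI; rw [if_neg hP]
    rw [h0]; simp

/-- **the colours of the sealed classes are averaged out**: only the colours of the terminals remain. -/
theorem scr32c_avg_id (t : ℝ) {F : Finset (ℤ × ℤ)} (b : Bool) (hF1 : ∀ i e, Scr32cPre δ blk i e → e ∈ rswInt F)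
    {P : Fin 4 → ScrPatT} {A : Finset (ℤ × ℤ)} (hA : A ⊆ F) {X : RswCfg → ℝ} {W : Set (ℝ × ℝ)} (hX : ScrIn δ W X)
    (hW : ∀ i, Disjoint W (blk i)) (g : Finset (ℤ × ℤ) → ℝ) :
    rswE t F b (fun ω => X ω * scr32cI δ blk P ω * g (ω.D ∩ A)) =
      rswE t F b (fun ω => X ω * scr32cI δ blk P ω *
        scr32cAvg (scr32cRs δ blk P A) (fun R' => g (scr32cPsi δ blk P A R')) (ω.D ∩ scr32cT δ blk P A)) := by
  classical
  set g' : Finset (ℤ × ℤ) → ℝ := fun R' => g (scr32cPsi δ blk P A R') with hg'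
  set c : ℝ := rswE t F b (fun ω => X ω * scr32cI δ blk P ω * g' (ω.D ∩ scr32cR δ blk P A)) with hc
  have step1 : rswE t F b (fun ω => X ω * scr32cI δ blk P ω * g (ω.D ∩ A)) = c := by
    refine rsz_E_congr t F b fun ω _ _ _ hw => ?_
    by_cases hP : scrPats δ blk ω = P
    · rw [scr32c_psi hF1 hP hw A]
    · have h0 : scr32cI δ blk P ω = 0 := by unfold scr32cI; rw [if_neg hP]
      rw [h0]; simp
  have step2 : rswE t F b (fun ω => X ω * scr32cI δ blk P ω *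
      scr32cAvg (scr32cRs δ blk P A) g' (ω.D ∩ scr32cR δ blk P A)) = c := by
    have e : (fun ω : RswCfg => X ω * scr32cI δ blk P ω *
        scr32cAvg (scr32cRs δ blk P A) g' (ω.D ∩ scr32cR δ blk P A)) =
        fun ω => (1 / 2 ^ (scr32cRs δ blk P A).card : ℝ) * ∑ 𝒜 ∈ (scr32cRs δ blk P A).powerset,
          X ω * scr32cI δ blk P ω * g' (symmDiff (ω.D ∩ scr32cR δ blk P A) 𝒜) := by
      funext ω
      unfold scr32cAvg
      rw [← Finset.mul_sum]
      ring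
    rw [e, rsz_E_smul, rsz_E_fsum]
    rw [Finset.sum_congr rfl fun 𝒜 h𝒜 => scr32c_flip t b hA (Finset.mem_powerset.1 h𝒜) hX hW g']
    rw [Finset.sum_const, Finset.card_powerset, nsmul_eq_mul]
    push_cast
    field_simp
    rfl
  rw [step1, ← step2]
  congr 1
  funext ω
  congr 1
  rw [← scr32c_sdiff_Rs P A ω.D]
  exact (scr32c_avg_flip _ g' _ Finset.inter_subset_right).symm

open Classical in
/-- the test function of the block `i`: the colours of the terminal representatives in the block `i` are those of `T'`. -/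
noncomputable def scr32cFc (δ : ℝ) (blk : Fin 4 → Set (ℝ × ℝ)) (T T' : Finset (ℤ × ℤ)) (i : Fin 4) (ω : RswCfg) : ℝ :=
  if ω.D ∩ T.filter (fun f => scr232P δ f ∈ blk i) = T' ∩ T.filter (fun f => scr232P δ f ∈ blk i) then 1 else 0

theorem scr32c_Fc_abs (T T' : Finset (ℤ × ℤ)) (i : Fin 4) (ω : RswCfg) : |scr32cFc δ blk T T' i ω| ≤ 1 := by
  unfold scr32cFc
  split_ifs <;> simp

theorem scr32c_Fc_in (T T' : Finset (ℤ × ℤ)) (i : Fin 4) : ScrIn δ (blk i) (scr32cFc δ blk T T' i) := by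
  classical
  intro ω ω' _ hD _
  have e : ω.D ∩ T.filter (fun f => scr232P δ f ∈ blk i) = ω'.D ∩ T.filter (fun f => scr232P δ f ∈ blk i) := by
    ext f
    simp only [Finset.mem_inter, Finset.mem_filter]
    constructor
    · rintro ⟨h1, h2, h3⟩; exact ⟨(hD f h3).1 h1, h2, h3⟩
    · rintro ⟨h1, h2, h3⟩; exact ⟨(hD f h3).2 h1, h2, h3⟩
  unfold scr32cFc
  rw [e]

open Classical in
theorem scr32c_Fc_prod {T T' : Finset (ℤ × ℤ)} (hT : ∀ f ∈ T, ∃ i, scr232P δ f ∈ blk i) (hT' : T' ⊆ T) (ω : RswCfg) :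
    ∏ i, scr32cFc δ blk T T' i ω = if ω.D ∩ T = T' then 1 else 0 := by
  have hiff : (∀ i ∈ (Finset.univ : Finset (Fin 4)), ω.D ∩ T.filter (fun f => scr232P δ f ∈ blk i) =
      T' ∩ T.filter (fun f => scr232P δ f ∈ blk i)) ↔ ω.D ∩ T = T' := by
    constructor
    · intro h
      ext f
      constructor
      · intro hf
        obtain ⟨hfD, hfT⟩ := Finset.mem_inter.1 hf
        obtain ⟨i, hi⟩ := hT f hfT
        have : f ∈ ω.D ∩ T.filter (fun f => scr232P δ f ∈ blk i) :=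
          Finset.mem_inter.2 ⟨hfD, Finset.mem_filter.2 ⟨hfT, hi⟩⟩
        rw [h i (Finset.mem_univ i)] at this
        exact (Finset.mem_inter.1 this).1
      · intro hf
        obtain ⟨i, hi⟩ := hT f (hT' hf)
        have : f ∈ T' ∩ T.filter (fun f => scr232P δ f ∈ blk i) :=
          Finset.mem_inter.2 ⟨hf, Finset.mem_filter.2 ⟨hT' hf, hi⟩⟩
        rw [← h i (Finset.mem_univ i)] at this
        exact Finset.mem_inter.2 ⟨(Finset.mem_inter.1 this).1, hT' hf⟩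
    · intro h i _
      rw [← h]
      ext f
      simp only [Finset.mem_inter, Finset.mem_filter]
      tauto
  unfold scr32cFc
  rw [Finset.prod_ite_zero, Finset.prod_const_one]
  by_cases h : ω.D ∩ T = T'
  · rw [if_pos h, if_pos (hiff.2 h)]
  · rw [if_neg h, if_neg fun h' => h (hiff.1 h')]

/-- expansion over the colourings of the terminal representatives. -/
theorem scr32c_expand {T : Finset (ℤ × ℤ)} (hT : ∀ f ∈ T, ∃ i, scr232P δ f ∈ blk i) (h : Finset (ℤ × ℤ) → ℝ)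
    (ω : RswCfg) : h (ω.D ∩ T) = ∑ T' ∈ T.powerset, h T' * ∏ i, scr32cFc δ blk T T' i ω := by
  classical
  rw [Finset.sum_congr rfl fun T' hT' => by rw [scr32c_Fc_prod hT (Finset.mem_powerset.1 hT') ω]]
  rw [Finset.sum_eq_single (ω.D ∩ T)]
  · simp
  · intro T' _ hne
    rw [if_neg fun h => hne h.symm, mul_zero]
  · intro hn
    exact absurd (Finset.mem_powerset.2 Finset.inter_subset_right) hn

theorem scr32c_I_prod {P : Fin 4 → ScrPatT} {π : Fin 4 → RswCfg} (hπ : ∀ i, scrPat δ (blk i) (π i) = P i)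
    (ω : RswCfg) : scr32cI δ blk P ω = ∏ i, scrPatI δ (blk i) (π i) ω := by
  classical
  have hiff : (∀ i ∈ (Finset.univ : Finset (Fin 4)), scrPat δ (blk i) ω = scrPat δ (blk i) (π i)) ↔
      scrPats δ blk ω = P := by
    constructor
    · intro h
      funext i
      rw [← hπ i, ← h i (Finset.mem_univ i)]
      rfl
    · intro h i _
      rw [hπ i, ← h]
      rfl
  unfold scr32cI scrPatI
  rw [Finset.prod_ite_zero, Finset.prod_const_one]
  by_cases h : scrPats δ blk ω = P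
  · rw [if_pos h, if_pos (hiff.2 h)]
  · rw [if_neg h, if_neg fun h' => h (hiff.1 h')]

/-- **one pattern, finite volume**: the pairing with any function of the observed colours is a combination of at most
`2 ^ #terminals` pairings with products of one bounded test function per block. -/
theorem scr32c_pattern_id (t : ℝ) {F : Finset (ℤ × ℤ)} (b : Bool) (hF1 : ∀ i e, Scr32cPre δ blk i e → e ∈ rswInt F)
    {P : Fin 4 → ScrPatT} {π : Fin 4 → RswCfg} (hπ : ∀ i, scrPat δ (blk i) (π i) = P i)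
    {A : Finset (ℤ × ℤ)} (hA : A ⊆ F) (hAb : ∀ f ∈ A, ∃ i, scr232P δ f ∈ blk i)
    {X : RswCfg → ℝ} {W : Set (ℝ × ℝ)} (hX : ScrIn δ W X) (hW : ∀ i, Disjoint W (blk i)) (g : Finset (ℤ × ℤ) → ℝ) :
    rswE t F b (fun ω => X ω * scr32cI δ blk P ω * g (ω.D ∩ A)) =
      ∑ T' ∈ (scr32cT δ blk P A).powerset,
        scr32cAvg (scr32cRs δ blk P A) (fun R' => g (scr32cPsi δ blk P A R')) T' *
          rswE t F b (fun ω => X ω * ∏ i, (scrPatI δ (blk i) (π i) ω * scr32cFc δ blk (scr32cT δ blk P A) T' i ω)) := by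
  rw [scr32c_avg_id t b hF1 hA hX hW g]
  have hT : ∀ f ∈ scr32cT δ blk P A, ∃ i, scr232P δ f ∈ blk i :=
    fun f hf => hAb f (scr32c_R_sub P A (scr32c_T_sub P A hf))
  have e : (fun ω : RswCfg => X ω * scr32cI δ blk P ω *
        scr32cAvg (scr32cRs δ blk P A) (fun R' => g (scr32cPsi δ blk P A R')) (ω.D ∩ scr32cT δ blk P A)) =
      fun ω => ∑ T' ∈ (scr32cT δ blk P A).powerset,
        scr32cAvg (scr32cRs δ blk P A) (fun R' => g (scr32cPsi δ blk P A R')) T' *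
          (X ω * ∏ i, (scrPatI δ (blk i) (π i) ω * scr32cFc δ blk (scr32cT δ blk P A) T' i ω)) := by
    funext ω
    rw [scr32c_expand hT (scr32cAvg (scr32cRs δ blk P A) (fun R' => g (scr32cPsi δ blk P A R'))) ω,
      Finset.mul_sum]
    refine Finset.sum_congr rfl fun T' _ => ?_
    rw [Finset.prod_mul_distrib, ← scr32c_I_prod hπ ω]
    ring
  rw [e, rsz_E_fsum]
  exact Finset.sum_congr rfl fun T' _ => rsz_E_smul t F b _ _

end finite

/-! ## 4. windows, locality, the finite family of the patterns -/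

section window

variable {δ : ℝ} {blk : Fin 4 → Set (ℝ × ℝ)}

theorem scr32c_mem_VB (hδ : 0 < δ) (z : ℝ × ℝ) (r : ℝ) (v : ℤ × ℤ) :
    v ∈ scr32_sqc δ z r ↔ scr232P δ v ∈ scrSq z r := by
  have h := Set.ext_iff.1 (scr32_coe_sqc hδ z r) v
  exact h

theorem scr32c_in_mono {U U' : Set (ℝ × ℝ)} (h : U ⊆ U') {Z : RswCfg → ℝ} (hZ : ScrIn δ U Z) : ScrIn δ U' Z :=
  fun ω ω' hS hD hO => hZ ω ω' (fun v hv => hS v (h hv)) (fun f hf => hD f (h hf))
    (fun e h1 h2 => hO e (h h1) (h h2))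

theorem scr32c_in_mul {U : Set (ℝ × ℝ)} {Z Z' : RswCfg → ℝ} (hZ : ScrIn δ U Z) (hZ' : ScrIn δ U Z') :
    ScrIn δ U (fun ω => Z ω * Z' ω) :=
  fun ω ω' hS hD hO => by
    show Z ω * Z' ω = Z ω' * Z' ω'
    rw [hZ ω ω' hS hD hO, hZ' ω ω' hS hD hO]

theorem scr32c_in_prod {U : Set (ℝ × ℝ)} {Z : Fin 4 → RswCfg → ℝ} (hZ : ∀ i, ScrIn δ U (Z i)) :
    ScrIn δ U (fun ω => ∏ i, Z i ω) :=
  fun ω ω' hS hD hO => Finset.prod_congr rfl fun i _ => hZ i ω ω' hS hD hO

/-- an observable that reads only inside a square is local. -/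
theorem scr32c_loc (hδ : 0 < δ) {z : ℝ × ℝ} {r : ℝ} {Z : RswCfg → ℝ} (hZ : ScrIn δ (scrSq z r) Z) : ScrLoc Z := by
  refine ⟨scr32_sqc δ z r, scr32_sqc δ z r ×ˢ Finset.univ, fun ω ω' hS hD hO => hZ ω ω' ?_ ?_ ?_⟩
  · intro v hv
    have hv' := (scr32c_mem_VB hδ z r v).2 hv
    have h1 : v ∈ ω.S ∩ scr32_sqc δ z r ↔ v ∈ ω'.S ∩ scr32_sqc δ z r := by rw [hS]
    simpa [hv'] using h1
  · intro v hv
    have hv' := (scr32c_mem_VB hδ z r v).2 hv
    have h1 : v ∈ ω.D ∩ scr32_sqc δ z r ↔ v ∈ ω'.D ∩ scr32_sqc δ z r := by rw [hD]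
    simpa [hv'] using h1
  · intro e he _
    have he' := (scr32c_mem_VB hδ z r e.1).2 he
    have h1 : e ∈ ω.O ∩ (scr32_sqc δ z r ×ˢ Finset.univ) ↔ e ∈ ω'.O ∩ (scr32_sqc δ z r ×ˢ Finset.univ) := by rw [hO]
    simpa [he'] using h1

theorem scr32c_pat_agree {U : Set (ℝ × ℝ)} {ω ω' : RswCfg} (hS : ∀ v, scr232P δ v ∈ U → (v ∈ ω.S ↔ v ∈ ω'.S))
    (hO : ∀ e : (ℤ × ℤ) × Bool, scr232P δ e.1 ∈ U → scr232P δ (rswEnd e) ∈ U → (e ∈ ω.O ↔ e ∈ ω'.O)) :
    scrPat δ U ω = scrPat δ U ω' := by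
  classical
  unfold scrPat
  refine Prod.ext ?_ ?_
  · ext v
    simp only [Finset.mem_filter]
    exact ⟨fun h => ⟨(hS v h.2).1 h.1, h.2⟩, fun h => ⟨(hS v h.2).2 h.1, h.2⟩⟩
  · ext e
    simp only [Finset.mem_filter]
    exact ⟨fun h => ⟨(hO e h.2.1 h.2.2).1 h.1, h.2⟩, fun h => ⟨(hO e h.2.1 h.2.2).2 h.1, h.2⟩⟩

theorem scr32c_pats_agree {U : Set (ℝ × ℝ)} (hblk : ∀ i, blk i ⊆ U) {ω ω' : RswCfg}
    (hS : ∀ v, scr232P δ v ∈ U → (v ∈ ω.S ↔ v ∈ ω'.S))
    (hO : ∀ e : (ℤ × ℤ) × Bool, scr232P δ e.1 ∈ U → scr232P δ (rswEnd e) ∈ U → (e ∈ ω.O ↔ e ∈ ω'.O)) :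
    scrPats δ blk ω = scrPats δ blk ω' := by
  funext i
  exact scr32c_pat_agree (fun v hv => hS v (hblk i hv)) (fun e h1 h2 => hO e (hblk i h1) (hblk i h2))

theorem scr32c_D_agree {U : Set (ℝ × ℝ)} {A : Finset (ℤ × ℤ)} (hA : ∀ f ∈ A, scr232P δ f ∈ U) {ω ω' : RswCfg}
    (hD : ∀ f, scr232P δ f ∈ U → (f ∈ ω.D ↔ f ∈ ω'.D)) : ω.D ∩ A = ω'.D ∩ A := by
  ext f
  simp only [Finset.mem_inter]
  exact ⟨fun h => ⟨(hD f (hA f h.2)).1 h.1, h.2⟩, fun h => ⟨(hD f (hA f h.2)).2 h.1, h.2⟩⟩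

theorem scr32c_patI_in (U : Set (ℝ × ℝ)) (π : RswCfg) : ScrIn δ U (scrPatI δ U π) := by
  intro ω ω' hS _ hO
  unfold scrPatI
  rw [scr32c_pat_agree hS hO]

/-- any function of the patterns and of the colours on a pattern-measurable set of faces of the blocks. -/
theorem scr32c_data_in {U : Set (ℝ × ℝ)} (hblk : ∀ i, blk i ⊆ U) {sel : (Fin 4 → ScrPatT) → Finset (ℤ × ℤ)}
    (hsel : ∀ π, ∀ f ∈ sel π, ∃ i, scr232P δ f ∈ blk i) (Φ : (Fin 4 → ScrPatT) × Finset (ℤ × ℤ) → ℝ) :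
    ScrIn δ U (fun ω => Φ (scrY δ blk sel ω)) := by
  intro ω ω' hS hD hO
  have h1 := scr32c_pats_agree hblk hS hO
  show Φ (scrY δ blk sel ω) = Φ (scrY δ blk sel ω')
  unfold scrY
  rw [h1, scr32c_D_agree (fun f hf => by obtain ⟨i, hi⟩ := hsel _ f hf; exact hblk i hi) hD]

open Classical in
/-- the finite family of the patterns of the window `U` inside the square. -/
noncomputable def scr32cFam (δ : ℝ) (z : ℝ × ℝ) (r : ℝ) (U : Set (ℝ × ℝ)) : Finset ScrPatT :=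
  ((scr32_sqc δ z r).filter fun v => scr232P δ v ∈ U).powerset ×ˢ
    ((scr32_sqc δ z r ×ˢ (Finset.univ : Finset Bool)).filter
      fun e => scr232P δ e.1 ∈ U ∧ scr232P δ (rswEnd e) ∈ U).powerset

/-- a configuration with the pattern `p`. -/
def scr32cCfg (p : ScrPatT) : RswCfg := ⟨p.1, ∅, p.2⟩

theorem scr32c_pat_mem (hδ : 0 < δ) {z : ℝ × ℝ} {r : ℝ} {U : Set (ℝ × ℝ)} (hU : U ⊆ scrSq z r) (ω : RswCfg) :
    scrPat δ U ω ∈ scr32cFam δ z r U := by
  classical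
  unfold scr32cFam scrPat
  refine Finset.mem_product.2 ⟨Finset.mem_powerset.2 fun v hv => ?_, Finset.mem_powerset.2 fun e he => ?_⟩
  · have h := (Finset.mem_filter.1 hv).2
    exact Finset.mem_filter.2 ⟨(scr32c_mem_VB hδ z r v).2 (hU h), h⟩
  · have h := (Finset.mem_filter.1 he).2
    exact Finset.mem_filter.2 ⟨Finset.mem_product.2 ⟨(scr32c_mem_VB hδ z r e.1).2 (hU h.1), Finset.mem_univ _⟩, h⟩

theorem scr32c_pat_cfg {z : ℝ × ℝ} {r : ℝ} {U : Set (ℝ × ℝ)} {p : ScrPatT} (hp : p ∈ scr32cFam δ z r U) :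
    scrPat δ U (scr32cCfg p) = p := by
  classical
  unfold scr32cFam at hp
  obtain ⟨h1, h2⟩ := Finset.mem_product.1 hp
  rw [Finset.mem_powerset] at h1 h2
  unfold scrPat scr32cCfg
  refine Prod.ext ?_ ?_
  · exact Finset.filter_true_of_mem fun v hv => (Finset.mem_filter.1 (h1 hv)).2
  · exact Finset.filter_true_of_mem fun e he => (Finset.mem_filter.1 (h2 he)).2

/-- the indicators of the patterns of one window sum to one. -/
theorem scr32c_patI_sum (hδ : 0 < δ) {z : ℝ × ℝ} {r : ℝ} {U : Set (ℝ × ℝ)} (hU : U ⊆ scrSq z r) (ω : RswCfg) :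
    ∑ p ∈ scr32cFam δ z r U, scrPatI δ U (scr32cCfg p) ω = 1 := by
  classical
  rw [Finset.sum_eq_single (scrPat δ U ω)]
  · unfold scrPatI
    rw [scr32c_pat_cfg (scr32c_pat_mem hδ hU ω), if_pos rfl]
  · intro p hp hne
    unfold scrPatI
    rw [scr32c_pat_cfg hp, if_neg fun h => hne h.symm]
  · intro h
    exact absurd (scr32c_pat_mem hδ hU ω) h

/-- decomposition over the four patterns. -/
theorem scr32c_decomp (hδ : 0 < δ) {z : ℝ × ℝ} {r : ℝ} (hblk : ∀ i, blk i ⊆ scrSq z r)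
    (Φ : (Fin 4 → ScrPatT) → ℝ) (ω : RswCfg) :
    Φ (scrPats δ blk ω) = ∑ P ∈ Fintype.piFinset fun i => scr32cFam δ z r (blk i), scr32cI δ blk P ω * Φ P := by
  classical
  rw [Finset.sum_eq_single (scrPats δ blk ω)]
  · unfold scr32cI
    rw [if_pos rfl, one_mul]
  · intro P _ hne
    unfold scr32cI
    rw [if_neg fun h => hne h.symm, zero_mul]
  · intro h
    exact absurd (Fintype.mem_piFinset.2 fun i => scr32c_pat_mem hδ (hblk i) ω) h

end window

/-! ## 5. the plane law at one mesh -/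

/-- RECORD (plane limits): the plane expectation of a local observable IS the limit along the boxes
(`exit_rsw_plane` + the boxes are Jordan domains). -/
def Scr32cLim (t : ℝ) : Prop :=
  ∀ Z : RswCfg → ℝ, ScrLoc Z → Tendsto (fun N : ℕ => rswE t (rswBox 0 N) true Z) atTop (𝓝 (scrPl t Z))

section mesh

variable {δ : ℝ} {blk : Fin 4 → Set (ℝ × ℝ)}

open Classical in
/-- indicator of the event: more than `M` terminals. -/
noncomputable def scr32cBad (δ : ℝ) (blk : Fin 4 → Set (ℝ × ℝ)) (sel : (Fin 4 → ScrPatT) → Finset (ℤ × ℤ)) (M : ℕ)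
    (ω : RswCfg) : ℝ :=
  if M < (scr32cT δ blk (scrPats δ blk ω) (sel (scrPats δ blk ω))).card then 1 else 0

/-- large boxes contain the window and all the prescribed edges. -/
theorem scr32c_ev_large (hδ : 0 < δ) {z : ℝ × ℝ} {r : ℝ} (hblk : ∀ i, blk i ⊆ scrSq z r) :
    ∀ᶠ N : ℕ in atTop, (∀ i e, Scr32cPre δ blk i e → e ∈ rswInt (rswBox 0 N)) ∧ scr32_sqc δ z r ⊆ rswBox 0 N := by
  filter_upwards [scr32p_ev_box (scr32_sqc δ z r), scr32p_ev_box ((scr32_sqc δ z r).image fun v => (v.1 - 1, v.2)),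
    scr32p_ev_box ((scr32_sqc δ z r).image fun v => (v.1, v.2 - 1))] with N h0 h1 h2
  refine ⟨fun i e he => ?_, h0⟩
  have hV : e.1 ∈ scr32_sqc δ z r := (scr32c_mem_VB hδ z r e.1).2 (hblk i he.1)
  refine mdl61_mem_int.2 ⟨h0 hV, ?_⟩
  unfold rswCo
  split_ifs
  · exact h1 (Finset.mem_image_of_mem _ hV)
  · exact h2 (Finset.mem_image_of_mem _ hV)

theorem scr32c_p_nonneg {t : ℝ} (ht0 : 0 < t) (ht1 : t ≤ 1) (hlim : Scr32cLim t) (hδ : 0 < δ) {z : ℝ × ℝ} {r : ℝ}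
    {U : Set (ℝ × ℝ)} (hU : U ⊆ scrSq z r) (π : RswCfg) : 0 ≤ scrPl t (scrPatI δ U π) := by
  refine ge_of_tendsto' (hlim _ (scr32c_loc hδ (scr32c_in_mono hU (scr32c_patI_in U π)))) fun N => ?_
  refine rsz_E_nonneg ht0.le ht1 _ _ fun ω => ?_
  unfold scrPatI
  split_ifs <;> norm_num

theorem scr32c_p_sum {t : ℝ} (ht0 : 0 < t) (ht1 : t ≤ 1) (hlim : Scr32cLim t) (hδ : 0 < δ) {z : ℝ × ℝ} {r : ℝ}
    {U : Set (ℝ × ℝ)} (hU : U ⊆ scrSq z r) :
    ∑ p ∈ scr32cFam δ z r U, scrPl t (scrPatI δ U (scr32cCfg p)) = 1 := by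
  have h1 : Tendsto (fun N : ℕ => ∑ p ∈ scr32cFam δ z r U, rswE t (rswBox 0 N) true (scrPatI δ U (scr32cCfg p))) atTop
      (𝓝 (∑ p ∈ scr32cFam δ z r U, scrPl t (scrPatI δ U (scr32cCfg p)))) :=
    tendsto_finsetSum _ fun p _ => hlim _ (scr32c_loc hδ (scr32c_in_mono hU (scr32c_patI_in U _)))
  have h2 : (fun N : ℕ => ∑ p ∈ scr32cFam δ z r U, rswE t (rswBox 0 N) true (scrPatI δ U (scr32cCfg p))) =
      fun _ => (1 : ℝ) := by
    funext N
    rw [← rsz_E_fsum]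
    simp only [scr32c_patI_sum hδ hU]
    exact rsz_E_const ht0 ht1 _ _ 1
  rw [h2] at h1
  exact tendsto_nhds_unique h1 tendsto_const_nhds

/-- the elementary inequality that replaces Cauchy-Schwarz. -/
theorem scr32c_amgm {a : ℝ} (ha : 0 < a) (x : ℝ) : |x| ≤ a / 2 * x ^ 2 + 1 / (2 * a) := by
  have h : 0 ≤ (a * |x| - 1) ^ 2 := sq_nonneg _
  have hx : |x| ^ 2 = x ^ 2 := sq_abs x
  have e : a / 2 * x ^ 2 + 1 / (2 * a) - |x| = (a * |x| - 1) ^ 2 / (2 * a) := by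
    field_simp
    rw [← hx]; ring
  have : 0 ≤ (a * |x| - 1) ^ 2 / (2 * a) := by positivity
  linarith

/-- the patterns with many terminals. -/
theorem scr32c_bad_bound {t : ℝ} (ht0 : 0 < t) (ht1 : t ≤ 1) (hlim : Scr32cLim t) (hδ : 0 < δ) {z : ℝ × ℝ} {r : ℝ}
    (hblk : ∀ i, blk i ⊆ scrSq z r) {X : RswCfg → ℝ} (hX : ScrIn δ (scrSq z r) X)
    {sel : (Fin 4 → ScrPatT) → Finset (ℤ × ℤ)} (hsel : ∀ π, ∀ f ∈ sel π, ∃ i, scr232P δ f ∈ blk i)
    {G : (Fin 4 → ScrPatT) × Finset (ℤ × ℤ) → ℝ} (hG : ∀ y, |G y| ≤ 1) (M : ℕ) {a : ℝ} (ha : 0 < a) :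
    |scrPl t fun ω => X ω * G (scrY δ blk sel ω) * scr32cBad δ blk sel M ω| ≤
      a / 2 * scrPl t (fun ω => X ω ^ 2) + 1 / (2 * a) * scrPl t (scr32cBad δ blk sel M) := by
  classical
  have hGin := scr32c_data_in (δ := δ) hblk hsel G
  have hBin : ScrIn δ (scrSq z r) (scr32cBad δ blk sel M) :=
    scr32c_data_in (δ := δ) hblk hsel (fun y => if M < (scr32cT δ blk y.1 (sel y.1)).card then 1 else 0)
  have hX2 : ScrIn δ (scrSq z r) (fun ω => X ω ^ 2) := by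
    have := scr32c_in_mul hX hX
    simpa only [← sq] using this
  have Lb := hlim _ (scr32c_loc hδ (scr32c_in_mul (scr32c_in_mul hX hGin) hBin))
  have L2 := hlim _ (scr32c_loc hδ hX2)
  have LB := hlim _ (scr32c_loc hδ hBin)
  refine le_of_tendsto_of_tendsto' Lb.abs ((L2.const_mul (a / 2)).add (LB.const_mul (1 / (2 * a)))) fun N => ?_
  rw [← rsz_E_smul, ← rsz_E_smul, ← rsz_E_add]
  refine (rsz_abs_E_le ht0.le ht1 _ _ _).trans (rsz_E_mono ht0.le ht1 _ _ fun ω => ?_)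
  have hB : scr32cBad δ blk sel M ω = 0 ∨ scr32cBad δ blk sel M ω = 1 := by
    unfold scr32cBad
    split_ifs
    · exact Or.inr rfl
    · exact Or.inl rfl
  rcases hB with h | h
  · rw [h]
    simp only [mul_zero, abs_zero, add_zero]
    positivity
  · rw [h, mul_one, mul_one, abs_mul]
    calc |X ω| * |G (scrY δ blk sel ω)| ≤ |X ω| * 1 := mul_le_mul_of_nonneg_left (hG _) (abs_nonneg _)
      _ = |X ω| := mul_one _
      _ ≤ _ := scr32c_amgm ha _

/-- the test observable of a pattern `P` and of a colouring `T'` of its terminals. -/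
noncomputable def scr32cZ (δ : ℝ) (blk : Fin 4 → Set (ℝ × ℝ)) (X : RswCfg → ℝ) (P : Fin 4 → ScrPatT)
    (T T' : Finset (ℤ × ℤ)) (ω : RswCfg) : ℝ :=
  X ω * ∏ i, (scrPatI δ (blk i) (scr32cCfg (P i)) ω * scr32cFc δ blk T T' i ω)

theorem scr32c_Z_in {z : ℝ × ℝ} {r : ℝ} (hblk : ∀ i, blk i ⊆ scrSq z r) {X : RswCfg → ℝ}
    (hX : ScrIn δ (scrSq z r) X) (P : Fin 4 → ScrPatT) (T T' : Finset (ℤ × ℤ)) :
    ScrIn δ (scrSq z r) (scr32cZ δ blk X P T T') :=
  scr32c_in_mul hX (scr32c_in_prod fun i => scr32c_in_mono (hblk i)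
    (scr32c_in_mul (scr32c_patI_in (blk i) _) (scr32c_Fc_in T T' i)))

open Classical in
/-- **the patterns with at most `M` terminals, finite volume.** -/
theorem scr32c_good_id (t : ℝ) (hδ : 0 < δ) {z : ℝ × ℝ} {r : ℝ} (hblk : ∀ i, blk i ⊆ scrSq z r)
    {X : RswCfg → ℝ} {W : Set (ℝ × ℝ)} (hX : ScrIn δ W X) (hW : ∀ i, Disjoint W (blk i))
    {sel : (Fin 4 → ScrPatT) → Finset (ℤ × ℤ)} (hsel : ∀ π, ∀ f ∈ sel π, ∃ i, scr232P δ f ∈ blk i)
    (G : (Fin 4 → ScrPatT) × Finset (ℤ × ℤ) → ℝ) (M : ℕ) {F : Finset (ℤ × ℤ)}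
    (hF1 : ∀ i e, Scr32cPre δ blk i e → e ∈ rswInt F) (hF2 : scr32_sqc δ z r ⊆ F) :
    rswE t F true (fun ω => X ω * G (scrY δ blk sel ω) * (1 - scr32cBad δ blk sel M ω)) =
      ∑ P ∈ Fintype.piFinset fun i => scr32cFam δ z r (blk i),
        (if M < (scr32cT δ blk P (sel P)).card then (0 : ℝ) else 1) *
          ∑ T' ∈ (scr32cT δ blk P (sel P)).powerset,
            scr32cAvg (scr32cRs δ blk P (sel P)) (fun R' => G (P, scr32cPsi δ blk P (sel P) R')) T' *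
              rswE t F true (scr32cZ δ blk X P (scr32cT δ blk P (sel P)) T') := by
  have e1 : (fun ω : RswCfg => X ω * G (scrY δ blk sel ω) * (1 - scr32cBad δ blk sel M ω)) =
      fun ω => ∑ P ∈ Fintype.piFinset fun i => scr32cFam δ z r (blk i),
        (if M < (scr32cT δ blk P (sel P)).card then (0 : ℝ) else 1) *
          (X ω * scr32cI δ blk P ω * G (P, ω.D ∩ sel P)) := by
    funext ω
    have h := scr32c_decomp hδ hblk
      (fun P => X ω * G (P, ω.D ∩ sel P) * (if M < (scr32cT δ blk P (sel P)).card then (0 : ℝ) else 1)) ω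
    have hb : (1 - scr32cBad δ blk sel M ω) =
        if M < (scr32cT δ blk (scrPats δ blk ω) (sel (scrPats δ blk ω))).card then (0 : ℝ) else 1 := by
      unfold scr32cBad
      split_ifs <;> norm_num
    rw [hb]
    refine Eq.trans h (Finset.sum_congr rfl fun P _ => ?_)
    ring
  rw [e1, rsz_E_fsum]
  refine Finset.sum_congr rfl fun P hP => ?_
  rw [rsz_E_smul]
  congr 1
  have hA : sel P ⊆ F := fun f hf => by
    obtain ⟨i, hi⟩ := hsel P f hf
    exact hF2 ((scr32c_mem_VB hδ z r f).2 (hblk i hi))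
  exact scr32c_pattern_id t true hF1 (fun i => scr32c_pat_cfg (Fintype.mem_piFinset.1 hP i)) hA (hsel P) hX hW
    (fun D' => G (P, D'))

/-- **the patterns with at most `M` terminals, plane law.** -/
theorem scr32c_good_bound {t : ℝ} (ht0 : 0 < t) (ht1 : t ≤ 1) (hlim : Scr32cLim t) (hδ : 0 < δ) {z : ℝ × ℝ} {r : ℝ}
    (hblk : ∀ i, blk i ⊆ scrSq z r) {X : RswCfg → ℝ} {W : Set (ℝ × ℝ)} (hX : ScrIn δ W X) (hWsq : W ⊆ scrSq z r)
    (hW : ∀ i, Disjoint W (blk i)) {e : ℝ} (he : 0 ≤ e)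
    (hgap : ∀ (π : Fin 4 → RswCfg) (Fc : Fin 4 → RswCfg → ℝ), (∀ i ω, |Fc i ω| ≤ 1) →
      (∀ i, ScrIn δ (blk i) (Fc i)) →
      |scrPl t fun ω => X ω * ∏ i, (scrPatI δ (blk i) (π i) ω * Fc i ω)| ≤ e * ∏ i, scrPl t (scrPatI δ (blk i) (π i)))
    {sel : (Fin 4 → ScrPatT) → Finset (ℤ × ℤ)} (hsel : ∀ π, ∀ f ∈ sel π, ∃ i, scr232P δ f ∈ blk i)
    {G : (Fin 4 → ScrPatT) × Finset (ℤ × ℤ) → ℝ} (hG : ∀ y, |G y| ≤ 1) (M : ℕ) :
    |scrPl t fun ω => X ω * G (scrY δ blk sel ω) * (1 - scr32cBad δ blk sel M ω)| ≤ 2 ^ M * e := by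
  classical
  have hXsq := scr32c_in_mono hWsq hX
  have hGin := scr32c_data_in (δ := δ) hblk hsel G
  have hBin : ScrIn δ (scrSq z r) (fun ω => 1 - scr32cBad δ blk sel M ω) :=
    scr32c_data_in (δ := δ) hblk hsel (fun y => 1 - if M < (scr32cT δ blk y.1 (sel y.1)).card then 1 else 0)
  have Lg := hlim _ (scr32c_loc hδ (scr32c_in_mul (scr32c_in_mul hXsq hGin) hBin))
  have Lr : Tendsto (fun N : ℕ => ∑ P ∈ Fintype.piFinset fun i => scr32cFam δ z r (blk i),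
        (if M < (scr32cT δ blk P (sel P)).card then (0 : ℝ) else 1) *
          ∑ T' ∈ (scr32cT δ blk P (sel P)).powerset,
            scr32cAvg (scr32cRs δ blk P (sel P)) (fun R' => G (P, scr32cPsi δ blk P (sel P) R')) T' *
              rswE t (rswBox 0 N) true (scr32cZ δ blk X P (scr32cT δ blk P (sel P)) T')) atTop
      (𝓝 (∑ P ∈ Fintype.piFinset fun i => scr32cFam δ z r (blk i),
        (if M < (scr32cT δ blk P (sel P)).card then (0 : ℝ) else 1) *
          ∑ T' ∈ (scr32cT δ blk P (sel P)).powerset,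
            scr32cAvg (scr32cRs δ blk P (sel P)) (fun R' => G (P, scr32cPsi δ blk P (sel P) R')) T' *
              scrPl t (scr32cZ δ blk X P (scr32cT δ blk P (sel P)) T'))) :=
    tendsto_finsetSum _ fun P _ => Tendsto.const_mul _ (tendsto_finsetSum _ fun T' _ =>
      Tendsto.const_mul _ (hlim _ (scr32c_loc hδ (scr32c_Z_in hblk hXsq P _ T'))))
  have hev : (fun N : ℕ => rswE t (rswBox 0 N) true
      (fun ω => X ω * G (scrY δ blk sel ω) * (1 - scr32cBad δ blk sel M ω))) =ᶠ[atTop] _ :=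
    (scr32c_ev_large hδ hblk).mono fun N hN => scr32c_good_id t hδ hblk hX hW hsel G M hN.1 hN.2
  rw [tendsto_nhds_unique (Lg.congr' hev) Lr]
  have hp0 : ∀ (i : Fin 4) (q : ScrPatT), 0 ≤ scrPl t (scrPatI δ (blk i) (scr32cCfg q)) :=
    fun i q => scr32c_p_nonneg ht0 ht1 hlim hδ (hblk i) _
  calc |∑ P ∈ Fintype.piFinset fun i => scr32cFam δ z r (blk i),
        (if M < (scr32cT δ blk P (sel P)).card then (0 : ℝ) else 1) *
          ∑ T' ∈ (scr32cT δ blk P (sel P)).powerset,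
            scr32cAvg (scr32cRs δ blk P (sel P)) (fun R' => G (P, scr32cPsi δ blk P (sel P) R')) T' *
              scrPl t (scr32cZ δ blk X P (scr32cT δ blk P (sel P)) T')|
      ≤ ∑ P ∈ Fintype.piFinset fun i => scr32cFam δ z r (blk i),
          2 ^ M * e * ∏ i, scrPl t (scrPatI δ (blk i) (scr32cCfg (P i))) := by
        refine (Finset.abs_sum_le_sum_abs _ _).trans (Finset.sum_le_sum fun P _ => ?_)
        have hprod : 0 ≤ ∏ i, scrPl t (scrPatI δ (blk i) (scr32cCfg (P i))) :=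
          Finset.prod_nonneg fun i _ => hp0 i _
        split_ifs with hM
        · rw [zero_mul, abs_zero]
          positivity
        · rw [one_mul]
          have hin : ∀ T' ∈ (scr32cT δ blk P (sel P)).powerset,
              |scr32cAvg (scr32cRs δ blk P (sel P)) (fun R' => G (P, scr32cPsi δ blk P (sel P) R')) T' *
                scrPl t (scr32cZ δ blk X P (scr32cT δ blk P (sel P)) T')| ≤
              e * ∏ i, scrPl t (scrPatI δ (blk i) (scr32cCfg (P i))) := by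
            intro T' _
            rw [abs_mul]
            have h1 := scr32c_avg_abs (scr32cRs δ blk P (sel P))
              (g := fun R' => G (P, scr32cPsi δ blk P (sel P) R')) (fun x => hG _) T'
            have h2 := hgap (fun i => scr32cCfg (P i)) (fun i => scr32cFc δ blk (scr32cT δ blk P (sel P)) T' i)
              (fun i ω => scr32c_Fc_abs _ _ i ω) (fun i => scr32c_Fc_in _ _ i)
            calc _ ≤ 1 * (e * ∏ i, scrPl t (scrPatI δ (blk i) (scr32cCfg (P i)))) :=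
                  mul_le_mul h1 h2 (abs_nonneg _) zero_le_one
              _ = _ := one_mul _
          calc _ ≤ ∑ T' ∈ (scr32cT δ blk P (sel P)).powerset,
                |scr32cAvg (scr32cRs δ blk P (sel P)) (fun R' => G (P, scr32cPsi δ blk P (sel P) R')) T' *
                  scrPl t (scr32cZ δ blk X P (scr32cT δ blk P (sel P)) T')| := Finset.abs_sum_le_sum_abs _ _
            _ ≤ ∑ _T' ∈ (scr32cT δ blk P (sel P)).powerset,
                e * ∏ i, scrPl t (scrPatI δ (blk i) (scr32cCfg (P i))) := Finset.sum_le_sum hin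
            _ = 2 ^ (scr32cT δ blk P (sel P)).card * (e * ∏ i, scrPl t (scrPatI δ (blk i) (scr32cCfg (P i)))) := by
                rw [Finset.sum_const, Finset.card_powerset, nsmul_eq_mul]; push_cast; ring
            _ ≤ 2 ^ M * (e * ∏ i, scrPl t (scrPatI δ (blk i) (scr32cCfg (P i)))) := by
                refine mul_le_mul_of_nonneg_right ?_ (mul_nonneg he hprod)
                exact pow_le_pow_right₀ (by norm_num) (not_lt.1 hM)
            _ = _ := by ring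
    _ = 2 ^ M * e * ∏ i, ∑ q ∈ scr32cFam δ z r (blk i), scrPl t (scrPatI δ (blk i) (scr32cCfg q)) := by
        rw [← Finset.mul_sum, Finset.prod_univ_sum]
    _ = 2 ^ M * e := by
        rw [Finset.prod_congr rfl fun i _ => scr32c_p_sum ht0 ht1 hlim hδ (hblk i)]
        simp

/-- **Lemma 5.6 at one mesh**: retained part by the gapped identity, discarded part by the second moment. -/
theorem scr32c_mesh {t : ℝ} (ht0 : 0 < t) (ht1 : t ≤ 1) (hlim : Scr32cLim t) (hδ : 0 < δ) {z : ℝ × ℝ} {r : ℝ}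
    (hblk : ∀ i, blk i ⊆ scrSq z r) {X : RswCfg → ℝ} {W : Set (ℝ × ℝ)} (hX : ScrIn δ W X) (hWsq : W ⊆ scrSq z r)
    (hW : ∀ i, Disjoint W (blk i)) {e : ℝ} (he : 0 ≤ e)
    (hgap : ∀ (π : Fin 4 → RswCfg) (Fc : Fin 4 → RswCfg → ℝ), (∀ i ω, |Fc i ω| ≤ 1) →
      (∀ i, ScrIn δ (blk i) (Fc i)) →
      |scrPl t fun ω => X ω * ∏ i, (scrPatI δ (blk i) (π i) ω * Fc i ω)| ≤ e * ∏ i, scrPl t (scrPatI δ (blk i) (π i)))
    {sel : (Fin 4 → ScrPatT) → Finset (ℤ × ℤ)} (hsel : ∀ π, ∀ f ∈ sel π, ∃ i, scr232P δ f ∈ blk i)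
    {G : (Fin 4 → ScrPatT) × Finset (ℤ × ℤ) → ℝ} (hG : ∀ y, |G y| ≤ 1) (M : ℕ) {a : ℝ} (ha : 0 < a) :
    |scrPl t fun ω => X ω * G (scrY δ blk sel ω)| ≤
      2 ^ M * e + (a / 2 * scrPl t (fun ω => X ω ^ 2) + 1 / (2 * a) * scrPl t (scr32cBad δ blk sel M)) := by
  classical
  have hXsq := scr32c_in_mono hWsq hX
  have hGin := scr32c_data_in (δ := δ) hblk hsel G
  have hBin : ScrIn δ (scrSq z r) (scr32cBad δ blk sel M) :=
    scr32c_data_in (δ := δ) hblk hsel (fun y => if M < (scr32cT δ blk y.1 (sel y.1)).card then 1 else 0)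
  have hBin' : ScrIn δ (scrSq z r) (fun ω => 1 - scr32cBad δ blk sel M ω) :=
    scr32c_data_in (δ := δ) hblk hsel (fun y => 1 - if M < (scr32cT δ blk y.1 (sel y.1)).card then 1 else 0)
  have L0 := hlim _ (scr32c_loc hδ (scr32c_in_mul hXsq hGin))
  have Lg := hlim _ (scr32c_loc hδ (scr32c_in_mul (scr32c_in_mul hXsq hGin) hBin'))
  have Lb := hlim _ (scr32c_loc hδ (scr32c_in_mul (scr32c_in_mul hXsq hGin) hBin))
  have hsum : (scrPl t fun ω => X ω * G (scrY δ blk sel ω)) =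
      (scrPl t fun ω => X ω * G (scrY δ blk sel ω) * (1 - scr32cBad δ blk sel M ω)) +
        scrPl t fun ω => X ω * G (scrY δ blk sel ω) * scr32cBad δ blk sel M ω := by
    refine tendsto_nhds_unique L0 ((Lg.add Lb).congr fun N => ?_)
    rw [← rsz_E_add]
    congr 1
    funext ω
    ring
  rw [hsum]
  exact (abs_add_le _ _).trans (add_le_add
    (scr32c_good_bound ht0 ht1 hlim hδ hblk hX hWsq hW he hgap hsel hG M)
    (scr32c_bad_bound ht0 ht1 hlim hδ hblk hXsq hsel hG M ha))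

end mesh

/-! ## 6. the scene, the records, the assembly -/

theorem scr32c_hull_sq {x0 y0 s w h g r : ℝ} (hsc : ScrScene s w h g r) (i : Fin 4) :
    scrHull x0 y0 s w h g r i ⊆ scrSq (x0, y0) s := by
  obtain ⟨hg, hhs, hw, hws, hr0, hr, hr8⟩ := hsc
  intro p hp
  rw [scr32_mem_sq]
  unfold scrHull at hp
  fin_cases i
  · obtain ⟨h1, h2, h3⟩ := hp
    rw [abs_le] at h1
    exact ⟨⟨by linarith [h1.1], by linarith [h1.2]⟩, by simp only; linarith, by simp only; linarith⟩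
  · obtain ⟨h1, h2, h3⟩ := hp
    rw [abs_le] at h1
    exact ⟨⟨by linarith [h1.1], by linarith [h1.2]⟩, by simp only; linarith, by simp only; linarith⟩
  · obtain ⟨h1, h2, h3⟩ := hp
    rw [abs_le] at h3
    exact ⟨⟨by simp only; linarith, by simp only; linarith⟩, by linarith [h3.1], by linarith [h3.2]⟩
  · obtain ⟨h1, h2, h3⟩ := hp
    rw [abs_le] at h3
    exact ⟨⟨by simp only; linarith, by simp only; linarith⟩, by linarith [h3.1], by linarith [h3.2]⟩

theorem scr32c_core_disj {x0 y0 s w h g r : ℝ} (hsc : ScrScene s w h g r) (i : Fin 4) :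
    Disjoint (scrSq (x0, y0) r) (scrHull x0 y0 s w h g r i) := by
  obtain ⟨hg, hhs, hw, hws, hr0, hr, hr8⟩ := hsc
  rw [Set.disjoint_left]
  intro p hp hq
  rw [scr32_mem_sq] at hp
  obtain ⟨⟨a1, a2⟩, a3, a4⟩ := hp
  simp only at a1 a2 a3 a4
  unfold scrHull at hq
  fin_cases i
  · obtain ⟨h1, h2, h3⟩ := hq
    linarith
  · obtain ⟨h1, h2, h3⟩ := hq
    linarith
  · obtain ⟨h1, h2, h3⟩ := hq
    linarith
  · obtain ⟨h1, h2, h3⟩ := hq
    linarith

theorem scr32c_core_sel {δ c0 : ℝ} (hc0 : 0 < c0) {blk : Fin 4 → Set (ℝ × ℝ)}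
    {sel : (Fin 4 → ScrPatT) → Finset (ℤ × ℤ)} (h : ScrCore δ c0 blk sel) :
    ∀ π, ∀ f ∈ sel π, ∃ i, scr232P δ f ∈ blk i := by
  intro π f hf
  obtain ⟨i, hi⟩ := h π f hf
  exact ⟨i, hi (Metric.mem_closedBall_self hc0.le)⟩

/-- RECORD (second moment of the insertion; Lemma 5.2 without patterns). -/
def Scr32cMom (t : ℝ) (z : ℝ × ℝ) (φ : ℝ × ℝ → ℝ) (δ : ℕ → ℝ) : Prop :=
  ∃ C : ℝ, ∀ᶠ n in atTop, scrPl t (fun ω => scrIns (δ n) z φ ω ^ 2) ≤ C

/-- RECORD (the insertion reads only the core square). -/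
def Scr32cIns (z : ℝ × ℝ) (r : ℝ) (φ : ℝ × ℝ → ℝ) (δ : ℕ → ℝ) : Prop :=
  ∀ᶠ n in atTop, ScrIn (δ n) (scrSq z r) (scrIns (δ n) z φ)

/-- RECORD (S2, item 2 of prop:cluster-counts): the number of terminals is tight, uniformly in the mesh and in the selection. -/
def Scr32cTail (t c0 : ℝ) (blk : Fin 4 → Set (ℝ × ℝ)) (δ : ℕ → ℝ) : Prop :=
  ∀ η : ℝ, 0 < η → ∃ M : ℕ, ∀ᶠ n in atTop, ∀ sel : (Fin 4 → ScrPatT) → Finset (ℤ × ℤ),
    ScrCore (δ n) c0 blk sel → scrPl t (scr32cBad (δ n) blk sel M) ≤ η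

/-- **(COL) Lemma 5.6, adding core colours**: the statement of `scr_cut_col`, from the gapped identity (hypothesis `hgapL` = the
statement of `scr_cut_gap` after `t ht1 ht2`), the colour flips of 61 (cited, proved) and four records. -/
theorem scr32c_col (t : ℝ) (ht1 : 1 / 2 ≤ t) (ht2 : t < 1) (x0 y0 s w h g r c0 : ℝ) (hsc : ScrScene s w h g r) (hc0 : 0 < c0)
    (blk : Fin 4 → Set (ℝ × ℝ)) (hblk : ∀ i, blk i ⊆ scrHull x0 y0 s w h g r i)
    (φ : ℝ × ℝ → ℝ) (hφ : ContDiff ℝ ((⊤ : ℕ∞) : WithTop ℕ∞) φ) (hφs : tsupport φ ⊆ Metric.ball (x0, y0) (r / 2))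
    (δ : ℕ → ℝ) (hδ : ∀ n, 0 < δ n) (hδ0 : Tendsto δ atTop (𝓝 0)) (ε : ℝ) (hε : 0 < ε)
    (hgapL : ∀ (x0 y0 s w h g r : ℝ) (_hsc : ScrScene s w h g r)
      (blk : Fin 4 → Set (ℝ × ℝ)) (_hblk : ∀ i, blk i ⊆ scrHull x0 y0 s w h g r i)
      (φ : ℝ × ℝ → ℝ) (_hφ : ContDiff ℝ ((⊤ : ℕ∞) : WithTop ℕ∞) φ) (_hφs : tsupport φ ⊆ Metric.ball (x0, y0) (r / 2))
      (δ : ℕ → ℝ) (_hδ : ∀ n, 0 < δ n) (_hδ0 : Tendsto δ atTop (𝓝 0)) (ε : ℝ) (_hε : 0 < ε),
      ∀ᶠ n in atTop, ∀ (π : Fin 4 → RswCfg) (Fc : Fin 4 → RswCfg → ℝ), (∀ i ω, |Fc i ω| ≤ 1) →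
        (∀ i, ScrIn (δ n) (blk i) (Fc i)) →
        |scrPl t fun ω => scrIns (δ n) (x0, y0) φ ω * ∏ i, (scrPatI (δ n) (blk i) (π i) ω * Fc i ω)|
          ≤ ε * ∏ i, scrPl t (scrPatI (δ n) (blk i) (π i)))
    (hlim : Scr32cLim t) (hmom : Scr32cMom t (x0, y0) φ δ) (hins : Scr32cIns (x0, y0) r φ δ)
    (htail : Scr32cTail t c0 blk δ) :
    ∀ᶠ n in atTop, ∀ (sel : (Fin 4 → ScrPatT) → Finset (ℤ × ℤ)), ScrCore (δ n) c0 blk sel →
      ∀ G : (Fin 4 → ScrPatT) × Finset (ℤ × ℤ) → ℝ, (∀ y, |G y| ≤ 1) →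
      |scrPl t fun ω => scrIns (δ n) (x0, y0) φ ω * G (scrY (δ n) blk sel ω)| ≤ ε := by
  have ht0 : 0 < t := by linarith
  obtain ⟨C, hC⟩ := hmom
  set C' : ℝ := max C 0 + 1 with hC'
  have hC'pos : 0 < C' := by have := le_max_right C 0; linarith
  have hCC' : C ≤ C' := by have := le_max_left C 0; linarith
  set a : ℝ := ε / (2 * C') with ha
  have hapos : 0 < a := by positivity
  obtain ⟨M, hM⟩ := htail (a * ε / 2) (by positivity)
  have hgap := hgapL x0 y0 s w h g r hsc blk hblk φ hφ hφs δ hδ hδ0 (ε / (2 * 2 ^ M)) (by positivity)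
  filter_upwards [hC, hM, hgap, hins] with n hCn hMn hgn hin sel hsel G hG
  have hb : ∀ i, blk i ⊆ scrSq (x0, y0) s := fun i => (hblk i).trans (scr32c_hull_sq hsc i)
  have hrs : r ≤ s := by
    obtain ⟨hg, hhs, hw, hws, hr0, hr, hr8⟩ := hsc
    linarith
  have key := scr32c_mesh ht0 ht2.le hlim (hδ n) hb hin (scr32_sq_mono (x0, y0) hrs)
    (fun i => (scr32c_core_disj hsc i).mono_right (hblk i)) (e := ε / (2 * 2 ^ M)) (by positivity)
    hgn (scr32c_core_sel hc0 hsel) hG M hapos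
  refine key.trans ?_
  have h1 : 2 ^ M * (ε / (2 * 2 ^ M)) = ε / 2 := by field_simp
  have h2 : a / 2 * scrPl t (fun ω => scrIns (δ n) (x0, y0) φ ω ^ 2) ≤ ε / 4 := by
    calc a / 2 * scrPl t (fun ω => scrIns (δ n) (x0, y0) φ ω ^ 2) ≤ a / 2 * C' :=
          mul_le_mul_of_nonneg_left (hCn.trans hCC') (by positivity)
      _ = ε / 4 := by rw [ha]; field_simp; ring
  have h3 : 1 / (2 * a) * scrPl t (scr32cBad (δ n) blk sel M) ≤ ε / 4 := by
    calc 1 / (2 * a) * scrPl t (scr32cBad (δ n) blk sel M) ≤ 1 / (2 * a) * (a * ε / 2) :=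
          mul_le_mul_of_nonneg_left (hMn sel hsel) (by positivity)
      _ = ε / 4 := by field_simp; ring
  rw [h1]
  linarith

end Claimed.Agent.R292
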