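import Claimed.Agent.R292.Defs.Screen

/-!
# Row 292 (S0540), Screen/Deco229 : THE EDGE DECORATION `(s, W, d)` ON THE FROZEN WEIGHTS      (owner helper229; prefix `scrd`)

AT paper, Lemma 3.1 (finite cuts and colours), first claim, on the frozen Def_0468.   `s = τ` (corners), `d = τd` (faces).
* `scrdPairs F`      the mutually dual interior edge pairs `(v, b)`: `b = false` the horizontal primal edge `v → v + e₁` crossing the dual edge
                     `{v, v - e₂}`; `b = true` the vertical primal edge `v → v + e₂` crossing `{v, v - e₁}`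
* `scrdOm`           local frozen weight `1, t, t, 0`
* `scrd_weight`      `1[IsAdmissibleSpins] t ^ atDisagreements = 1[boundary +] ∏_e scrdOm`
* `scrdFac`          the factor of (3.1): `W` open: `t 1[s = s']`; `W` closed: `(t 1[s ≠ s'] + (1 - t) 1[s = s']) 1[d = d']`
* `scrd_sum_W`       summing the decoration gives back the frozen weight
* `scrEW`, `scrEW_marginal`   decorated flat expectation; its marginal on the two spins is `scrE`
* `scrd_W_split`     the dependence on `d` consists exactly of the equality constraints on the closed `W` (= open `N`) pairs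
-/

set_option autoImplicit false

namespace Claimed.Agent.R292

open Claims Claims.C0468

/-- an oriented lattice edge: base corner + direction (`false` horizontal, `true` vertical). -/
abbrev ScrdEdge : Type := (ℤ × ℤ) × Bool

/-- second corner of the primal edge. -/
def scrdC (e : ScrdEdge) : ℤ × ℤ := if e.2 then (e.1.1, e.1.2 + 1) else (e.1.1 + 1, e.1.2)

/-- second face of the crossing dual edge (the first one is `e.1`). -/
def scrdF (e : ScrdEdge) : ℤ × ℤ := if e.2 then (e.1.1 - 1, e.1.2) else (e.1.1, e.1.2 - 1)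

/-- the mutually dual interior edge pairs. -/
def scrdPairs (F : Finset (ℤ × ℤ)) : Finset ScrdEdge :=
  (cornersOf F ×ˢ (Finset.univ : Finset Bool)).filter fun e => e.1 ∈ F ∧ scrdF e ∈ F

theorem scrd_mem_pairs {F : Finset (ℤ × ℤ)} (e : ScrdEdge) :
    e ∈ scrdPairs F ↔ e.1 ∈ cornersOf F ∧ e.1 ∈ F ∧ scrdF e ∈ F := by
  simp [scrdPairs]

/-- plus boundary condition. -/
def ScrdBd {F : Finset (ℤ × ℤ)} (p : at92Cfg F) : Prop :=
  ∀ v ∈ cornersOf F, OnPolygon F v → atSpin p.1 v = 1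

/-- the primal spins disagree along `e`. -/
def ScrdS {F : Finset (ℤ × ℤ)} (p : at92Cfg F) (e : ScrdEdge) : Prop := atSpin p.1 e.1 ≠ atSpin p.1 (scrdC e)

/-- the dual spins disagree across `e`. -/
def ScrdD {F : Finset (ℤ × ℤ)} (p : at92Cfg F) (e : ScrdEdge) : Prop := atDual p.2 e.1 ≠ atDual p.2 (scrdF e)

instance {F : Finset (ℤ × ℤ)} (p : at92Cfg F) (e : ScrdEdge) : Decidable (ScrdS p e) := by unfold ScrdS; infer_instance
instance {F : Finset (ℤ × ℤ)} (p : at92Cfg F) (e : ScrdEdge) : Decidable (ScrdD p e) := by unfold ScrdD; infer_instance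

/-- local frozen weight of a pair. -/
noncomputable def scrdOm (t : ℝ) {F : Finset (ℤ × ℤ)} (p : at92Cfg F) (e : ScrdEdge) : ℝ :=
  if ScrdS p e then (if ScrdD p e then 0 else t) else (if ScrdD p e then t else 1)

/-! ### corners -/

theorem scrd_corner_self {F : Finset (ℤ × ℤ)} {f : ℤ × ℤ} (hf : f ∈ F) : f ∈ cornersOf F := by
  unfold cornersOf
  exact Finset.mem_biUnion.2 ⟨f, hf, by simp⟩

theorem scrd_corner_e1 {F : Finset (ℤ × ℤ)} {f : ℤ × ℤ} (hf : f ∈ F) : (f.1 + 1, f.2) ∈ cornersOf F := by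
  unfold cornersOf
  exact Finset.mem_biUnion.2 ⟨f, hf, by simp⟩

theorem scrd_corner_e2 {F : Finset (ℤ × ℤ)} {f : ℤ × ℤ} (hf : f ∈ F) : (f.1, f.2 + 1) ∈ cornersOf F := by
  unfold cornersOf
  exact Finset.mem_biUnion.2 ⟨f, hf, by simp⟩

theorem scrd_corner_e12 {F : Finset (ℤ × ℤ)} {f : ℤ × ℤ} (hf : f ∈ F) : (f.1 + 1, f.2 + 1) ∈ cornersOf F := by
  unfold cornersOf
  exact Finset.mem_biUnion.2 ⟨f, hf, by simp⟩

/-- a horizontal edge with exactly one adjacent face in `F` carries no disagreement. -/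
theorem scrd_bd_h {F : Finset (ℤ × ℤ)} {p : at92Cfg F} (hb : ScrdBd p) {v : ℤ × ℤ}
    (h1 : v ∈ F ∨ (v.1, v.2 - 1) ∈ F) (h2 : ¬ (v ∈ F ∧ (v.1, v.2 - 1) ∈ F)) :
    atSpin p.1 v = atSpin p.1 (v.1 + 1, v.2) := by
  have hv : v ∈ cornersOf F := by
    rcases h1 with h | h
    · exact scrd_corner_self h
    · have := scrd_corner_e2 h
      simpa using this
  have hv' : (v.1 + 1, v.2) ∈ cornersOf F := by
    rcases h1 with h | h
    · exact scrd_corner_e1 h
    · have := scrd_corner_e12 h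
      simpa using this
  rw [hb v hv (fun h => h2 ⟨h.1, h.2.2.1⟩), hb _ hv' (fun h => h2 ⟨by simpa using h.2.1, by simpa using h.2.2.2⟩)]

/-- a vertical edge with exactly one adjacent face in `F` carries no disagreement. -/
theorem scrd_bd_v {F : Finset (ℤ × ℤ)} {p : at92Cfg F} (hb : ScrdBd p) {v : ℤ × ℤ}
    (h1 : v ∈ F ∨ (v.1 - 1, v.2) ∈ F) (h2 : ¬ (v ∈ F ∧ (v.1 - 1, v.2) ∈ F)) :
    atSpin p.1 v = atSpin p.1 (v.1, v.2 + 1) := by
  have hv : v ∈ cornersOf F := by
    rcases h1 with h | h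
    · exact scrd_corner_self h
    · have := scrd_corner_e1 h
      simpa using this
  have hv' : (v.1, v.2 + 1) ∈ cornersOf F := by
    rcases h1 with h | h
    · exact scrd_corner_e2 h
    · have := scrd_corner_e12 h
      simpa using this
  rw [hb v hv (fun h => h2 ⟨h.1, h.2.1⟩), hb _ hv' (fun h => h2 ⟨by simpa using h.2.2.1, by simpa using h.2.2.2⟩)]

/-! ### the frozen weight as a product over the pairs -/

/-- a sum over the pairs, written over the corners. -/
theorem scrd_sum_pairs {M : Type*} [AddCommMonoid M] (F : Finset (ℤ × ℤ)) (g : ScrdEdge → M) :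
    ∑ e ∈ scrdPairs F, g e = ∑ v ∈ cornersOf F,
      ((if v ∈ F ∧ (v.1, v.2 - 1) ∈ F then g (v, false) else 0) + (if v ∈ F ∧ (v.1 - 1, v.2) ∈ F then g (v, true) else 0)) := by
  unfold scrdPairs
  rw [Finset.sum_filter, Finset.sum_product]
  refine Finset.sum_congr rfl fun v _ => ?_
  rw [Fintype.sum_bool, add_comm]
  simp [scrdF]

/-- the number of disagreements, counted over the pairs. -/
theorem scrd_dis {F : Finset (ℤ × ℤ)} {p : at92Cfg F} (hb : ScrdBd p) :
    atDisagreements p.1 p.2 = ∑ e ∈ scrdPairs F, ((if ScrdS p e then 1 else 0) + (if ScrdD p e then 1 else 0)) := by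
  classical
  rw [scrd_sum_pairs]
  unfold atDisagreements
  refine Finset.sum_congr rfl fun v _ => ?_
  have a1 : (if (v ∈ F ∨ (v.1, v.2 - 1) ∈ F) ∧ atSpin p.1 v ≠ atSpin p.1 (v.1 + 1, v.2) then 1 else 0 : ℕ)
      = if v ∈ F ∧ (v.1, v.2 - 1) ∈ F then (if ScrdS p (v, false) then 1 else 0) else 0 := by
    by_cases h2 : v ∈ F ∧ (v.1, v.2 - 1) ∈ F
    · rw [if_pos h2]
      refine if_congr ?_ rfl rfl
      simp [ScrdS, scrdC, h2.1]
    · rw [if_neg h2, if_neg]
      rintro ⟨h1, h3⟩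
      exact h3 (scrd_bd_h hb h1 h2)
  have a2 : (if (v ∈ F ∨ (v.1 - 1, v.2) ∈ F) ∧ atSpin p.1 v ≠ atSpin p.1 (v.1, v.2 + 1) then 1 else 0 : ℕ)
      = if v ∈ F ∧ (v.1 - 1, v.2) ∈ F then (if ScrdS p (v, true) then 1 else 0) else 0 := by
    by_cases h2 : v ∈ F ∧ (v.1 - 1, v.2) ∈ F
    · rw [if_pos h2]
      refine if_congr ?_ rfl rfl
      simp [ScrdS, scrdC, h2.1]
    · rw [if_neg h2, if_neg]
      rintro ⟨h1, h3⟩
      exact h3 (scrd_bd_v hb h1 h2)
  have a3 : (if (v ∈ F ∧ (v.1, v.2 - 1) ∈ F) ∧ atDual p.2 v ≠ atDual p.2 (v.1, v.2 - 1) then 1 else 0 : ℕ)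
      = if v ∈ F ∧ (v.1, v.2 - 1) ∈ F then (if ScrdD p (v, false) then 1 else 0) else 0 := by
    by_cases h2 : v ∈ F ∧ (v.1, v.2 - 1) ∈ F
    · rw [if_pos h2]
      refine if_congr ?_ rfl rfl
      simp [ScrdD, scrdF, h2]
    · rw [if_neg h2, if_neg]
      exact fun h => h2 h.1
  have a4 : (if (v ∈ F ∧ (v.1 - 1, v.2) ∈ F) ∧ atDual p.2 v ≠ atDual p.2 (v.1 - 1, v.2) then 1 else 0 : ℕ)
      = if v ∈ F ∧ (v.1 - 1, v.2) ∈ F then (if ScrdD p (v, true) then 1 else 0) else 0 := by
    by_cases h2 : v ∈ F ∧ (v.1 - 1, v.2) ∈ F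
    · rw [if_pos h2]
      refine if_congr ?_ rfl rfl
      simp [ScrdD, scrdF, h2]
    · rw [if_neg h2, if_neg]
      exact fun h => h2 h.1
  rw [a1, a2, a3, a4]
  by_cases h1 : v ∈ F ∧ (v.1, v.2 - 1) ∈ F <;> by_cases h2 : v ∈ F ∧ (v.1 - 1, v.2) ∈ F
  · simp only [if_pos h1, if_pos h2]; ring
  · simp only [if_pos h1, if_neg h2]; ring
  · simp only [if_neg h1, if_pos h2]; ring
  · simp only [if_neg h1, if_neg h2, add_zero]

/-- admissibility, read on the pairs. -/
theorem scrd_adm {F : Finset (ℤ × ℤ)} (p : at92Cfg F) :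
    IsAdmissibleSpins p.1 p.2 ↔ ScrdBd p ∧ ∀ e ∈ scrdPairs F, ¬ (ScrdS p e ∧ ScrdD p e) := by
  unfold IsAdmissibleSpins
  refine and_congr Iff.rfl ⟨fun h e he => ?_, fun h v hv => ⟨fun hF => ?_, fun hF => ?_⟩⟩
  · obtain ⟨h1, h2, h3⟩ := (scrd_mem_pairs e).1 he
    obtain ⟨v, b⟩ := e
    rintro ⟨hs, hd⟩
    cases b
    · have := (h v h1).1 ⟨h2, by simpa [scrdF] using h3⟩
      rcases mul_eq_zero.1 this with h0 | h0
      · exact hs (by simpa [scrdC] using sub_eq_zero.1 h0)
      · exact hd (by simpa [scrdF] using sub_eq_zero.1 h0)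
    · have := (h v h1).2 ⟨h2, by simpa [scrdF] using h3⟩
      rcases mul_eq_zero.1 this with h0 | h0
      · exact hs (by simpa [scrdC] using sub_eq_zero.1 h0)
      · exact hd (by simpa [scrdF] using sub_eq_zero.1 h0)
  · have := h (v, false) ((scrd_mem_pairs _).2 ⟨hv, hF.1, by simpa [scrdF] using hF.2⟩)
    by_contra hne
    rw [mul_eq_zero, not_or, sub_eq_zero, sub_eq_zero] at hne
    exact this ⟨by simpa [ScrdS, scrdC] using hne.1, by simpa [ScrdD, scrdF] using hne.2⟩
  · have := h (v, true) ((scrd_mem_pairs _).2 ⟨hv, hF.1, by simpa [scrdF] using hF.2⟩)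
    by_contra hne
    rw [mul_eq_zero, not_or, sub_eq_zero, sub_eq_zero] at hne
    exact this ⟨by simpa [ScrdS, scrdC] using hne.1, by simpa [ScrdD, scrdF] using hne.2⟩

open Classical in
/-- **the frozen weight is a product of local weights over the interior dual edge pairs.** -/
theorem scrd_weight (t : ℝ) {F : Finset (ℤ × ℤ)} (p : at92Cfg F) :
    (if IsAdmissibleSpins p.1 p.2 then t ^ atDisagreements p.1 p.2 else 0)
      = if ScrdBd p then ∏ e ∈ scrdPairs F, scrdOm t p e else 0 := by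
  by_cases hb : ScrdBd p
  · rw [if_pos hb]
    by_cases ha : IsAdmissibleSpins p.1 p.2
    · rw [if_pos ha, scrd_dis hb, ← Finset.prod_pow_eq_pow_sum]
      refine Finset.prod_congr rfl fun e he => ?_
      have := ((scrd_adm p).1 ha).2 e he
      unfold scrdOm
      by_cases h1 : ScrdS p e <;> by_cases h2 : ScrdD p e <;> simp_all
    · rw [if_neg ha]
      have : ∃ e ∈ scrdPairs F, ScrdS p e ∧ ScrdD p e := by
        by_contra hne
        exact ha ((scrd_adm p).2 ⟨hb, fun e he h => hne ⟨e, he, h⟩⟩)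
      obtain ⟨e, he, h1, h2⟩ := this
      exact (Finset.prod_eq_zero he (by simp [scrdOm, h1, h2])).symm
  · rw [if_neg hb, if_neg fun ha => hb ((scrd_adm p).1 ha).1]

/-! ### the decoration -/

/-- the factor (3.1) of a pair: `w = true` the `W` edge is open. -/
noncomputable def scrdFac (t : ℝ) {F : Finset (ℤ × ℤ)} (p : at92Cfg F) (e : ScrdEdge) (w : Bool) : ℝ :=
  if w then (if ScrdS p e then 0 else t) else (if ScrdD p e then 0 else (if ScrdS p e then t else 1 - t))

theorem scrd_fac_sum (t : ℝ) {F : Finset (ℤ × ℤ)} (p : at92Cfg F) (e : ScrdEdge) :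
    ∑ w : Bool, scrdFac t p e w = scrdOm t p e := by
  rw [Fintype.sum_bool]
  unfold scrdFac scrdOm
  by_cases h1 : ScrdS p e <;> by_cases h2 : ScrdD p e <;> simp [h1, h2]

theorem scrd_fac_nonneg {t : ℝ} (h0 : 0 ≤ t) (h1 : t ≤ 1) {F : Finset (ℤ × ℤ)} (p : at92Cfg F) (e : ScrdEdge) (w : Bool) :
    0 ≤ scrdFac t p e w := by
  unfold scrdFac
  split_ifs <;> linarith

/-- the decorations. -/
abbrev ScrdDec (F : Finset (ℤ × ℤ)) : Type := scrdPairs F → Bool

/-- joint weight of `(s, d, W)`. -/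
noncomputable def scrdW (t : ℝ) {F : Finset (ℤ × ℤ)} (p : at92Cfg F) (W : ScrdDec F) : ℝ :=
  ∏ e : scrdPairs F, scrdFac t p e.1 (W e)

theorem scrdW_nonneg {t : ℝ} (h0 : 0 ≤ t) (h1 : t ≤ 1) {F : Finset (ℤ × ℤ)} (p : at92Cfg F) (W : ScrdDec F) :
    0 ≤ scrdW t p W :=
  Finset.prod_nonneg fun e _ => scrd_fac_nonneg h0 h1 p e.1 (W e)

/-- summing out the decoration. -/
theorem scrd_sum_W (t : ℝ) {F : Finset (ℤ × ℤ)} (p : at92Cfg F) :
    ∑ W : ScrdDec F, scrdW t p W = ∏ e ∈ scrdPairs F, scrdOm t p e := by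
  unfold scrdW
  rw [← Finset.prod_coe_sort (scrdPairs F) (fun e => scrdOm t p e)]
  have := Finset.prod_univ_sum (fun _ : scrdPairs F => (Finset.univ : Finset Bool)) (fun e w => scrdFac t p e.1 w)
  rw [Fintype.piFinset_univ] at this
  rw [← this]
  exact Finset.prod_congr rfl fun e _ => scrd_fac_sum t p e.1

open Classical in
/-- the pairs of spins with plus boundary condition. -/
noncomputable def scrdBdSet (F : Finset (ℤ × ℤ)) : Finset (at92Cfg F) := Finset.univ.filter fun p => ScrdBd p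

/-- decorated flat expectation. -/
noncomputable def scrEW (t : ℝ) (F : Finset (ℤ × ℤ)) (A : at92Cfg F → ScrdDec F → ℝ) : ℝ :=
  (∑ p ∈ scrdBdSet F, ∑ W : ScrdDec F, scrdW t p W * A p W) / ∑ p ∈ scrdBdSet F, ∑ W : ScrdDec F, scrdW t p W

theorem scrd_sum_adm (t : ℝ) (F : Finset (ℤ × ℤ)) (A : at92Cfg F → ℝ) :
    ∑ p ∈ at92Adm F, at92W t p * A p = ∑ p ∈ scrdBdSet F, ∑ W : ScrdDec F, scrdW t p W * A p := by
  classical
  unfold at92Adm scrdBdSet at92W
  rw [Finset.sum_filter, Finset.sum_filter]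
  refine Finset.sum_congr rfl fun p _ => ?_
  have h := scrd_weight t p
  rw [← Finset.sum_mul, scrd_sum_W]
  by_cases ha : IsAdmissibleSpins p.1 p.2 <;> by_cases hb : ScrdBd p <;> simp only [ha, hb, if_true, if_false] at h ⊢
  · rw [h]
  · rw [h, zero_mul]
  · rw [← h, zero_mul]

/-- **the marginal of the decorated law on the two spins is the frozen flat law.** -/
theorem scrEW_marginal (t : ℝ) (F : Finset (ℤ × ℤ)) (A : at92Cfg F → ℝ) :
    scrEW t F (fun p _ => A p) = scrE t F A := by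
  unfold scrEW scrE
  rw [scrd_sum_adm t F A]
  have := scrd_sum_adm t F (fun _ => 1)
  simp only [mul_one] at this
  rw [this]

/-- the `(s, W)` part of the factor. -/
noncomputable def scrdFacS (t : ℝ) {F : Finset (ℤ × ℤ)} (p : at92Cfg F) (e : ScrdEdge) (w : Bool) : ℝ :=
  if w then (if ScrdS p e then 0 else t) else (if ScrdS p e then t else 1 - t)

/-- **the dependence on `d` consists exactly of the equality constraints across the closed `W` (= open `N`) pairs.** -/
theorem scrd_W_split (t : ℝ) {F : Finset (ℤ × ℤ)} (p : at92Cfg F) (W : ScrdDec F) :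
    scrdW t p W = (∏ e : scrdPairs F, scrdFacS t p e.1 (W e)) *
      ∏ e : scrdPairs F, (if W e = false ∧ ScrdD p e.1 then 0 else 1) := by
  unfold scrdW
  rw [← Finset.prod_mul_distrib]
  refine Finset.prod_congr rfl fun e _ => ?_
  unfold scrdFac scrdFacS
  cases W e <;> by_cases h2 : ScrdD p e.1 <;> simp [h2]

end Claimed.Agent.R292
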