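import Claimed.Agent.R291.Pin.Tr

/-!
# Row 292 (S0540), unit SCREEN (AT paper Sec. 5), Screen/Gap221 : MODEL-FREE CORES OF LEMMAS 5.3 AND 5.4      (owner helper221; head of SCREEN: helper229; prefix `gap221`)

0 sorry.  On top of the generic machines of row 291 (`PinTr` of Pin/Cont; `PinHs`, `pin_tr_of_haus` of Pin/Tr).  The removal of the moves (Lemma 5.5) is `scg99_gapped` of Screen/Gap99.
* sec. 1  `gap221_tr_mono`: the constant of a transfer bound may be enlarged.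
* sec. 2  `Gap221RP B T` (abstract reflection form `B` and positive normal transfer `T` on a real vector space of positive-side observables);
          `gap221_haus` (Hausdorff sequence), **`gap221_tr`**, `gap221_tr_le` (`PinTr ((B a a + B b b) / 2) N (m ↦ B a (T^(m+N) b))` = the hypothesis `hTr` of `scg99_gapped`),
          `gap221_cs`, `gap221_cs_abs` (reflection Cauchy-Schwarz = the hypothesis `hb` of `scg99_gapped` at the final arrangement)   (TEX[lem:screen-analytic-translation]).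
* sec. 3  `Gap221Ex A E` (abstract expectation on an algebra of observables), `gap221_ex_cs` (weighted Cauchy-Schwarz),
          TEX[lem:screen-reflection-bound] in numbers: **`gap221_refl_bound`**, `gap221_refl_bound_bdd`.
-/

set_option autoImplicit false

namespace Claimed.Agent.R292

open Filter Topology Set
open Claimed.Agent.R291

/-! ## 1. monotonicity of the transfer bound -/

/-- the constant of a transfer bound may be enlarged -/
theorem gap221_tr_mono {C C' : ℝ} {N : ℕ} {M : ℕ → ℂ} (h : PinTr C N M) (hC : C ≤ C') : PinTr C' N M := by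
  intro r L κ hκ
  have hκ0 : 0 ≤ κ := by
    have := hκ 0 ⟨le_rfl, zero_le_one⟩
    simpa using this
  exact (h r L κ hκ).trans (add_le_add le_rfl (mul_le_mul_of_nonneg_right hC hκ0))

/-! ## 2. abstract reflection form and positive normal transfer -/

section RP

variable {V : Type*} [AddCommGroup V] [Module ℝ V]

/-- `B` = reflection form `⟨a, b⟩_Θ = E[Θa · b]` on the positive-side observables, `T` = translation by the positive normal step (two rows).
`pos0`, `pos1` = reflection positivity in two consecutive rows; `self` = translation invariance; `bd` = Cauchy-Schwarz in `L²`. -/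
structure Gap221RP (B : V →ₗ[ℝ] V →ₗ[ℝ] ℝ) (T : V →ₗ[ℝ] V) : Prop where
  symm : ∀ a b, B a b = B b a
  self : ∀ a b, B (T a) b = B a (T b)
  pos0 : ∀ a, 0 ≤ B a a
  pos1 : ∀ a, 0 ≤ B a (T a)
  bd : ∀ a, ∃ K : ℝ, ∀ j : ℕ, |B a ((T ^ j) a)| ≤ K

variable {B : V →ₗ[ℝ] V →ₗ[ℝ] ℝ} {T : V →ₗ[ℝ] V}

theorem gap221_pow_self (h : Gap221RP B T) (p : ℕ) : ∀ a c : V, B ((T ^ p) a) c = B a ((T ^ p) c) := by
  induction p with
  | zero => intro a c; simp
  | succ p ih =>
    intro a c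
    have e1 : (T ^ (p + 1)) a = T ((T ^ p) a) := by rw [pow_succ', Module.End.mul_apply]
    have e2 : (T ^ (p + 1)) c = (T ^ p) (T c) := by rw [pow_succ, Module.End.mul_apply]
    rw [e1, e2, h.self, ih]

theorem gap221_pow_pow (h : Gap221RP B T) (p q : ℕ) (a c : V) : B ((T ^ p) a) ((T ^ q) c) = B a ((T ^ (p + q)) c) := by
  rw [gap221_pow_self h, ← Module.End.mul_apply, ← pow_add]

theorem gap221_sum_sum {α : Type*} (s : Finset α) (c : α → ℝ) (v w : α → V) :
    B (∑ p ∈ s, c p • v p) (∑ q ∈ s, c q • w q) = ∑ p ∈ s, ∑ q ∈ s, c p * c q * B (v p) (w q) := by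
  have e : B (∑ p ∈ s, c p • v p) = ∑ p ∈ s, c p • B (v p) := by
    rw [map_sum]
    exact Finset.sum_congr rfl fun p _ => map_smul _ _ _
  rw [e, LinearMap.sum_apply]
  refine Finset.sum_congr rfl fun p _ => ?_
  rw [LinearMap.smul_apply, map_sum, smul_eq_mul, Finset.mul_sum]
  refine Finset.sum_congr rfl fun q _ => ?_
  rw [map_smul, smul_eq_mul, mul_assoc]

/-- **the moment sequence of the transfer is a Hausdorff sequence** -/
theorem gap221_haus (h : Gap221RP B T) (y : V) : PinHs (fun j : ℕ => B y ((T ^ j) y)) := by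
  refine ⟨fun α s e c => ?_, fun α s e c => ?_, h.bd y⟩
  · have h0 := h.pos0 (∑ p ∈ s, c p • (T ^ e p) y)
    rw [gap221_sum_sum] at h0
    refine h0.trans_eq (Finset.sum_congr rfl fun p _ => Finset.sum_congr rfl fun q _ => ?_)
    rw [gap221_pow_pow h]
  · have h0 := h.pos1 (∑ p ∈ s, c p • (T ^ e p) y)
    have e1 : T (∑ p ∈ s, c p • (T ^ e p) y) = ∑ p ∈ s, c p • (T ^ (e p + 1)) y := by
      rw [map_sum]
      refine Finset.sum_congr rfl fun p _ => ?_
      rw [map_smul, pow_succ', Module.End.mul_apply]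
    rw [e1, gap221_sum_sum] at h0
    refine h0.trans_eq (Finset.sum_congr rfl fun p _ => Finset.sum_congr rfl fun q _ => ?_)
    rw [gap221_pow_pow h, add_assoc]

/-- **transfer representation ==> transfer bound**, with the constant `(‖a‖_Θ² + ‖b‖_Θ²) / 2` -/
theorem gap221_tr (h : Gap221RP B T) (a b : V) (N : ℕ) :
    PinTr ((B a a + B b b) / 2) N (fun m : ℕ => ((B a ((T ^ (m + N)) b) : ℝ) : ℂ)) := by
  have sy : ∀ j : ℕ, B b ((T ^ j) a) = B a ((T ^ j) b) := by
    intro j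
    rw [← gap221_pow_self h, h.symm]
  have ex : ∀ (σ : ℝ) (j : ℕ), B (a + σ • b) ((T ^ j) (a + σ • b))
      = B a ((T ^ j) a) + 2 * σ * B a ((T ^ j) b) + σ ^ 2 * B b ((T ^ j) b) := by
    intro σ j
    simp only [map_add, map_smul, LinearMap.add_apply, LinearMap.smul_apply, smul_eq_mul, sy]
    ring
  have H := pin_tr_of_haus (gap221_haus h (a + (1 : ℝ) • b)) (gap221_haus h (a + (-1 : ℝ) • b)) N
    (M := fun m : ℕ => ((B a ((T ^ (m + N)) b) : ℝ) : ℂ)) (fun m => by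
      simp only [ex]
      congr 1
      ring)
  have e0 : (B (a + (1 : ℝ) • b) ((T ^ 0) (a + (1 : ℝ) • b)) + B (a + (-1 : ℝ) • b) ((T ^ 0) (a + (-1 : ℝ) • b))) / 4
      = (B a a + B b b) / 2 := by
    simp only [ex]
    simp only [pow_zero, Module.End.one_apply]
    ring
  rw [e0] at H
  exact H

/-- the same with a common bound for the two reflection norms -/
theorem gap221_tr_le (h : Gap221RP B T) {a b : V} {C : ℝ} (ha : B a a ≤ C) (hb : B b b ≤ C) (N : ℕ) :
    PinTr C N (fun m : ℕ => ((B a ((T ^ (m + N)) b) : ℝ) : ℂ)) :=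
  gap221_tr_mono (gap221_tr h a b N) (by linarith)

/-- **reflection Cauchy-Schwarz** -/
theorem gap221_cs (h : Gap221RP B T) (a x : V) : (B a x) ^ 2 ≤ B a a * B x x := by
  have := LinearMap.BilinForm.apply_mul_apply_le_of_forall_zero_le B h.pos0 a x
  rwa [h.symm x a, ← sq] at this

/-- the bound of the final arrangement: `|⟨a, x⟩_Θ| ≤ C ‖x‖_Θ` -/
theorem gap221_cs_abs (h : Gap221RP B T) {a x : V} {C : ℝ} (hC : 0 ≤ C) (ha : B a a ≤ C ^ 2) :
    |B a x| ≤ C * Real.sqrt (B x x) := by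
  have h1 := gap221_cs h a x
  have h2 : (B a x) ^ 2 ≤ (C * Real.sqrt (B x x)) ^ 2 := by
    rw [mul_pow, Real.sq_sqrt (h.pos0 x)]
    exact h1.trans (mul_le_mul_of_nonneg_right ha (h.pos0 x))
  exact abs_le_of_sq_le_sq h2 (mul_nonneg hC (Real.sqrt_nonneg _))

end RP

/-! ## 3. abstract expectation; the normalized reflection bound in numbers -/

section Ex

variable {Ω : Type*}

/-- an abstract expectation (positive linear functional) on an algebra of observables -/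
structure Gap221Ex (A : Subalgebra ℝ (Ω → ℝ)) (E : (Ω → ℝ) → ℝ) : Prop where
  add : ∀ f ∈ A, ∀ g ∈ A, E (f + g) = E f + E g
  smul : ∀ (c : ℝ), ∀ f ∈ A, E (c • f) = c * E f
  pos : ∀ f ∈ A, (∀ ω, 0 ≤ f ω) → 0 ≤ E f

variable {A : Subalgebra ℝ (Ω → ℝ)} {E : (Ω → ℝ) → ℝ}

theorem gap221_ex_mono (h : Gap221Ex A E) {f g : Ω → ℝ} (hf : f ∈ A) (hg : g ∈ A) (hfg : ∀ ω, f ω ≤ g ω) : E f ≤ E g := by
  have hm : (-1 : ℝ) • f ∈ A := A.smul_mem hf _
  have h1 := h.pos (g + (-1 : ℝ) • f) (A.add_mem hg hm) (fun ω => by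
    simp only [Pi.add_apply, Pi.smul_apply, smul_eq_mul]
    linarith [hfg ω])
  rw [h.add g hg _ hm, h.smul _ f hf] at h1
  linarith

/-- a real quadratic which is nonnegative has a nonpositive discriminant -/
theorem gap221_disc {a b c : ℝ} (h : ∀ s : ℝ, 0 ≤ a + 2 * s * b + s ^ 2 * c) : b ^ 2 ≤ a * c := by
  have h1 : discrim c (2 * b) a ≤ 0 := discrim_le_zero (fun s => by
    have := h s
    nlinarith)
  unfold discrim at h1
  nlinarith

/-- **weighted Cauchy-Schwarz** -/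
theorem gap221_ex_cs (h : Gap221Ex A E) {S f g : Ω → ℝ} (hS : S ∈ A) (hf : f ∈ A) (hg : g ∈ A) (hS0 : ∀ ω, 0 ≤ S ω) :
    (E (S * (f * g))) ^ 2 ≤ E (S * (f * f)) * E (S * (g * g)) := by
  refine gap221_disc fun s => ?_
  have m1 : S * (f * f) ∈ A := A.mul_mem hS (A.mul_mem hf hf)
  have m2 : S * (f * g) ∈ A := A.mul_mem hS (A.mul_mem hf hg)
  have m3 : S * (g * g) ∈ A := A.mul_mem hS (A.mul_mem hg hg)
  have e : S * ((f + s • g) * (f + s • g)) = S * (f * f) + ((2 * s) • (S * (f * g)) + (s ^ 2) • (S * (g * g))) := by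
    funext ω
    simp only [Pi.mul_apply, Pi.add_apply, Pi.smul_apply, smul_eq_mul]
    ring
  have hq : f + s • g ∈ A := A.add_mem hf (A.smul_mem hg _)
  have h0 := h.pos (S * ((f + s • g) * (f + s • g))) (A.mul_mem hS (A.mul_mem hq hq)) (fun ω => by
    simp only [Pi.mul_apply]
    exact mul_nonneg (hS0 ω) (mul_self_nonneg _))
  rw [e, h.add _ m1 _ (A.add_mem (A.smul_mem m2 _) (A.smul_mem m3 _)), h.add _ (A.smul_mem m2 _) _ (A.smul_mem m3 _),
    h.smul _ _ m2, h.smul _ _ m3] at h0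
  linarith

/-- **TEX[lem:screen-reflection-bound] in numbers.**  `S` = indicator of `P ∩ ΘP`, `J = ∏ p_i`, `E S ≤ C₁ J²` (TEX[prop:pattern-comparison]);
`A = G Y`, `ΘA = G' Y'`, `|G|, |G'| ≤ 1`, conditional second moments of the insertion and of its reflection at most `C₂` (TEX[lem:screen-pattern-moments]). -/
theorem gap221_refl_bound (h : Gap221Ex A E) {S G G' Y Y' : Ω → ℝ} (hS : S ∈ A) (hG : G ∈ A) (hG' : G' ∈ A) (hY : Y ∈ A) (hY' : Y' ∈ A)
    (hS0 : ∀ ω, 0 ≤ S ω) (hG1 : ∀ ω, |G ω| ≤ 1) (hG1' : ∀ ω, |G' ω| ≤ 1) {C₁ C₂ J : ℝ} (hJ : 0 < J) (hC₂ : 0 ≤ C₂)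
    (h1 : E S ≤ C₁ * J ^ 2) (h2 : E (S * (Y * Y)) ≤ C₂ * E S) (h2' : E (S * (Y' * Y')) ≤ C₂ * E S) :
    |E (S * ((G' * Y') * (G * Y)))| / J ^ 2 ≤ C₁ * C₂ := by
  have hES : 0 ≤ E S := h.pos S hS hS0
  have key : ∀ {G Y : Ω → ℝ}, G ∈ A → Y ∈ A → (∀ ω, |G ω| ≤ 1) → E (S * (Y * Y)) ≤ C₂ * E S →
      E (S * ((G * Y) * (G * Y))) ≤ C₂ * E S ∧ 0 ≤ E (S * ((G * Y) * (G * Y))) := by
    intro G Y hG hY hG1 h2
    have mGY : G * Y ∈ A := A.mul_mem hG hY
    refine ⟨(gap221_ex_mono h (A.mul_mem hS (A.mul_mem mGY mGY)) (A.mul_mem hS (A.mul_mem hY hY)) fun ω => ?_).trans h2,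
      h.pos _ (A.mul_mem hS (A.mul_mem mGY mGY)) fun ω => ?_⟩
    · simp only [Pi.mul_apply]
      refine mul_le_mul_of_nonneg_left ?_ (hS0 ω)
      have hg : G ω * G ω ≤ 1 := by
        have := abs_le.1 (hG1 ω)
        nlinarith
      nlinarith [mul_self_nonneg (Y ω)]
    · simp only [Pi.mul_apply]
      exact mul_nonneg (hS0 ω) (mul_self_nonneg _)
  obtain ⟨k1, k1'⟩ := key hG hY hG1 h2
  obtain ⟨k2, k2'⟩ := key hG' hY' hG1' h2'
  have hcs := gap221_ex_cs h hS (A.mul_mem hG' hY') (A.mul_mem hG hY) hS0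
  have h3 : (E (S * ((G' * Y') * (G * Y)))) ^ 2 ≤ (C₂ * E S) ^ 2 := by
    rw [sq (C₂ * E S)]
    exact hcs.trans (mul_le_mul k2 k1 k1' (mul_nonneg hC₂ hES))
  have h4 : |E (S * ((G' * Y') * (G * Y)))| ≤ C₂ * E S := abs_le_of_sq_le_sq h3 (mul_nonneg hC₂ hES)
  rw [div_le_iff₀ (by positivity)]
  calc |E (S * ((G' * Y') * (G * Y)))| ≤ C₂ * E S := h4
    _ ≤ C₂ * (C₁ * J ^ 2) := mul_le_mul_of_nonneg_left h1 hC₂
    _ = C₁ * C₂ * J ^ 2 := by ring

/-- the bounded case of TEX[lem:screen-reflection-bound] -/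
theorem gap221_refl_bound_bdd (h : Gap221Ex A E) {S G G' : Ω → ℝ} (hS : S ∈ A) (hG : G ∈ A) (hG' : G' ∈ A)
    (hS0 : ∀ ω, 0 ≤ S ω) (hG1 : ∀ ω, |G ω| ≤ 1) (hG1' : ∀ ω, |G' ω| ≤ 1) {C₁ J : ℝ} (hJ : 0 < J) (h1 : E S ≤ C₁ * J ^ 2) :
    |E (S * (G' * G))| / J ^ 2 ≤ C₁ := by
  have h0 := gap221_refl_bound h hS hG hG' A.one_mem A.one_mem hS0 hG1 hG1' (C₂ := 1) hJ zero_le_one h1
    (by simp) (by simp)
  simpa using h0

end Ex

end Claimed.Agent.R292
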