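import Claimed.Agent.R291.Pin.Tr

/-!
# Row 292 (S0540), Screen/Gap62 : THE GAPPED PATTERN IDENTITY, MODEL FREE      (owner helper62; unit SCREEN, head helper229; prefix `scr62_`, `Scr62`)      0 sorry

AT paper Sec 5: TEX[lem:screen-reflection-bound] (5.3), TEX[lem:screen-analytic-translation] (5.4), TEX[lem:screen-gapped-identity] (5.5), without the model.
Built on the PROVED machines of row 291: `PinHs`, `pin_tr_of_haus` (Pin/Tr), `PinTr`, `PinMv`, `pin_cont_moves` (Pin/Cont).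
* sec. A  `Scr62Frame V` = what ONE reflection normal gives on the real vector space `V` of the observables of its positive side: the reflection form `B a b = E[Θ a * b]`
          and the positive normal step `τ` (two row spacings): `B` symmetric, `τ` symmetric for `B`, `B a a ≥ 0` (row `0`), `B a (τ a) ≥ 0` (next row), bounded orbits.
          `Scr62Frame.haus` (Hausdorff sequence), **`Scr62Frame.tr`**, `Scr62Frame.tr_le` : `PinTr C N (m ↦ B a (τ^(m+N) b))` as soon as `B a a ≤ C`, `B b b ≤ C`;  `Scr62Frame.cs` (reflection Cauchy-Schwarz).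
* sec. B  `scr62_unif` : convergence along EVERY sequence of indices (patterns, factors; the index set may depend on `n`) is uniform convergence ("a sequence within half of the limsup").
* sec. C  **`scr62_gap`** (hypotheses along every sequence of indices), `scr62_gap_all` (hypotheses `eventually in n, for all i`) : `K` moves, thresholds `thr`, numbers `M n i k` (`i` = patterns + factors): transfer inequality for each move + convergence at the final arrangements  ⟹  `sup_i |M n i 0| → 0`.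
          **`scr62_gap_frame`** : the same with the hypotheses in the shape produced by the model: a frame for each move, and `|M n i k| ≤ C x n`, `x n → 0`, at the final arrangements.
* sec. D  finite weighted spaces `scr62E s w A = (∑ w A) / ∑ w` (`scrE t F = scr62E (at92Adm F) (at92W t)` by `rfl`): linearity, positivity, Cauchy-Schwarz;
          **`scr62_refl_bound`** = Lemma 5.3: `E[Θ(Y) Y] ≤ C₂ C` for `Y = F X 1_P / J`, `|F| ≤ 1`, from `P(P ∩ ΘP) ≤ C J²` and the conditional second moments of `X`, `X ∘ Θ`;  `scr62_refl_bound_one` (`X = 1`).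
-/

set_option autoImplicit false

namespace Claimed.Agent.R292

open Filter Topology Set
open Claimed.Agent.R291

/-! ## A. reflection frames -/

/-- what one reflection normal gives on the observables of its positive side -/
structure Scr62Frame (V : Type*) [AddCommGroup V] [Module ℝ V] where
  /-- the reflection form `B a b = E[Θ a * b]` -/
  B : V →ₗ[ℝ] V →ₗ[ℝ] ℝ
  /-- the positive normal step -/
  τ : V →ₗ[ℝ] V
  symm : ∀ a b, B a b = B b a
  adj : ∀ a b, B (τ a) b = B a (τ b)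
  pos0 : ∀ a, 0 ≤ B a a
  pos1 : ∀ a, 0 ≤ B a (τ a)
  bdd : ∀ a, ∃ K : ℝ, ∀ j : ℕ, |B a ((τ ^ j) a)| ≤ K

namespace Scr62Frame

variable {V : Type*} [AddCommGroup V] [Module ℝ V] (Fr : Scr62Frame V)

theorem adj_pow (p : ℕ) (a b : V) : Fr.B ((Fr.τ ^ p) a) b = Fr.B a ((Fr.τ ^ p) b) := by
  induction p generalizing a b with
  | zero => simp
  | succ p ih =>
    rw [pow_succ, Module.End.mul_apply, Module.End.mul_apply, ih, Fr.adj]
    congr 1
    rw [← Module.End.mul_apply, ← Module.End.mul_apply, ← pow_succ, ← pow_succ']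

theorem pow_pow (p q : ℕ) (a b : V) : Fr.B ((Fr.τ ^ p) a) ((Fr.τ ^ q) b) = Fr.B a ((Fr.τ ^ (p + q)) b) := by
  rw [adj_pow, ← Module.End.mul_apply, ← pow_add]

theorem sum_sum {α : Type*} (s : Finset α) (c : α → ℝ) (x y : α → V) :
    Fr.B (∑ p ∈ s, c p • x p) (∑ q ∈ s, c q • y q) = ∑ p ∈ s, ∑ q ∈ s, c p * c q * Fr.B (x p) (y q) := by
  rw [map_sum (Fr.B), LinearMap.sum_apply]
  refine Finset.sum_congr rfl fun p _ => ?_
  rw [map_sum]
  refine Finset.sum_congr rfl fun q _ => ?_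
  rw [map_smul, map_smul, LinearMap.smul_apply, smul_eq_mul, smul_eq_mul]
  ring

/-- the moment sequence of the normal step is a Hausdorff sequence -/
theorem haus (y : V) : PinHs (fun j : ℕ => Fr.B y ((Fr.τ ^ j) y)) := by
  refine ⟨fun α s e c => ?_, fun α s e c => ?_, Fr.bdd y⟩
  · have h := Fr.pos0 (∑ p ∈ s, c p • (Fr.τ ^ e p) y)
    rw [sum_sum] at h
    refine h.trans_eq (Finset.sum_congr rfl fun p _ => Finset.sum_congr rfl fun q _ => ?_)
    rw [pow_pow]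
  · have h := Fr.pos1 (∑ p ∈ s, c p • (Fr.τ ^ e p) y)
    have e1 : Fr.τ (∑ p ∈ s, c p • (Fr.τ ^ e p) y) = ∑ p ∈ s, c p • (Fr.τ ^ (e p + 1)) y := by
      rw [map_sum]
      refine Finset.sum_congr rfl fun p _ => ?_
      rw [map_smul, pow_succ', Module.End.mul_apply]
    rw [e1, sum_sum] at h
    refine h.trans_eq (Finset.sum_congr rfl fun p _ => Finset.sum_congr rfl fun q _ => ?_)
    rw [pow_pow, add_assoc]

/-- **transfer representation** = the hypothesis `hTr` of `pin_cont_lim` / `pin_cont_moves` -/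
theorem tr (a b : V) (N : ℕ) :
    PinTr ((Fr.B a a + Fr.B b b) / 2) N (fun m : ℕ => ((Fr.B a ((Fr.τ ^ (m + N)) b) : ℝ) : ℂ)) := by
  have sy : ∀ j : ℕ, Fr.B b ((Fr.τ ^ j) a) = Fr.B a ((Fr.τ ^ j) b) := fun j => by
    rw [Fr.symm, adj_pow]
  have h := pin_tr_of_haus (Fr.haus (a + b)) (Fr.haus (a - b)) N
    (M := fun m : ℕ => ((Fr.B a ((Fr.τ ^ (m + N)) b) : ℝ) : ℂ)) (fun m => by
      congr 1
      simp only [map_add, map_sub, LinearMap.add_apply, LinearMap.sub_apply, sy]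
      ring)
  have e0 : (Fr.B (a + b) ((Fr.τ ^ 0) (a + b)) + Fr.B (a - b) ((Fr.τ ^ 0) (a - b))) / 4 = (Fr.B a a + Fr.B b b) / 2 := by
    simp only [pow_zero, Module.End.one_apply, map_add, map_sub, LinearMap.add_apply, LinearMap.sub_apply]
    ring
  rw [e0] at h
  exact h

end Scr62Frame

/-- the constant of a transfer inequality may be enlarged -/
theorem scr62_tr_mono {C C' : ℝ} (hC : C ≤ C') {N : ℕ} {M : ℕ → ℂ} (h : PinTr C N M) : PinTr C' N M := by
  intro r L κ hκ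
  have hκ0 : 0 ≤ κ := by
    have := hκ 0 ⟨le_rfl, zero_le_one⟩
    simpa using this
  exact (h r L κ hκ).trans (by gcongr)

namespace Scr62Frame

variable {V : Type*} [AddCommGroup V] [Module ℝ V] (Fr : Scr62Frame V)

theorem tr_le {a b : V} {C : ℝ} (ha : Fr.B a a ≤ C) (hb : Fr.B b b ≤ C) (N : ℕ) :
    PinTr C N (fun m : ℕ => ((Fr.B a ((Fr.τ ^ (m + N)) b) : ℝ) : ℂ)) :=
  scr62_tr_mono (by linarith) (Fr.tr a b N)

/-- reflection Cauchy-Schwarz -/
theorem cs (a b : V) : Fr.B a b ^ 2 ≤ Fr.B a a * Fr.B b b := by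
  have h := LinearMap.BilinForm.apply_mul_apply_le_of_forall_zero_le Fr.B Fr.pos0 a b
  rwa [Fr.symm b a, ← sq] at h

theorem abs_le (a b : V) : |Fr.B a b| ≤ Real.sqrt (Fr.B a a) * Real.sqrt (Fr.B b b) := by
  rw [← Real.sqrt_mul (Fr.pos0 a), ← Real.sqrt_sq_eq_abs]
  exact Real.sqrt_le_sqrt (Fr.cs a b)

end Scr62Frame

/-! ## B. convergence along every sequence of indices is uniform -/

theorem scr62_unif {ι : ℕ → Type*} [∀ n, Nonempty (ι n)] {x : ∀ n, ι n → ℂ}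
    (h : ∀ i : ∀ n, ι n, Tendsto (fun n => x n (i n)) atTop (𝓝 0)) {ε : ℝ} (hε : 0 < ε) :
    ∀ᶠ n in atTop, ∀ j : ι n, ‖x n j‖ ≤ ε := by
  classical
  by_contra hc
  rw [not_eventually] at hc
  let i : ∀ n, ι n := fun n => if hn : ∃ j : ι n, ε < ‖x n j‖ then hn.choose else Classical.arbitrary _
  have h1 := (tendsto_zero_iff_norm_tendsto_zero.1 (h i)).eventually (gt_mem_nhds hε)
  obtain ⟨n, hn1, hn2⟩ := (hc.and_eventually h1).exists
  push Not at hn1
  have hi : i n = hn1.choose := dif_pos hn1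
  have := hn1.choose_spec
  rw [← hi] at this
  exact absurd hn2 (not_lt.2 this.le)

/-! ## C. the gapped pattern identity -/

/-- **Lemma 5.5, numbers only**: the moves are removed in the reverse order, uniformly in the patterns and the factors -/
theorem scr62_gap {K : ℕ} {ι : ℕ → Type*} [∀ n, Nonempty (ι n)] {b : ℕ → ℝ} {thr : Fin K → (Fin K → ℝ) → ℝ}
    {M : ∀ n, ι n → (Fin K → ℕ) → ℂ}
    (hthr : ∀ (i : Fin K) (a a' : Fin K → ℝ), (∀ l : Fin K, l < i → a l = a' l) → thr i a = thr i a')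
    (hfin : ∀ i : ∀ n, ι n, PinMv b thr (fun n => M n (i n)) K)
    (hTr : ∀ (i : ∀ n, ι n) (j : Fin K) (a : Fin K → ℝ), (∀ l : Fin K, l < j → thr l a < a l) → (∀ l : Fin K, j ≤ l → a l = 0) →
      ∀ k : ℕ → Fin K → ℕ, (∀ l, Tendsto (fun n => (k n l : ℝ) * b n) atTop (𝓝 (a l))) → (∀ n (l : Fin K), j ≤ l → k n l = 0) →
        ∃ (C η : ℝ) (N : ℕ → ℕ), 0 ≤ C ∧ 0 < η ∧ Tendsto (fun n => (N n : ℝ) * b n) atTop (𝓝 η) ∧
          ∀ᶠ n in atTop, PinTr C (N n) (fun m => M n (i n) (Function.update (k n) j m)))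
    {ε : ℝ} (hε : 0 < ε) : ∀ᶠ n in atTop, ∀ j : ι n, ‖M n j 0‖ ≤ ε :=
  scr62_unif (x := fun n j => M n j 0) (fun i => pin_cont_moves hthr (hfin i) (hTr i)) hε

/-- the same with the hypotheses `eventually in n, FOR ALL i` -/
theorem scr62_gap_all {K : ℕ} {ι : ℕ → Type*} [∀ n, Nonempty (ι n)] {b : ℕ → ℝ} {thr : Fin K → (Fin K → ℝ) → ℝ}
    {M : ∀ n, ι n → (Fin K → ℕ) → ℂ}
    (hthr : ∀ (i : Fin K) (a a' : Fin K → ℝ), (∀ l : Fin K, l < i → a l = a' l) → thr i a = thr i a')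
    (hfin : ∀ a : Fin K → ℝ, (∀ l : Fin K, thr l a < a l) →
      ∀ k : ℕ → Fin K → ℕ, (∀ l, Tendsto (fun n => (k n l : ℝ) * b n) atTop (𝓝 (a l))) →
        ∀ ε : ℝ, 0 < ε → ∀ᶠ n in atTop, ∀ i : ι n, ‖M n i (k n)‖ ≤ ε)
    (hTr : ∀ (j : Fin K) (a : Fin K → ℝ), (∀ l : Fin K, l < j → thr l a < a l) → (∀ l : Fin K, j ≤ l → a l = 0) →
      ∀ k : ℕ → Fin K → ℕ, (∀ l, Tendsto (fun n => (k n l : ℝ) * b n) atTop (𝓝 (a l))) → (∀ n (l : Fin K), j ≤ l → k n l = 0) →
        ∃ (C η : ℝ) (N : ℕ → ℕ), 0 ≤ C ∧ 0 < η ∧ Tendsto (fun n => (N n : ℝ) * b n) atTop (𝓝 η) ∧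
          ∀ᶠ n in atTop, ∀ i : ι n, PinTr C (N n) (fun m => M n i (Function.update (k n) j m)))
    {ε : ℝ} (hε : 0 < ε) : ∀ᶠ n in atTop, ∀ j : ι n, ‖M n j 0‖ ≤ ε := by
  refine scr62_gap (b := b) hthr (fun i a ha1 _ k hk1 _ => ?_) (fun i j a ha1 ha2 k hk1 hk2 => ?_) hε
  · rw [tendsto_zero_iff_norm_tendsto_zero, Metric.tendsto_atTop]
    intro e he
    obtain ⟨n0, hn0⟩ := eventually_atTop.1 (hfin a (fun l => ha1 l l.2) k hk1 (e / 2) (half_pos he))
    refine ⟨n0, fun n hn => ?_⟩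
    rw [Real.dist_eq, sub_zero, abs_of_nonneg (norm_nonneg _)]
    exact (hn0 n hn (i n)).trans_lt (half_lt_self he)
  · obtain ⟨C, η, N, hC, hη, hN, hT⟩ := hTr j a ha1 ha2 k hk1 hk2
    exact ⟨C, η, N, hC, hη, hN, hT.mono fun n hn => hn (i n)⟩

/-- the final arrangements: a bound `C x n`, `x n → 0` (reflection Cauchy-Schwarz + TEX[cor:reflection-null]) -/
theorem scr62_fin_of_bound {K : ℕ} {b : ℕ → ℝ} {thr : Fin K → (Fin K → ℝ) → ℝ} {M : ℕ → (Fin K → ℕ) → ℂ} {x : ℕ → ℝ}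
    (hx : Tendsto x atTop (𝓝 0))
    (h : ∀ a : Fin K → ℝ, (∀ l : Fin K, thr l a < a l) →
      ∀ k : ℕ → Fin K → ℕ, (∀ l, Tendsto (fun n => (k n l : ℝ) * b n) atTop (𝓝 (a l))) →
        ∃ C : ℝ, ∀ᶠ n in atTop, ‖M n (k n)‖ ≤ C * x n) : PinMv b thr M K := by
  intro a ha1 _ k hk1 _
  obtain ⟨C, hC⟩ := h a (fun l => ha1 l l.2) k hk1
  rw [tendsto_zero_iff_norm_tendsto_zero]
  have h0 : Tendsto (fun n => C * x n) atTop (𝓝 0) := by simpa using hx.const_mul C
  exact squeeze_zero' (Eventually.of_forall fun n => norm_nonneg _) hC h0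

/-- **Lemma 5.5 in the shape produced by the model**: for each move a reflection frame in which the normalised expectation is `B u (τ^(m+N) w)` with
`B u u, B w w ≤ C` (Lemma 5.3), `N n` steps of back-off with `N n * b n → η > 0`; at the final arrangements the bound `C x n`. -/
theorem scr62_gap_frame {K : ℕ} {ι : ℕ → Type*} [∀ n, Nonempty (ι n)] {b : ℕ → ℝ} {thr : Fin K → (Fin K → ℝ) → ℝ}
    {M : ∀ n, ι n → (Fin K → ℕ) → ℝ} {x : ℕ → ℝ} (hx : Tendsto x atTop (𝓝 0))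
    (hthr : ∀ (i : Fin K) (a a' : Fin K → ℝ), (∀ l : Fin K, l < i → a l = a' l) → thr i a = thr i a')
    (hfin : ∀ (i : ∀ n, ι n) (a : Fin K → ℝ), (∀ l : Fin K, thr l a < a l) →
      ∀ k : ℕ → Fin K → ℕ, (∀ l, Tendsto (fun n => (k n l : ℝ) * b n) atTop (𝓝 (a l))) →
        ∃ C : ℝ, ∀ᶠ n in atTop, |M n (i n) (k n)| ≤ C * x n)
    (hTr : ∀ (i : ∀ n, ι n) (j : Fin K) (a : Fin K → ℝ), (∀ l : Fin K, l < j → thr l a < a l) → (∀ l : Fin K, j ≤ l → a l = 0) →
      ∀ k : ℕ → Fin K → ℕ, (∀ l, Tendsto (fun n => (k n l : ℝ) * b n) atTop (𝓝 (a l))) → (∀ n (l : Fin K), j ≤ l → k n l = 0) →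
        ∃ (C η : ℝ) (N : ℕ → ℕ), 0 ≤ C ∧ 0 < η ∧ Tendsto (fun n => (N n : ℝ) * b n) atTop (𝓝 η) ∧
          ∀ᶠ n in atTop, ∃ (V : Type) (_ : AddCommGroup V) (_ : Module ℝ V) (Fr : Scr62Frame V) (u w : V),
            Fr.B u u ≤ C ∧ Fr.B w w ≤ C ∧ ∀ m : ℕ, M n (i n) (Function.update (k n) j m) = Fr.B u ((Fr.τ ^ (m + N n)) w))
    {ε : ℝ} (hε : 0 < ε) : ∀ᶠ n in atTop, ∀ j : ι n, |M n j 0| ≤ ε := by
  have h := scr62_gap (M := fun n j k => ((M n j k : ℝ) : ℂ)) hthr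
    (fun i => scr62_fin_of_bound hx fun a ha k hk => by
      obtain ⟨C, hC⟩ := hfin i a ha k hk
      exact ⟨C, hC.mono fun n hn => by rwa [Complex.norm_real, Real.norm_eq_abs]⟩)
    (fun i j a ha1 ha2 k hk1 hk2 => by
      obtain ⟨C, η, N, hC, hη, hN, hT⟩ := hTr i j a ha1 ha2 k hk1 hk2
      refine ⟨C, η, N, hC, hη, hN, hT.mono fun n hn => ?_⟩
      obtain ⟨V, _, _, Fr, u, w, hu, hw, hM⟩ := hn
      have := Fr.tr_le hu hw (N n)
      simpa only [hM] using this) hε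
  exact h.mono fun n hn j => by
    have := hn j
    rwa [Complex.norm_real, Real.norm_eq_abs] at this

/-! ## D. finite weighted spaces and the normalised reflection bound -/

/-- expectation on a finite weighted space (the shape of `scrE`) -/
noncomputable def scr62E {Ω : Type*} (s : Finset Ω) (w : Ω → ℝ) (A : Ω → ℝ) : ℝ :=
  (∑ p ∈ s, w p * A p) / ∑ p ∈ s, w p

section weighted

variable {Ω : Type*} {s : Finset Ω} {w : Ω → ℝ}

theorem scr62_Z_nonneg (hw : ∀ p ∈ s, 0 ≤ w p) : 0 ≤ ∑ p ∈ s, w p := Finset.sum_nonneg hw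

theorem scr62_E_mono (hw : ∀ p ∈ s, 0 ≤ w p) {A A' : Ω → ℝ} (h : ∀ p ∈ s, A p ≤ A' p) : scr62E s w A ≤ scr62E s w A' := by
  unfold scr62E
  refine div_le_div_of_nonneg_right (Finset.sum_le_sum fun p hp => ?_) (scr62_Z_nonneg hw)
  exact mul_le_mul_of_nonneg_left (h p hp) (hw p hp)

theorem scr62_E_nonneg (hw : ∀ p ∈ s, 0 ≤ w p) {A : Ω → ℝ} (h : ∀ p ∈ s, 0 ≤ A p) : 0 ≤ scr62E s w A :=
  div_nonneg (Finset.sum_nonneg fun p hp => mul_nonneg (hw p hp) (h p hp)) (scr62_Z_nonneg hw)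

theorem scr62_E_smul (c : ℝ) (A : Ω → ℝ) : scr62E s w (fun p => c * A p) = c * scr62E s w A := by
  unfold scr62E
  rw [← mul_div_assoc, Finset.mul_sum]
  congr 1
  exact Finset.sum_congr rfl fun p _ => by ring

theorem scr62_E_add (A A' : Ω → ℝ) : scr62E s w (fun p => A p + A' p) = scr62E s w A + scr62E s w A' := by
  unfold scr62E
  rw [← add_div, ← Finset.sum_add_distrib]
  congr 1
  exact Finset.sum_congr rfl fun p _ => by ring

/-- Cauchy-Schwarz -/
theorem scr62_E_cs (hw : ∀ p ∈ s, 0 ≤ w p) (A A' : Ω → ℝ) :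
    scr62E s w (fun p => A p * A' p) ^ 2 ≤ scr62E s w (fun p => A p ^ 2) * scr62E s w (fun p => A' p ^ 2) := by
  unfold scr62E
  rw [div_pow, div_mul_div_comm, ← sq]
  refine div_le_div_of_nonneg_right ?_ (sq_nonneg _)
  have h := Finset.sum_mul_sq_le_sq_mul_sq s (fun p => Real.sqrt (w p) * A p) (fun p => Real.sqrt (w p) * A' p)
  have e1 : ∑ p ∈ s, Real.sqrt (w p) * A p * (Real.sqrt (w p) * A' p) = ∑ p ∈ s, w p * (A p * A' p) :=
    Finset.sum_congr rfl fun p hp => by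
      have := Real.mul_self_sqrt (hw p hp)
      calc _ = Real.sqrt (w p) * Real.sqrt (w p) * (A p * A' p) := by ring
        _ = _ := by rw [this]
  have e2 : ∀ D : Ω → ℝ, ∑ p ∈ s, (Real.sqrt (w p) * D p) ^ 2 = ∑ p ∈ s, w p * D p ^ 2 := fun D =>
    Finset.sum_congr rfl fun p hp => by rw [mul_pow, Real.sq_sqrt (hw p hp)]
  rwa [e1, e2, e2] at h

theorem scr62_E_abs_le (hw : ∀ p ∈ s, 0 ≤ w p) (A A' : Ω → ℝ) :
    |scr62E s w (fun p => A p * A' p)| ≤ Real.sqrt (scr62E s w (fun p => A p ^ 2)) * Real.sqrt (scr62E s w (fun p => A' p ^ 2)) := by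
  rw [← Real.sqrt_mul (scr62_E_nonneg hw fun p _ => sq_nonneg _), ← Real.sqrt_sq_eq_abs]
  exact Real.sqrt_le_sqrt (scr62_E_cs hw A A')

open Classical in
/-- **Lemma 5.3 (normalised reflection bound)**: `Y = F X 1_P / J`, `|F| ≤ 1`.  The squared denominator is cancelled by `P(P ∩ ΘP) ≤ C J²`; no lower bound on `J`. -/
theorem scr62_refl_bound (hw : ∀ p ∈ s, 0 ≤ w p) (Θ : Ω → Ω) (P : Ω → Prop) (F X : Ω → ℝ) {J C C₂ : ℝ} (hJ : 0 < J) (hC₂ : 0 ≤ C₂)
    (hF : ∀ p, |F p| ≤ 1)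
    (hPP : scr62E s w (fun p => if P p ∧ P (Θ p) then 1 else 0) ≤ C * J ^ 2)
    (hX : scr62E s w (fun p => if P p ∧ P (Θ p) then X p ^ 2 else 0) ≤ C₂ * scr62E s w (fun p => if P p ∧ P (Θ p) then 1 else 0))
    (hX' : scr62E s w (fun p => if P p ∧ P (Θ p) then X (Θ p) ^ 2 else 0) ≤ C₂ * scr62E s w (fun p => if P p ∧ P (Θ p) then 1 else 0)) :
    scr62E s w (fun p => (F (Θ p) * X (Θ p) * (if P (Θ p) then 1 else 0) / J) * (F p * X p * (if P p then 1 else 0) / J)) ≤ C₂ * C := by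
  set q : ℝ := scr62E s w (fun p => if P p ∧ P (Θ p) then 1 else 0) with hq
  set I : Ω → ℝ := fun p => if P p ∧ P (Θ p) then 1 else 0 with hI
  have hI2 : ∀ p, I p * I p = I p := fun p => by
    simp only [hI]; split_ifs <;> simp
  have hI0 : ∀ p, 0 ≤ I p := fun p => by
    simp only [hI]; split_ifs <;> simp
  have hprod : ∀ p, (if P (Θ p) then (1 : ℝ) else 0) * (if P p then 1 else 0) = I p := fun p => by
    simp only [hI]
    by_cases h1 : P p <;> by_cases h2 : P (Θ p) <;> simp [h1, h2]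
  -- pointwise bound by `|X ∘ Θ| |X| 1 / J²`
  have step1 : scr62E s w (fun p => (F (Θ p) * X (Θ p) * (if P (Θ p) then 1 else 0) / J) * (F p * X p * (if P p then 1 else 0) / J))
      ≤ (J ^ 2)⁻¹ * scr62E s w (fun p => (I p * |X (Θ p)|) * (I p * |X p|)) := by
    rw [← scr62_E_smul]
    refine scr62_E_mono hw fun p _ => ?_
    have e : (F (Θ p) * X (Θ p) * (if P (Θ p) then 1 else 0) / J) * (F p * X p * (if P p then 1 else 0) / J)
        = (J ^ 2)⁻¹ * (((if P (Θ p) then (1 : ℝ) else 0) * (if P p then 1 else 0)) * ((F (Θ p) * F p) * (X (Θ p) * X p))) := by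
      field_simp
    rw [e, hprod]
    have e' : I p * |X (Θ p)| * (I p * |X p|) = I p * (|X (Θ p)| * |X p|) := by
      calc _ = (I p * I p) * (|X (Θ p)| * |X p|) := by ring
        _ = _ := by rw [hI2]
    rw [e']
    refine mul_le_mul_of_nonneg_left (mul_le_mul_of_nonneg_left ?_ (hI0 p)) (by positivity)
    refine (le_abs_self _).trans ?_
    rw [abs_mul, abs_mul, abs_mul]
    have h1 : |F (Θ p)| * |F p| ≤ 1 := by
      have := mul_le_mul (hF (Θ p)) (hF p) (abs_nonneg _) zero_le_one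
      simpa using this
    calc |F (Θ p)| * |F p| * (|X (Θ p)| * |X p|) ≤ 1 * (|X (Θ p)| * |X p|) := by gcongr
      _ = _ := one_mul _
  have sqI : ∀ D : Ω → ℝ, (fun p => (I p * |D p|) ^ 2) = fun p => if P p ∧ P (Θ p) then D p ^ 2 else 0 := fun D => by
    funext p
    simp only [hI]
    split_ifs <;> simp
  have step2 : scr62E s w (fun p => (I p * |X (Θ p)|) * (I p * |X p|)) ≤ C₂ * q := by
    have h := scr62_E_abs_le hw (fun p => I p * |X (Θ p)|) (fun p => I p * |X p|)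
    rw [sqI (fun p => X (Θ p)), sqI X] at h
    refine (le_abs_self _).trans (h.trans ?_)
    have hq0 : 0 ≤ C₂ * q := mul_nonneg hC₂ (scr62_E_nonneg hw fun p _ => hI0 p)
    calc _ ≤ Real.sqrt (C₂ * q) * Real.sqrt (C₂ * q) :=
          mul_le_mul (Real.sqrt_le_sqrt hX') (Real.sqrt_le_sqrt hX) (Real.sqrt_nonneg _) (Real.sqrt_nonneg _)
      _ = C₂ * q := Real.mul_self_sqrt hq0
  have hJ2 : 0 < J ^ 2 := by positivity
  calc _ ≤ (J ^ 2)⁻¹ * (C₂ * q) := step1.trans (mul_le_mul_of_nonneg_left step2 (by positivity))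
    _ ≤ (J ^ 2)⁻¹ * (C₂ * (C * J ^ 2)) := by gcongr
    _ = C₂ * C := by field_simp

open Classical in
/-- Lemma 5.3 for a bounded factor -/
theorem scr62_refl_bound_one (hw : ∀ p ∈ s, 0 ≤ w p) (Θ : Ω → Ω) (P : Ω → Prop) (F : Ω → ℝ) {J C : ℝ} (hJ : 0 < J)
    (hF : ∀ p, |F p| ≤ 1)
    (hPP : scr62E s w (fun p => if P p ∧ P (Θ p) then 1 else 0) ≤ C * J ^ 2) :
    scr62E s w (fun p => (F (Θ p) * (if P (Θ p) then 1 else 0) / J) * (F p * (if P p then 1 else 0) / J)) ≤ C := by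
  have h := scr62_refl_bound hw Θ P F (fun _ => 1) hJ zero_le_one hF hPP (by simp) (by simp)
  simpa using h

end weighted

/-- the equation lemmas of the definitions of this file are generated HERE -/
theorem scr62_defs_eqns_cite : True := by
  have := @scr62E.eq_1.{0}
  trivial

end Claimed.Agent.R292
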