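import Claimed.Agent.R292.Screen.Shield99

/-!
# Row 292 (S0540), unit SCREEN, Screen/Geo199 : (GEO) = the real geometry of the two tubes of (a) `ScrShArm`      (pen helper252 for chief helper99; prefix `scr199`)

* `scr199_hull` (H0): every `q` with `|q.1 - c.1| ≤ wh/2 + Rt/5` and `g ≤ σ (q.2 - c.2) ≤ 7 Rt/10` is in `hull (adj k b)`   (`c = cen k j`, `σ` = direction of the block seen from the hole)
* `scr199_cen_far`: two different centres are at sup-distance `≥ 2 Rt`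
* **`scr199_blk`**, **`scr199_core`**: VERBATIM the types of 99 (msg 122630).
-/

set_option autoImplicit false

namespace Claimed.Agent.R292

open Claims Claims.C0468 Filter Topology

/-- the numbers of a layout. -/
theorem scr199_num {Λ : ScrLay} (hΛ : Λ.Ok) {j : ℕ} (hj : j < Λ.M) :
    0 < Λ.Rt ∧ 0 < Λ.wh ∧ Λ.wh ≤ Λ.Rt / 40 ∧ Λ.Rt ≤ (2 * (j : ℝ) + 1) * Λ.Rt ∧
      (2 * (j : ℝ) + 1) * Λ.Rt ≤ Λ.s - Λ.w - Λ.Rt := by
  have hR := hΛ.Rt_pos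
  have hM : (0 : ℝ) < Λ.M := by exact_mod_cast hΛ.hM
  have hMR : 2 * (Λ.M : ℝ) * Λ.Rt = Λ.s - Λ.w := by
    unfold ScrLay.Rt; field_simp
  have hj' : (j : ℝ) + 1 ≤ Λ.M := by exact_mod_cast hj
  have hj0 : (0 : ℝ) ≤ j := Nat.cast_nonneg j
  refine ⟨hR, ?_, ?_, ?_, ?_⟩
  · unfold ScrLay.wh; exact mul_pos hΛ.hq hR
  · have := hΛ.hq'; unfold ScrLay.wh; nlinarith
  · nlinarith
  · nlinarith

/-- (H0) the tube and its `Rt/5` neighbourhood are in the hull of the block. -/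
theorem scr199_hull {Λ : ScrLay} (hΛ : Λ.Ok) (k : Fin 4) {j : ℕ} (hj : j < Λ.M) (b : Bool) {σ : ℝ}
    (hσ : σ = (if b then -1 else 1) * (![1, 1, -1, -1] k : ℝ)) {q : ℝ × ℝ}
    (h1 : |q.1 - (Λ.cen k j).1| ≤ Λ.wh / 2 + Λ.Rt / 5) (h2 : Λ.g ≤ σ * (q.2 - (Λ.cen k j).2))
    (h3 : σ * (q.2 - (Λ.cen k j).2) ≤ 7 * Λ.Rt / 10) : q ∈ Λ.hull (ScrLay.adj k b) := by
  obtain ⟨hR, hw0, hw, hj1, hj2⟩ := scr199_num hΛ hj
  have hsc := hΛ.sc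
  have hg := hsc.hg
  have hr0 := hsc.hr0
  have hhw := hsc.hw
  have hws := hsc.hws
  have hK := hΛ.hK
  have hT := hΛ.hT
  rw [abs_le] at h1
  obtain ⟨h1a, h1b⟩ := h1
  subst hσ
  have e1 : (Λ.cen k j).1 = Λ.x0 + (![-1, 1, -1, 1] k : ℝ) * (Λ.w + (2 * j + 1) * Λ.Rt) := rfl
  have e2 : (Λ.cen k j).2 = Λ.y0 + (![1, 1, -1, -1] k : ℝ) * Λ.h := rfl
  rw [e1] at h1a h1b
  rw [e2] at h2 h3
  generalize (2 * (j : ℝ) + 1) * Λ.Rt = X at *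
  clear e1 e2
  fin_cases k <;> cases b
  · norm_num at h1a h1b h2 h3
    show |q.1 - Λ.x0| ≤ Λ.s ∧ Λ.h + Λ.g ≤ q.2 - Λ.y0 ∧ q.2 - Λ.y0 ≤ Λ.s
    rw [abs_le]
    refine ⟨⟨?_, ?_⟩, ?_, ?_⟩ <;> linarith
  · norm_num at h1a h1b h2 h3
    show -Λ.s ≤ q.1 - Λ.x0 ∧ q.1 - Λ.x0 ≤ -Λ.w ∧ |q.2 - Λ.y0| ≤ Λ.h - Λ.g
    rw [abs_le]
    refine ⟨?_, ?_, ?_, ?_⟩ <;> linarith
  · norm_num at h1a h1b h2 h3
    show |q.1 - Λ.x0| ≤ Λ.s ∧ Λ.h + Λ.g ≤ q.2 - Λ.y0 ∧ q.2 - Λ.y0 ≤ Λ.s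
    rw [abs_le]
    refine ⟨⟨?_, ?_⟩, ?_, ?_⟩ <;> linarith
  · norm_num at h1a h1b h2 h3
    show Λ.w ≤ q.1 - Λ.x0 ∧ q.1 - Λ.x0 ≤ Λ.s ∧ |q.2 - Λ.y0| ≤ Λ.h - Λ.g
    rw [abs_le]
    refine ⟨?_, ?_, ?_, ?_⟩ <;> linarith
  · norm_num at h1a h1b h2 h3
    show |q.1 - Λ.x0| ≤ Λ.s ∧ -Λ.s ≤ q.2 - Λ.y0 ∧ q.2 - Λ.y0 ≤ -(Λ.h + Λ.g)
    rw [abs_le]
    refine ⟨⟨?_, ?_⟩, ?_, ?_⟩ <;> linarith
  · norm_num at h1a h1b h2 h3
    show -Λ.s ≤ q.1 - Λ.x0 ∧ q.1 - Λ.x0 ≤ -Λ.w ∧ |q.2 - Λ.y0| ≤ Λ.h - Λ.g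
    rw [abs_le]
    refine ⟨?_, ?_, ?_, ?_⟩ <;> linarith
  · norm_num at h1a h1b h2 h3
    show |q.1 - Λ.x0| ≤ Λ.s ∧ -Λ.s ≤ q.2 - Λ.y0 ∧ q.2 - Λ.y0 ≤ -(Λ.h + Λ.g)
    rw [abs_le]
    refine ⟨⟨?_, ?_⟩, ?_, ?_⟩ <;> linarith
  · norm_num at h1a h1b h2 h3
    show Λ.w ≤ q.1 - Λ.x0 ∧ q.1 - Λ.x0 ≤ Λ.s ∧ |q.2 - Λ.y0| ≤ Λ.h - Λ.g
    rw [abs_le]
    refine ⟨?_, ?_, ?_, ?_⟩ <;> linarith

/-- two different centres are at distance `≥ 2 Rt`. -/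
theorem scr199_cen_far {Λ : ScrLay} (hΛ : Λ.Ok) {k k' : Fin 4} {j j' : ℕ} (hne : ¬ (k = k' ∧ j = j')) :
    2 * Λ.Rt ≤ dist (Λ.cen k j) (Λ.cen k' j') := by
  by_cases hk : k = k'
  · subst hk
    have hjj : j ≠ j' := fun h => hne ⟨rfl, h⟩
    rcases lt_or_gt_of_ne hjj with h | h
    · exact scr99s_cen_dist hΛ k h
    · rw [dist_comm]; exact scr99s_cen_dist hΛ k h
  · have hR := hΛ.Rt_pos
    have hsc := hΛ.sc
    have hg := hsc.hg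
    have hr0 := hsc.hr0
    have hw := hsc.hw
    have hK := hΛ.hK
    have hj0 : (0 : ℝ) ≤ j := Nat.cast_nonneg j
    have hj0' : (0 : ℝ) ≤ j' := Nat.cast_nonneg j'
    have X : 0 ≤ (2 * (j : ℝ) + 1) * Λ.Rt := by positivity
    have X' : 0 ≤ (2 * (j' : ℝ) + 1) * Λ.Rt := by positivity
    rw [Prod.dist_eq, Real.dist_eq, Real.dist_eq, le_max_iff, le_abs, le_abs]
    fin_cases k <;> fin_cases k' <;> first
      | exact absurd rfl hk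
      | (simp only [ScrLay.cen]; norm_num
         first
          | (left; left; linarith)
          | (left; right; linarith)
          | (right; left; linarith)
          | (right; right; linarith))

private theorem scr199_sig {k : Fin 4} {b : Bool} {σ : ℝ}
    (hσ : σ = (if b then -1 else 1) * (![1, 1, -1, -1] k : ℝ)) : σ = 1 ∨ σ = -1 := by
  subst hσ
  fin_cases k <;> cases b <;> simp

/-- **(GEO 1)** the tube is in the block and in the trial square. -/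
theorem scr199_blk {Λ : ScrLay} (hΛ : Λ.Ok) (k : Fin 4) {j : ℕ} (hj : j < Λ.M) (b : Bool) {σ : ℝ}
    (hσ : σ = (if b then -1 else 1) * (![1, 1, -1, -1] k : ℝ)) {p : ℝ × ℝ}
    (h1 : |p.1 - (Λ.cen k j).1| ≤ Λ.wh / 2) (h2 : Λ.wh ≤ σ * (p.2 - (Λ.cen k j).2)) (h3 : σ * (p.2 - (Λ.cen k j).2) ≤ Λ.Rt / 2) :
    p ∈ Λ.blk (ScrLay.adj k b) ∩ Metric.closedBall (Λ.cen k j) (Λ.Rt / 2) := by
  obtain ⟨hR, hw0, hw, hj1, hj2⟩ := scr199_num hΛ hj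
  have hg := hΛ.hg
  have habs : |p.2 - (Λ.cen k j).2| = σ * (p.2 - (Λ.cen k j).2) := by
    rcases scr199_sig hσ with e | e
    · rw [e, one_mul] at h2 ⊢
      exact abs_of_nonneg (by linarith)
    · rw [e] at h2 ⊢
      rw [abs_of_nonpos (by linarith)]; ring
  have hball : dist p (Λ.cen k j) ≤ Λ.Rt / 2 := by
    rw [Prod.dist_eq, Real.dist_eq, Real.dist_eq, habs]
    exact max_le (by linarith) h3
  refine ⟨⟨scr199_hull hΛ k hj b hσ (by linarith) (by linarith) (by linarith), ?_⟩, hball⟩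
  intro hmem
  simp only [Set.mem_iUnion] at hmem
  obtain ⟨k', j', hj', hmem⟩ := hmem
  have hlt : dist p (Λ.cen k' j') < Λ.wh := hmem
  by_cases hkj : k = k' ∧ j = j'
  · obtain ⟨rfl, rfl⟩ := hkj
    have : |p.2 - (Λ.cen k j).2| ≤ dist p (Λ.cen k j) := by
      rw [Prod.dist_eq, Real.dist_eq, Real.dist_eq]; exact le_max_right _ _
    linarith
  · have hfar := scr199_cen_far hΛ hkj
    have htri := dist_triangle_left (Λ.cen k j) (Λ.cen k' j') p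
    linarith

/-- **(GEO 2)** the far end of the tube is in the core of the block. -/
theorem scr199_core {Λ : ScrLay} (hΛ : Λ.Ok) (k : Fin 4) {j : ℕ} (hj : j < Λ.M) (b : Bool) {σ : ℝ}
    (hσ : σ = (if b then -1 else 1) * (![1, 1, -1, -1] k : ℝ)) {p : ℝ × ℝ}
    (h1 : |p.1 - (Λ.cen k j).1| ≤ Λ.wh / 2) (h2 : Λ.g + Λ.Rt / 5 ≤ σ * (p.2 - (Λ.cen k j).2)) (h3 : σ * (p.2 - (Λ.cen k j).2) ≤ Λ.Rt / 2) :
    p ∈ Λ.core (ScrLay.adj k b) := by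
  intro q hq
  have hq' : dist q p ≤ Λ.Rt / 5 := hq
  rw [Prod.dist_eq, Real.dist_eq, Real.dist_eq, max_le_iff] at hq'
  obtain ⟨hq1, hq2⟩ := hq'
  have hs : |σ * (q.2 - p.2)| ≤ Λ.Rt / 5 := by
    rcases scr199_sig hσ with e | e
    · rw [e, one_mul]; exact hq2
    · rw [e, neg_one_mul, abs_neg]; exact hq2
  rw [abs_le] at hs
  have e : σ * (q.2 - (Λ.cen k j).2) = σ * (p.2 - (Λ.cen k j).2) + σ * (q.2 - p.2) := by ring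
  refine scr199_hull hΛ k hj b hσ ?_ ?_ ?_
  · have : q.1 - (Λ.cen k j).1 = (q.1 - p.1) + (p.1 - (Λ.cen k j).1) := by ring
    rw [this]
    exact (abs_add_le _ _).trans (by linarith)
  · rw [e]; linarith [hs.1]
  · rw [e]; linarith [hs.2]

end Claimed.Agent.R292
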