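import Claimed.Agent.R292.Defs.GAUSS
import Claimed.Agent.R292.Defs.Screen
import Claimed.Agent.R292.Height

/-!
# Row 292 (S0540), Screen/Harm252 : THE ADAPTER  SCREEN ⟶ GAUSS      (helper252, unit SCREEN; prefix `scr252_`, defs `scr252*`, `Scr252*`)      0 sorry

The contract `gauss_harm` (A2loc, `GaussHarm t D δ F`, Exit/GAUSS) FROM the literal statement of the contract `at_screen` (Exit/Screen; here the
hypothesis `Scr252Orth t`) and the moment contract `GaussSM t D δ F`.        AT paper, end of Sec 5 + 06-gaussian.tex l.426-470.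

* sec.1  `scr252_ray`, `scr252_height_ext` : two admissible pairs which agree outside the square `Q` have the same height at every corner outside `Q`
         (straight ray from the corner away from `Q` to the wall: no topology)
* sec.2  `scr252Ext` : an observable which is exterior ON THE ADMISSIBLE PAIRS has an extension to all pairs which is `ScrExt`
* sec.3  truncation: `|E XY| ≤ T |E X G_T| + (E X² + E Y⁴) / (2T)`
* sec.4  geometry: the region of an admissible approximation lies in a fixed square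
* sec.5  **`scr252_harm`**;  the contract is closed by the term (checked)
         `gauss_harm t ht1 ht2 D hD δ F hF := scr252_harm (by linarith) (at_screen t ht1 ht2) hD hF (gauss_sm t ht1 ht2 D hD δ F hF)`
-/

set_option autoImplicit false

namespace Claimed.Agent.R292

open MeasureTheory Filter Topology Set
open scoped ContDiff
open Claims Claims.C0468 Claimed.Agent.R291

/-- the literal statement of the contract `at_screen` (Exit/Screen) at the parameter `t` -/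
def Scr252Orth (t : ℝ) : Prop :=
  ∀ (z : ℝ × ℝ) (r r' R : ℝ), 0 < r → r < r' →
    ∀ φ : ℝ × ℝ → ℝ, ContDiff ℝ ((⊤ : ℕ∞) : WithTop ℕ∞) φ → tsupport φ ⊆ Metric.ball z (r / 1000) →
    ∀ ε : ℝ, 0 < ε →
    ∃ δ₀ : ℝ, 0 < δ₀ ∧ ∀ δ : ℝ, 0 < δ → δ < δ₀ → ∀ F : Finset (ℤ × ℤ), ScrFlat δ F →
      scrSq z r' ⊆ faceRegionSq δ F → faceRegionSq δ F ⊆ scrSq z R →
      ∀ G : at92Cfg F → ℝ, (∀ p, |G p| ≤ 1) → ScrExt δ F (scrSq z r) G →
        |scrE t F (fun p => at92X δ (C0468.lap2 φ) p * G p)| ≤ ε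

/-! ## 1. Exterior heights -/

/-- the ray lemma: `st` one step of the ray, `fc v` a face which has both `v` and `st v` as corners, `ℓ` increases along the ray, `P` = the safe corners -/
theorem scr252_ray {F : Finset (ℤ × ℤ)} {τ τ' : cornersOf F → Bool} {τd τd' : F → Bool} {Hv Hf Hv' Hf' : ℤ × ℤ → ℝ}
    (h : IsATHeight τ τd Hv Hf) (h' : IsATHeight τ' τd' Hv' Hf')
    (P : ℤ × ℤ → Prop) (st fc : ℤ × ℤ → ℤ × ℤ) (ℓ : ℤ × ℤ → ℤ)
    (hfc : ∀ v, ¬ OnPolygon F v → fc v ∈ F) (hc1 : ∀ v, at92hCor (fc v) v) (hc2 : ∀ v, at92hCor (fc v) (st v))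
    (hP : ∀ v, P v → P (st v)) (hs : ∀ v, P v → atSpin τ v = atSpin τ' v)
    (hd : ∀ v, P v → atDual τd (fc v) = atDual τd' (fc v)) (hℓ : ∀ v, ℓ v < ℓ (st v)) :
    ∀ v ∈ cornersOf F, P v → Hv v = Hv' v := by
  classical
  rw [at92h_isHeight_iff] at h h'
  have key : ∀ n : ℕ, ∀ v ∈ cornersOf F, ((cornersOf F).filter fun w => ℓ v < ℓ w).card ≤ n → P v → Hv v = Hv' v := by
    intro n
    induction n with
    | zero =>
      intro v hv hn hPv
      by_cases hpol : OnPolygon F v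
      · rw [h.1 v hv hpol, h'.1 v hv hpol]
      · exfalso
        have hst : st v ∈ cornersOf F := at92h_mem_corners.2 ⟨fc v, hfc v hpol, hc2 v⟩
        have : st v ∈ (cornersOf F).filter fun w => ℓ v < ℓ w := Finset.mem_filter.2 ⟨hst, hℓ v⟩
        have h0 := Finset.card_pos.2 ⟨_, this⟩
        omega
    | succ n ih =>
      intro v hv hn hPv
      by_cases hpol : OnPolygon F v
      · rw [h.1 v hv hpol, h'.1 v hv hpol]
      · have hf := hfc v hpol
        have hst : st v ∈ cornersOf F := at92h_mem_corners.2 ⟨fc v, hf, hc2 v⟩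
        have hlt : ((cornersOf F).filter fun w => ℓ (st v) < ℓ w).card < ((cornersOf F).filter fun w => ℓ v < ℓ w).card := by
          refine Finset.card_lt_card ?_
          rw [Finset.ssubset_iff_of_subset]
          · exact ⟨st v, Finset.mem_filter.2 ⟨hst, hℓ v⟩, fun hh => lt_irrefl _ (Finset.mem_filter.1 hh).2⟩
          · intro w hw
            rw [Finset.mem_filter] at hw ⊢
            exact ⟨hw.1, (hℓ v).trans hw.2⟩
        have e0 := ih (st v) hst (by omega) (hP v hPv)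
        have a1 := h.2 _ hf v (hc1 v)
        have a2 := h.2 _ hf (st v) (hc2 v)
        have b1 := h'.2 _ hf v (hc1 v)
        have b2 := h'.2 _ hf (st v) (hc2 v)
        rw [hs v hPv, hd v hPv] at a1
        rw [hs _ (hP v hPv), hd v hPv] at a2
        linarith
  exact fun v hv hPv => key _ v hv le_rfl hPv

/-- two pairs agree outside `Q` -/
def Scr252Agree (δ : ℝ) (F : Finset (ℤ × ℤ)) (Q : Set (ℝ × ℝ)) (p p' : at92Cfg F) : Prop :=
  (∀ v : cornersOf F, ((δ * (v.1.1 : ℝ), δ * (v.1.2 : ℝ)) : ℝ × ℝ) ∉ Q → p.1 v = p'.1 v) ∧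
  (∀ f : F, ((δ * ((f.1.1 : ℝ) + 1 / 2), δ * ((f.1.2 : ℝ) + 1 / 2)) : ℝ × ℝ) ∉ Q → p.2 f = p'.2 f)

theorem scr252_agree_refl (δ : ℝ) (F : Finset (ℤ × ℤ)) (Q : Set (ℝ × ℝ)) (p : at92Cfg F) : Scr252Agree δ F Q p p :=
  ⟨fun _ _ => rfl, fun _ _ => rfl⟩

theorem Scr252Agree.symm {δ : ℝ} {F : Finset (ℤ × ℤ)} {Q : Set (ℝ × ℝ)} {p p' : at92Cfg F} (h : Scr252Agree δ F Q p p') :
    Scr252Agree δ F Q p' p :=
  ⟨fun v hv => (h.1 v hv).symm, fun f hf => (h.2 f hf).symm⟩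

theorem Scr252Agree.trans {δ : ℝ} {F : Finset (ℤ × ℤ)} {Q : Set (ℝ × ℝ)} {p p' p'' : at92Cfg F} (h : Scr252Agree δ F Q p p')
    (h' : Scr252Agree δ F Q p' p'') : Scr252Agree δ F Q p p'' :=
  ⟨fun v hv => (h.1 v hv).trans (h'.1 v hv), fun f hf => (h.2 f hf).trans (h'.2 f hf)⟩

theorem scr252_ext_iff {δ : ℝ} {F : Finset (ℤ × ℤ)} {Q : Set (ℝ × ℝ)} {A : at92Cfg F → ℝ} :
    ScrExt δ F Q A ↔ ∀ p p', Scr252Agree δ F Q p p' → A p = A p' :=
  ⟨fun h p p' hp => h p p' hp.1 hp.2, fun h p p' h1 h2 => h p p' ⟨h1, h2⟩⟩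

theorem Scr252Agree.spin {δ : ℝ} {F : Finset (ℤ × ℤ)} {Q : Set (ℝ × ℝ)} {p p' : at92Cfg F} (h : Scr252Agree δ F Q p p')
    {v : ℤ × ℤ} (hv : ((δ * (v.1 : ℝ), δ * (v.2 : ℝ)) : ℝ × ℝ) ∉ Q) : atSpin p.1 v = atSpin p'.1 v := by
  unfold atSpin
  by_cases hc : v ∈ cornersOf F
  · rw [dif_pos hc, dif_pos hc, h.1 ⟨v, hc⟩ hv]
  · rw [dif_neg hc, dif_neg hc]

theorem Scr252Agree.dual {δ : ℝ} {F : Finset (ℤ × ℤ)} {Q : Set (ℝ × ℝ)} {p p' : at92Cfg F} (h : Scr252Agree δ F Q p p')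
    {f : ℤ × ℤ} (hf : ((δ * ((f.1 : ℝ) + 1 / 2), δ * ((f.2 : ℝ) + 1 / 2)) : ℝ × ℝ) ∉ Q) : atDual p.2 f = atDual p'.2 f := by
  unfold atDual
  by_cases hc : f ∈ F
  · rw [dif_pos hc, dif_pos hc, h.2 ⟨f, hc⟩ hf]
  · rw [dif_neg hc, dif_neg hc]

theorem scr252_not_mem_sq {z x : ℝ × ℝ} {r : ℝ} :
    x ∉ scrSq z r ↔ (z.1 + r < x.1 ∨ x.1 < z.1 - r ∨ z.2 + r < x.2 ∨ x.2 < z.2 - r) := by
  unfold scrSq
  rw [Set.mem_prod, Set.mem_Icc, Set.mem_Icc]
  constructor
  · intro h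
    by_contra hc
    push Not at hc
    exact h ⟨⟨hc.2.1, hc.1⟩, hc.2.2.2, hc.2.2.1⟩
  · rintro (h | h | h | h) ⟨⟨h1, h2⟩, h3, h4⟩ <;> linarith

theorem scr252_faces_of_not_polygon {F : Finset (ℤ × ℤ)} {v : ℤ × ℤ} (h : ¬ OnPolygon F v) :
    v ∈ F ∧ (v.1 - 1, v.2) ∈ F ∧ (v.1, v.2 - 1) ∈ F ∧ (v.1 - 1, v.2 - 1) ∈ F := by
  unfold OnPolygon at h
  exact not_not.1 h

/-- **exterior heights**: the height at a corner outside the square `Q` only reads the spins outside `Q` -/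
theorem scr252_height_ext {δ : ℝ} (hδ : 0 < δ) {F : Finset (ℤ × ℤ)} {z : ℝ × ℝ} {r : ℝ} {p p' : at92Cfg F}
    {Hv Hf Hv' Hf' : ℤ × ℤ → ℝ} (h : IsATHeight p.1 p.2 Hv Hf) (h' : IsATHeight p'.1 p'.2 Hv' Hf')
    (ha : Scr252Agree δ F (scrSq z r) p p') {v : ℤ × ℤ} (hv : v ∈ cornersOf F)
    (hout : ((δ * (v.1 : ℝ), δ * (v.2 : ℝ)) : ℝ × ℝ) ∉ scrSq z r) : Hv v = Hv' v := by
  rcases scr252_not_mem_sq.1 hout with hc | hc | hc | hc
  · refine scr252_ray h h' (fun w => z.1 + r < δ * (w.1 : ℝ)) (fun w => (w.1 + 1, w.2)) (fun w => w) (fun w => w.1)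
      (fun w hw => (scr252_faces_of_not_polygon hw).1) (fun w => by simp [at92hCor]) (fun w => by simp [at92hCor])
      (fun w hw => ?_) (fun w hw => ha.spin (scr252_not_mem_sq.2 (Or.inl hw)))
      (fun w hw => ha.dual (scr252_not_mem_sq.2 (Or.inl ?_))) (fun w => by simp) v hv hc
    · push_cast; nlinarith
    · simp only at hw ⊢; nlinarith
  · refine scr252_ray h h' (fun w => δ * (w.1 : ℝ) < z.1 - r) (fun w => (w.1 - 1, w.2)) (fun w => (w.1 - 1, w.2)) (fun w => -w.1)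
      (fun w hw => (scr252_faces_of_not_polygon hw).2.1) (fun w => by simp [at92hCor]) (fun w => by simp [at92hCor])
      (fun w hw => ?_) (fun w hw => ha.spin (scr252_not_mem_sq.2 (Or.inr (Or.inl hw))))
      (fun w hw => ha.dual (scr252_not_mem_sq.2 (Or.inr (Or.inl ?_)))) (fun w => by simp) v hv hc
    · push_cast; nlinarith
    · simp only at hw ⊢; push_cast; nlinarith
  · refine scr252_ray h h' (fun w => z.2 + r < δ * (w.2 : ℝ)) (fun w => (w.1, w.2 + 1)) (fun w => w) (fun w => w.2)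
      (fun w hw => (scr252_faces_of_not_polygon hw).1) (fun w => by simp [at92hCor]) (fun w => by simp [at92hCor])
      (fun w hw => ?_) (fun w hw => ha.spin (scr252_not_mem_sq.2 (Or.inr (Or.inr (Or.inl hw)))))
      (fun w hw => ha.dual (scr252_not_mem_sq.2 (Or.inr (Or.inr (Or.inl ?_))))) (fun w => by simp) v hv hc
    · push_cast; nlinarith
    · simp only at hw ⊢; nlinarith
  · refine scr252_ray h h' (fun w => δ * (w.2 : ℝ) < z.2 - r) (fun w => (w.1, w.2 - 1)) (fun w => (w.1, w.2 - 1)) (fun w => -w.2)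
      (fun w hw => (scr252_faces_of_not_polygon hw).2.2.1) (fun w => by simp [at92hCor]) (fun w => by simp [at92hCor])
      (fun w hw => ?_) (fun w hw => ha.spin (scr252_not_mem_sq.2 (Or.inr (Or.inr (Or.inr hw)))))
      (fun w hw => ha.dual (scr252_not_mem_sq.2 (Or.inr (Or.inr (Or.inr ?_))))) (fun w => by simp) v hv hc
    · push_cast; nlinarith
    · simp only at hw ⊢; push_cast; nlinarith

/-! ## 2. Extension of an observable from the admissible pairs to all pairs -/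

open Classical in
/-- the extension: read `Y` at any admissible pair which agrees with `p` outside `Q` -/
noncomputable def scr252Ext (δ : ℝ) (F : Finset (ℤ × ℤ)) (Q : Set (ℝ × ℝ)) (Y : at92Cfg F → ℝ) (p : at92Cfg F) : ℝ :=
  if h : ∃ p' ∈ at92Adm F, Scr252Agree δ F Q p p' then Y (Classical.choose h) else 0

theorem scr252_ext_eq {δ : ℝ} {F : Finset (ℤ × ℤ)} {Q : Set (ℝ × ℝ)} {Y : at92Cfg F → ℝ}
    (hY : ∀ p ∈ at92Adm F, ∀ p' ∈ at92Adm F, Scr252Agree δ F Q p p' → Y p = Y p') {p : at92Cfg F} (hp : p ∈ at92Adm F) :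
    scr252Ext δ F Q Y p = Y p := by
  have h : ∃ p' ∈ at92Adm F, Scr252Agree δ F Q p p' := ⟨p, hp, scr252_agree_refl δ F Q p⟩
  unfold scr252Ext
  rw [dif_pos h]
  obtain ⟨h1, h2⟩ := Classical.choose_spec h
  exact (hY p hp _ h1 h2).symm

theorem scr252_ext_ext {δ : ℝ} {F : Finset (ℤ × ℤ)} {Q : Set (ℝ × ℝ)} {Y : at92Cfg F → ℝ}
    (hY : ∀ p ∈ at92Adm F, ∀ p' ∈ at92Adm F, Scr252Agree δ F Q p p' → Y p = Y p') : ScrExt δ F Q (scr252Ext δ F Q Y) := by
  rw [scr252_ext_iff]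
  intro p q hpq
  unfold scr252Ext
  by_cases h : ∃ p' ∈ at92Adm F, Scr252Agree δ F Q p p'
  · have h' : ∃ p' ∈ at92Adm F, Scr252Agree δ F Q q p' := by
      obtain ⟨p', a, b⟩ := h
      exact ⟨p', a, hpq.symm.trans b⟩
    rw [dif_pos h, dif_pos h']
    obtain ⟨a1, a2⟩ := Classical.choose_spec h
    obtain ⟨b1, b2⟩ := Classical.choose_spec h'
    exact hY _ a1 _ b1 (a2.symm.trans (hpq.trans b2))
  · have h' : ¬ ∃ p' ∈ at92Adm F, Scr252Agree δ F Q q p' := fun ⟨p', a, b⟩ => h ⟨p', a, hpq.trans b⟩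
    rw [dif_neg h, dif_neg h']

theorem scr252_ext_abs {δ : ℝ} {F : Finset (ℤ × ℤ)} {Q : Set (ℝ × ℝ)} {Y : at92Cfg F → ℝ} (hb : ∀ p, |Y p| ≤ 1)
    (p : at92Cfg F) : |scr252Ext δ F Q Y p| ≤ 1 := by
  unfold scr252Ext
  split_ifs
  · exact hb _
  · simp

/-! ## 3. Truncation -/

/-- clamp to `[-T, T]` -/
noncomputable def scr252Cl (T y : ℝ) : ℝ := max (-T) (min y T)

theorem scr252_cl_abs {T : ℝ} (hT : 0 ≤ T) (y : ℝ) : |scr252Cl T y| ≤ T := by
  unfold scr252Cl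
  rw [abs_le]
  exact ⟨le_max_left _ _, max_le (by linarith) (min_le_right _ _)⟩

theorem scr252_cl_err {T : ℝ} (hT : 0 < T) (y : ℝ) : |y - scr252Cl T y| ≤ y ^ 2 / T := by
  unfold scr252Cl
  rw [le_div_iff₀ hT]
  rcases le_or_gt y T with h1 | h1
  · rw [min_eq_left h1]
    rcases le_or_gt (-T) y with h2 | h2
    · rw [max_eq_right h2]
      simp only [sub_self, abs_zero, zero_mul]
      positivity
    · rw [max_eq_left h2.le, abs_of_nonpos (by linarith)]
      nlinarith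
  · rw [min_eq_right h1.le, max_eq_right (by linarith), abs_of_nonneg (by linarith)]
    nlinarith

/-- **truncation of the spectator** -/
theorem scr252_trunc {α : Type*} {A : Finset α} {w : α → ℝ} (hw : ∀ a ∈ A, 0 ≤ w a) (X Y : α → ℝ) {T : ℝ} (hT : 0 < T) :
    |lmE A w (fun a => X a * Y a)| ≤ T * |lmE A w (fun a => X a * (scr252Cl T (Y a) / T))|
      + (lmE A w (fun a => X a ^ 2) + lmE A w (fun a => Y a ^ 4)) / (2 * T) := by
  have e : lmE A w (fun a => X a * Y a)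
      = T * lmE A w (fun a => X a * (scr252Cl T (Y a) / T)) + lmE A w (fun a => X a * (Y a - scr252Cl T (Y a))) := by
    rw [← lm_E_mul_left, ← lm_E_add]
    refine lm_E_congr _ _ fun a _ => ?_
    field_simp
    ring
  have h2 : |lmE A w (fun a => X a * (Y a - scr252Cl T (Y a)))|
      ≤ (lmE A w (fun a => X a ^ 2) + lmE A w (fun a => Y a ^ 4)) / (2 * T) := by
    refine (lm_E_abs_le hw _).trans ?_
    have e2 : (lmE A w (fun a => X a ^ 2) + lmE A w (fun a => Y a ^ 4)) / (2 * T)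
        = lmE A w (fun a => (2 * T)⁻¹ * (X a ^ 2 + Y a ^ 4)) := by
      rw [lm_E_mul_left, lm_E_add]
      field_simp
    rw [e2]
    refine lm_E_mono hw fun a _ => ?_
    rw [abs_mul]
    have h3 := scr252_cl_err hT (Y a)
    have h4 : |X a| * |Y a - scr252Cl T (Y a)| ≤ |X a| * (Y a ^ 2 / T) := mul_le_mul_of_nonneg_left h3 (abs_nonneg _)
    refine h4.trans ?_
    have h5 : 2 * (|X a| * Y a ^ 2) ≤ X a ^ 2 + Y a ^ 4 := by
      have := sq_nonneg (|X a| - Y a ^ 2)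
      have e3 : |X a| ^ 2 = X a ^ 2 := sq_abs _
      nlinarith
    have e4 : |X a| * (Y a ^ 2 / T) = (2 * T)⁻¹ * (2 * (|X a| * Y a ^ 2)) := by
      field_simp
    rw [e4]
    exact mul_le_mul_of_nonneg_left h5 (by positivity)
  rw [e]
  refine (abs_add_le _ _).trans ?_
  rw [abs_mul, abs_of_pos hT]
  linarith

/-! ## 4. Geometry -/

/-- on a bounded open set a "linear" function is dominated by its values on the frontier -/
theorem scr252_max_frontier {U : Set (ℝ × ℝ)} (hU : IsOpen U) (hb : Bornology.IsBounded U) {x : ℝ × ℝ} (hx : x ∈ U)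
    (ℓ : ℝ × ℝ → ℝ) (hℓ : Continuous ℓ) (e : ℝ × ℝ) (he : ∀ (y : ℝ × ℝ) (s : ℝ), ℓ (y + s • e) = ℓ y + s) :
    ∃ y ∈ frontier U, ℓ x ≤ ℓ y := by
  have hc : IsCompact (closure U) := hb.isCompact_closure
  obtain ⟨y, hy, hmax⟩ := hc.exists_isMaxOn ⟨x, subset_closure hx⟩ hℓ.continuousOn
  refine ⟨y, ?_, hmax (subset_closure hx)⟩
  rw [hU.frontier_eq]
  refine ⟨hy, fun hyU => ?_⟩
  have hcont : Continuous fun s : ℝ => y + s • e := by fun_prop
  have h1 : ∀ᶠ s in 𝓝 (0 : ℝ), y + s • e ∈ U :=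
    hcont.continuousAt.eventually_mem (by simpa using hU.mem_nhds hyU)
  have h2 : ∀ᶠ s in 𝓝[>] (0 : ℝ), y + s • e ∈ U := h1.filter_mono nhdsWithin_le_nhds
  obtain ⟨s, hs, hs0⟩ := (h2.and self_mem_nhdsWithin).exists
  have h3 : ℓ (y + s • e) ≤ ℓ y := hmax (subset_closure hs)
  rw [he] at h3
  have : (0 : ℝ) < s := hs0
  linarith

theorem scr252_region_open (δ : ℝ) (F : Finset (ℤ × ℤ)) : IsOpen (faceRegionSq δ F) := isOpen_interior

theorem scr252_region_bdd (δ : ℝ) (F : Finset (ℤ × ℤ)) : Bornology.IsBounded (faceRegionSq δ F) := by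
  unfold faceRegionSq
  refine Bornology.IsBounded.subset ?_ interior_subset
  exact (F.isCompact_biUnion fun f _ => isCompact_Icc.prod isCompact_Icc).isBounded

/-- the regions of an admissible approximation of a bounded domain lie in a fixed square -/
theorem scr252_region_sq {D : Set (ℝ × ℝ)} (hDb : Bornology.IsBounded D) {δ : ℕ → ℝ} {F : ℕ → Finset (ℤ × ℤ)}
    (hF : IsAdmissibleApprox D δ F) (z : ℝ × ℝ) : ∃ R : ℝ, ∀ᶠ n in atTop, faceRegionSq (δ n) (F n) ⊆ scrSq z R := by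
  obtain ⟨-, -, -, γ, γs, -, -, hγ, hs, hcl⟩ := hF
  obtain ⟨M, hM⟩ := hDb.closure.exists_norm_le
  have hfr : ∀ θ, |(γ θ).1| ≤ M ∧ |(γ θ).2| ≤ M := by
    intro θ
    have h1 : γ θ ∈ closure D := frontier_subset_closure (hγ ▸ Set.mem_range_self θ)
    have h2 := hM _ h1
    rw [Prod.norm_def] at h2
    exact ⟨(le_max_left _ _).trans h2, (le_max_right _ _).trans h2⟩
  refine ⟨M + 1 + |z.1| + |z.2|, ?_⟩
  filter_upwards [hcl 1 one_pos] with n hn
  have hfr' : ∀ y ∈ frontier (faceRegionSq (δ n) (F n)), |y.1| ≤ M + 1 ∧ |y.2| ≤ M + 1 := by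
    intro y hy
    rw [← (hs n).2.2] at hy
    obtain ⟨θ, rfl⟩ := hy
    have h1 := hn θ
    have h2 := hfr θ
    have a1 : |(γs n θ).1 - (γ θ).1| ≤ 1 := abs_le_of_sq_le_sq (by nlinarith [sq_nonneg ((γs n θ).2 - (γ θ).2)]) zero_le_one
    have a2 : |(γs n θ).2 - (γ θ).2| ≤ 1 := abs_le_of_sq_le_sq (by nlinarith [sq_nonneg ((γs n θ).1 - (γ θ).1)]) zero_le_one
    rw [abs_le] at a1 a2 ⊢
    rw [abs_le] at ⊢
    obtain ⟨b1, b2⟩ := h2
    rw [abs_le] at b1 b2
    refine ⟨⟨?_, ?_⟩, ?_, ?_⟩ <;> linarith [a1.1, a1.2, a2.1, a2.2, b1.1, b1.2, b2.1, b2.2]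
  intro x hx
  have hU := scr252_region_open (δ n) (F n)
  have hb := scr252_region_bdd (δ n) (F n)
  obtain ⟨y1, hy1, l1⟩ := scr252_max_frontier hU hb hx (fun y => y.1) continuous_fst (1, 0) (fun y s => by simp)
  obtain ⟨y2, hy2, l2⟩ := scr252_max_frontier hU hb hx (fun y => -y.1) continuous_fst.neg (-1, 0) (fun y s => by simp; ring)
  obtain ⟨y3, hy3, l3⟩ := scr252_max_frontier hU hb hx (fun y => y.2) continuous_snd (0, 1) (fun y s => by simp)
  obtain ⟨y4, hy4, l4⟩ := scr252_max_frontier hU hb hx (fun y => -y.2) continuous_snd.neg (0, -1) (fun y s => by simp; ring)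
  have c1 := abs_le.1 (hfr' y1 hy1).1
  have c2 := abs_le.1 (hfr' y2 hy2).1
  have c3 := abs_le.1 (hfr' y3 hy3).2
  have c4 := abs_le.1 (hfr' y4 hy4).2
  have z1 := abs_le.1 (le_refl |z.1|)
  have z2 := abs_le.1 (le_refl |z.2|)
  have n1 := abs_nonneg z.1
  have n2 := abs_nonneg z.2
  unfold scrSq
  rw [Set.mem_prod, Set.mem_Icc, Set.mem_Icc]
  refine ⟨⟨?_, ?_⟩, ?_, ?_⟩ <;> linarith [c1.1, c1.2, c2.1, c2.2, c3.1, c3.2, c4.1, c4.2, z1.1, z1.2, z2.1, z2.2]

theorem scr252_sq_compact (z : ℝ × ℝ) (r : ℝ) : IsCompact (scrSq z r) := isCompact_Icc.prod isCompact_Icc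

theorem scr252_sq_subset_ball (z : ℝ × ℝ) (ρ : ℝ) : scrSq z (7 / 10 * ρ) ⊆ wkBall z ρ := by
  intro x hx
  unfold scrSq at hx
  rw [Set.mem_prod, Set.mem_Icc, Set.mem_Icc] at hx
  obtain ⟨⟨a1, a2⟩, b1, b2⟩ := hx
  show C0467.sqDist x z ≤ ρ ^ 2
  unfold C0467.sqDist
  have h1 : (x.1 - z.1) ^ 2 ≤ (7 / 10 * ρ) ^ 2 := sq_le_sq' (by linarith) (by linarith)
  have h2 : (x.2 - z.2) ^ 2 ≤ (7 / 10 * ρ) ^ 2 := sq_le_sq' (by linarith) (by linarith)
  nlinarith [sq_nonneg ρ]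

/-- a small disc far from `z0` misses the square -/
theorem scr252_far {z0 c y : ℝ × ℝ} {ρ r : ℝ} (hρ : 0 < ρ) (hr0 : 0 < r) (hr : r ≤ ρ / 4000)
    (hc : (2 * ρ) ^ 2 ≤ C0467.sqDist c z0) (hy : y ∈ wkBall c r) : y ∉ scrSq z0 (6 / 10 * ρ) := by
  intro hx
  unfold scrSq at hx
  rw [Set.mem_prod, Set.mem_Icc, Set.mem_Icc] at hx
  obtain ⟨⟨a1, a2⟩, b1, b2⟩ := hx
  have hy' := wk_ball_subset c hr0.le hy
  rw [Metric.mem_closedBall, Prod.dist_eq, Real.dist_eq, Real.dist_eq] at hy'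
  have d1 := abs_le.1 ((le_max_left _ _).trans hy')
  have d2 := abs_le.1 ((le_max_right _ _).trans hy')
  unfold C0467.sqDist at hc
  have h1 : (c.1 - z0.1) ^ 2 ≤ (61 / 100 * ρ) ^ 2 := sq_le_sq' (by linarith [d1.1, d1.2]) (by linarith [d1.1, d1.2])
  have h2 : (c.2 - z0.2) ^ 2 ≤ (61 / 100 * ρ) ^ 2 := sq_le_sq' (by linarith [d2.1, d2.2]) (by linarith [d2.1, d2.2])
  nlinarith [sq_pos_of_pos hρ]

/-! ## 5. The adapter -/

theorem scr252_X_add (δ : ℝ) {F : Finset (ℤ × ℤ)} (g g' : ℝ × ℝ → ℝ) (p : at92Cfg F) :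
    at92X δ (g + g') p = at92X δ g p + at92X δ g' p := by
  unfold at92X
  rw [← mul_add, ← Finset.sum_add_distrib]
  congr 1
  exact Finset.sum_congr rfl fun v _ => by simp only [Pi.add_apply]; ring

theorem scr252_X_smul (δ c : ℝ) {F : Finset (ℤ × ℤ)} (g : ℝ × ℝ → ℝ) (p : at92Cfg F) :
    at92X δ (c • g) p = c * at92X δ g p := by
  unfold at92X
  rw [mul_left_comm c, Finset.mul_sum (cornersOf F) _ c]
  congr 1
  exact Finset.sum_congr rfl fun v _ => by simp only [Pi.smul_apply, smul_eq_mul]; ring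

theorem scr252_M_replicate (t δ : ℝ) (F : Finset (ℤ × ℤ)) (g : ℝ × ℝ → ℝ) (k : ℕ) :
    gaussM t δ F (Multiset.replicate k g) = lmE (at92Adm F) (at92W t) (fun p => at92X δ g p ^ k) := by
  unfold gaussM lmM
  simp only [Multiset.map_replicate, Multiset.prod_replicate]

/-- the frozen pairings form a moment system as soon as the fixed moments are bounded -/
theorem scr252_ok {t : ℝ} (ht : 0 < t) {D : Set (ℝ × ℝ)} {δ : ℕ → ℝ} {F : ℕ → Finset (ℤ × ℤ)} (hSM : GaussSM t D δ F) :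
    LmOk (lmV D) (fun n => at92Adm (F n)) (fun _ => at92W t) (fun n g p => at92X (δ n) g p) where
  wnn := fun _ _ _ => (pow_pos ht _).le
  Zpos := fun n => at92_Z_pos ht (F n)
  add := fun n g g' _ _ h _ => scr252_X_add (δ n) g g' h
  smul := fun n c g _ h _ => scr252_X_smul (δ n) c g h
  bdd := by
    intro g hg p hp
    obtain ⟨m, rfl⟩ := hp
    have hg' : WkTest D g := hg
    obtain ⟨M, -, hM⟩ := hg'.bound
    obtain ⟨C, -, H⟩ := hSM.fix m (tsupport g) hg'.comp hg'.sub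
    refine ⟨C * M ^ (2 * m), ?_⟩
    filter_upwards [H M g hg' hM (fun y hy => image_eq_zero_of_notMem_tsupport hy)] with n hn
    rw [scr252_M_replicate] at hn
    rwa [← two_mul]

/-- the smeared height of a spectator carried by a small disc far from `z0` is exterior on the admissible pairs -/
theorem scr252_X_ext {D : Set (ℝ × ℝ)} {δ : ℕ → ℝ} {F : ℕ → Finset (ℤ × ℤ)} (hF : IsAdmissibleApprox D δ F) (n : ℕ)
    {z0 c : ℝ × ℝ} {ρ r : ℝ} (hρ : 0 < ρ) (hr0 : 0 < r) (hr : r ≤ ρ / 4000) (hc : (2 * ρ) ^ 2 ≤ C0467.sqDist c z0)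
    {g : ℝ × ℝ → ℝ} (hg : ∀ y, y ∉ wkBall c r → g y = 0) {p p' : at92Cfg (F n)} (hp : p ∈ at92Adm (F n))
    (hp' : p' ∈ at92Adm (F n)) (ha : Scr252Agree (δ n) (F n) (scrSq z0 (6 / 10 * ρ)) p p') :
    at92X (δ n) g p = at92X (δ n) g p' := by
  obtain ⟨Hf, h⟩ := at92h_spec_approx hF n ((at92_mem_adm p).1 hp)
  obtain ⟨Hf', h'⟩ := at92h_spec_approx hF n ((at92_mem_adm p').1 hp')
  unfold at92X
  congr 1
  refine Finset.sum_congr rfl fun v hv => ?_
  by_cases h0 : ((δ n * (v.1 : ℝ), δ n * (v.2 : ℝ)) : ℝ × ℝ) ∈ wkBall c r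
  · rw [scr252_height_ext (hF.1 n) h h' ha hv (scr252_far hρ hr0 hr hc h0)]
  · rw [hg _ h0, mul_zero, mul_zero]

/-- **THE ADAPTER**: exterior orthogonality (statement of `at_screen`) + moments ⟹ the contract `gauss_harm` -/
theorem scr252_harm {t : ℝ} (ht : 0 < t) (hO : Scr252Orth t) {D : Set (ℝ × ℝ)} (hD : GaussDom D) {δ : ℕ → ℝ}
    {F : ℕ → Finset (ℤ × ℤ)} (hF : IsAdmissibleApprox D δ F) (hSM : GaussSM t D δ F) : GaussHarm t D δ F := by
  intro z0 ρ φ s hρ hball hφ hφs hs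
  have hok := scr252_ok ht hSM
  have hφt : WkTest D φ :=
    ⟨hφ.continuous, (wk_ball_compact z0 (by positivity)).of_isClosed_subset (isClosed_tsupport φ) hφs,
      hφs.trans ((wk_ball_mono z0 (by positivity) (by linarith)).trans hball)⟩
  have hL : WkTest D (C0467.lap2 φ) := hφt.lap' hφ
  obtain ⟨C1, hC1⟩ := lm_M_bdd hok (s := Multiset.replicate 2 (C0467.lap2 φ)) (by
    intro g hg
    rw [Multiset.eq_of_mem_replicate hg]
    exact hL)
  obtain ⟨C2, hC2⟩ := lm_M_bdd hok (s := 4 • s) (fun g hg => (hs g (Multiset.mem_of_mem_nsmul hg)).1)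
  obtain ⟨R, hR⟩ := scr252_region_sq hD.2.1 hF z0
  have hin := hF.2.2.1 (scrSq z0 (7 / 10 * ρ)) (scr252_sq_compact _ _) ((scr252_sq_subset_ball z0 ρ).trans hball)
  rw [Metric.tendsto_nhds]
  intro η hη
  have hK : 0 < |C1| + |C2| + 1 := by positivity
  set K := |C1| + |C2| + 1 with hKdef
  have hT : 0 < K / η := by positivity
  set T := K / η with hTdef
  have hε : 0 < η / (4 * T) := by positivity
  have hsup : tsupport φ ⊆ Metric.ball z0 (6 / 10 * ρ / 1000) :=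
    hφs.trans ((wk_ball_subset z0 (by positivity)).trans (Metric.closedBall_subset_ball (by linarith)))
  obtain ⟨δ₀, hδ₀, H⟩ := hO z0 (6 / 10 * ρ) (7 / 10 * ρ) R (by positivity) (by linarith) φ hφ hsup (η / (4 * T)) hε
  have hδ : ∀ᶠ n in atTop, δ n < δ₀ := hF.2.1.eventually (gt_mem_nhds hδ₀)
  filter_upwards [hC1, hC2, hR, hin, hδ] with n h1 h2 h3 h4 h5
  have hw : ∀ a ∈ at92Adm (F n), 0 ≤ at92W t a := fun _ _ => (pow_pos ht _).le
  set X : at92Cfg (F n) → ℝ := fun p => at92X (δ n) (C0467.lap2 φ) p with hX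
  set Y : at92Cfg (F n) → ℝ := fun p => (s.map fun g => at92X (δ n) g p).prod with hY
  have e0 : gaussM t (δ n) (F n) (C0467.lap2 φ ::ₘ s) = lmE (at92Adm (F n)) (at92W t) (fun p => X p * Y p) := by
    unfold gaussM lmM
    simp only [Multiset.map_cons, Multiset.prod_cons, hX, hY]
  have e1 : lmM (at92Adm (F n)) (at92W t) (fun g p => at92X (δ n) g p) (Multiset.replicate 2 (C0467.lap2 φ))
      = lmE (at92Adm (F n)) (at92W t) (fun p => X p ^ 2) := scr252_M_replicate t (δ n) (F n) _ 2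
  have e2 : lmM (at92Adm (F n)) (at92W t) (fun g p => at92X (δ n) g p) (4 • s)
      = lmE (at92Adm (F n)) (at92W t) (fun p => Y p ^ 4) := by
    unfold lmM
    simp only [Multiset.map_nsmul, Multiset.prod_nsmul, hY]
  rw [e1] at h1
  rw [e2] at h2
  -- the exterior observable
  have hYext : ∀ p ∈ at92Adm (F n), ∀ p' ∈ at92Adm (F n), Scr252Agree (δ n) (F n) (scrSq z0 (6 / 10 * ρ)) p p' →
      scr252Cl T (Y p) / T = scr252Cl T (Y p') / T := by
    intro p hp p' hp' ha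
    have : Y p = Y p' := by
      simp only [hY]
      congr 1
      refine Multiset.map_congr rfl fun g hg => ?_
      obtain ⟨-, c, r, hr0, hr, -, hc, hg0⟩ := hs g hg
      refine scr252_X_ext hF n hρ hr0 (hr.le.trans ?_) hc hg0 hp hp' ha
      refine div_le_div_of_nonneg_left hρ.le (by norm_num) ?_
      have : (0 : ℝ) ≤ (Multiset.card s : ℝ) := Nat.cast_nonneg _
      linarith
    rw [this]
  set G := scr252Ext (δ n) (F n) (scrSq z0 (6 / 10 * ρ)) (fun p => scr252Cl T (Y p) / T) with hG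
  have hGabs : ∀ p, |G p| ≤ 1 := scr252_ext_abs (fun p => by
    rw [abs_div, abs_of_pos hT]
    exact (div_le_one hT).2 (scr252_cl_abs hT.le _))
  have hGext : ScrExt (δ n) (F n) (scrSq z0 (6 / 10 * ρ)) G := scr252_ext_ext hYext
  have h6 := H (δ n) (hF.1 n) h5 (F n) (scr_flat_of_approx hF n) h4 h3 G hGabs hGext
  have e3 : scrE t (F n) (fun p => at92X (δ n) (C0468.lap2 φ) p * G p)
      = lmE (at92Adm (F n)) (at92W t) (fun p => X p * (scr252Cl T (Y p) / T)) := by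
    show lmE (at92Adm (F n)) (at92W t) (fun p => at92X (δ n) (C0468.lap2 φ) p * G p) = _
    refine lm_E_congr _ _ fun p hp => ?_
    rw [hG, scr252_ext_eq hYext hp]
    rfl
  rw [e3] at h6
  have h7 := scr252_trunc hw X Y hT
  rw [Real.dist_eq, sub_zero, e0]
  have b1 : lmE (at92Adm (F n)) (at92W t) (fun p => X p ^ 2) + lmE (at92Adm (F n)) (at92W t) (fun p => Y p ^ 4) ≤ K := by
    have := (le_abs_self _).trans h1
    have := (le_abs_self _).trans h2
    have := le_abs_self C1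
    have := le_abs_self C2
    rw [hKdef]
    linarith
  have b2 : (lmE (at92Adm (F n)) (at92W t) (fun p => X p ^ 2) + lmE (at92Adm (F n)) (at92W t) (fun p => Y p ^ 4)) / (2 * T)
      ≤ η / 2 := by
    refine (div_le_div_of_nonneg_right b1 (by positivity)).trans (le_of_eq ?_)
    rw [hTdef]
    field_simp
  have b3 : T * |lmE (at92Adm (F n)) (at92W t) (fun p => X p * (scr252Cl T (Y p) / T))| ≤ η / 4 := by
    refine (mul_le_mul_of_nonneg_left h6 hT.le).trans (le_of_eq ?_)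
    field_simp
  linarith

end Claimed.Agent.R292
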