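import Mathlib

/-!
# Row 292 (S0540), Screen/Mass81 : AT LEMMA 5.2 (`lem:screen-pattern-moments`), THE DETERMINISTIC PART      (pen helper81; unit SCREEN, head helper229; prefix `mass81`)

Mathlib only, model-free, 0 sorry.  The lattice `ℤ × ℤ` is the lattice of the `s` sites (primal corners, untilted coordinates, mesh `δ`).
VOCABULARY
* `mass81Adj u v`        nearest-neighbour step
* `Mass81Holes T O`      `O` is a union of holes of a cluster of TRACE `T`: the indicator of `O` is constant along every step that is not inside `T`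
* `Mass81Conn U`         `U` is connected by steps inside `U`
* `mass81Scale d`        the dyadic scale `k` of the lattice diameter `d`: `2^k ≤ d + 1 < 2^(k+1)`
* `mass81Lp s w p X`     `(∑_{ω ∈ s} w ω |X ω|^p)^{1/p}` (any nonnegative weights: the conditioning on the remote patterns sits in `w`)
* `mass81Sgn`            sign of a fair bit; the signs are `ε : ι → Bool`, uniform
RESULTS (array `b`, `|b_v| ≤ K δ²`, `∑ |b_v| ≤ K`, `∑ b_v = 0`, `q_C = ∑_{v ∈ O_C} b_v`)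
* (a) `mass81_holes_subset_box`   a finite union of holes lies in every box that contains the trace (straight ray to infinity)
      `mass81_charge_le`          trace of lattice diameter `n`  ⟹  `|q_C| ≤ K (δ n + δ)²`;      `mass81_charge_le_total` : `|q_C| ≤ ∑ |b_v|`
* (b) `mass81_charge_zero`        trace disjoint from a connected `U ⊇ supp b`  ⟹  `q_C = 0`   (`mass81_charge_zero_or_total` without neutrality)
* (c) `mass81_dyadic`             `∑_C q_C² ≤ ∑_{k ≤ M} K² (δ 2^{k+1})⁴ #{C at scale k}`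
* (d) `mass81Lp_add_le`, `mass81Lp_sum_le` (Minkowski), `mass81_scale_norm` : `‖∑_{C at scale r} q_C²‖_p ≤ K² c Cq r²`
* (e) `mass81_khintchine(_on)`    `E (∑ ε_i a_i)^{2m} ≤ 4 (2m)! (∑ a_i²)^m`, every `m`
* (f) `mass81_small_norm` (sum of the scales `≤ 64/3 K² c Cq ρ²`, `ρ = δ 2^M`), `mass81_big_norm`, `mass81_moment`
* (g) **`mass81_lemma52`**        the lemma, reduced to: the cut identity `Y = R + 2 ∑_C ε_C q_C` (MODEL) and the `L^m` bounds of the local counts (RSW + pattern comparison)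
* (h) `mass81_neutralise`, `mass81_transfer(_mass,_abs)`   preparation of the array (the plain Riemann sum of the frozen pairing is not exactly neutral)
* (i) `mass81_assign`, `mass81Cell*`, `mass81_far_vertex`, `mass81_first_exit`   localisation of the count (`O(r⁻²)` cells, far vertex, first exit from the concentric square)
-/

set_option autoImplicit false

namespace Claimed.Agent.R292

open Finset

/-- nearest-neighbour steps of `ℤ²`. -/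
def mass81Adj (u v : ℤ × ℤ) : Prop :=
  (u.1 = v.1 ∧ |u.2 - v.2| = 1) ∨ (u.2 = v.2 ∧ |u.1 - v.1| = 1)

theorem mass81Adj_symm {u v : ℤ × ℤ} (h : mass81Adj u v) : mass81Adj v u := by
  rcases h with ⟨h1, h2⟩ | ⟨h1, h2⟩
  · exact Or.inl ⟨h1.symm, by rw [abs_sub_comm]; exact h2⟩
  · exact Or.inr ⟨h1.symm, by rw [abs_sub_comm]; exact h2⟩

/-- `O` is a union of holes of a cluster of trace `T`. -/
def Mass81Holes (T O : Set (ℤ × ℤ)) : Prop :=
  ∀ u v, mass81Adj u v → (u ∉ T ∨ v ∉ T) → (u ∈ O ↔ v ∈ O)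

/-- `U` is connected for nearest-neighbour steps inside `U`. -/
def Mass81Conn (U : Set (ℤ × ℤ)) : Prop :=
  ∀ u ∈ U, ∀ v ∈ U, Relation.ReflTransGen (fun a b => mass81Adj a b ∧ a ∈ U ∧ b ∈ U) u v

theorem mass81_ray {T O : Set (ℤ × ℤ)} (hO : Mass81Holes T O) (hfin : O.Finite) (v e : ℤ × ℤ)
    (he : ∀ w, mass81Adj w (w + e)) (hray : ∀ k : ℕ, v + k • e ∉ T) : v ∉ O := by
  intro hv
  have hall : ∀ k : ℕ, v + k • e ∈ O := by
    intro k
    induction k with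
    | zero => simpa using hv
    | succ k ih =>
      have := hO _ _ (he (v + k • e)) (Or.inl (hray k))
      rw [succ_nsmul, ← add_assoc]
      exact this.1 ih
  have he0 : e ≠ 0 := by
    intro h0
    have := he 0
    rw [h0] at this
    rcases this with ⟨-, h⟩ | ⟨-, h⟩ <;> simp at h
  have hinj : Function.Injective (fun k : ℕ => v + k • e) := by
    intro k l hkl
    have h1 : k • e = l • e := add_left_cancel hkl
    have h2 : ((k : ℤ) - l) • e = 0 := by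
      rw [sub_smul, natCast_zsmul, natCast_zsmul, h1, sub_self]
    rcases smul_eq_zero.1 h2 with h3 | h3
    · omega
    · exact absurd h3 he0
  exact Set.infinite_of_injective_forall_mem hinj hall hfin

theorem mass81_holes_subset_box {T O : Set (ℤ × ℤ)} (hO : Mass81Holes T O) (hfin : O.Finite)
    (a c : ℤ × ℤ) (hT : T ⊆ Set.Icc a c) : O ⊆ Set.Icc a c := by
  intro v hv
  by_contra hvB
  have key : ∀ e : ℤ × ℤ, (∀ w, mass81Adj w (w + e)) → (∀ k : ℕ, v + k • e ∉ Set.Icc a c) → False :=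
    fun e he hk => mass81_ray hO hfin v e he (fun k hkT => hk k (hT hkT)) hv
  have hcases : v.1 < a.1 ∨ v.2 < a.2 ∨ c.1 < v.1 ∨ c.2 < v.2 := by
    by_contra hcon
    push Not at hcon
    exact hvB ⟨⟨hcon.1, hcon.2.1⟩, ⟨hcon.2.2.1, hcon.2.2.2⟩⟩
  rcases hcases with h | h | h | h
  · refine key (-1, 0) (fun w => Or.inr ⟨by simp, by simp⟩) (fun k hk => ?_)
    have := hk.1.1
    simp at this
    have hk0 : (0 : ℤ) ≤ k := Int.natCast_nonneg k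
    omega
  · refine key (0, -1) (fun w => Or.inl ⟨by simp, by simp⟩) (fun k hk => ?_)
    have := hk.1.2
    simp at this
    have hk0 : (0 : ℤ) ≤ k := Int.natCast_nonneg k
    omega
  · refine key (1, 0) (fun w => Or.inr ⟨by simp, by simp⟩) (fun k hk => ?_)
    have := hk.2.1
    simp at this
    have hk0 : (0 : ℤ) ≤ k := Int.natCast_nonneg k
    omega
  · refine key (0, 1) (fun w => Or.inl ⟨by simp, by simp⟩) (fun k hk => ?_)
    have := hk.2.2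
    simp at this
    have hk0 : (0 : ℤ) ≤ k := Int.natCast_nonneg k
    omega

theorem mass81_box_of_diam {T : Set (ℤ × ℤ)} (hne : T.Nonempty) (n : ℕ)
    (hT : ∀ u ∈ T, ∀ v ∈ T, |u.1 - v.1| ≤ n ∧ |u.2 - v.2| ≤ n) :
    ∃ a : ℤ × ℤ, T ⊆ Set.Icc a (a + ((n : ℤ), (n : ℤ))) := by
  obtain ⟨u₀, hu₀⟩ := hne
  obtain ⟨x, ⟨ux, hux, hx⟩, hxmin⟩ := Int.exists_least_of_bdd (P := fun z => ∃ u ∈ T, u.1 = z)
    ⟨u₀.1 - n, fun z ⟨u, hu, hz⟩ => by have := abs_le.1 (hT u hu u₀ hu₀).1; omega⟩ ⟨u₀.1, u₀, hu₀, rfl⟩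
  obtain ⟨y, ⟨uy, huy, hy⟩, hymin⟩ := Int.exists_least_of_bdd (P := fun z => ∃ u ∈ T, u.2 = z)
    ⟨u₀.2 - n, fun z ⟨u, hu, hz⟩ => by have := abs_le.1 (hT u hu u₀ hu₀).2; omega⟩ ⟨u₀.2, u₀, hu₀, rfl⟩
  refine ⟨(x, y), fun v hv => ⟨⟨hxmin _ ⟨v, hv, rfl⟩, hymin _ ⟨v, hv, rfl⟩⟩, ⟨?_, ?_⟩⟩⟩
  · have := abs_le.1 (hT v hv ux hux).1
    simp only [Prod.fst_add]
    omega
  · have := abs_le.1 (hT v hv uy huy).2
    simp only [Prod.snd_add]
    omega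

/-- **(a)** the charge of a cluster of lattice diameter `n` : `|q_C| ≤ K (r + δ)²`, `r = δ n`. -/
theorem mass81_charge_le (b : ℤ × ℤ → ℝ) (K δ : ℝ) (hb : ∀ v, |b v| ≤ K * δ ^ 2)
    (T : Set (ℤ × ℤ)) (O : Finset (ℤ × ℤ)) (hO : Mass81Holes T (O : Set (ℤ × ℤ))) (n : ℕ)
    (hT : ∀ u ∈ T, ∀ v ∈ T, |u.1 - v.1| ≤ n ∧ |u.2 - v.2| ≤ n) :
    |∑ v ∈ O, b v| ≤ K * (δ * n + δ) ^ 2 := by
  have hK : 0 ≤ K * δ ^ 2 := le_trans (abs_nonneg _) (hb 0)
  have hcard : (#O : ℝ) ≤ ((n : ℝ) + 1) ^ 2 := by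
    rcases T.eq_empty_or_nonempty with hTe | hne
    · have : O = ∅ := by
        rw [Finset.eq_empty_iff_forall_notMem]
        intro v hv
        have h1 := mass81_holes_subset_box hO O.finite_toSet (v + (1, 0)) v (by rw [hTe]; exact Set.empty_subset _) hv
        have := h1.1.1
        simp at this
      rw [this]
      simp
      positivity
    · obtain ⟨a, ha⟩ := mass81_box_of_diam hne n hT
      have h1 := mass81_holes_subset_box hO O.finite_toSet a _ ha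
      have h2 : O ⊆ Finset.Icc a (a + ((n : ℤ), (n : ℤ))) := by
        intro v hv
        rw [Finset.mem_Icc]
        exact h1 hv
      have h3 := Finset.card_le_card h2
      rw [Finset.card_Icc_prod, Int.card_Icc, Int.card_Icc] at h3
      have e1 : ((a + ((n : ℤ), (n : ℤ))).1 + 1 - a.1).toNat = n + 1 := by
        simp only [Prod.fst_add]; omega
      have e2 : ((a + ((n : ℤ), (n : ℤ))).2 + 1 - a.2).toNat = n + 1 := by
        simp only [Prod.snd_add]; omega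
      rw [e1, e2] at h3
      have : (#O : ℝ) ≤ ((n + 1) * (n + 1) : ℕ) := by exact_mod_cast h3
      push_cast at this
      nlinarith
  calc |∑ v ∈ O, b v| ≤ ∑ v ∈ O, |b v| := Finset.abs_sum_le_sum_abs _ _
    _ ≤ ∑ _v ∈ O, K * δ ^ 2 := Finset.sum_le_sum (fun v _ => hb v)
    _ = (#O : ℝ) * (K * δ ^ 2) := by rw [Finset.sum_const, nsmul_eq_mul]
    _ ≤ ((n : ℝ) + 1) ^ 2 * (K * δ ^ 2) := mul_le_mul_of_nonneg_right hcard hK
    _ = K * (δ * n + δ) ^ 2 := by ring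

/-- the trivial bound by the total mass. -/
theorem mass81_charge_le_total (b : ℤ × ℤ → ℝ) (S O : Finset (ℤ × ℤ)) (hS : ∀ v, v ∉ S → b v = 0) :
    |∑ v ∈ O, b v| ≤ ∑ v ∈ S, |b v| := by
  calc |∑ v ∈ O, b v| ≤ ∑ v ∈ O, |b v| := Finset.abs_sum_le_sum_abs _ _
    _ = ∑ v ∈ O ∩ S, |b v| := by
        refine (Finset.sum_subset Finset.inter_subset_left (fun v hv hv' => ?_)).symm
        have : v ∉ S := fun h => hv' (Finset.mem_inter.2 ⟨hv, h⟩)
        rw [hS v this, abs_zero]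
    _ ≤ ∑ v ∈ S, |b v| :=
        Finset.sum_le_sum_of_subset_of_nonneg Finset.inter_subset_right (fun _ _ _ => abs_nonneg _)

theorem mass81_const_on_conn {T O U : Set (ℤ × ℤ)} (hO : Mass81Holes T O) (hU : Mass81Conn U)
    (hTU : Disjoint T U) {u v : ℤ × ℤ} (hu : u ∈ U) (hv : v ∈ U) : u ∈ O ↔ v ∈ O := by
  have h := hU u hu v hv
  induction h with
  | refl => exact Iff.rfl
  | tail _ hbc ih =>
    exact (ih hbc.2.1).trans (hO _ _ hbc.1 (Or.inl (fun hT => Set.disjoint_left.1 hTU hT hbc.2.1)))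

/-- **(b)** a cluster that does not meet the connected neighbourhood `U` of the support carries either no charge or the
total charge. -/
theorem mass81_charge_zero_or_total (b : ℤ × ℤ → ℝ) (S : Finset (ℤ × ℤ)) (hS : ∀ v, v ∉ S → b v = 0)
    (U : Set (ℤ × ℤ)) (hSU : (S : Set (ℤ × ℤ)) ⊆ U) (hU : Mass81Conn U)
    (T : Set (ℤ × ℤ)) (O : Finset (ℤ × ℤ)) (hO : Mass81Holes T (O : Set (ℤ × ℤ))) (hTU : Disjoint T U) :
    ∑ v ∈ O, b v = 0 ∨ ∑ v ∈ O, b v = ∑ v ∈ S, b v := by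
  by_cases hex : ∃ u ∈ U, u ∈ O
  · obtain ⟨u, huU, huO⟩ := hex
    right
    have hSO : S ⊆ O := fun v hv =>
      (mass81_const_on_conn hO hU hTU huU (hSU hv)).1 huO
    exact (Finset.sum_subset hSO (fun v _ hv => hS v hv)).symm
  · left
    push Not at hex
    refine Finset.sum_eq_zero (fun v hv => hS v (fun hvS => hex v (hSU hvS) hv))

/-- **(b)**, neutral array. -/
theorem mass81_charge_zero (b : ℤ × ℤ → ℝ) (S : Finset (ℤ × ℤ)) (hS : ∀ v, v ∉ S → b v = 0)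
    (hneu : ∑ v ∈ S, b v = 0)
    (U : Set (ℤ × ℤ)) (hSU : (S : Set (ℤ × ℤ)) ⊆ U) (hU : Mass81Conn U)
    (T : Set (ℤ × ℤ)) (O : Finset (ℤ × ℤ)) (hO : Mass81Holes T (O : Set (ℤ × ℤ))) (hTU : Disjoint T U) :
    ∑ v ∈ O, b v = 0 := by
  rcases mass81_charge_zero_or_total b S hS U hSU hU T O hO hTU with h | h
  · exact h
  · rw [h, hneu]


/-! ## (c) dyadic decomposition -/

/-- dyadic scale of a cluster of lattice diameter `d` : the `k` with `2^k ≤ d + 1 < 2^(k+1)`. -/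
def mass81Scale (d : ℕ) : ℕ := Nat.log 2 (d + 1)

theorem mass81Scale_eq_iff (d k : ℕ) : mass81Scale d = k ↔ 2 ^ k ≤ d + 1 ∧ d + 1 < 2 ^ (k + 1) := by
  unfold mass81Scale
  exact Nat.log_eq_iff (Or.inr ⟨by norm_num, by omega⟩)

theorem mass81_sq_le_of_scale (q K δ : ℝ) (hK : 0 ≤ K) (hδ : 0 ≤ δ) (d k : ℕ) (hq : |q| ≤ K * (δ * d + δ) ^ 2)
    (hk : mass81Scale d = k) : q ^ 2 ≤ K ^ 2 * (δ * 2 ^ (k + 1)) ^ 4 := by
  have h1 : d + 1 < 2 ^ (k + 1) := ((mass81Scale_eq_iff d k).1 hk).2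
  have h2 : (d : ℝ) + 1 ≤ 2 ^ (k + 1) := by exact_mod_cast h1.le
  have h3 : δ * d + δ ≤ δ * 2 ^ (k + 1) := by nlinarith
  have h4 : 0 ≤ δ * d + δ := by positivity
  have h5 : |q| ≤ K * (δ * 2 ^ (k + 1)) ^ 2 :=
    hq.trans (mul_le_mul_of_nonneg_left (pow_le_pow_left₀ h4 h3 2) hK)
  calc q ^ 2 = |q| ^ 2 := (sq_abs q).symm
    _ ≤ (K * (δ * 2 ^ (k + 1)) ^ 2) ^ 2 := pow_le_pow_left₀ (abs_nonneg q) h5 2
    _ = K ^ 2 * (δ * 2 ^ (k + 1)) ^ 4 := by ring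

/-- **(c)** `∑_C q_C² ≤ ∑_k K² (2 r_k)⁴ A_k`, `r_k = δ 2^k`, `A_k` = number of clusters at scale `k`. -/
theorem mass81_dyadic {ι : Type*} (I : Finset ι) (q : ι → ℝ) (d : ι → ℕ) (K δ : ℝ) (hK : 0 ≤ K) (hδ : 0 ≤ δ)
    (hq : ∀ C ∈ I, |q C| ≤ K * (δ * d C + δ) ^ 2) (M : ℕ) (hM : ∀ C ∈ I, d C + 1 < 2 ^ (M + 1)) :
    ∑ C ∈ I, q C ^ 2 ≤
      ∑ k ∈ range (M + 1), K ^ 2 * (δ * 2 ^ (k + 1)) ^ 4 * (#{C ∈ I | mass81Scale (d C) = k} : ℝ) := by
  have hmaps : ∀ C ∈ I, mass81Scale (d C) ∈ range (M + 1) := by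
    intro C hC
    rw [Finset.mem_range]
    exact Nat.log_lt_of_lt_pow (by omega) (hM C hC)
  rw [← Finset.sum_fiberwise_of_maps_to hmaps]
  refine Finset.sum_le_sum (fun k _ => ?_)
  have := Finset.sum_le_card_nsmul {C ∈ I | mass81Scale (d C) = k} (fun C => q C ^ 2)
    (K ^ 2 * (δ * 2 ^ (k + 1)) ^ 4) (fun C hC => by
      rw [Finset.mem_filter] at hC
      exact mass81_sq_le_of_scale (q C) K δ hK hδ (d C) k (hq C hC.1) hC.2)
  rw [nsmul_eq_mul] at this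
  linarith

/-! ## (d) Minkowski on a finite weighted space -/

/-- weighted `L^p` norm over a finite set of configurations. -/
noncomputable def mass81Lp {Ω : Type*} (s : Finset Ω) (w : Ω → ℝ) (p : ℝ) (X : Ω → ℝ) : ℝ :=
  (∑ ω ∈ s, w ω * |X ω| ^ p) ^ (1 / p)

section Lp
variable {Ω : Type*} (s : Finset Ω) (w : Ω → ℝ) (hw : ∀ ω ∈ s, 0 ≤ w ω) (p : ℝ)

include hw in
theorem mass81Lp_inner_nonneg (X : Ω → ℝ) : 0 ≤ ∑ ω ∈ s, w ω * |X ω| ^ p :=
  Finset.sum_nonneg (fun ω hω => mul_nonneg (hw ω hω) (Real.rpow_nonneg (abs_nonneg _) _))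

include hw in
theorem mass81Lp_nonneg (X : Ω → ℝ) : 0 ≤ mass81Lp s w p X :=
  Real.rpow_nonneg (mass81Lp_inner_nonneg s w hw p X) _

include hw in
theorem mass81Lp_eq (hp : 0 < p) (X : Ω → ℝ) :
    mass81Lp s w p X = (∑ ω ∈ s, |w ω ^ (1 / p) * X ω| ^ p) ^ (1 / p) := by
  unfold mass81Lp
  congr 1
  refine Finset.sum_congr rfl (fun ω hω => ?_)
  rw [abs_mul, Real.mul_rpow (abs_nonneg _) (abs_nonneg _), abs_of_nonneg (Real.rpow_nonneg (hw ω hω) _),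
    ← Real.rpow_mul (hw ω hω), one_div_mul_cancel hp.ne', Real.rpow_one]

include hw in
theorem mass81Lp_mono (hp : 0 < p) (X Y : Ω → ℝ) (h : ∀ ω ∈ s, |X ω| ≤ |Y ω|) :
    mass81Lp s w p X ≤ mass81Lp s w p Y := by
  unfold mass81Lp
  refine Real.rpow_le_rpow (mass81Lp_inner_nonneg s w hw p X) ?_ (by positivity)
  exact Finset.sum_le_sum (fun ω hω =>
    mul_le_mul_of_nonneg_left (Real.rpow_le_rpow (abs_nonneg _) (h ω hω) hp.le) (hw ω hω))

include hw in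
theorem mass81Lp_add_le (hp : 1 ≤ p) (X Y : Ω → ℝ) :
    mass81Lp s w p (fun ω => X ω + Y ω) ≤ mass81Lp s w p X + mass81Lp s w p Y := by
  have hp0 : 0 < p := by linarith
  rw [mass81Lp_eq s w hw p hp0, mass81Lp_eq s w hw p hp0, mass81Lp_eq s w hw p hp0]
  have := Real.Lp_add_le s (fun ω => w ω ^ (1 / p) * X ω) (fun ω => w ω ^ (1 / p) * Y ω) hp
  simpa only [mul_add] using this

theorem mass81Lp_zero (hp : 0 < p) : mass81Lp s w p (fun _ => 0) = 0 := by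
  unfold mass81Lp
  simp [Real.zero_rpow hp.ne', Real.zero_rpow (inv_pos.2 hp).ne']

include hw in
theorem mass81Lp_const_mul (hp : 0 < p) (c : ℝ) (X : Ω → ℝ) :
    mass81Lp s w p (fun ω => c * X ω) = |c| * mass81Lp s w p X := by
  unfold mass81Lp
  have : ∑ ω ∈ s, w ω * |c * X ω| ^ p = |c| ^ p * ∑ ω ∈ s, w ω * |X ω| ^ p := by
    rw [Finset.mul_sum]
    refine Finset.sum_congr rfl (fun ω _ => ?_)
    rw [abs_mul, Real.mul_rpow (abs_nonneg _) (abs_nonneg _)]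
    ring
  rw [this, Real.mul_rpow (Real.rpow_nonneg (abs_nonneg _) _) (mass81Lp_inner_nonneg s w hw p X),
    ← Real.rpow_mul (abs_nonneg _), mul_one_div_cancel hp.ne', Real.rpow_one]

include hw in
/-- Minkowski for a finite sum. -/
theorem mass81Lp_sum_le (hp : 1 ≤ p) {κ : Type*} (J : Finset κ) (A : κ → Ω → ℝ) :
    mass81Lp s w p (fun ω => ∑ j ∈ J, A j ω) ≤ ∑ j ∈ J, mass81Lp s w p (A j) := by
  classical
  induction J using Finset.induction_on with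
  | empty => simp [mass81Lp_zero s w p (by linarith : 0 < p)]
  | insert j J hj ih =>
    simp only [Finset.sum_insert hj]
    exact (mass81Lp_add_le s w hw p hp (A j) (fun ω => ∑ j ∈ J, A j ω)).trans (by linarith)

theorem mass81Lp_abs (X : Ω → ℝ) : mass81Lp s w p (fun ω => |X ω|) = mass81Lp s w p X := by
  unfold mass81Lp
  simp only [abs_abs]

include hw in
/-- a variable dominated by `a ∑_{j ∈ J} |A_j|`, with `‖A_j‖_p ≤ Cq`. -/
theorem mass81_norm_le_of_counts (hp : 1 ≤ p) {κ : Type*} (J : Finset κ) (A : κ → Ω → ℝ) (Cq : ℝ)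
    (hA : ∀ j ∈ J, mass81Lp s w p (A j) ≤ Cq) (X : Ω → ℝ) (a : ℝ) (ha : 0 ≤ a)
    (hX : ∀ ω ∈ s, |X ω| ≤ a * ∑ j ∈ J, |A j ω|) :
    mass81Lp s w p X ≤ a * ((#J : ℝ) * Cq) := by
  have hp0 : 0 < p := by linarith
  calc mass81Lp s w p X ≤ mass81Lp s w p (fun ω => a * ∑ j ∈ J, |A j ω|) := by
        refine mass81Lp_mono s w hw p hp0 _ _ (fun ω hω => (hX ω hω).trans (le_abs_self _))
    _ = a * mass81Lp s w p (fun ω => ∑ j ∈ J, |A j ω|) := by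
        rw [mass81Lp_const_mul s w hw p hp0, abs_of_nonneg ha]
    _ ≤ a * ∑ j ∈ J, mass81Lp s w p (fun ω => |A j ω|) :=
        mul_le_mul_of_nonneg_left (mass81Lp_sum_le s w hw p hp J (fun j ω => |A j ω|)) ha
    _ ≤ a * ∑ _j ∈ J, Cq := by
        refine mul_le_mul_of_nonneg_left (Finset.sum_le_sum (fun j hj => ?_)) ha
        rw [mass81Lp_abs]
        exact hA j hj
    _ = a * ((#J : ℝ) * Cq) := by rw [Finset.sum_const, nsmul_eq_mul]

include hw in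
/-- **(d)** one dyadic scale `r` : `O(r⁻²)` squares, `q_C² ≤ K² r⁴` : `‖∑_{C at scale r} q_C²‖_p ≤ K² c Cq r²`. -/
theorem mass81_scale_norm (hp : 1 ≤ p) {κ : Type*} (J : Finset κ) (A : κ → Ω → ℝ) (Cq : ℝ) (hCq : 0 ≤ Cq)
    (hA : ∀ j ∈ J, mass81Lp s w p (A j) ≤ Cq) (X : Ω → ℝ) (K r c : ℝ) (hr : 0 < r)
    (hJ : (#J : ℝ) ≤ c / r ^ 2) (hX : ∀ ω ∈ s, |X ω| ≤ K ^ 2 * r ^ 4 * ∑ j ∈ J, |A j ω|) :
    mass81Lp s w p X ≤ K ^ 2 * c * Cq * r ^ 2 := by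
  have h1 := mass81_norm_le_of_counts s w hw p hp J A Cq hA X (K ^ 2 * r ^ 4) (by positivity) hX
  have h2 : (#J : ℝ) * Cq ≤ c / r ^ 2 * Cq := mul_le_mul_of_nonneg_right hJ hCq
  calc mass81Lp s w p X ≤ K ^ 2 * r ^ 4 * ((#J : ℝ) * Cq) := h1
    _ ≤ K ^ 2 * r ^ 4 * (c / r ^ 2 * Cq) := mul_le_mul_of_nonneg_left h2 (by positivity)
    _ = K ^ 2 * c * Cq * r ^ 2 := by field_simp

end Lp


/-! ## (e) independent fair signs -/

/-- the sign of a fair bit. -/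
def mass81Sgn (x : Bool) : ℝ := if x then 1 else -1

theorem mass81_mgf {ι : Type*} [Fintype ι] [DecidableEq ι] (a : ι → ℝ) :
    ∑ ε : ι → Bool, Real.exp (∑ i, mass81Sgn (ε i) * a i) = 2 ^ Fintype.card ι * ∏ i, Real.cosh (a i) := by
  have h1 : ∀ ε : ι → Bool, Real.exp (∑ i, mass81Sgn (ε i) * a i) = ∏ i, Real.exp (mass81Sgn (ε i) * a i) :=
    fun ε => Real.exp_sum _ _
  simp only [h1]
  have h2 := Finset.prod_univ_sum (fun _ : ι => (Finset.univ : Finset Bool))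
    (fun i x => Real.exp (mass81Sgn x * a i))
  rw [Fintype.piFinset_univ] at h2
  rw [← h2]
  have h3 : ∀ i, ∑ x : Bool, Real.exp (mass81Sgn x * a i) = 2 * Real.cosh (a i) := by
    intro i
    rw [Fintype.sum_bool, Real.cosh_eq]
    simp only [mass81Sgn]
    simp
    ring
  simp only [h3]
  rw [Finset.prod_mul_distrib, Finset.prod_const, Finset.card_univ]

theorem mass81_cosh_sum {ι : Type*} [Fintype ι] [DecidableEq ι] (a : ι → ℝ) :
    ∑ ε : ι → Bool, Real.cosh (∑ i, mass81Sgn (ε i) * a i) = 2 ^ Fintype.card ι * ∏ i, Real.cosh (a i) := by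
  have h1 := mass81_mgf a
  have h2 := mass81_mgf (fun i => - a i)
  simp only [Real.cosh_neg, mul_neg, Finset.sum_neg_distrib] at h2
  have h3 : ∀ ε : ι → Bool, Real.cosh (∑ i, mass81Sgn (ε i) * a i) =
      (Real.exp (∑ i, mass81Sgn (ε i) * a i) + Real.exp (-∑ i, mass81Sgn (ε i) * a i)) / 2 :=
    fun ε => Real.cosh_eq _
  simp only [h3]
  rw [← Finset.sum_div, Finset.sum_add_distrib, h1, h2]
  ring

theorem mass81_pow_le_cosh (x : ℝ) (n : ℕ) : x ^ (2 * n) ≤ 2 * (2 * n).factorial * Real.cosh x := by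
  have h1 := Real.pow_div_factorial_le_exp |x| (abs_nonneg x) (2 * n)
  have h2 : Real.exp |x| ≤ 2 * Real.cosh x := by
    rw [Real.cosh_eq]
    rcases abs_cases x with ⟨h, -⟩ | ⟨h, -⟩ <;> rw [h]
    · have := Real.exp_pos (-x); linarith
    · have := Real.exp_pos x; linarith
  have h3 : (0 : ℝ) < (2 * n).factorial := by positivity
  have h4 : |x| ^ (2 * n) = x ^ (2 * n) := by
    rw [pow_mul, pow_mul, sq_abs]
  rw [div_le_iff₀ h3, h4] at h1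
  calc x ^ (2 * n) ≤ Real.exp |x| * (2 * n).factorial := h1
    _ ≤ (2 * Real.cosh x) * (2 * n).factorial := mul_le_mul_of_nonneg_right h2 h3.le
    _ = _ := by ring

theorem mass81_exp_half_le : Real.exp (1 / 2) ≤ 2 := by
  have h1 : Real.exp (1 / 2) ^ 2 = Real.exp 1 := by
    rw [← Real.exp_nat_mul]; norm_num
  have h2 := Real.exp_one_lt_d9
  have h3 := Real.exp_pos (1 / 2)
  nlinarith

/-- **(e)** Khintchine, all even moments : `E (∑ ε_i a_i)^{2m} ≤ 4 (2m)! (∑ a_i²)^m`. -/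
theorem mass81_khintchine {ι : Type*} [Fintype ι] [DecidableEq ι] (a : ι → ℝ) (m : ℕ) :
    ∑ ε : ι → Bool, (∑ i, mass81Sgn (ε i) * a i) ^ (2 * m) ≤
      2 ^ Fintype.card ι * (4 * (2 * m).factorial * (∑ i, a i ^ 2) ^ m) := by
  set V : ℝ := ∑ i, a i ^ 2 with hV
  have hV0 : 0 ≤ V := Finset.sum_nonneg (fun i _ => sq_nonneg _)
  rcases hV0.eq_or_lt with h0 | hpos
  · -- all coefficients vanish
    have ha : ∀ i, a i = 0 := by
      intro i
      have := (Finset.sum_eq_zero_iff_of_nonneg (fun i _ => sq_nonneg (a i))).1 h0.symm i (Finset.mem_univ i)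
      exact pow_eq_zero_iff (two_ne_zero) |>.1 this
    simp only [ha, mul_zero, Finset.sum_const_zero]
    rcases Nat.eq_zero_or_pos m with hm | hm
    · subst hm
      simp
    · rw [zero_pow (by omega), ← h0, zero_pow (by omega)]
      simp
  · set σ : ℝ := Real.sqrt V with hσ
    have hσpos : 0 < σ := Real.sqrt_pos.2 hpos
    have hσ2 : σ ^ 2 = V := Real.sq_sqrt hV0
    have h1 : ∀ ε : ι → Bool, (∑ i, mass81Sgn (ε i) * a i) ^ (2 * m) =
        V ^ m * (∑ i, mass81Sgn (ε i) * (a i / σ)) ^ (2 * m) := by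
      intro ε
      have : ∑ i, mass81Sgn (ε i) * (a i / σ) = (∑ i, mass81Sgn (ε i) * a i) / σ := by
        rw [Finset.sum_div]
        exact Finset.sum_congr rfl (fun i _ => by ring)
      rw [this, div_pow, pow_mul σ, hσ2]
      field_simp
    have h2 : ∑ ε : ι → Bool, (∑ i, mass81Sgn (ε i) * (a i / σ)) ^ (2 * m) ≤
        2 * (2 * m).factorial * (2 ^ Fintype.card ι * ∏ i, Real.cosh (a i / σ)) := by
      rw [← mass81_cosh_sum, Finset.mul_sum]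
      exact Finset.sum_le_sum (fun ε _ => mass81_pow_le_cosh _ _)
    have h3 : ∏ i, Real.cosh (a i / σ) ≤ 2 := by
      calc ∏ i, Real.cosh (a i / σ) ≤ ∏ i, Real.exp ((a i / σ) ^ 2 / 2) :=
            Finset.prod_le_prod (fun i _ => (Real.cosh_pos _).le) (fun i _ => Real.cosh_le_exp_half_sq _)
        _ = Real.exp (∑ i, (a i / σ) ^ 2 / 2) := (Real.exp_sum _ _).symm
        _ = Real.exp (1 / 2) := by
            congr 1
            have : ∀ i, (a i / σ) ^ 2 / 2 = a i ^ 2 / (2 * V) := by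
              intro i
              rw [div_pow, hσ2]
              field_simp
            simp only [this]
            rw [← Finset.sum_div, ← hV]
            field_simp
        _ ≤ 2 := mass81_exp_half_le
    simp only [h1]
    rw [← Finset.mul_sum]
    have hVm : 0 ≤ V ^ m := pow_nonneg hV0 m
    have hf : (0 : ℝ) < (2 * m).factorial := by positivity
    have h2n : (0 : ℝ) < 2 ^ Fintype.card ι := by positivity
    calc V ^ m * ∑ ε : ι → Bool, (∑ i, mass81Sgn (ε i) * (a i / σ)) ^ (2 * m)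
        ≤ V ^ m * (2 * (2 * m).factorial * (2 ^ Fintype.card ι * ∏ i, Real.cosh (a i / σ))) :=
          mul_le_mul_of_nonneg_left h2 hVm
      _ ≤ V ^ m * (2 * (2 * m).factorial * (2 ^ Fintype.card ι * 2)) := by
          gcongr
      _ = _ := by ring

/-- Khintchine over a finite subset of the index set (the other signs are spectators). -/
theorem mass81_khintchine_on {ι : Type*} [Fintype ι] [DecidableEq ι] (I : Finset ι) (a : ι → ℝ) (m : ℕ) :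
    ∑ ε : ι → Bool, (∑ i ∈ I, mass81Sgn (ε i) * a i) ^ (2 * m) ≤
      2 ^ Fintype.card ι * (4 * (2 * m).factorial * (∑ i ∈ I, a i ^ 2) ^ m) := by
  have h := mass81_khintchine (fun i => if i ∈ I then a i else 0) m
  have e1 : ∀ ε : ι → Bool, ∑ i, mass81Sgn (ε i) * (if i ∈ I then a i else 0) = ∑ i ∈ I, mass81Sgn (ε i) * a i := by
    intro ε
    simp only [mul_ite, mul_zero]
    rw [Finset.sum_ite_mem, Finset.univ_inter]
  have e2 : ∑ i, (if i ∈ I then a i else 0) ^ 2 = ∑ i ∈ I, a i ^ 2 := by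
    have : ∀ i, (if i ∈ I then a i else 0) ^ 2 = if i ∈ I then a i ^ 2 else 0 := by
      intro i; split_ifs <;> simp
    simp only [this]
    rw [Finset.sum_ite_mem, Finset.univ_inter]
  simp only [e1, e2] at h
  exact h

/-! ## (f) assembly -/

theorem mass81_geom4 (M : ℕ) : 3 * ∑ k ∈ range (M + 1), (4 : ℝ) ^ k ≤ 4 * 4 ^ M := by
  induction M with
  | zero => norm_num
  | succ M ih =>
    rw [Finset.sum_range_succ, pow_succ (4 : ℝ) M]
    nlinarith [pow_pos (show (0 : ℝ) < 4 by norm_num) M]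

/-- **small clusters** : summing the dyadic scales `δ ≤ r_k = δ 2^k ≤ ρ = δ 2^M` is harmless. -/
theorem mass81_small_norm {Ω ι κ : Type*} (s : Finset Ω) (w : Ω → ℝ) (hw : ∀ ω ∈ s, 0 ≤ w ω) (p : ℝ) (hp : 1 ≤ p)
    (I : Ω → Finset ι) (q : Ω → ι → ℝ) (d : Ω → ι → ℕ) (K δ : ℝ) (hK : 0 ≤ K) (hδ : 0 < δ)
    (hq : ∀ ω ∈ s, ∀ C ∈ I ω, |q ω C| ≤ K * (δ * d ω C + δ) ^ 2)
    (M : ℕ) (hM : ∀ ω ∈ s, ∀ C ∈ I ω, d ω C + 1 < 2 ^ (M + 1))
    (J : ℕ → Finset κ) (A : ℕ → κ → Ω → ℝ) (c Cq : ℝ) (hCq : 0 ≤ Cq)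
    (hJ : ∀ k ≤ M, (#(J k) : ℝ) ≤ c / (δ * 2 ^ k) ^ 2)
    (hA : ∀ k ≤ M, ∀ j ∈ J k, mass81Lp s w p (A k j) ≤ Cq)
    (hcount : ∀ ω ∈ s, ∀ k ≤ M, (#{C ∈ I ω | mass81Scale (d ω C) = k} : ℝ) ≤ ∑ j ∈ J k, |A k j ω|) :
    mass81Lp s w p (fun ω => ∑ C ∈ I ω, q ω C ^ 2) ≤ 64 / 3 * (K ^ 2 * c * Cq) * (δ * 2 ^ M) ^ 2 := by
  have hp0 : 0 < p := by linarith
  have hc : 0 ≤ c := by
    have h0 := hJ 0 (Nat.zero_le M)
    have h1 : (0 : ℝ) ≤ c / (δ * 2 ^ 0) ^ 2 := le_trans (Nat.cast_nonneg _) h0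
    have h2 : (0 : ℝ) < (δ * 2 ^ 0) ^ 2 := by positivity
    have := mul_nonneg h1 h2.le
    rwa [div_mul_cancel₀ _ h2.ne'] at this
  set Xk : ℕ → Ω → ℝ := fun k ω =>
    K ^ 2 * (δ * 2 ^ (k + 1)) ^ 4 * (#{C ∈ I ω | mass81Scale (d ω C) = k} : ℝ) with hXk
  have hXk0 : ∀ k ω, 0 ≤ Xk k ω := fun k ω => by positivity
  have h1 : mass81Lp s w p (fun ω => ∑ C ∈ I ω, q ω C ^ 2) ≤
      mass81Lp s w p (fun ω => ∑ k ∈ range (M + 1), Xk k ω) := by
    refine mass81Lp_mono s w hw p hp0 _ _ (fun ω hω => ?_)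
    rw [abs_of_nonneg (Finset.sum_nonneg (fun C _ => sq_nonneg _)),
      abs_of_nonneg (Finset.sum_nonneg (fun k _ => hXk0 k ω))]
    exact mass81_dyadic (I ω) (q ω) (d ω) K δ hK hδ.le (hq ω hω) M (hM ω hω)
  have h2 := mass81Lp_sum_le s w hw p hp (range (M + 1)) Xk
  have h3 : ∀ k ∈ range (M + 1), mass81Lp s w p (Xk k) ≤ 16 * (K ^ 2 * c * Cq) * δ ^ 2 * 4 ^ k := by
    intro k hk
    have hkM : k ≤ M := Nat.lt_succ_iff.1 (Finset.mem_range.1 hk)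
    have := mass81_scale_norm s w hw p hp (J k) (A k) Cq hCq (hA k hkM) (Xk k) (4 * K) (δ * 2 ^ k) c
      (by positivity) (hJ k hkM) (fun ω hω => by
        rw [abs_of_nonneg (hXk0 k ω)]
        have e : K ^ 2 * (δ * 2 ^ (k + 1)) ^ 4 = (4 * K) ^ 2 * (δ * 2 ^ k) ^ 4 := by
          rw [pow_succ]; ring
        simp only [hXk]
        rw [e]
        exact mul_le_mul_of_nonneg_left (hcount ω hω k hkM) (by positivity))
    have e2 : (4 * K) ^ 2 * c * Cq * (δ * 2 ^ k) ^ 2 = 16 * (K ^ 2 * c * Cq) * δ ^ 2 * 4 ^ k := by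
      have : (4 : ℝ) ^ k = (2 ^ k) ^ 2 := by rw [← pow_mul, mul_comm, pow_mul]; norm_num
      rw [this]; ring
    rw [e2] at this
    exact this
  have h4 : ∑ k ∈ range (M + 1), mass81Lp s w p (Xk k) ≤
      16 * (K ^ 2 * c * Cq) * δ ^ 2 * ∑ k ∈ range (M + 1), (4 : ℝ) ^ k := by
    rw [Finset.mul_sum]
    exact Finset.sum_le_sum h3
  have h5 := mass81_geom4 M
  have h6 : 0 ≤ 16 * (K ^ 2 * c * Cq) * δ ^ 2 := by positivity
  have h7 : (δ * 2 ^ M) ^ 2 = δ ^ 2 * 4 ^ M := by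
    have : (4 : ℝ) ^ M = (2 ^ M) ^ 2 := by rw [← pow_mul, mul_comm, pow_mul]; norm_num
    rw [this]; ring
  rw [h7]
  have h8 : 16 * (K ^ 2 * c * Cq) * δ ^ 2 * ∑ k ∈ range (M + 1), (4 : ℝ) ^ k ≤
      16 * (K ^ 2 * c * Cq) * δ ^ 2 * (4 / 3 * 4 ^ M) :=
    mul_le_mul_of_nonneg_left (by linarith) h6
  calc _ ≤ _ := h1
    _ ≤ _ := h2
    _ ≤ _ := h4
    _ ≤ _ := h8
    _ = _ := by ring

/-- **large clusters** : each coefficient is at most the total mass `K`, their number is a fixed finite sum of local counts. -/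
theorem mass81_big_norm {Ω ι κ : Type*} (s : Finset Ω) (w : Ω → ℝ) (hw : ∀ ω ∈ s, 0 ≤ w ω) (p : ℝ) (hp : 1 ≤ p)
    (I : Ω → Finset ι) (q : Ω → ι → ℝ) (K : ℝ)
    (hq : ∀ ω ∈ s, ∀ C ∈ I ω, |q ω C| ≤ K)
    (L : Finset κ) (N : κ → Ω → ℝ) (Cq : ℝ)
    (hN : ∀ l ∈ L, mass81Lp s w p (N l) ≤ Cq)
    (hcount : ∀ ω ∈ s, (#(I ω) : ℝ) ≤ ∑ l ∈ L, |N l ω|) :
    mass81Lp s w p (fun ω => ∑ C ∈ I ω, q ω C ^ 2) ≤ K ^ 2 * ((#L : ℝ) * Cq) := by
  refine mass81_norm_le_of_counts s w hw p hp L N Cq hN _ (K ^ 2) (sq_nonneg K) (fun ω hω => ?_)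
  rw [abs_of_nonneg (Finset.sum_nonneg (fun C _ => sq_nonneg _))]
  have h1 : ∑ C ∈ I ω, q ω C ^ 2 ≤ (#(I ω)) • K ^ 2 :=
    Finset.sum_le_card_nsmul _ _ _ (fun C hC => by
      rw [← sq_abs]
      exact pow_le_pow_left₀ (abs_nonneg _) (hq ω hω C hC) 2)
  rw [nsmul_eq_mul] at h1
  calc _ ≤ _ := h1
    _ = K ^ 2 * (#(I ω) : ℝ) := by ring
    _ ≤ _ := mul_le_mul_of_nonneg_left (hcount ω hω) (sq_nonneg K)

theorem mass81Lp_pow {Ω : Type*} (s : Finset Ω) (w : Ω → ℝ) (hw : ∀ ω ∈ s, 0 ≤ w ω) (m : ℕ) (hm : m ≠ 0)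
    (X : Ω → ℝ) : mass81Lp s w (m : ℝ) X ^ m = ∑ ω ∈ s, w ω * |X ω| ^ m := by
  unfold mass81Lp
  rw [one_div, Real.rpow_inv_natCast_pow (mass81Lp_inner_nonneg s w hw _ X) hm]
  simp only [Real.rpow_natCast]

/-- **moments** : conditionally on `ω` the signs are independent and fair, `Y = R + 2 ∑_C ε_C q_C`. -/
theorem mass81_moment {Ω ι : Type*} [Fintype ι] [DecidableEq ι] (s : Finset Ω) (w : Ω → ℝ) (hw : ∀ ω ∈ s, 0 ≤ w ω)
    (m : ℕ) (hm : m ≠ 0) (I : Ω → Finset ι) (q : Ω → ι → ℝ) (R : Ω → (ι → Bool) → ℝ) (R₀ : ℝ)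
    (hR : ∀ ω ∈ s, ∀ ε, |R ω ε| ≤ R₀) (B : ℝ)
    (hB : mass81Lp s w (m : ℝ) (fun ω => ∑ C ∈ I ω, q ω C ^ 2) ≤ B) :
    ∑ ω ∈ s, w ω * ((∑ ε : ι → Bool, (R ω ε + 2 * ∑ C ∈ I ω, mass81Sgn (ε C) * q ω C) ^ (2 * m)) /
        2 ^ Fintype.card ι) ≤
      2 ^ (2 * m - 1) * (R₀ ^ (2 * m) * ∑ ω ∈ s, w ω + 2 ^ (2 * m) * (4 * (2 * m).factorial) * B ^ m) := by
  have h2n : (0 : ℝ) < 2 ^ Fintype.card ι := by positivity
  have hcardB : (Fintype.card (ι → Bool) : ℝ) = 2 ^ Fintype.card ι := by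
    rw [Fintype.card_fun, Fintype.card_bool]; push_cast; rfl
  -- pointwise in ω
  have hpt : ∀ ω ∈ s, (∑ ε : ι → Bool, (R ω ε + 2 * ∑ C ∈ I ω, mass81Sgn (ε C) * q ω C) ^ (2 * m)) /
        2 ^ Fintype.card ι ≤
      2 ^ (2 * m - 1) * (R₀ ^ (2 * m) + 2 ^ (2 * m) * (4 * (2 * m).factorial) * |∑ C ∈ I ω, q ω C ^ 2| ^ m) := by
    intro ω hω
    rw [div_le_iff₀ h2n]
    have hk := mass81_khintchine_on (I ω) (q ω) m
    have h1 : ∀ ε : ι → Bool, (R ω ε + 2 * ∑ C ∈ I ω, mass81Sgn (ε C) * q ω C) ^ (2 * m) ≤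
        2 ^ (2 * m - 1) * (R₀ ^ (2 * m) + 2 ^ (2 * m) * (∑ C ∈ I ω, mass81Sgn (ε C) * q ω C) ^ (2 * m)) := by
      intro ε
      set x := R ω ε
      set y := ∑ C ∈ I ω, mass81Sgn (ε C) * q ω C
      have e1 : (x + 2 * y) ^ (2 * m) = |x + 2 * y| ^ (2 * m) := by
        rw [pow_mul, pow_mul, sq_abs]
      have e2 : |y| ^ (2 * m) = y ^ (2 * m) := by
        rw [pow_mul, pow_mul, sq_abs]
      have e3 : |x + 2 * y| ≤ |x| + 2 * |y| := by
        have := abs_add_le x (2 * y)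
        rwa [abs_mul, abs_two] at this
      calc (x + 2 * y) ^ (2 * m) = |x + 2 * y| ^ (2 * m) := e1
        _ ≤ (|x| + 2 * |y|) ^ (2 * m) := pow_le_pow_left₀ (abs_nonneg _) e3 _
        _ ≤ 2 ^ (2 * m - 1) * (|x| ^ (2 * m) + (2 * |y|) ^ (2 * m)) :=
            add_pow_le (abs_nonneg _) (by positivity) _
        _ ≤ 2 ^ (2 * m - 1) * (R₀ ^ (2 * m) + 2 ^ (2 * m) * y ^ (2 * m)) := by
            rw [mul_pow, e2]
            have := pow_le_pow_left₀ (abs_nonneg x) (hR ω hω ε) (2 * m)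
            gcongr
    calc ∑ ε : ι → Bool, (R ω ε + 2 * ∑ C ∈ I ω, mass81Sgn (ε C) * q ω C) ^ (2 * m)
        ≤ ∑ ε : ι → Bool, 2 ^ (2 * m - 1) * (R₀ ^ (2 * m) + 2 ^ (2 * m) *
            (∑ C ∈ I ω, mass81Sgn (ε C) * q ω C) ^ (2 * m)) := Finset.sum_le_sum (fun ε _ => h1 ε)
      _ = 2 ^ (2 * m - 1) * (2 ^ Fintype.card ι * R₀ ^ (2 * m) + 2 ^ (2 * m) *
            ∑ ε : ι → Bool, (∑ C ∈ I ω, mass81Sgn (ε C) * q ω C) ^ (2 * m)) := by
          rw [← Finset.mul_sum, Finset.sum_add_distrib, ← Finset.mul_sum, Finset.sum_const, Finset.card_univ,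
            nsmul_eq_mul, hcardB]
      _ ≤ 2 ^ (2 * m - 1) * (2 ^ Fintype.card ι * R₀ ^ (2 * m) + 2 ^ (2 * m) *
            (2 ^ Fintype.card ι * (4 * (2 * m).factorial * (∑ C ∈ I ω, q ω C ^ 2) ^ m))) := by
          gcongr
      _ = _ := by
          rw [abs_of_nonneg (Finset.sum_nonneg (fun C _ => sq_nonneg (q ω C)))]
          ring
  have hBm : ∑ ω ∈ s, w ω * |∑ C ∈ I ω, q ω C ^ 2| ^ m ≤ B ^ m := by
    rw [← mass81Lp_pow s w hw m hm]
    exact pow_le_pow_left₀ (mass81Lp_nonneg s w hw _ _) hB m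
  calc _ ≤ ∑ ω ∈ s, w ω * (2 ^ (2 * m - 1) * (R₀ ^ (2 * m) + 2 ^ (2 * m) * (4 * (2 * m).factorial) *
          |∑ C ∈ I ω, q ω C ^ 2| ^ m)) :=
        Finset.sum_le_sum (fun ω hω => mul_le_mul_of_nonneg_left (hpt ω hω) (hw ω hω))
    _ = 2 ^ (2 * m - 1) * (R₀ ^ (2 * m) * ∑ ω ∈ s, w ω + 2 ^ (2 * m) * (4 * (2 * m).factorial) *
          ∑ ω ∈ s, w ω * |∑ C ∈ I ω, q ω C ^ 2| ^ m) := by
        rw [Finset.mul_sum, Finset.mul_sum, ← Finset.sum_add_distrib, Finset.mul_sum]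
        exact Finset.sum_congr rfl (fun ω _ => by ring)
    _ ≤ _ := by gcongr

/-! ## (g) Lemma 5.2 reduced to the cut identity (MODEL) and to the moments of the local counts (RSW) -/

open scoped Classical in
/-- **AT Lemma 5.2, deterministic part.**  `ω` = the complete `(N,s)` data (weights `w`, any conditioning already inside `w`),
`I ω` = its clusters, `T ω C` the trace of the cluster `C`, `O ω C` the union of its odd holes, `q_C = ∑_{v ∈ O_C} b_v`,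
`Y = R + 2 ∑_C ε_C q_C` with independent fair signs.  INPUT: `L^m` bounds `Cq` for the assigned counts `A k j` of the small clusters
(scale `k`, square `j`, `O(r_k⁻²)` squares) and for the finitely many counts `N l` of the large ones.  OUTPUT: the moment of order `2m`. -/
theorem mass81_lemma52 {Ω ι κ κ' : Type*} [Fintype ι] [DecidableEq ι]
    (s : Finset Ω) (w : Ω → ℝ) (hw : ∀ ω ∈ s, 0 ≤ w ω) (m : ℕ) (hm : m ≠ 0)
    (b : ℤ × ℤ → ℝ) (S : Finset (ℤ × ℤ)) (hS : ∀ v, v ∉ S → b v = 0) (hneu : ∑ v ∈ S, b v = 0)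
    (K δ : ℝ) (hδ : 0 < δ) (hb : ∀ v, |b v| ≤ K * δ ^ 2) (hb1 : ∑ v ∈ S, |b v| ≤ K)
    (U : Set (ℤ × ℤ)) (hSU : (S : Set (ℤ × ℤ)) ⊆ U) (hU : Mass81Conn U)
    (I : Ω → Finset ι) (T : Ω → ι → Set (ℤ × ℤ)) (O : Ω → ι → Finset (ℤ × ℤ))
    (hO : ∀ ω ∈ s, ∀ C ∈ I ω, Mass81Holes (T ω C) (O ω C : Set (ℤ × ℤ)))
    (small : Ω → ι → Prop) (d : Ω → ι → ℕ)
    (hd : ∀ ω ∈ s, ∀ C ∈ I ω, small ω C →
      ∀ u ∈ T ω C, ∀ v ∈ T ω C, |u.1 - v.1| ≤ d ω C ∧ |u.2 - v.2| ≤ d ω C)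
    (M : ℕ) (hM : ∀ ω ∈ s, ∀ C ∈ I ω, small ω C → d ω C + 1 < 2 ^ (M + 1))
    (J : ℕ → Finset κ) (A : ℕ → κ → Ω → ℝ) (c Cq : ℝ) (hCq : 0 ≤ Cq)
    (hJ : ∀ k ≤ M, (#(J k) : ℝ) ≤ c / (δ * 2 ^ k) ^ 2)
    (hA : ∀ k ≤ M, ∀ j ∈ J k, mass81Lp s w (m : ℝ) (A k j) ≤ Cq)
    (hcount : ∀ ω ∈ s, ∀ k ≤ M,
      (#{C ∈ I ω | (¬ Disjoint (T ω C) U ∧ small ω C) ∧ mass81Scale (d ω C) = k} : ℝ) ≤ ∑ j ∈ J k, |A k j ω|)
    (L : Finset κ') (N : κ' → Ω → ℝ) (hN : ∀ l ∈ L, mass81Lp s w (m : ℝ) (N l) ≤ Cq)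
    (hcount' : ∀ ω ∈ s, (#{C ∈ I ω | ¬ Disjoint (T ω C) U ∧ ¬ small ω C} : ℝ) ≤ ∑ l ∈ L, |N l ω|)
    (R : Ω → (ι → Bool) → ℝ) (R₀ : ℝ) (hR : ∀ ω ∈ s, ∀ ε, |R ω ε| ≤ R₀) :
    ∑ ω ∈ s, w ω * ((∑ ε : ι → Bool,
        (R ω ε + 2 * ∑ C ∈ I ω, mass81Sgn (ε C) * ∑ v ∈ O ω C, b v) ^ (2 * m)) / 2 ^ Fintype.card ι) ≤
      2 ^ (2 * m - 1) * (R₀ ^ (2 * m) * ∑ ω ∈ s, w ω + 2 ^ (2 * m) * (4 * (2 * m).factorial) *
        (64 / 3 * (K ^ 2 * c * Cq) * (δ * 2 ^ M) ^ 2 + K ^ 2 * ((#L : ℝ) * Cq)) ^ m) := by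
  have hp : (1 : ℝ) ≤ (m : ℝ) := by exact_mod_cast Nat.one_le_iff_ne_zero.2 hm
  have hK : 0 ≤ K := by
    have h1 : 0 ≤ K * δ ^ 2 := le_trans (abs_nonneg _) (hb 0)
    have h2 : (0 : ℝ) < δ ^ 2 := by positivity
    exact nonneg_of_mul_nonneg_left h1 h2
  set q : Ω → ι → ℝ := fun ω C => ∑ v ∈ O ω C, b v with hq
  set Ism : Ω → Finset ι := fun ω => {C ∈ I ω | ¬ Disjoint (T ω C) U ∧ small ω C} with hIsm
  set Ibig : Ω → Finset ι := fun ω => {C ∈ I ω | ¬ Disjoint (T ω C) U ∧ ¬ small ω C} with hIbig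
  -- the splitting of the quadratic form
  have hsplit : ∀ ω ∈ s, ∑ C ∈ I ω, q ω C ^ 2 = ∑ C ∈ Ism ω, q ω C ^ 2 + ∑ C ∈ Ibig ω, q ω C ^ 2 := by
    intro ω hω
    rw [← Finset.sum_filter_add_sum_filter_not (I ω) (fun C => ¬ Disjoint (T ω C) U)]
    have h0 : ∑ C ∈ I ω with ¬ ¬ Disjoint (T ω C) U, q ω C ^ 2 = 0 := by
      refine Finset.sum_eq_zero (fun C hC => ?_)
      rw [Finset.mem_filter, not_not] at hC
      have := mass81_charge_zero b S hS hneu U hSU hU (T ω C) (O ω C) (hO ω hω C hC.1) hC.2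
      simp only [hq, this]
      norm_num
    rw [h0, add_zero,
      ← Finset.sum_filter_add_sum_filter_not ({C ∈ I ω | ¬ Disjoint (T ω C) U}) (fun C => small ω C),
      Finset.filter_filter, Finset.filter_filter]
  have hB1 : mass81Lp s w (m : ℝ) (fun ω => ∑ C ∈ Ism ω, q ω C ^ 2) ≤
      64 / 3 * (K ^ 2 * c * Cq) * (δ * 2 ^ M) ^ 2 := by
    refine mass81_small_norm s w hw (m : ℝ) hp Ism q d K δ hK hδ ?_ M ?_ J A c Cq hCq hJ hA ?_
    · intro ω hω C hC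
      rw [Finset.mem_filter] at hC
      exact mass81_charge_le b K δ hb (T ω C) (O ω C) (hO ω hω C hC.1) (d ω C) (hd ω hω C hC.1 hC.2.2)
    · intro ω hω C hC
      rw [Finset.mem_filter] at hC
      exact hM ω hω C hC.1 hC.2.2
    · intro ω hω k hk
      have := hcount ω hω k hk
      simp only [hIsm]
      rw [Finset.filter_filter]
      exact this
  have hB2 : mass81Lp s w (m : ℝ) (fun ω => ∑ C ∈ Ibig ω, q ω C ^ 2) ≤ K ^ 2 * ((#L : ℝ) * Cq) := by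
    refine mass81_big_norm s w hw (m : ℝ) hp Ibig q K ?_ L N Cq hN hcount'
    intro ω _ C _
    exact (mass81_charge_le_total b S (O ω C) hS).trans hb1
  have hB : mass81Lp s w (m : ℝ) (fun ω => ∑ C ∈ I ω, q ω C ^ 2) ≤
      64 / 3 * (K ^ 2 * c * Cq) * (δ * 2 ^ M) ^ 2 + K ^ 2 * ((#L : ℝ) * Cq) := by
    have h1 : mass81Lp s w (m : ℝ) (fun ω => ∑ C ∈ I ω, q ω C ^ 2) ≤
        mass81Lp s w (m : ℝ) (fun ω => ∑ C ∈ Ism ω, q ω C ^ 2 + ∑ C ∈ Ibig ω, q ω C ^ 2) :=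
      mass81Lp_mono s w hw _ (by linarith) _ _ (fun ω hω => by rw [hsplit ω hω])
    have h2 := mass81Lp_add_le s w hw (m : ℝ) hp (fun ω => ∑ C ∈ Ism ω, q ω C ^ 2)
      (fun ω => ∑ C ∈ Ibig ω, q ω C ^ 2)
    linarith
  exact mass81_moment s w hw m hm I q R R₀ hR _ hB

/-! ## (h) preparation of the array : neutralisation, transfer to the `s` sites -/

/-- an array of total mass `μ` is a neutral array plus `μ` times a point mass. -/
theorem mass81_neutralise (b : ℤ × ℤ → ℝ) (S : Finset (ℤ × ℤ)) (hS : ∀ v, v ∉ S → b v = 0) (v₀ : ℤ × ℤ) (hv₀ : v₀ ∈ S) :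
    (∀ v, v ∉ S → (b v - if v = v₀ then ∑ u ∈ S, b u else 0) = 0) ∧
    ∑ v ∈ S, (b v - if v = v₀ then ∑ u ∈ S, b u else 0) = 0 ∧
    (∀ H : ℤ × ℤ → ℝ, ∑ v ∈ S, b v * H v =
      ∑ v ∈ S, (b v - if v = v₀ then ∑ u ∈ S, b u else 0) * H v + (∑ u ∈ S, b u) * H v₀) ∧
    ∀ v, |b v - if v = v₀ then ∑ u ∈ S, b u else 0| ≤ |b v| + |∑ u ∈ S, b u| := by
  refine ⟨fun v hv => ?_, ?_, fun H => ?_, fun v => ?_⟩
  · have : v ≠ v₀ := fun h => hv (h ▸ hv₀)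
    rw [if_neg this, hS v hv, sub_zero]
  · rw [Finset.sum_sub_distrib, Finset.sum_ite_eq' S v₀, if_pos hv₀, sub_self]
  · simp only [sub_mul, ite_mul, zero_mul]
    rw [Finset.sum_sub_distrib, Finset.sum_ite_eq' S v₀, if_pos hv₀]
    ring
  · split_ifs
    · exact abs_sub _ _
    · rw [sub_zero]; exact le_add_of_nonneg_right (abs_nonneg _)

/-- transfer of the coefficients along a map `π` (nearest `s` site): the total mass is preserved. -/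
theorem mass81_transfer_mass (b : ℤ × ℤ → ℝ) (S : Finset (ℤ × ℤ)) (π : ℤ × ℤ → ℤ × ℤ) :
    ∑ u ∈ S.image π, ∑ v ∈ S with π v = u, b v = ∑ v ∈ S, b v :=
  Finset.sum_fiberwise_of_maps_to (fun _ hv => Finset.mem_image_of_mem π hv) _

/-- transfer of the coefficients: the insertion changes by at most `∑ |b_v|` when `|H v - H (π v)| ≤ 1`. -/
theorem mass81_transfer (b : ℤ × ℤ → ℝ) (S : Finset (ℤ × ℤ)) (π : ℤ × ℤ → ℤ × ℤ) (H : ℤ × ℤ → ℝ)
    (hH : ∀ v ∈ S, |H v - H (π v)| ≤ 1) :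
    |∑ v ∈ S, b v * H v - ∑ u ∈ S.image π, (∑ v ∈ S with π v = u, b v) * H u| ≤ ∑ v ∈ S, |b v| := by
  have h1 : ∑ u ∈ S.image π, (∑ v ∈ S with π v = u, b v) * H u = ∑ v ∈ S, b v * H (π v) := by
    rw [← Finset.sum_fiberwise_of_maps_to (fun _ hv => Finset.mem_image_of_mem π hv) (fun v => b v * H (π v))]
    refine Finset.sum_congr rfl (fun u _ => ?_)
    rw [Finset.sum_mul]
    refine Finset.sum_congr rfl (fun v hv => ?_)
    rw [(Finset.mem_filter.1 hv).2]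
  rw [h1, ← Finset.sum_sub_distrib]
  refine (Finset.abs_sum_le_sum_abs _ _).trans (Finset.sum_le_sum (fun v hv => ?_))
  rw [← mul_sub, abs_mul]
  exact mul_le_of_le_one_right (abs_nonneg _) (hH v hv)

/-- transfer of the coefficients: the total variation does not increase. -/
theorem mass81_transfer_abs (b : ℤ × ℤ → ℝ) (S : Finset (ℤ × ℤ)) (π : ℤ × ℤ → ℤ × ℤ) :
    ∑ u ∈ S.image π, |∑ v ∈ S with π v = u, b v| ≤ ∑ v ∈ S, |b v| := by
  rw [← Finset.sum_fiberwise_of_maps_to (fun _ hv => Finset.mem_image_of_mem π hv) (fun v => |b v|)]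
  exact Finset.sum_le_sum (fun u _ => Finset.abs_sum_le_sum_abs _ _)

/-! ## (i) localisation of the count : assignment to squares, far vertex, first exit -/

/-- the count of a family is the sum of the assigned counts. -/
theorem mass81_assign {ι κ : Type*} [DecidableEq κ] (I : Finset ι) (J : Finset κ) (a : ι → κ) (ha : ∀ C ∈ I, a C ∈ J) :
    (#I : ℝ) = ∑ j ∈ J, (#{C ∈ I | a C = j} : ℝ) := by
  rw [Finset.card_eq_sum_card_fiberwise ha]
  push_cast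
  rfl

/-- the cell of side `ℓ` (origin `a`) of a site. -/
def mass81Cell (a : ℤ × ℤ) (ℓ : ℕ) (v : ℤ × ℤ) : ℤ × ℤ := ((v.1 - a.1) / ℓ, (v.2 - a.2) / ℓ)

theorem mass81Cell_mem (a : ℤ × ℤ) (ℓ n : ℕ) (v : ℤ × ℤ) (hv : v ∈ Set.Icc a (a + ((n : ℤ), (n : ℤ)))) :
    mass81Cell a ℓ v ∈ Finset.Icc (0 : ℤ × ℤ) (((n / ℓ : ℕ) : ℤ), ((n / ℓ : ℕ) : ℤ)) := by
  have h1 : 0 ≤ v.1 - a.1 := sub_nonneg.2 hv.1.1
  have h2 : 0 ≤ v.2 - a.2 := sub_nonneg.2 hv.1.2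
  have h3 : v.1 - a.1 ≤ n := by have := hv.2.1; simp only [Prod.fst_add] at this; omega
  have h4 : v.2 - a.2 ≤ n := by have := hv.2.2; simp only [Prod.snd_add] at this; omega
  have key : ∀ x : ℤ, x ≤ n → x / (ℓ : ℤ) ≤ ((n / ℓ : ℕ) : ℤ) := by
    intro x hx
    rw [Int.natCast_div]
    rcases Nat.eq_zero_or_pos ℓ with h | h
    · subst h; simp
    · exact Int.ediv_le_ediv (by exact_mod_cast h) hx
  rw [Finset.mem_Icc]
  exact ⟨⟨Int.ediv_nonneg h1 (Int.natCast_nonneg _), Int.ediv_nonneg h2 (Int.natCast_nonneg _)⟩,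
    ⟨key _ h3, key _ h4⟩⟩

theorem mass81Cell_card (ℓ n : ℕ) :
    #(Finset.Icc (0 : ℤ × ℤ) (((n / ℓ : ℕ) : ℤ), ((n / ℓ : ℕ) : ℤ))) = (n / ℓ + 1) ^ 2 := by
  rw [Finset.card_Icc_prod, Int.card_Icc, Int.card_Icc]
  have : ((((n / ℓ : ℕ) : ℤ), ((n / ℓ : ℕ) : ℤ)) : ℤ × ℤ).1 + 1 - (0 : ℤ × ℤ).1 = ((n / ℓ + 1 : ℕ) : ℤ) := by
    simp
  have h2 : ((((n / ℓ : ℕ) : ℤ), ((n / ℓ : ℕ) : ℤ)) : ℤ × ℤ).2 + 1 - (0 : ℤ × ℤ).2 = ((n / ℓ + 1 : ℕ) : ℤ) := by
    simp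
  rw [this, h2, Int.toNat_natCast]
  ring

/-- `O(r⁻²)` cells : side `ℓ ≥ 2^k / a`, neighbourhood of lattice side `n`, `r = δ 2^k`. -/
theorem mass81Cell_card_le (ℓ n k a : ℕ) (hℓ : 2 ^ k ≤ a * ℓ) (δ : ℝ) (hδ : 0 < δ) :
    (((n / ℓ + 1) ^ 2 : ℕ) : ℝ) ≤ (a * (δ * n) + δ * 2 ^ k) ^ 2 / (δ * 2 ^ k) ^ 2 := by
  have hℓ0 : 0 < ℓ := by
    rcases Nat.eq_zero_or_pos ℓ with h | h
    · subst h; simp at hℓ
    · exact h
  have h1 : ((n / ℓ : ℕ) : ℝ) ≤ (n : ℝ) / ℓ := Nat.cast_div_le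
  have hℓR : (2 : ℝ) ^ k ≤ a * ℓ := by exact_mod_cast hℓ
  have h2k : (0 : ℝ) < 2 ^ k := by positivity
  have hℓpos : (0 : ℝ) < ℓ := by exact_mod_cast hℓ0
  have h2 : (n : ℝ) / ℓ ≤ a * n / 2 ^ k := by
    rw [div_le_div_iff₀ hℓpos h2k]
    have : (0 : ℝ) ≤ n := Nat.cast_nonneg n
    nlinarith
  have h3 : ((n / ℓ : ℕ) : ℝ) + 1 ≤ (a * (δ * n) + δ * 2 ^ k) / (δ * 2 ^ k) := by
    have : (a * (δ * n) + δ * 2 ^ k) / (δ * 2 ^ k) = a * n / 2 ^ k + 1 := by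
      field_simp
    rw [this]
    linarith
  push_cast
  rw [← div_pow]
  exact pow_le_pow_left₀ (by positivity) h3 2

/-- two sites of the same cell are at distance `< ℓ`. -/
theorem mass81Cell_close (a : ℤ × ℤ) (ℓ : ℕ) (hℓ : 0 < ℓ) (u v : ℤ × ℤ) (h : mass81Cell a ℓ u = mass81Cell a ℓ v) :
    |u.1 - v.1| < ℓ ∧ |u.2 - v.2| < ℓ := by
  have hℓ' : (0 : ℤ) < ℓ := by exact_mod_cast hℓ
  have h1 : (u.1 - a.1) / (ℓ : ℤ) = (v.1 - a.1) / (ℓ : ℤ) := congrArg Prod.fst h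
  have h2 : (u.2 - a.2) / (ℓ : ℤ) = (v.2 - a.2) / (ℓ : ℤ) := congrArg Prod.snd h
  have key : ∀ x y : ℤ, x / (ℓ : ℤ) = y / (ℓ : ℤ) → |x - y| < ℓ := by
    intro x y hxy
    have ex := Int.emod_add_mul_ediv x ℓ
    have ey := Int.emod_add_mul_ediv y ℓ
    have hx0 := Int.emod_nonneg x hℓ'.ne'
    have hy0 := Int.emod_nonneg y hℓ'.ne'
    have hx1 := Int.emod_lt_of_pos x hℓ'
    have hy1 := Int.emod_lt_of_pos y hℓ'
    rw [hxy] at ex
    rw [abs_lt]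
    constructor <;> linarith
  constructor
  · have := key _ _ h1
    have e : u.1 - a.1 - (v.1 - a.1) = u.1 - v.1 := by ring
    rwa [e] at this
  · have := key _ _ h2
    have e : u.2 - a.2 - (v.2 - a.2) = u.2 - v.2 := by ring
    rwa [e] at this

/-- a set of diameter `≥ n` has, seen from any site `x`, a point at distance `≥ n / 2`. -/
theorem mass81_far_vertex (u v x : ℤ × ℤ) (n : ℤ) (h : n ≤ max |u.1 - v.1| |u.2 - v.2|) :
    n ≤ 2 * max |x.1 - u.1| |x.2 - u.2| ∨ n ≤ 2 * max |x.1 - v.1| |x.2 - v.2| := by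
  by_contra hcon
  push Not at hcon
  obtain ⟨h1, h2⟩ := hcon
  have a1 := le_max_left |x.1 - u.1| |x.2 - u.2|
  have a2 := le_max_right |x.1 - u.1| |x.2 - u.2|
  have b1 := le_max_left |x.1 - v.1| |x.2 - v.2|
  have b2 := le_max_right |x.1 - v.1| |x.2 - v.2|
  have t1 : |u.1 - v.1| ≤ |x.1 - u.1| + |x.1 - v.1| := by
    have := abs_sub_le u.1 x.1 v.1
    rwa [abs_sub_comm u.1 x.1] at this
  have t2 : |u.2 - v.2| ≤ |x.2 - u.2| + |x.2 - v.2| := by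
    have := abs_sub_le u.2 x.2 v.2
    rwa [abs_sub_comm u.2 x.2] at this
  rcases le_max_iff.1 h with h | h <;> omega

/-- **first exit** : a connected set that starts in `Q` and leaves `Q` contains a path inside `Q` from the start to a site of `Q`
with a neighbour in the set outside `Q`. -/
theorem mass81_first_exit {T Q : Set (ℤ × ℤ)} (hT : Mass81Conn T) {u v : ℤ × ℤ} (hu : u ∈ T) (huQ : u ∈ Q)
    (hv : v ∈ T) (hvQ : v ∉ Q) :
    ∃ x y, x ∈ T ∧ x ∈ Q ∧ y ∈ T ∧ y ∉ Q ∧ mass81Adj x y ∧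
      Relation.ReflTransGen (fun a b => mass81Adj a b ∧ a ∈ T ∩ Q ∧ b ∈ T ∩ Q) u x := by
  have key : ∀ z, Relation.ReflTransGen (fun a b => mass81Adj a b ∧ a ∈ T ∧ b ∈ T) u z →
      (∃ x y, x ∈ T ∧ x ∈ Q ∧ y ∈ T ∧ y ∉ Q ∧ mass81Adj x y ∧
        Relation.ReflTransGen (fun a b => mass81Adj a b ∧ a ∈ T ∩ Q ∧ b ∈ T ∩ Q) u x) ∨
      (z ∈ Q ∧ Relation.ReflTransGen (fun a b => mass81Adj a b ∧ a ∈ T ∩ Q ∧ b ∈ T ∩ Q) u z) := by
    intro z hz
    induction hz with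
    | refl => exact Or.inr ⟨huQ, Relation.ReflTransGen.refl⟩
    | @tail y z _ hyz ih =>
      rcases ih with ih | ⟨hyQ, hpath⟩
      · exact Or.inl ih
      · by_cases hzQ : z ∈ Q
        · exact Or.inr ⟨hzQ, hpath.tail ⟨hyz.1, ⟨hyz.2.1, hyQ⟩, ⟨hyz.2.2, hzQ⟩⟩⟩
        · exact Or.inl ⟨y, z, hyz.2.1, hyQ, hyz.2.2, hzQ, hyz.1, hpath⟩
  rcases key v (hT u hu v hv) with h | ⟨h, -⟩
  · exact h
  · exact absurd h hvQ

/-- the equation lemmas of the definitions of this file are generated HERE (RULES.md, rule 6). -/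
theorem mass81_eqns_cite : True := by
  have := @mass81Adj.eq_1; have := @mass81Adj.eq_def
  have := @Mass81Holes.eq_1; have := @Mass81Holes.eq_def
  have := @Mass81Conn.eq_1; have := @Mass81Conn.eq_def
  have := @mass81Scale.eq_1; have := @mass81Scale.eq_def
  have := @mass81Lp.eq_1.{0}; have := @mass81Lp.eq_def.{0}
  have := @mass81Sgn.eq_1; have := @mass81Sgn.eq_def
  have := @mass81Cell.eq_1; have := @mass81Cell.eq_def
  trivial

end Claimed.Agent.R292
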