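import Claimed.Agent.R292.Defs.ScreenIns
import Claimed.Agent.R292.Defs.MODEL
import Claimed.Agent.R292.Rsw.Base122
import Claimed.Agent.R292.Screen.Mass81
import Claimed.Agent.R292.Spec.Close179

/-!
# Row 292 (S0540), Screen/Mom179 : AT LEMMA 5.2 (`lem:screen-pattern-moments`), `p = 2` = THE CONTRACT `scr_cut_mom`      (pen helper179; unit SCREEN, head helper229; prefix `smo_`, defs `smo*` / `Smo*`)      0 sorry

For `p = 2` neither Khintchine nor pattern comparison is needed.  Inputs (as HYPOTHESES, literal shapes): `exit_mdl_trans` at `k = 1` (`SmoTransH t 1`), `exit_rsw_plane`.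
1. clusters of `N` in `F` (`smoCl`), the flip of the colour of one cluster (`smoFlip`, `smo_flip_sum`: `rswSum` is invariant), `smo_orth` (colours of different clusters are orthogonal), `SmoOk` (configurations of nonzero weight)
2. oriented sums; `smoInc ω χ` = the L-path increment with the colour replaced by `χ` (linear in `χ`: `smo_inc_expand`); `smoY` the insertion, `smoQ .. C` the charge of a set of faces
3. **`smo_second`** : `E[Y² H] = E[V H]` for `H` blind to `D`;  **`smo_V_eq`** : `V = ∑_C Q_C²` over the clusters that meet the box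
4. the potential of a cluster: `SmoOk.closed` (closed around every face), `smo_grad_h/v` (path independence), **`SmoOk.pot`** (constant along steps not inside the corners of `C`, two-valued); `SmoPot.ext`, `SmoPot.charge_le`, `SmoPot.charge_le_total`
5. `smoDiam`, `SmoOk.Q_le` (`|Q_C| ≤ K (δ d + δ)²`), `SmoOk.Q_le_total`
6. `smo_first_exit`, `smo_reps`, **`smo_trans`** (clusters that meet `Q0` and leave `Q1` give `MdlTrans`), `smoK`, `smo_K_card_le(_trans)`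
**RESULT: `smo_cut_mom`** = the statement of `scr_cut_mom` (Screen/Cut229b) WORD FOR WORD, from `hT : SmoTransH t 1`, `hP : SmoPlaneH t`, `hJ : ∀ n, 1 ≤ n → RswJordan (rswBox 0 n)`; the contract closes by
`smo_cut_mom t ht1 ht2 (exit_mdl_trans t ht1 ht2 1) (exit_rsw_plane t ht1 ht2) hJ r c0 M hr hc0 m φ hφ hφs`.   (The mutual separation of the windows is not used.)
7. `smo_K_exp` (tail sum), cells `smoJ`, `SmoOk.V_le` (pointwise bound by the local counts), **`smo_core`** : `E_F[Y² 1_L] ≤ (∑_k K² (δ 2^{k+1})⁴ #J_k + K² #J_M) Cq P_F(L)`, every Jordan `F`, every exterior `(s,W)` event `L`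
8. `smo_num` (the dyadic sum is bounded)   9. `smo_ins_eq` (`scrSh a (scrIns δ 0 φ) = smoY a ρ β`, `β v = aspW δ (lap2 φ) (v - a)`)   10. `smoL` the pattern event, `smo_L_ext` (it is `MdlExt` of the big box)
11. `smo_loc` (locality), `smo_tendsto` (`scrPl` is the limit along the boxes), `smo_cut_mom`
-/

set_option autoImplicit false

namespace Claimed.Agent.R292

open Claims Claims.C0468 Filter Topology

/-! ## 1. clusters of the current `N`, colour flips -/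

theorem smo_step_symm {R : Finset (ℤ × ℤ)} {ω : RswCfg} {f g : ℤ × ℤ} (h : MdlNStep R ω f g) :
    MdlNStep R ω g f := by
  obtain ⟨hf, hg, e, he, ho⟩ := h
  exact ⟨hg, hf, e, he.symm, ho⟩

theorem smo_conn_symm {R : Finset (ℤ × ℤ)} {ω : RswCfg} {f g : ℤ × ℤ} (h : MdlNConn R ω f g) :
    MdlNConn R ω g f := by
  unfold MdlNConn at *
  induction h with
  | refl => exact Relation.ReflTransGen.refl
  | tail _ hbc ih => exact Relation.ReflTransGen.head (smo_step_symm hbc) ih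

theorem smo_conn_trans {R : Finset (ℤ × ℤ)} {ω : RswCfg} {f g h : ℤ × ℤ} (h1 : MdlNConn R ω f g)
    (h2 : MdlNConn R ω g h) : MdlNConn R ω f h := Relation.ReflTransGen.trans h1 h2

theorem smo_conn_congr {R : Finset (ℤ × ℤ)} {ω ω' : RswCfg} (hO : ω.O = ω'.O) (f g : ℤ × ℤ) :
    MdlNConn R ω f g ↔ MdlNConn R ω' f g := by
  have : MdlNStep R ω = MdlNStep R ω' := by
    funext f g
    unfold MdlNStep
    rw [hO]
  unfold MdlNConn
  rw [this]

theorem smo_conn_mono {R R' : Finset (ℤ × ℤ)} (hR : R ⊆ R') {ω : RswCfg} {f g : ℤ × ℤ}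
    (h : MdlNConn R ω f g) : MdlNConn R' ω f g := by
  unfold MdlNConn at *
  induction h with
  | refl => exact Relation.ReflTransGen.refl
  | tail _ hbc ih => exact ih.tail ⟨hR hbc.1, hR hbc.2.1, hbc.2.2⟩

open Classical in
/-- the cluster of the face `f` in `F`. -/
noncomputable def smoCl (F : Finset (ℤ × ℤ)) (ω : RswCfg) (f : ℤ × ℤ) : Finset (ℤ × ℤ) :=
  F.filter fun g => MdlNConn F ω f g

theorem smo_mem_cl {F : Finset (ℤ × ℤ)} {ω : RswCfg} {f g : ℤ × ℤ} :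
    g ∈ smoCl F ω f ↔ g ∈ F ∧ MdlNConn F ω f g := by
  classical
  unfold smoCl; rw [Finset.mem_filter]

theorem smo_cl_subset (F : Finset (ℤ × ℤ)) (ω : RswCfg) (f : ℤ × ℤ) : smoCl F ω f ⊆ F :=
  fun _ h => (smo_mem_cl.1 h).1

theorem smo_self_mem_cl {F : Finset (ℤ × ℤ)} {f : ℤ × ℤ} (hf : f ∈ F) (ω : RswCfg) :
    f ∈ smoCl F ω f := smo_mem_cl.2 ⟨hf, Relation.ReflTransGen.refl⟩

theorem smo_cl_congr {F : Finset (ℤ × ℤ)} {ω ω' : RswCfg} (hO : ω.O = ω'.O) (f : ℤ × ℤ) :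
    smoCl F ω f = smoCl F ω' f := by
  ext g; rw [smo_mem_cl, smo_mem_cl, smo_conn_congr hO]

theorem smo_cl_eq {F : Finset (ℤ × ℤ)} {ω : RswCfg} {f g : ℤ × ℤ} (h : g ∈ smoCl F ω f) :
    smoCl F ω g = smoCl F ω f := by
  have hc := (smo_mem_cl.1 h).2
  ext x
  rw [smo_mem_cl, smo_mem_cl]
  exact and_congr_right fun _ => ⟨fun h1 => smo_conn_trans hc h1, fun h1 => smo_conn_trans (smo_conn_symm hc) h1⟩

/-- a closed interior edge joins two faces of the same cluster. -/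
theorem smo_cl_edge {F : Finset (ℤ × ℤ)} {ω : RswCfg} (f : ℤ × ℤ) {e : (ℤ × ℤ) × Bool}
    (he : e ∈ rswInt F) (ho : e ∉ ω.O) : e.1 ∈ smoCl F ω f ↔ rswCo e ∈ smoCl F ω f := by
  obtain ⟨h1, h2⟩ := rsz_mem_int.1 he
  rw [smo_mem_cl, smo_mem_cl]
  constructor
  · rintro ⟨_, hc⟩
    exact ⟨h2, hc.tail ⟨h1, h2, e, Or.inl ⟨rfl, rfl⟩, ho⟩⟩
  · rintro ⟨_, hc⟩
    exact ⟨h1, hc.tail ⟨h2, h1, e, Or.inr ⟨rfl, rfl⟩, ho⟩⟩

/-- the flip of the colour of the cluster of `f`. -/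
noncomputable def smoFlip (F : Finset (ℤ × ℤ)) (f : ℤ × ℤ) (ω : RswCfg) : RswCfg :=
  ⟨ω.S, symmDiff ω.D (smoCl F ω f), ω.O⟩

theorem smo_flip_cl (F : Finset (ℤ × ℤ)) (f g : ℤ × ℤ) (ω : RswCfg) :
    smoCl F (smoFlip F f ω) g = smoCl F ω g := smo_cl_congr rfl g

theorem smo_flip_fac (t : ℝ) (F : Finset (ℤ × ℤ)) (f : ℤ × ℤ) (ω : RswCfg) {e : (ℤ × ℤ) × Bool}
    (he : e ∈ rswInt F) : rswFac t (smoFlip F f ω) e = rswFac t ω e := by
  by_cases ho : e ∈ ω.O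
  · unfold rswFac
    have : e ∈ (smoFlip F f ω).O := ho
    rw [if_pos this, if_pos ho]
    rfl
  · have h := smo_cl_edge f he ho
    have hD : (e.1 ∈ (smoFlip F f ω).D ↔ rswCo e ∈ (smoFlip F f ω).D) ↔ (e.1 ∈ ω.D ↔ rswCo e ∈ ω.D) := by
      simp only [smoFlip, Finset.mem_symmDiff]
      tauto
    unfold rswFac
    have ho' : e ∉ (smoFlip F f ω).O := ho
    rw [if_neg ho', if_neg ho]
    simp only [hD]
    rfl

theorem smo_flip_wt (t : ℝ) (F : Finset (ℤ × ℤ)) (b : Bool) (f : ℤ × ℤ) (ω : RswCfg) :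
    rswWt t F b (smoFlip F f ω) = rswWt t F b ω := by
  by_cases h : RswBc F b ω
  · rw [rsz_wt_of_bc h, rsz_wt_of_bc (show RswBc F b (smoFlip F f ω) from h)]
    exact Finset.prod_congr rfl fun e he => smo_flip_fac t F f ω he
  · rw [rsz_wt_eq_zero h, rsz_wt_eq_zero (show ¬ RswBc F b (smoFlip F f ω) from h)]

/-- **the flat sums are invariant under the flip of one cluster.** -/
theorem smo_flip_sum (t : ℝ) (F : Finset (ℤ × ℤ)) (b : Bool) (f : ℤ × ℤ) (X : RswCfg → ℝ) :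
    rswSum t F b (fun ω => X (smoFlip F f ω)) = rswSum t F b X := by
  unfold rswSum
  refine Finset.sum_congr rfl fun S _ => ?_
  rw [Finset.sum_comm, Finset.sum_comm (s := F.powerset)]
  refine Finset.sum_congr rfl fun O _ => ?_
  set C := smoCl F ⟨S, ∅, O⟩ f with hC
  have hCF : C ⊆ F := smo_cl_subset _ _ _
  have hcl : ∀ D, smoCl F ⟨S, D, O⟩ f = C := fun D => smo_cl_congr rfl f
  have hfl : ∀ D, smoFlip F f ⟨S, D, O⟩ = ⟨S, symmDiff D C, O⟩ := by
    intro D; unfold smoFlip; rw [hcl]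
  refine Finset.sum_nbij' (fun D => symmDiff D C) (fun D => symmDiff D C) ?_ ?_ ?_ ?_ ?_
  · intro D hD
    rw [Finset.mem_powerset] at hD ⊢
    intro x hx
    rcases Finset.mem_symmDiff.1 hx with h | h
    · exact hD h.1
    · exact hCF h.1
  · intro D hD
    rw [Finset.mem_powerset] at hD ⊢
    intro x hx
    rcases Finset.mem_symmDiff.1 hx with h | h
    · exact hD h.1
    · exact hCF h.1
  · intro D _; exact symmDiff_symmDiff_cancel_right C D
  · intro D _; exact symmDiff_symmDiff_cancel_right C D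
  · intro D _
    show rswWt t F b ⟨S, D, O⟩ * X (smoFlip F f ⟨S, D, O⟩) = _
    rw [hfl, ← hfl D, smo_flip_wt]

theorem smo_D_flip_mem {F : Finset (ℤ × ℤ)} {f g : ℤ × ℤ} {ω : RswCfg} (hg : g ∈ smoCl F ω f) :
    scrD (smoFlip F f ω) g = -scrD ω g := by
  unfold scrD
  by_cases h : g ∈ ω.D
  · have : g ∉ (smoFlip F f ω).D := by
      simp only [smoFlip, Finset.mem_symmDiff]; tauto
    rw [if_neg this, if_pos h]
  · have : g ∈ (smoFlip F f ω).D := by
      simp only [smoFlip, Finset.mem_symmDiff]; tauto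
    rw [if_pos this, if_neg h]; ring

theorem smo_D_flip_not_mem {F : Finset (ℤ × ℤ)} {f g : ℤ × ℤ} {ω : RswCfg} (hg : g ∉ smoCl F ω f) :
    scrD (smoFlip F f ω) g = scrD ω g := by
  unfold scrD
  have : g ∈ (smoFlip F f ω).D ↔ g ∈ ω.D := by
    simp only [smoFlip, Finset.mem_symmDiff]; tauto
  simp only [this]

/-- `H` does not read the colours `D`. -/
def SmoBlind (H : RswCfg → ℝ) : Prop := ∀ ω ω' : RswCfg, ω.S = ω'.S → ω.O = ω'.O → H ω = H ω'

open Classical in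
/-- **orthogonality of the colours of two different clusters.** -/
theorem smo_orth (t : ℝ) (F : Finset (ℤ × ℤ)) (b : Bool) {f : ℤ × ℤ} (hf : f ∈ F) (g : ℤ × ℤ)
    {H : RswCfg → ℝ} (hH : SmoBlind H) :
    rswSum t F b (fun ω => if g ∈ smoCl F ω f then 0 else scrD ω f * scrD ω g * H ω) = 0 := by
  have h := smo_flip_sum t F b f (fun ω => if g ∈ smoCl F ω f then 0 else scrD ω f * scrD ω g * H ω)
  have h2 : (fun ω => (fun ω => if g ∈ smoCl F ω f then 0 else scrD ω f * scrD ω g * H ω) (smoFlip F f ω))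
      = fun ω => (-1) * (if g ∈ smoCl F ω f then 0 else scrD ω f * scrD ω g * H ω) := by
    funext ω
    simp only [smo_flip_cl]
    by_cases hg : g ∈ smoCl F ω f
    · simp [hg]
    · simp only [if_neg hg]
      rw [smo_D_flip_mem (smo_self_mem_cl hf ω), smo_D_flip_not_mem hg,
        hH (smoFlip F f ω) ω rfl rfl]
      ring
  rw [h2, rsz_sum_smul] at h
  linarith

/-- the configurations that count: in the range of `rswSum`, of nonzero weight. -/
structure SmoOk (t : ℝ) (F : Finset (ℤ × ℤ)) (ω : RswCfg) : Prop where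
  hS : ω.S ⊆ cornersOf F
  hD : ω.D ⊆ F
  hO : ω.O ⊆ rswInt F
  hw : rswWt t F true ω ≠ 0

theorem SmoOk.bc {t : ℝ} {F : Finset (ℤ × ℤ)} {ω : RswCfg} (h : SmoOk t F ω) : RswBc F true ω := by
  by_contra hb
  exact h.hw (rsz_wt_eq_zero hb)

theorem SmoOk.fac {t : ℝ} {F : Finset (ℤ × ℤ)} {ω : RswCfg} (h : SmoOk t F ω) {e : (ℤ × ℤ) × Bool}
    (he : e ∈ rswInt F) : rswFac t ω e ≠ 0 := by
  have := h.hw
  rw [rsz_wt_of_bc h.bc] at this
  exact (Finset.prod_ne_zero_iff.1 this) e he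

/-- an open interior edge has equal spins. -/
theorem SmoOk.open_agree {t : ℝ} {F : Finset (ℤ × ℤ)} {ω : RswCfg} (h : SmoOk t F ω)
    {e : (ℤ × ℤ) × Bool} (he : e ∈ ω.O) : (e.1 ∈ ω.S ↔ rswEnd e ∈ ω.S) := by
  have h1 := h.fac (h.hO he)
  unfold rswFac at h1
  rw [if_pos he] at h1
  by_contra hc
  rw [if_neg hc] at h1
  exact h1 rfl

/-- a closed interior edge has equal colours. -/
theorem SmoOk.closed_agree {t : ℝ} {F : Finset (ℤ × ℤ)} {ω : RswCfg} (h : SmoOk t F ω)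
    {e : (ℤ × ℤ) × Bool} (he : e ∈ rswInt F) (ho : e ∉ ω.O) : (e.1 ∈ ω.D ↔ rswCo e ∈ ω.D) := by
  have h1 := h.fac he
  unfold rswFac at h1
  rw [if_neg ho] at h1
  by_contra hc
  rw [if_neg hc] at h1
  exact h1 rfl

/-- the colour is constant on a cluster. -/
theorem SmoOk.colour {t : ℝ} {F : Finset (ℤ × ℤ)} {ω : RswCfg} (h : SmoOk t F ω) {f g : ℤ × ℤ}
    (hg : MdlNConn F ω f g) : scrD ω g = scrD ω f := by
  unfold MdlNConn at hg
  induction hg with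
  | refl => rfl
  | tail _ hbc ih =>
    rw [← ih]
    obtain ⟨hb, hc, e, he, ho⟩ := hbc
    unfold scrD
    rcases he with ⟨rfl, rfl⟩ | ⟨rfl, rfl⟩
    · have := h.closed_agree (rsz_mem_int.2 ⟨hb, hc⟩) ho
      simp only [this]
    · have := h.closed_agree (rsz_mem_int.2 ⟨hc, hb⟩) ho
      simp only [this]

theorem smo_D_sq (ω : RswCfg) (f : ℤ × ℤ) : scrD ω f * scrD ω f = 1 := by
  unfold scrD; split_ifs <;> norm_num

/-! ## 2. oriented sums, the linear functional of the colours -/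

theorem smo_osum_self (a : ℤ) (g : ℤ → ℝ) : scrOsum a a g = 0 := by
  unfold scrOsum; simp

theorem smo_osum_succ (a b : ℤ) (g : ℤ → ℝ) : scrOsum a (b + 1) g = scrOsum a b g + g b := by
  unfold scrOsum
  by_cases h : a ≤ b
  · rw [if_pos h, if_pos (by omega)]
    have : Finset.Ico a (b + 1) = insert b (Finset.Ico a b) := by
      ext x; simp only [Finset.mem_Ico, Finset.mem_insert]; omega
    rw [this, Finset.sum_insert (by simp)]; ring
  · rw [if_neg h]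
    have e : Finset.Ico b a = insert b (Finset.Ico (b + 1) a) := by
      ext x; simp only [Finset.mem_Ico, Finset.mem_insert]; omega
    rw [e, Finset.sum_insert (by simp)]
    by_cases h2 : a ≤ b + 1
    · have : a = b + 1 := by omega
      subst this
      simp
    · rw [if_neg h2]; ring

theorem smo_osum_congr {a b : ℤ} {g g' : ℤ → ℝ}
    (h : ∀ x, min a b ≤ x → x < max a b → g x = g' x) : scrOsum a b g = scrOsum a b g' := by
  unfold scrOsum
  split_ifs with hab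
  · refine Finset.sum_congr rfl fun x hx => ?_
    rw [Finset.mem_Ico] at hx
    exact h x (by rw [min_eq_left hab]; exact hx.1) (by rw [max_eq_right hab]; exact hx.2)
  · congr 1
    refine Finset.sum_congr rfl fun x hx => ?_
    rw [Finset.mem_Ico] at hx
    have hba : b ≤ a := by omega
    exact h x (by rw [min_eq_right hba]; exact hx.1) (by rw [max_eq_left hba]; exact hx.2)

theorem smo_osum_sum {ι : Type*} (s : Finset ι) (c : ι → ℝ) (G : ι → ℤ → ℝ) (a b : ℤ) :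
    scrOsum a b (fun x => ∑ i ∈ s, c i * G i x) = ∑ i ∈ s, c i * scrOsum a b (G i) := by
  unfold scrOsum
  split_ifs
  · rw [Finset.sum_comm]
    exact Finset.sum_congr rfl fun i _ => (Finset.mul_sum _ _ _).symm
  · rw [Finset.sum_comm, ← Finset.sum_neg_distrib]
    refine Finset.sum_congr rfl fun i _ => ?_
    rw [← Finset.mul_sum]; ring

theorem smo_osum_shift (a b c : ℤ) (g : ℤ → ℝ) :
    scrOsum (a + c) (b + c) g = scrOsum a b (fun x => g (x + c)) := by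
  have key : ∀ p q : ℤ, ∑ x ∈ Finset.Ico (p + c) (q + c), g x = ∑ x ∈ Finset.Ico p q, g (x + c) := by
    intro p q
    refine (Finset.sum_nbij' (fun x => x + c) (fun x => x - c) ?_ ?_ ?_ ?_ ?_).symm
    · intro x hx; rw [Finset.mem_Ico] at hx ⊢; omega
    · intro x hx; rw [Finset.mem_Ico] at hx ⊢; omega
    · intro x _; ring
    · intro x _; ring
    · intro x _; rfl
  unfold scrOsum
  by_cases h : a ≤ b
  · rw [if_pos h, if_pos (by omega), key]
  · rw [if_neg h, if_neg (by omega), key]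

/-- a function on `ℤ` with vanishing increments is constant. -/
theorem smo_const_of_succ {c : ℤ → ℝ} (h : ∀ y, c (y + 1) = c y) (y y' : ℤ) : c y = c y' := by
  have key : ∀ y, c y = c 0 := by
    intro y
    induction y using Int.induction_on with
    | zero => rfl
    | succ i ih => rw [h, ih]
    | pred i ih =>
      have := h (-(i : ℤ) - 1)
      rw [sub_add_cancel] at this
      rw [← this, ih]
  rw [key y, key y']

/-- the indicator of a set of faces. -/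
noncomputable def smoI (C : Finset (ℤ × ℤ)) (f : ℤ × ℤ) : ℝ := if f ∈ C then 1 else 0

/-- the step of the height with the colour replaced by `χ`. -/
noncomputable def smoTh (ω : RswCfg) (χ : ℤ × ℤ → ℝ) (e : (ℤ × ℤ) × Bool) : ℝ :=
  (scrS ω e.1 - scrS ω (rswEnd e)) * χ e.1 / 2

/-- the increment along the L-shaped path with the colour replaced by `χ`. -/
noncomputable def smoInc (ω : RswCfg) (χ : ℤ × ℤ → ℝ) (v₀ v : ℤ × ℤ) : ℝ :=
  scrOsum v₀.1 v.1 (fun x => smoTh ω χ ((x, v₀.2), false)) +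
    scrOsum v₀.2 v.2 (fun y => smoTh ω χ ((v.1, y), true))

theorem smo_inc_D (ω : RswCfg) (v₀ v : ℤ × ℤ) : scrInc ω v₀ v = smoInc ω (scrD ω) v₀ v := rfl

/-- the box of sites (also used as a box of faces) of radius `ρ` around `a`. -/
noncomputable def smoB (a : ℤ × ℤ) (ρ : ℕ) : Finset (ℤ × ℤ) :=
  Finset.Icc (a.1 - ρ) (a.1 + ρ) ×ˢ Finset.Icc (a.2 - ρ) (a.2 + ρ)

theorem smo_mem_B {a : ℤ × ℤ} {ρ : ℕ} {v : ℤ × ℤ} :
    v ∈ smoB a ρ ↔ (a.1 - ρ ≤ v.1 ∧ v.1 ≤ a.1 + ρ) ∧ (a.2 - ρ ≤ v.2 ∧ v.2 ≤ a.2 + ρ) := by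
  unfold smoB; rw [Finset.mem_product, Finset.mem_Icc, Finset.mem_Icc]

theorem smo_th_expand {B : Finset (ℤ × ℤ)} (ω : RswCfg) (χ : ℤ × ℤ → ℝ) {e : (ℤ × ℤ) × Bool}
    (he : e.1 ∈ B) : smoTh ω χ e = ∑ f ∈ B, χ f * smoTh ω (smoI {f}) e := by
  rw [Finset.sum_eq_single e.1]
  · unfold smoTh smoI; simp; ring
  · intro f _ hf
    unfold smoTh smoI
    rw [if_neg (by rw [Finset.mem_singleton]; exact fun h => hf h.symm)]; ring
  · intro h; exact absurd he h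

/-- the increment is a linear function of the colours of the faces of the box. -/
theorem smo_inc_expand {a : ℤ × ℤ} {ρ : ℕ} {v₀ v : ℤ × ℤ} (h0 : v₀ ∈ smoB a ρ) (hv : v ∈ smoB a ρ)
    (ω : RswCfg) (χ : ℤ × ℤ → ℝ) :
    smoInc ω χ v₀ v = ∑ f ∈ smoB a ρ, χ f * smoInc ω (smoI {f}) v₀ v := by
  rw [smo_mem_B] at h0 hv
  unfold smoInc
  simp only [mul_add]
  rw [Finset.sum_add_distrib, ← smo_osum_sum, ← smo_osum_sum]
  congr 1
  · refine smo_osum_congr fun x h1 h2 => smo_th_expand ω χ ?_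
    rw [smo_mem_B]
    simp only
    rcases le_total v₀.1 v.1 with h | h
    · rw [min_eq_left h] at h1; rw [max_eq_right h] at h2; omega
    · rw [min_eq_right h] at h1; rw [max_eq_left h] at h2; omega
  · refine smo_osum_congr fun x h1 h2 => smo_th_expand ω χ ?_
    rw [smo_mem_B]
    simp only
    rcases le_total v₀.2 v.2 with h | h
    · rw [min_eq_left h] at h1; rw [max_eq_right h] at h2; omega
    · rw [min_eq_right h] at h1; rw [max_eq_left h] at h2; omega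

theorem smo_S_congr {ω ω' : RswCfg} (h : ω.S = ω'.S) (v : ℤ × ℤ) : scrS ω v = scrS ω' v := by
  unfold scrS; rw [h]

theorem smo_inc_congr {ω ω' : RswCfg} (h : ω.S = ω'.S) (χ : ℤ × ℤ → ℝ) (v₀ v : ℤ × ℤ) :
    smoInc ω χ v₀ v = smoInc ω' χ v₀ v := by
  unfold smoInc smoTh
  simp only [smo_S_congr h]

/-- the charge of the set of faces `C` : `∑_v β_v g_C(v)`. -/
noncomputable def smoQ (a : ℤ × ℤ) (ρ : ℕ) (β : ℤ × ℤ → ℝ) (ω : RswCfg) (C : Finset (ℤ × ℤ)) : ℝ :=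
  ∑ v ∈ smoB a ρ, β v * smoInc ω (smoI C) a v

/-- the insertion. -/
noncomputable def smoY (a : ℤ × ℤ) (ρ : ℕ) (β : ℤ × ℤ → ℝ) (ω : RswCfg) : ℝ :=
  ∑ v ∈ smoB a ρ, β v * scrInc ω a v

theorem smo_a_mem_B (a : ℤ × ℤ) (ρ : ℕ) : a ∈ smoB a ρ := by
  rw [smo_mem_B]; omega

theorem smo_Y_expand (a : ℤ × ℤ) (ρ : ℕ) (β : ℤ × ℤ → ℝ) (ω : RswCfg) :
    smoY a ρ β ω = ∑ f ∈ smoB a ρ, scrD ω f * smoQ a ρ β ω {f} := by
  unfold smoY smoQ
  simp only [Finset.mul_sum]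
  rw [Finset.sum_comm]
  refine Finset.sum_congr rfl fun v hv => ?_
  rw [smo_inc_D, smo_inc_expand (smo_a_mem_B a ρ) hv, Finset.mul_sum]
  exact Finset.sum_congr rfl fun f _ => by ring

theorem smo_Q_expand (a : ℤ × ℤ) (ρ : ℕ) (β : ℤ × ℤ → ℝ) (ω : RswCfg) (C : Finset (ℤ × ℤ)) :
    smoQ a ρ β ω C = ∑ f ∈ smoB a ρ, smoI C f * smoQ a ρ β ω {f} := by
  unfold smoQ
  simp only [Finset.mul_sum]
  rw [Finset.sum_comm]
  refine Finset.sum_congr rfl fun v hv => ?_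
  rw [smo_inc_expand (smo_a_mem_B a ρ) hv ω (smoI C), Finset.mul_sum]
  exact Finset.sum_congr rfl fun f _ => by ring

theorem smo_Q_blind (a : ℤ × ℤ) (ρ : ℕ) (β : ℤ × ℤ → ℝ) (C : Finset (ℤ × ℤ)) :
    SmoBlind fun ω => smoQ a ρ β ω C := by
  intro ω ω' hS _
  unfold smoQ
  simp only [smo_inc_congr hS]

/-! ## 3. the second moment given `(S, O)` -/

/-- the conditional second moment of the insertion given `(S, O)`. -/
noncomputable def smoV (F : Finset (ℤ × ℤ)) (a : ℤ × ℤ) (ρ : ℕ) (β : ℤ × ℤ → ℝ) (ω : RswCfg) : ℝ :=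
  ∑ f ∈ smoB a ρ, smoQ a ρ β ω {f} * smoQ a ρ β ω (smoCl F ω f)

/-- **the colours of the clusters are fair and orthogonal**: the second moment of the insertion against any
observable that does not read the colours. -/
theorem smo_second (t : ℝ) {F : Finset (ℤ × ℤ)} {a : ℤ × ℤ} {ρ : ℕ} (hB : smoB a ρ ⊆ F)
    (β : ℤ × ℤ → ℝ) {H : RswCfg → ℝ} (hH : SmoBlind H) :
    rswSum t F true (fun ω => smoY a ρ β ω ^ 2 * H ω) = rswSum t F true (fun ω => smoV F a ρ β ω * H ω) := by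
  classical
  set y : RswCfg → ℤ × ℤ → ℝ := fun ω f => smoQ a ρ β ω {f} with hy
  have hyb : ∀ f, SmoBlind fun ω => y ω f := fun f => smo_Q_blind a ρ β {f}
  have h1 : (fun ω => smoY a ρ β ω ^ 2 * H ω) = fun ω => ∑ f ∈ smoB a ρ, ∑ g ∈ smoB a ρ,
      ((if g ∈ smoCl F ω f then scrD ω f * scrD ω g * (y ω f * y ω g * H ω) else 0)
        + (if g ∈ smoCl F ω f then 0 else scrD ω f * scrD ω g * (y ω f * y ω g * H ω))) := by
    funext ω
    rw [smo_Y_expand, sq, Finset.sum_mul_sum, Finset.sum_mul]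
    refine Finset.sum_congr rfl fun f _ => ?_
    rw [Finset.sum_mul]
    refine Finset.sum_congr rfl fun g _ => ?_
    split_ifs <;> simp only [hy] <;> ring
  have h2 : (fun ω => smoV F a ρ β ω * H ω) = fun ω => ∑ f ∈ smoB a ρ, ∑ g ∈ smoB a ρ,
      smoI (smoCl F ω f) g * (y ω f * y ω g * H ω) := by
    funext ω
    unfold smoV
    rw [Finset.sum_mul]
    refine Finset.sum_congr rfl fun f _ => ?_
    rw [smo_Q_expand a ρ β ω (smoCl F ω f), Finset.mul_sum, Finset.sum_mul]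
    refine Finset.sum_congr rfl fun g _ => ?_
    simp only [hy]; ring
  rw [h1, h2, rsz_sum_fsum, rsz_sum_fsum]
  refine Finset.sum_congr rfl fun f hf => ?_
  rw [rsz_sum_fsum, rsz_sum_fsum]
  refine Finset.sum_congr rfl fun g _ => ?_
  rw [rsz_sum_add]
  have hb : SmoBlind fun ω => y ω f * y ω g * H ω := by
    intro ω ω' hS hO
    show y ω f * y ω g * H ω = y ω' f * y ω' g * H ω'
    have e1 : y ω f = y ω' f := hyb f ω ω' hS hO
    have e2 : y ω g = y ω' g := hyb g ω ω' hS hO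
    rw [e1, e2, hH ω ω' hS hO]
  rw [smo_orth t F true (hB hf) g hb, add_zero]
  refine rsz_sum_congr t F true fun ω hS hD hO hw => ?_
  have hok : SmoOk t F ω := ⟨hS, hD, hO, hw⟩
  unfold smoI
  by_cases hg : g ∈ smoCl F ω f
  · rw [if_pos hg, if_pos hg, hok.colour (smo_mem_cl.1 hg).2, smo_D_sq]
  · rw [if_neg hg, if_neg hg]; ring

/-- the clusters that meet the box. -/
noncomputable def smoCls (F : Finset (ℤ × ℤ)) (a : ℤ × ℤ) (ρ : ℕ) (ω : RswCfg) : Finset (Finset (ℤ × ℤ)) :=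
  (smoB a ρ).image (smoCl F ω)

/-- the conditional second moment is the sum of the squares of the charges of the clusters. -/
theorem smo_V_eq {F : Finset (ℤ × ℤ)} {a : ℤ × ℤ} {ρ : ℕ} (hB : smoB a ρ ⊆ F) (β : ℤ × ℤ → ℝ)
    (ω : RswCfg) : smoV F a ρ β ω = ∑ C ∈ smoCls F a ρ ω, smoQ a ρ β ω C ^ 2 := by
  classical
  unfold smoV smoCls
  rw [← Finset.sum_fiberwise_of_maps_to (g := smoCl F ω) (t := (smoB a ρ).image (smoCl F ω))
    (fun f hf => Finset.mem_image_of_mem _ hf)]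
  refine Finset.sum_congr rfl fun C hC => ?_
  obtain ⟨f0, hf0, rfl⟩ := Finset.mem_image.1 hC
  have h1 : ∑ f ∈ (smoB a ρ).filter (fun f => smoCl F ω f = smoCl F ω f0),
      smoQ a ρ β ω {f} * smoQ a ρ β ω (smoCl F ω f)
      = ∑ f ∈ (smoB a ρ).filter (fun f => smoCl F ω f = smoCl F ω f0),
        smoQ a ρ β ω {f} * smoQ a ρ β ω (smoCl F ω f0) := by
    refine Finset.sum_congr rfl fun f hf => ?_
    rw [(Finset.mem_filter.1 hf).2]
  rw [h1, ← Finset.sum_mul, sq]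
  congr 1
  rw [smo_Q_expand a ρ β ω (smoCl F ω f0), Finset.sum_filter]
  refine Finset.sum_congr rfl fun f hf => ?_
  unfold smoI
  by_cases h : f ∈ smoCl F ω f0
  · rw [if_pos h, if_pos (smo_cl_eq h), one_mul]
  · rw [if_neg h, if_neg, zero_mul]
    intro he
    apply h
    rw [← he]
    exact smo_self_mem_cl (hB hf) ω

/-! ## 4. the potential of a cluster -/

theorem smo_S_eq_of_iff {ω : RswCfg} {u v : ℤ × ℤ} (h : u ∈ ω.S ↔ v ∈ ω.S) : scrS ω u = scrS ω v := by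
  unfold scrS; simp only [h]

theorem smo_S_abs (ω : RswCfg) (v : ℤ × ℤ) : |scrS ω v| = 1 := by
  unfold scrS; split_ifs <;> simp

/-- an edge across which the primal spin changes has its two faces in the same cluster (or none in it). -/
theorem SmoOk.edge_cl {t : ℝ} {F : Finset (ℤ × ℤ)} {ω : RswCfg} (h : SmoOk t F ω) (f0 : ℤ × ℤ)
    {e : (ℤ × ℤ) × Bool} (hs : scrS ω e.1 ≠ scrS ω (rswEnd e)) :
    e.1 ∈ smoCl F ω f0 ↔ rswCo e ∈ smoCl F ω f0 := by
  by_cases he : e ∈ rswInt F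
  · refine smo_cl_edge f0 he fun ho => hs (smo_S_eq_of_iff (h.open_agree ho))
  · by_cases h1 : e.1 ∈ F
    · exfalso
      have h2 : rswCo e ∉ F := fun h2 => he (rsz_mem_int.2 ⟨h1, h2⟩)
      have c1 := rsz_face_corner h1
      have c2 := rsz_end_corner (e := e) h1
      have p1 : OnPolygon F e.1 := by
        obtain ⟨⟨x, y⟩, b⟩ := e
        intro hp
        cases b
        · exact h2 hp.2.2.1
        · exact h2 hp.2.1
      have p2 : OnPolygon F (rswEnd e) := by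
        obtain ⟨⟨x, y⟩, b⟩ := e
        intro hp
        cases b
        · apply h2
          have := hp.2.2.2
          simpa [rswEnd, rswCo] using this
        · apply h2
          have := hp.2.2.2
          simpa [rswEnd, rswCo] using this
      have b1 := h.bc _ c1 p1
      have b2 := h.bc _ c2 p2
      exact hs (smo_S_eq_of_iff (by rw [b1, b2]))
    · by_cases h2 : rswCo e ∈ F
      · exfalso
        have c1 : e.1 ∈ cornersOf F := by
          unfold cornersOf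
          refine Finset.mem_biUnion.2 ⟨rswCo e, h2, ?_⟩
          obtain ⟨⟨x, y⟩, b⟩ := e
          cases b <;> simp [rswCo]
        have c2 : rswEnd e ∈ cornersOf F := by
          unfold cornersOf
          refine Finset.mem_biUnion.2 ⟨rswCo e, h2, ?_⟩
          obtain ⟨⟨x, y⟩, b⟩ := e
          cases b <;> simp [rswCo, rswEnd]
        have p1 : OnPolygon F e.1 := fun hp => h1 hp.1
        have p2 : OnPolygon F (rswEnd e) := by
          obtain ⟨⟨x, y⟩, b⟩ := e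
          intro hp
          cases b
          · apply h1
            have := hp.2.1
            simpa [rswEnd] using this
          · apply h1
            have := hp.2.2.1
            simpa [rswEnd] using this
        have b1 := h.bc _ c1 p1
        have b2 := h.bc _ c2 p2
        exact hs (smo_S_eq_of_iff (by rw [b1, b2]))
      · constructor
        · intro hc; exact absurd (smo_cl_subset _ _ _ hc) h1
        · intro hc; exact absurd (smo_cl_subset _ _ _ hc) h2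

/-- the step of the potential of a cluster, read on either face of the edge. -/
theorem SmoOk.th_eq {t : ℝ} {F : Finset (ℤ × ℤ)} {ω : RswCfg} (h : SmoOk t F ω) (f0 : ℤ × ℤ)
    {e : (ℤ × ℤ) × Bool} {f : ℤ × ℤ} (hf : e.1 = f ∨ rswCo e = f) :
    smoTh ω (smoI (smoCl F ω f0)) e
      = (scrS ω e.1 - scrS ω (rswEnd e)) * smoI (smoCl F ω f0) f / 2 := by
  rcases hf with rfl | rfl
  · rfl
  · unfold smoTh
    by_cases hs : scrS ω e.1 = scrS ω (rswEnd e)
    · rw [hs]; ring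
    · have := h.edge_cl f0 hs
      unfold smoI
      simp only [this]

/-- the potential of a cluster is closed around every face. -/
theorem SmoOk.closed {t : ℝ} {F : Finset (ℤ × ℤ)} {ω : RswCfg} (h : SmoOk t F ω) (f0 : ℤ × ℤ) (x y : ℤ) :
    smoTh ω (smoI (smoCl F ω f0)) ((x, y), false) + smoTh ω (smoI (smoCl F ω f0)) ((x + 1, y), true)
      - smoTh ω (smoI (smoCl F ω f0)) ((x, y + 1), false) - smoTh ω (smoI (smoCl F ω f0)) ((x, y), true) = 0 := by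
  rw [h.th_eq f0 (e := ((x, y), false)) (f := (x, y)) (Or.inl rfl),
    h.th_eq f0 (e := ((x + 1, y), true)) (f := (x, y)) (Or.inr (by simp [rswCo])),
    h.th_eq f0 (e := ((x, y + 1), false)) (f := (x, y)) (Or.inr (by simp [rswCo])),
    h.th_eq f0 (e := ((x, y), true)) (f := (x, y)) (Or.inl rfl)]
  simp only [rswEnd, if_true, Bool.false_eq_true, if_false]
  ring

theorem smo_grad_v (ω : RswCfg) (χ : ℤ × ℤ → ℝ) (a : ℤ × ℤ) (x y : ℤ) :
    smoInc ω χ a (x, y + 1) = smoInc ω χ a (x, y) + smoTh ω χ ((x, y), true) := by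
  unfold smoInc
  simp only
  rw [smo_osum_succ]; ring

theorem smo_grad_h {ω : RswCfg} {χ : ℤ × ℤ → ℝ}
    (hc : ∀ x y : ℤ, smoTh ω χ ((x, y), false) + smoTh ω χ ((x + 1, y), true)
      - smoTh ω χ ((x, y + 1), false) - smoTh ω χ ((x, y), true) = 0) (a : ℤ × ℤ) (x y : ℤ) :
    smoInc ω χ a (x + 1, y) = smoInc ω χ a (x, y) + smoTh ω χ ((x, y), false) := by
  have h1 : ∀ y, (smoInc ω χ a (x + 1, y + 1) - smoInc ω χ a (x, y + 1) - smoTh ω χ ((x, y + 1), false))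
      = (smoInc ω χ a (x + 1, y) - smoInc ω χ a (x, y) - smoTh ω χ ((x, y), false)) := by
    intro y
    rw [smo_grad_v, smo_grad_v]
    have := hc x y
    linarith
  have h2 := smo_const_of_succ
    (c := fun y => smoInc ω χ a (x + 1, y) - smoInc ω χ a (x, y) - smoTh ω χ ((x, y), false)) h1 y a.2
  have h3 : smoInc ω χ a (x + 1, a.2) - smoInc ω χ a (x, a.2) - smoTh ω χ ((x, a.2), false) = 0 := by
    unfold smoInc
    simp only
    rw [smo_osum_succ, smo_osum_self, smo_osum_self]; ring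
  linarith

/-- abstract potential: `g` is constant along the steps that are not inside `T`, oscillation `≤ 1`. -/
structure SmoPot (g : ℤ × ℤ → ℝ) (T : Set (ℤ × ℤ)) : Prop where
  hstep : ∀ x y : ℤ, ((x, y) ∉ T ∨ (x + 1, y) ∉ T) → g (x + 1, y) = g (x, y)
  vstep : ∀ x y : ℤ, ((x, y) ∉ T ∨ (x, y + 1) ∉ T) → g (x, y + 1) = g (x, y)
  osc : ∀ v v', |g v - g v'| ≤ 1

/-- outside a box that contains `T` the potential is constant. -/
theorem SmoPot.ext {g : ℤ × ℤ → ℝ} {T : Set (ℤ × ℤ)} (h : SmoPot g T) {p q : ℤ × ℤ}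
    (hT : T ⊆ Set.Icc p q) {v : ℤ × ℤ} (hv : v ∉ Set.Icc p q) : g v = g (q.1 + 1, q.2 + 1) := by
  have hline : ∀ y : ℤ, (y < p.2 ∨ q.2 < y) → ∀ x x', g (x, y) = g (x', y) := by
    intro y hy x x'
    refine smo_const_of_succ (c := fun x => g (x, y)) (fun x => h.hstep x y (Or.inl fun hm => ?_)) x x'
    have := hT hm
    have h1 := this.1.2
    have h2 := this.2.2
    simp only at h1 h2
    omega
  have vline : ∀ x : ℤ, (x < p.1 ∨ q.1 < x) → ∀ y y', g (x, y) = g (x, y') := by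
    intro x hx y y'
    refine smo_const_of_succ (c := fun y => g (x, y)) (fun y => h.vstep x y (Or.inl fun hm => ?_)) y y'
    have := hT hm
    have h1 := this.1.1
    have h2 := this.2.1
    simp only at h1 h2
    omega
  obtain ⟨x, y⟩ := v
  by_cases hx : x < p.1 ∨ q.1 < x
  · rw [vline x hx y (q.2 + 1), hline (q.2 + 1) (Or.inr (by omega)) x (q.1 + 1)]
  · have hy : y < p.2 ∨ q.2 < y := by
      by_contra hy
      apply hv
      constructor
      · constructor <;> simp only <;> omega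
      · constructor <;> simp only <;> omega
    rw [hline y hy x (q.1 + 1), vline (q.1 + 1) (Or.inr (by omega)) y (q.2 + 1)]

/-- **the charge of a potential**: trace in a box of side `n`. -/
theorem SmoPot.charge_le {g : ℤ × ℤ → ℝ} {T : Set (ℤ × ℤ)} (h : SmoPot g T) {p : ℤ × ℤ} {n : ℕ}
    (hT : T ⊆ Set.Icc p (p + ((n : ℤ), (n : ℤ)))) (B : Finset (ℤ × ℤ)) (β : ℤ × ℤ → ℝ) {K δ : ℝ}
    (hβ : ∀ v, |β v| ≤ K * δ ^ 2) (hneu : ∑ v ∈ B, β v = 0) :
    |∑ v ∈ B, β v * g v| ≤ K * (δ * n + δ) ^ 2 := by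
  classical
  set q : ℤ × ℤ := p + ((n : ℤ), (n : ℤ)) with hq
  set g0 : ℝ := g (q.1 + 1, q.2 + 1) with hg0
  have hK : 0 ≤ K * δ ^ 2 := (abs_nonneg _).trans (hβ 0)
  have e1 : ∑ v ∈ B, β v * g v = ∑ v ∈ B, β v * (g v - g0) := by
    simp only [mul_sub]
    rw [Finset.sum_sub_distrib, ← Finset.sum_mul, hneu]; ring
  have e2 : ∑ v ∈ B, β v * (g v - g0) = ∑ v ∈ B ∩ Finset.Icc p q, β v * (g v - g0) := by
    refine (Finset.sum_subset Finset.inter_subset_left fun v hv hv' => ?_).symm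
    have : v ∉ Set.Icc p q := by
      intro hm
      exact hv' (Finset.mem_inter.2 ⟨hv, Finset.mem_Icc.2 hm⟩)
    rw [h.ext hT this, sub_self, mul_zero]
  have hcard : ((B ∩ Finset.Icc p q).card : ℝ) ≤ ((n : ℝ) + 1) ^ 2 := by
    have h3 := Finset.card_le_card (Finset.inter_subset_right (s₁ := B) (s₂ := Finset.Icc p q))
    rw [Finset.card_Icc_prod, Int.card_Icc, Int.card_Icc] at h3
    have e1 : (q.1 + 1 - p.1).toNat = n + 1 := by
      simp only [hq, Prod.fst_add]; omega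
    have e2 : (q.2 + 1 - p.2).toNat = n + 1 := by
      simp only [hq, Prod.snd_add]; omega
    rw [e1, e2] at h3
    have : ((B ∩ Finset.Icc p q).card : ℝ) ≤ ((n + 1) * (n + 1) : ℕ) := by exact_mod_cast h3
    push_cast at this
    nlinarith
  rw [e1, e2]
  calc |∑ v ∈ B ∩ Finset.Icc p q, β v * (g v - g0)|
      ≤ ∑ v ∈ B ∩ Finset.Icc p q, |β v * (g v - g0)| := Finset.abs_sum_le_sum_abs _ _
    _ ≤ ∑ _v ∈ B ∩ Finset.Icc p q, K * δ ^ 2 := by
        refine Finset.sum_le_sum fun v _ => ?_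
        rw [abs_mul]
        calc |β v| * |g v - g0| ≤ (K * δ ^ 2) * 1 :=
              mul_le_mul (hβ v) (h.osc _ _) (abs_nonneg _) hK
          _ = K * δ ^ 2 := mul_one _
    _ = ((B ∩ Finset.Icc p q).card : ℝ) * (K * δ ^ 2) := by rw [Finset.sum_const, nsmul_eq_mul]
    _ ≤ ((n : ℝ) + 1) ^ 2 * (K * δ ^ 2) := mul_le_mul_of_nonneg_right hcard hK
    _ = K * (δ * n + δ) ^ 2 := by ring

/-- the trivial bound of the charge of a potential. -/
theorem SmoPot.charge_le_total {g : ℤ × ℤ → ℝ} {T : Set (ℤ × ℤ)} (h : SmoPot g T)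
    (B : Finset (ℤ × ℤ)) (β : ℤ × ℤ → ℝ) (hneu : ∑ v ∈ B, β v = 0) :
    |∑ v ∈ B, β v * g v| ≤ ∑ v ∈ B, |β v| := by
  have e1 : ∑ v ∈ B, β v * g v = ∑ v ∈ B, β v * (g v - g 0) := by
    simp only [mul_sub]
    rw [Finset.sum_sub_distrib, ← Finset.sum_mul, hneu]; ring
  rw [e1]
  refine (Finset.abs_sum_le_sum_abs _ _).trans (Finset.sum_le_sum fun v _ => ?_)
  rw [abs_mul]
  calc |β v| * |g v - g 0| ≤ |β v| * 1 := mul_le_mul_of_nonneg_left (h.osc _ _) (abs_nonneg _)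
    _ = |β v| := mul_one _

theorem smo_mem_corners {C : Finset (ℤ × ℤ)} {v : ℤ × ℤ} : v ∈ cornersOf C ↔
    ∃ f ∈ C, v = f ∨ v = (f.1 + 1, f.2) ∨ v = (f.1, f.2 + 1) ∨ v = (f.1 + 1, f.2 + 1) := by
  unfold cornersOf
  simp only [Finset.mem_biUnion, Finset.mem_insert, Finset.mem_singleton]

/-- **the potential of a cluster**: closed, constant along the steps that are not inside the corners of the
cluster, two-valued. -/
theorem SmoOk.pot {t : ℝ} {F : Finset (ℤ × ℤ)} {ω : RswCfg} (h : SmoOk t F ω) {f0 : ℤ × ℤ}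
    (hf0 : f0 ∈ F) (a : ℤ × ℤ) :
    SmoPot (fun v => smoInc ω (smoI (smoCl F ω f0)) a v) (↑(cornersOf (smoCl F ω f0))) := by
  set C := smoCl F ω f0 with hC
  set g : ℤ × ℤ → ℝ := fun v => smoInc ω (smoI C) a v with hg
  have gh : ∀ x y : ℤ, g (x + 1, y) = g (x, y) + smoTh ω (smoI C) ((x, y), false) :=
    fun x y => smo_grad_h (h.closed f0) a x y
  have gv : ∀ x y : ℤ, g (x, y + 1) = g (x, y) + smoTh ω (smoI C) ((x, y), true) :=
    fun x y => smo_grad_v ω (smoI C) a x y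
  have th0 : ∀ e : (ℤ × ℤ) × Bool, (e.1 ∉ cornersOf C ∨ rswEnd e ∉ cornersOf C) →
      smoTh ω (smoI C) e = 0 := by
    intro e he
    have : e.1 ∉ C := by
      intro hm
      rcases he with he | he
      · exact he (rsz_face_corner hm)
      · exact he (rsz_end_corner hm)
    unfold smoTh smoI
    rw [if_neg this]; ring
  have hst : ∀ x y : ℤ, ((x, y) ∉ (↑(cornersOf C) : Set (ℤ × ℤ)) ∨ (x + 1, y) ∉ (↑(cornersOf C) : Set (ℤ × ℤ))) →
      g (x + 1, y) = g (x, y) := by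
    intro x y hxy
    rw [gh, th0 ((x, y), false) (by simpa [rswEnd] using hxy), add_zero]
  have vst : ∀ x y : ℤ, ((x, y) ∉ (↑(cornersOf C) : Set (ℤ × ℤ)) ∨ (x, y + 1) ∉ (↑(cornersOf C) : Set (ℤ × ℤ))) →
      g (x, y + 1) = g (x, y) := by
    intro x y hxy
    rw [gv, th0 ((x, y), true) (by simpa [rswEnd] using hxy), add_zero]
  refine ⟨hst, vst, ?_⟩
  -- `g + s / 2` is constant on the corners of the cluster
  set hh : ℤ × ℤ → ℝ := fun v => g v + scrS ω v / 2 with hhh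
  have corner : ∀ f ∈ C, hh (f.1 + 1, f.2) = hh f ∧ hh (f.1, f.2 + 1) = hh f ∧ hh (f.1 + 1, f.2 + 1) = hh f := by
    rintro ⟨x, y⟩ hf
    have hI : smoI C (x, y) = 1 := by unfold smoI; rw [if_pos hf]
    have t1 := h.th_eq f0 (e := ((x, y), false)) (f := (x, y)) (Or.inl rfl)
    have t2 := h.th_eq f0 (e := ((x, y), true)) (f := (x, y)) (Or.inl rfl)
    have t3 := h.th_eq f0 (e := ((x + 1, y), true)) (f := (x, y)) (Or.inr (by simp [rswCo]))
    rw [← hC, hI] at t1 t2 t3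
    simp only [rswEnd, if_true, Bool.false_eq_true, if_false] at t1 t2 t3
    have g1 := gh x y
    have g2 := gv x y
    have g3 := gv (x + 1) y
    simp only [hhh]
    refine ⟨by linarith, by linarith, by linarith⟩
  have conn : ∀ f, MdlNConn F ω f0 f → hh f = hh f0 := by
    intro f hf
    unfold MdlNConn at hf
    induction hf with
    | refl => rfl
    | @tail b c hab hbc ih =>
      rw [← ih]
      have hbC : b ∈ C := smo_mem_cl.2 ⟨hbc.1, hab⟩
      have hcC : c ∈ C := smo_mem_cl.2 ⟨hbc.2.1, hab.tail hbc⟩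
      obtain ⟨_, _, ⟨⟨x, y⟩, bb⟩, he, _⟩ := hbc
      rcases he with ⟨rfl, rfl⟩ | ⟨rfl, rfl⟩
      · cases bb
        · have := (corner _ hcC).2.1
          simp only [rswCo, Bool.false_eq_true, if_false, sub_add_cancel] at this ⊢
          exact this.symm
        · have := (corner _ hcC).1
          simp only [rswCo, if_true, sub_add_cancel] at this ⊢
          exact this.symm
      · cases bb
        · have := (corner _ hbC).2.1
          simp only [rswCo, Bool.false_eq_true, if_false, sub_add_cancel] at this ⊢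
          exact this
        · have := (corner _ hbC).1
          simp only [rswCo, if_true, sub_add_cancel] at this ⊢
          exact this
  have onT : ∀ v ∈ cornersOf C, hh v = hh f0 := by
    intro v hv
    obtain ⟨f, hf, hvf⟩ := smo_mem_corners.1 hv
    have c0 := conn f (smo_mem_cl.1 hf).2
    obtain ⟨c1, c2, c3⟩ := corner f hf
    rcases hvf with rfl | rfl | rfl | rfl
    · exact c0
    · rw [c1, c0]
    · rw [c2, c0]
    · rw [c3, c0]
  have hf0T : f0 ∈ cornersOf C := rsz_face_corner (smo_self_mem_cl hf0 ω)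
  have reach : ∀ (n : ℕ) (v : ℤ × ℤ), (v.1 - f0.1).natAbs + (v.2 - f0.2).natAbs = n →
      ∃ t' ∈ cornersOf C, g v = g t' := by
    intro n
    induction n with
    | zero =>
      intro v hv
      have : v = f0 := by ext <;> omega
      exact ⟨f0, hf0T, by rw [this]⟩
    | succ n ih =>
      rintro ⟨x, y⟩ hv
      by_cases hT : (x, y) ∈ cornersOf C
      · exact ⟨_, hT, rfl⟩
      · have hT' : (x, y) ∉ (↑(cornersOf C) : Set (ℤ × ℤ)) := hT
        simp only at hv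
        by_cases h1 : x < f0.1
        · obtain ⟨t', ht', e⟩ := ih (x + 1, y) (by simp only; omega)
          exact ⟨t', ht', by rw [← e, hst x y (Or.inl hT')]⟩
        · by_cases h2 : f0.1 < x
          · obtain ⟨t', ht', e⟩ := ih (x - 1, y) (by simp only; omega)
            have := hst (x - 1) y (Or.inr (by rw [sub_add_cancel]; exact hT'))
            rw [sub_add_cancel] at this
            exact ⟨t', ht', by rw [← e, this]⟩
          · by_cases h3 : y < f0.2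
            · obtain ⟨t', ht', e⟩ := ih (x, y + 1) (by simp only; omega)
              exact ⟨t', ht', by rw [← e, vst x y (Or.inl hT')]⟩
            · obtain ⟨t', ht', e⟩ := ih (x, y - 1) (by simp only; omega)
              have := vst x (y - 1) (Or.inr (by rw [sub_add_cancel]; exact hT'))
              rw [sub_add_cancel] at this
              exact ⟨t', ht', by rw [← e, this]⟩
  have half : ∀ v, |g v - hh f0| ≤ 1 / 2 := by
    intro v
    obtain ⟨t', ht', e⟩ := reach _ v rfl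
    have h1 := onT t' ht'
    have h2 : g v - hh f0 = -(scrS ω t' / 2) := by
      rw [e, ← h1]; simp only [hhh]; ring
    rw [h2, abs_neg, abs_div, smo_S_abs]; norm_num
  intro v v'
  have a1 := abs_le.1 (half v)
  have a2 := abs_le.1 (half v')
  rw [abs_le]
  constructor <;> linarith

/-! ## 5. diameters and charges of the clusters -/

/-- sup-diameter of the set of the corners of `C`. -/
noncomputable def smoDiam (C : Finset (ℤ × ℤ)) : ℕ :=
  ((cornersOf C) ×ˢ (cornersOf C)).sup fun p => max (p.1.1 - p.2.1).natAbs (p.1.2 - p.2.2).natAbs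

theorem smo_diam_le {C : Finset (ℤ × ℤ)} {u v : ℤ × ℤ} (hu : u ∈ cornersOf C) (hv : v ∈ cornersOf C) :
    |u.1 - v.1| ≤ smoDiam C ∧ |u.2 - v.2| ≤ smoDiam C := by
  have h := Finset.le_sup (f := fun p : (ℤ × ℤ) × (ℤ × ℤ) => max (p.1.1 - p.2.1).natAbs (p.1.2 - p.2.2).natAbs)
    (Finset.mem_product.2 ⟨hu, hv⟩ : (u, v) ∈ (cornersOf C) ×ˢ (cornersOf C))
  have h' : max (u.1 - v.1).natAbs (u.2 - v.2).natAbs ≤ smoDiam C := h
  have h1 := (le_max_left _ _).trans h'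
  have h2 := (le_max_right _ _).trans h'
  rw [Int.abs_eq_natAbs, Int.abs_eq_natAbs]
  exact ⟨by exact_mod_cast h1, by exact_mod_cast h2⟩

theorem smo_mem_box {z : ℤ × ℤ} {n : ℕ} {f : ℤ × ℤ} :
    f ∈ rswBox z n ↔ (z.1 - n ≤ f.1 ∧ f.1 < z.1 + n) ∧ (z.2 - n ≤ f.2 ∧ f.2 < z.2 + n) := by
  unfold rswBox; rw [Finset.mem_product, Finset.mem_Ico, Finset.mem_Ico]

theorem smo_diam_le_of_box {C : Finset (ℤ × ℤ)} {z : ℤ × ℤ} {n : ℕ} (h : C ⊆ rswBox z n) :
    smoDiam C ≤ 2 * n := by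
  have key : ∀ v ∈ cornersOf C, (z.1 - n ≤ v.1 ∧ v.1 ≤ z.1 + n) ∧ (z.2 - n ≤ v.2 ∧ v.2 ≤ z.2 + n) := by
    intro v hv
    obtain ⟨f, hf, hvf⟩ := smo_mem_corners.1 hv
    have := smo_mem_box.1 (h hf)
    rcases hvf with rfl | rfl | rfl | rfl <;> (try simp only) <;> omega
  unfold smoDiam
  refine Finset.sup_le fun p hp => ?_
  obtain ⟨h1, h2⟩ := Finset.mem_product.1 hp
  have k1 := key _ h1
  have k2 := key _ h2
  apply max_le <;> omega

theorem SmoOk.Q_le {t : ℝ} {F : Finset (ℤ × ℤ)} {ω : RswCfg} (h : SmoOk t F ω) {f0 : ℤ × ℤ}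
    (hf0 : f0 ∈ F) (a : ℤ × ℤ) (ρ : ℕ) (β : ℤ × ℤ → ℝ) {K δ : ℝ}
    (hβ : ∀ v, |β v| ≤ K * δ ^ 2) (hneu : ∑ v ∈ smoB a ρ, β v = 0) :
    |smoQ a ρ β ω (smoCl F ω f0)| ≤ K * (δ * smoDiam (smoCl F ω f0) + δ) ^ 2 := by
  obtain ⟨p, hp⟩ := mass81_box_of_diam (T := (↑(cornersOf (smoCl F ω f0)) : Set (ℤ × ℤ)))
    ⟨f0, rsz_face_corner (smo_self_mem_cl hf0 ω)⟩ (smoDiam (smoCl F ω f0))
    (fun u hu v hv => smo_diam_le hu hv)
  exact (h.pot hf0 a).charge_le hp (smoB a ρ) β hβ hneu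

theorem SmoOk.Q_le_total {t : ℝ} {F : Finset (ℤ × ℤ)} {ω : RswCfg} (h : SmoOk t F ω) {f0 : ℤ × ℤ}
    (hf0 : f0 ∈ F) (a : ℤ × ℤ) (ρ : ℕ) (β : ℤ × ℤ → ℝ) (hneu : ∑ v ∈ smoB a ρ, β v = 0) :
    |smoQ a ρ β ω (smoCl F ω f0)| ≤ ∑ v ∈ smoB a ρ, |β v| :=
  (h.pot hf0 a).charge_le_total (smoB a ρ) β hneu

/-! ## 6. counting clusters by transmissions -/

theorem smo_mem_layer {Q : Finset (ℤ × ℤ)} {f : ℤ × ℤ} : f ∈ rswLayer Q ↔ f ∈ Q ∧
    ∃ v ∈ ({f, (f.1 + 1, f.2), (f.1, f.2 + 1), (f.1 + 1, f.2 + 1)} : Finset (ℤ × ℤ)), OnPolygon Q v := by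
  unfold rswLayer
  simp only [Finset.mem_filter]

theorem smo_first_exit {F Q1 : Finset (ℤ × ℤ)} {ω : RswCfg} {f g : ℤ × ℤ} (hfg : MdlNConn F ω f g)
    (hf : f ∈ Q1) (hg : g ∉ Q1) : ∃ g' ∈ rswLayer Q1, MdlNConn Q1 ω f g' := by
  classical
  have key : ∀ z, Relation.ReflTransGen (MdlNStep F ω) f z →
      (∃ g' ∈ rswLayer Q1, MdlNConn Q1 ω f g') ∨ (z ∈ Q1 ∧ MdlNConn Q1 ω f z) := by
    intro z hz
    induction hz with
    | refl => exact Or.inr ⟨hf, Relation.ReflTransGen.refl⟩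
    | @tail y z _ hyz ih =>
      rcases ih with ih | ⟨hy, hc⟩
      · exact Or.inl ih
      · by_cases hz : z ∈ Q1
        · exact Or.inr ⟨hz, hc.tail ⟨hy, hz, hyz.2.2⟩⟩
        · refine Or.inl ⟨y, ?_, hc⟩
          refine smo_mem_layer.2 ⟨hy, ?_⟩
          obtain ⟨_, _, ⟨⟨u, w⟩, bb⟩, he, _⟩ := hyz
          refine ⟨(u, w), ?_, ?_⟩
          · rcases he with ⟨rfl, rfl⟩ | ⟨rfl, rfl⟩
            · simp
            · cases bb <;> simp [rswCo]
          · intro hp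
            rcases he with ⟨rfl, rfl⟩ | ⟨rfl, rfl⟩
            · cases bb
              · exact hz hp.2.2.1
              · exact hz hp.2.1
            · exact hz hp.1
  rcases key g hfg with h | ⟨h, _⟩
  · exact h
  · exact absurd h hg

/-- representatives in `Q0` of a family of clusters that meet `Q0`. -/
theorem smo_reps {F Q0 : Finset (ℤ × ℤ)} (ω : RswCfg) (𝒦 : Finset (Finset (ℤ × ℤ)))
    (h𝒦 : ∀ C ∈ 𝒦, ∃ f ∈ Q0, C = smoCl F ω f) :
    ∃ T : Finset (ℤ × ℤ), T ⊆ Q0 ∧ T.card = 𝒦.card ∧ (∀ f ∈ T, smoCl F ω f ∈ 𝒦) ∧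
      ∀ f ∈ T, ∀ g ∈ T, f ≠ g → smoCl F ω f ≠ smoCl F ω g := by
  classical
  set rep : Finset (ℤ × ℤ) → ℤ × ℤ := fun C => if h : C ∈ 𝒦 then Classical.choose (h𝒦 C h) else 0 with hrep
  have hr : ∀ C ∈ 𝒦, rep C ∈ Q0 ∧ C = smoCl F ω (rep C) := by
    intro C hC
    have := Classical.choose_spec (h𝒦 C hC)
    simp only [hrep, dif_pos hC]
    exact this
  have hinj : Set.InjOn rep (↑𝒦 : Set (Finset (ℤ × ℤ))) := by
    intro C hC C' hC' he
    rw [(hr C hC).2, (hr C' hC').2, he]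
  refine ⟨𝒦.image rep, ?_, Finset.card_image_of_injOn hinj, ?_, ?_⟩
  · intro f hf
    obtain ⟨C, hC, rfl⟩ := Finset.mem_image.1 hf
    exact (hr C hC).1
  · intro f hf
    obtain ⟨C, hC, rfl⟩ := Finset.mem_image.1 hf
    rw [← (hr C hC).2]; exact hC
  · intro f hf g hg hne he
    obtain ⟨C, hC, rfl⟩ := Finset.mem_image.1 hf
    obtain ⟨C', hC', rfl⟩ := Finset.mem_image.1 hg
    apply hne
    rw [← (hr C hC).2, ← (hr C' hC').2] at he
    rw [he]

/-- a family of clusters that meet `Q0` and leave `Q1` transmits. -/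
theorem smo_trans {F Q0 Q1 : Finset (ℤ × ℤ)} (h01 : Q0 ⊆ Q1) (h1F : Q1 ⊆ F) (ω : RswCfg)
    (𝒦 : Finset (Finset (ℤ × ℤ))) (h𝒦 : ∀ C ∈ 𝒦, ∃ f ∈ Q0, C = smoCl F ω f)
    (hex : ∀ C ∈ 𝒦, ¬ C ⊆ Q1) : MdlTrans Q0 Q1 𝒦.card ω := by
  obtain ⟨T, hT0, hcard, hTK, hne⟩ := smo_reps ω 𝒦 h𝒦
  refine ⟨T, hT0, hcard, ?_, ?_⟩
  · intro f hf
    obtain ⟨g, hg, hg1⟩ := Finset.not_subset.1 (hex _ (hTK f hf))
    exact smo_first_exit (smo_mem_cl.1 hg).2 (h01 (hT0 hf)) hg1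
  · intro f hf g hg hfg hc
    apply hne f hf g hg hfg
    have : g ∈ smoCl F ω f := smo_mem_cl.2 ⟨h1F (h01 (hT0 hg)), smo_conn_mono h1F hc⟩
    exact (smo_cl_eq this).symm

theorem smo_trans_mono {Q0 Q1 : Finset (ℤ × ℤ)} {ω : RswCfg} {j k : ℕ} (hjk : j ≤ k)
    (h : MdlTrans Q0 Q1 k ω) : MdlTrans Q0 Q1 j ω := by
  obtain ⟨T, h0, hc, h1, h2⟩ := h
  obtain ⟨T', hT', hc'⟩ := Finset.exists_subset_card_eq (s := T) (n := j) (by rw [hc]; exact hjk)
  exact ⟨T', hT'.trans h0, hc', fun f hf => h1 f (hT' hf),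
    fun f hf g hg => h2 f (hT' hf) g (hT' hg)⟩

open Classical in
/-- the clusters that meet the box `B`, meet `Q0`, of dyadic scale at least `k`. -/
noncomputable def smoK (F : Finset (ℤ × ℤ)) (a : ℤ × ℤ) (ρ k : ℕ) (Q0 : Finset (ℤ × ℤ)) (ω : RswCfg) :
    Finset (Finset (ℤ × ℤ)) :=
  (smoCls F a ρ ω).filter fun C => (C ∩ Q0).Nonempty ∧ 2 ^ k ≤ smoDiam C + 1

theorem smo_K_rep {F : Finset (ℤ × ℤ)} {a : ℤ × ℤ} {ρ k : ℕ} {Q0 : Finset (ℤ × ℤ)} {ω : RswCfg}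
    {C : Finset (ℤ × ℤ)} (hC : C ∈ smoK F a ρ k Q0 ω) : ∃ f ∈ Q0, C = smoCl F ω f := by
  classical
  unfold smoK at hC
  rw [Finset.mem_filter] at hC
  obtain ⟨hI, ⟨f, hf⟩, _⟩ := hC
  obtain ⟨f0, _, rfl⟩ := Finset.mem_image.1 hI
  rw [Finset.mem_inter] at hf
  exact ⟨f, hf.2, (smo_cl_eq hf.1).symm⟩

theorem smo_K_card_le (F : Finset (ℤ × ℤ)) (a : ℤ × ℤ) (ρ k : ℕ) (Q0 : Finset (ℤ × ℤ)) (ω : RswCfg) :
    (smoK F a ρ k Q0 ω).card ≤ Q0.card := by
  obtain ⟨T, hT0, hcard, _, _⟩ := smo_reps (F := F) (Q0 := Q0) ω (smoK F a ρ k Q0 ω) (fun C hC => smo_K_rep hC)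
  rw [← hcard]
  exact Finset.card_le_card hT0

open Classical in
/-- the count is bounded by the number of transmission levels. -/
theorem smo_K_card_le_trans {F : Finset (ℤ × ℤ)} {z : ℤ × ℤ} {n : ℕ} (h1F : rswBox z (2 * n) ⊆ F)
    (a : ℤ × ℤ) (ρ : ℕ) {k : ℕ} (hk : 4 * n + 1 < 2 ^ k) (ω : RswCfg) :
    ((smoK F a ρ k (rswBox z n) ω).card : ℝ) ≤ ∑ j ∈ Finset.range (rswBox z n).card,
      (if MdlTrans (rswBox z n) (rswBox z (2 * n)) (j + 1) ω then (1 : ℝ) else 0) := by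
  set 𝒦 := smoK F a ρ k (rswBox z n) ω with h𝒦
  have h01 : rswBox z n ⊆ rswBox z (2 * n) := by
    intro f hf
    rw [smo_mem_box] at hf ⊢
    push_cast
    omega
  have htr : MdlTrans (rswBox z n) (rswBox z (2 * n)) 𝒦.card ω := by
    refine smo_trans h01 h1F ω 𝒦 (fun C hC => smo_K_rep hC) fun C hC hsub => ?_
    have h1 := smo_diam_le_of_box hsub
    have h2 : 2 ^ k ≤ smoDiam C + 1 := by
      rw [h𝒦] at hC
      unfold smoK at hC
      exact (Finset.mem_filter.1 hC).2.2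
    omega
  have hle : 𝒦.card ≤ (rswBox z n).card := smo_K_card_le F a ρ k _ ω
  calc (𝒦.card : ℝ) = ∑ _j ∈ Finset.range 𝒦.card, (1 : ℝ) := by simp
    _ = ∑ j ∈ Finset.range 𝒦.card,
        (if MdlTrans (rswBox z n) (rswBox z (2 * n)) (j + 1) ω then (1 : ℝ) else 0) := by
        refine Finset.sum_congr rfl fun j hj => ?_
        rw [if_pos (smo_trans_mono (by have := Finset.mem_range.1 hj; omega) htr)]
    _ ≤ _ := by
        refine Finset.sum_le_sum_of_subset_of_nonneg (Finset.range_subset_range.2 hle) fun j _ _ => ?_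
        split_ifs <;> norm_num

/-! ## 7. expectation of the counts, cells, the core estimate in finite volume -/

open Classical in
/-- indicator of an event. -/
noncomputable def smoInd (L : RswCfg → Prop) (ω : RswCfg) : ℝ := if L ω then 1 else 0

theorem smo_P_eq (t : ℝ) (F : Finset (ℤ × ℤ)) (b : Bool) (L : RswCfg → Prop) :
    rswP t F b L = rswE t F b (smoInd L) := rsz_P_def t F b L

theorem smo_ind_nonneg (L : RswCfg → Prop) (ω : RswCfg) : 0 ≤ smoInd L ω := by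
  unfold smoInd; split_ifs <;> norm_num

theorem smo_geom {q : ℝ} (hq0 : 0 < q) (hq1 : q < 1) (m : ℕ) :
    ∑ j ∈ Finset.range m, q ^ (j + 1) ≤ 1 / (1 - q) := by
  have h1 : ∑ j ∈ Finset.range m, q ^ (j + 1) ≤ ∑ j ∈ Finset.range m, q ^ j := by
    refine Finset.sum_le_sum fun j _ => ?_
    rw [pow_succ]
    have := pow_pos hq0 j
    nlinarith
  refine h1.trans ?_
  rw [geom_sum_eq hq1.ne, le_div_iff₀ (by linarith)]
  have h2 : (q ^ m - 1) / (q - 1) * (1 - q) = 1 - q ^ m := by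
    have : q - 1 ≠ 0 := by linarith
    field_simp
    ring
  rw [h2]
  have := pow_pos hq0 m
  linarith

theorem smo_K_exp {t : ℝ} (ht0 : 0 < t) (ht1 : t ≤ 1) {Ct q : ℝ} (hCt : 0 < Ct) (hq0 : 0 < q) (hq1 : q < 1)
    {F : Finset (ℤ × ℤ)} {z : ℤ × ℤ} {n : ℕ} {L : RswCfg → Prop}
    (hb : ∀ j, rswP t F true (fun ω => L ω ∧ MdlTrans (rswBox z n) (rswBox z (2 * n)) j ω)
      ≤ Ct * q ^ j * rswP t F true L)
    (h1F : rswBox z (2 * n) ⊆ F) (a : ℤ × ℤ) (ρ : ℕ) {k : ℕ} (hk : 4 * n + 1 < 2 ^ k) :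
    rswE t F true (fun ω => ((smoK F a ρ k (rswBox z n) ω).card : ℝ) * smoInd L ω)
      ≤ Ct / (1 - q) * rswP t F true L := by
  classical
  have hP : 0 ≤ rswP t F true L := rsz_P_nonneg ht0.le ht1 F true L
  have h1 : ∀ ω, ((smoK F a ρ k (rswBox z n) ω).card : ℝ) * smoInd L ω
      ≤ ∑ j ∈ Finset.range (rswBox z n).card,
        smoInd (fun ω => L ω ∧ MdlTrans (rswBox z n) (rswBox z (2 * n)) (j + 1) ω) ω := by
    intro ω
    by_cases hL : L ω
    · have e : smoInd L ω = 1 := by unfold smoInd; rw [if_pos hL]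
      rw [e, mul_one]
      refine (smo_K_card_le_trans h1F a ρ hk ω).trans (le_of_eq ?_)
      refine Finset.sum_congr rfl fun j _ => ?_
      unfold smoInd
      simp only [hL, true_and]
    · have e : smoInd L ω = 0 := by unfold smoInd; rw [if_neg hL]
      rw [e, mul_zero]
      exact Finset.sum_nonneg fun j _ => smo_ind_nonneg _ _
  refine (rsz_E_mono ht0.le ht1 F true h1).trans ?_
  rw [rsz_E_fsum]
  calc ∑ j ∈ Finset.range (rswBox z n).card,
        rswE t F true (smoInd fun ω => L ω ∧ MdlTrans (rswBox z n) (rswBox z (2 * n)) (j + 1) ω)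
      ≤ ∑ j ∈ Finset.range (rswBox z n).card, Ct * q ^ (j + 1) * rswP t F true L := by
        refine Finset.sum_le_sum fun j _ => ?_
        rw [← smo_P_eq]
        exact hb (j + 1)
    _ = Ct * rswP t F true L * ∑ j ∈ Finset.range (rswBox z n).card, q ^ (j + 1) := by
        rw [Finset.mul_sum]
        exact Finset.sum_congr rfl fun j _ => by ring
    _ ≤ Ct * rswP t F true L * (1 / (1 - q)) :=
        mul_le_mul_of_nonneg_left (smo_geom hq0 hq1 _) (by positivity)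
    _ = Ct / (1 - q) * rswP t F true L := by ring

theorem smo_box_card (z : ℤ × ℤ) (n : ℕ) : (rswBox z n).card = (2 * n) ^ 2 := by
  unfold rswBox
  rw [Finset.card_product, Int.card_Ico, Int.card_Ico]
  have e1 : (z.1 + n - (z.1 - n)).toNat = 2 * n := by omega
  have e2 : (z.2 + n - (z.2 - n)).toNat = 2 * n := by omega
  rw [e1, e2]; ring

theorem smo_K_exp_det {t : ℝ} (ht0 : 0 < t) (ht1 : t ≤ 1) (F : Finset (ℤ × ℤ)) (z : ℤ × ℤ) (n : ℕ)
    (L : RswCfg → Prop) (a : ℤ × ℤ) (ρ k : ℕ) :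
    rswE t F true (fun ω => ((smoK F a ρ k (rswBox z n) ω).card : ℝ) * smoInd L ω)
      ≤ (2 * (n : ℝ)) ^ 2 * rswP t F true L := by
  rw [smo_P_eq, ← rsz_E_smul]
  refine rsz_E_mono ht0.le ht1 F true fun ω => ?_
  refine mul_le_mul_of_nonneg_right ?_ (smo_ind_nonneg _ _)
  have := smo_K_card_le F a ρ k (rswBox z n) ω
  rw [smo_box_card] at this
  exact_mod_cast this

theorem smo_ext_mono {B B' : Finset (ℤ × ℤ)} (h : B' ⊆ B) {L : RswCfg → Prop} (hL : MdlExt B L) :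
    MdlExt B' L := by
  intro ω ω' hS hO
  refine hL ω ω' (fun v hv => hS v fun hp => hv ⟨h hp.1, h hp.2.1, h hp.2.2.1, h hp.2.2.2⟩)
    fun e he => hO e fun he' => he (rsz_mem_int.2 ⟨h (rsz_mem_int.1 he').1, h (rsz_mem_int.1 he').2⟩)

theorem smo_ext_blind {B : Finset (ℤ × ℤ)} {L : RswCfg → Prop} (hL : MdlExt B L) : SmoBlind (smoInd L) := by
  intro ω ω' hS hO
  have := hL ω ω' (fun v _ => by rw [hS]) (fun e _ => by rw [hO])
  unfold smoInd
  by_cases h : L ω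
  · rw [if_pos h, if_pos (this.1 h)]
  · rw [if_neg h, if_neg fun h' => h (this.2 h')]

/-- half side of the cells at the scale `k`. -/
def smoN (k : ℕ) : ℕ := 2 ^ (k - 3)

theorem smo_N_pos (k : ℕ) : 0 < smoN k := by unfold smoN; positivity

theorem smo_N_le {k M : ℕ} (hk : k ≤ M) (hM : 3 ≤ M) : 8 * smoN k ≤ 2 ^ M := by
  unfold smoN
  have h1 : 2 ^ (k - 3) ≤ 2 ^ (M - 3) := Nat.pow_le_pow_right (by norm_num) (by omega)
  have h2 : 2 ^ M = 2 ^ (M - 3) * 8 := by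
    rw [show (8 : ℕ) = 2 ^ 3 by norm_num, ← pow_add]; congr 1; omega
  omega

theorem smo_N_eq {k : ℕ} (hk : 3 ≤ k) : 8 * smoN k = 2 ^ k := by
  unfold smoN
  rw [show (8 : ℕ) = 2 ^ 3 by norm_num, ← pow_add]; congr 1; omega

/-- the centres of the cells of half side `n` that cover the box `smoB a ρ`. -/
noncomputable def smoJ (a : ℤ × ℤ) (ρ n : ℕ) : Finset (ℤ × ℤ) :=
  (Finset.Icc (0 : ℤ × ℤ) (((2 * ρ / (2 * n) : ℕ) : ℤ), ((2 * ρ / (2 * n) : ℕ) : ℤ))).image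
    fun i => (a.1 - ρ + ((2 * n : ℕ) : ℤ) * i.1 + n, a.2 - ρ + ((2 * n : ℕ) : ℤ) * i.2 + n)

theorem smo_J_card (a : ℤ × ℤ) (ρ n : ℕ) : (smoJ a ρ n).card ≤ (2 * ρ / (2 * n) + 1) ^ 2 := by
  unfold smoJ
  exact Finset.card_image_le.trans (mass81Cell_card (2 * n) (2 * ρ)).le

theorem smo_J_cover {a : ℤ × ℤ} {ρ n : ℕ} (hn : 0 < n) {f : ℤ × ℤ} (hf : f ∈ smoB a ρ) :
    ∃ z ∈ smoJ a ρ n, f ∈ rswBox z n := by
  rw [smo_mem_B] at hf
  set p0 : ℤ × ℤ := (a.1 - ρ, a.2 - ρ) with hp0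
  have hmem : f ∈ Set.Icc p0 (p0 + (((2 * ρ : ℕ) : ℤ), ((2 * ρ : ℕ) : ℤ))) := by
    constructor
    · constructor <;> simp only [hp0] <;> omega
    · constructor <;> simp only [hp0, Prod.fst_add, Prod.snd_add] <;> push_cast <;> omega
  have hi := mass81Cell_mem p0 (2 * n) (2 * ρ) f hmem
  refine ⟨_, Finset.mem_image_of_mem _ hi, ?_⟩
  have hℓ : (0 : ℤ) < ((2 * n : ℕ) : ℤ) := by exact_mod_cast (by omega : 0 < 2 * n)
  have key : ∀ x : ℤ, ((2 * n : ℕ) : ℤ) * (x / ((2 * n : ℕ) : ℤ)) ≤ x ∧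
      x < ((2 * n : ℕ) : ℤ) * (x / ((2 * n : ℕ) : ℤ)) + 2 * n := by
    intro x
    have ex := Int.emod_add_mul_ediv x ((2 * n : ℕ) : ℤ)
    have hx0 := Int.emod_nonneg x hℓ.ne'
    have hx1 := Int.emod_lt_of_pos x hℓ
    push_cast at ex hx0 hx1 ⊢
    constructor <;> linarith
  rw [smo_mem_box]
  have k1 := key (f.1 - p0.1)
  have k2 := key (f.2 - p0.2)
  simp only [mass81Cell, hp0] at k1 k2 ⊢
  refine ⟨⟨by linarith [k1.1], by linarith [k1.2]⟩, ⟨by linarith [k2.1], by linarith [k2.2]⟩⟩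

theorem smo_J_loc {a : ℤ × ℤ} {ρ n : ℕ} {z : ℤ × ℤ} (hz : z ∈ smoJ a ρ n) :
    (a.1 - ρ + n ≤ z.1 ∧ z.1 ≤ a.1 + ρ + n) ∧ (a.2 - ρ + n ≤ z.2 ∧ z.2 ≤ a.2 + ρ + n) := by
  unfold smoJ at hz
  obtain ⟨i, hi, rfl⟩ := Finset.mem_image.1 hz
  rw [Finset.mem_Icc] at hi
  obtain ⟨⟨l1, l2⟩, u1, u2⟩ := hi
  simp only at l1 l2 u1 u2
  have hdiv : (((2 * ρ / (2 * n) : ℕ) : ℤ)) * ((2 * n : ℕ) : ℤ) ≤ ((2 * ρ : ℕ) : ℤ) := by
    exact_mod_cast Nat.div_mul_le_self (2 * ρ) (2 * n)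
  have hℓ : (0 : ℤ) ≤ ((2 * n : ℕ) : ℤ) := Int.natCast_nonneg _
  have b1 : ((2 * n : ℕ) : ℤ) * i.1 ≤ ((2 * ρ : ℕ) : ℤ) :=
    (mul_le_mul_of_nonneg_left u1 hℓ).trans (by rw [mul_comm]; exact hdiv)
  have b2 : ((2 * n : ℕ) : ℤ) * i.2 ≤ ((2 * ρ : ℕ) : ℤ) :=
    (mul_le_mul_of_nonneg_left u2 hℓ).trans (by rw [mul_comm]; exact hdiv)
  have c1 : 0 ≤ ((2 * n : ℕ) : ℤ) * i.1 := mul_nonneg hℓ l1
  have c2 : 0 ≤ ((2 * n : ℕ) : ℤ) * i.2 := mul_nonneg hℓ l2
  push_cast at b1 b2 c1 c2 ⊢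
  refine ⟨⟨by linarith, by linarith⟩, ⟨by linarith, by linarith⟩⟩

/-- a family of clusters of scale `≥ k` that meet the box is counted by the cells. -/
theorem smo_count_cells {F : Finset (ℤ × ℤ)} {a : ℤ × ℤ} {ρ : ℕ} (hB : smoB a ρ ⊆ F) (ω : RswCfg)
    {k n : ℕ} (hn : 0 < n) (𝒮 : Finset (Finset (ℤ × ℤ))) (h1 : 𝒮 ⊆ smoCls F a ρ ω)
    (h2 : ∀ C ∈ 𝒮, 2 ^ k ≤ smoDiam C + 1) :
    (𝒮.card : ℝ) ≤ ∑ z ∈ smoJ a ρ n, ((smoK F a ρ k (rswBox z n) ω).card : ℝ) := by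
  classical
  have hsub : 𝒮 ⊆ (smoJ a ρ n).biUnion fun z => smoK F a ρ k (rswBox z n) ω := by
    intro C hC
    obtain ⟨f0, hf0, rfl⟩ := Finset.mem_image.1 (h1 hC)
    obtain ⟨z, hz, hfz⟩ := smo_J_cover hn hf0
    refine Finset.mem_biUnion.2 ⟨z, hz, ?_⟩
    unfold smoK
    refine Finset.mem_filter.2 ⟨h1 hC, ⟨f0, Finset.mem_inter.2 ⟨smo_self_mem_cl (hB hf0) ω, hfz⟩⟩, h2 _ hC⟩
  have := (Finset.card_le_card hsub).trans Finset.card_biUnion_le
  exact_mod_cast this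

/-- **pointwise bound of the conditional second moment by the local counts.** -/
theorem SmoOk.V_le {t : ℝ} {F : Finset (ℤ × ℤ)} {ω : RswCfg} (h : SmoOk t F ω) {a : ℤ × ℤ} {ρ : ℕ}
    (hB : smoB a ρ ⊆ F) {β : ℤ × ℤ → ℝ} {K δ : ℝ} (hK : 0 ≤ K) (hδ : 0 ≤ δ)
    (hβ : ∀ v, |β v| ≤ K * δ ^ 2) (hβ1 : ∑ v ∈ smoB a ρ, |β v| ≤ K) (hneu : ∑ v ∈ smoB a ρ, β v = 0)
    (M : ℕ) :
    smoV F a ρ β ω ≤ ∑ k ∈ Finset.range (M + 1), K ^ 2 * (δ * 2 ^ (k + 1)) ^ 4 *
        ∑ z ∈ smoJ a ρ (smoN k), ((smoK F a ρ k (rswBox z (smoN k)) ω).card : ℝ)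
      + K ^ 2 * ∑ z ∈ smoJ a ρ (smoN M), ((smoK F a ρ M (rswBox z (smoN M)) ω).card : ℝ) := by
  classical
  rw [smo_V_eq hB]
  set I := smoCls F a ρ ω with hI
  rw [← Finset.sum_filter_add_sum_filter_not I (fun C => smoDiam C + 1 < 2 ^ (M + 1))]
  have hrep : ∀ C ∈ I, ∃ f0 ∈ F, C = smoCl F ω f0 := by
    intro C hC
    obtain ⟨f0, hf0, rfl⟩ := Finset.mem_image.1 hC
    exact ⟨f0, hB hf0, rfl⟩
  apply add_le_add
  · have hd := mass81_dyadic (I.filter fun C => smoDiam C + 1 < 2 ^ (M + 1)) (fun C => smoQ a ρ β ω C)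
      smoDiam K δ hK hδ (fun C hC => by
        obtain ⟨f0, hf0, rfl⟩ := hrep C (Finset.mem_filter.1 hC).1
        exact h.Q_le hf0 a ρ β hβ hneu) M (fun C hC => (Finset.mem_filter.1 hC).2)
    refine hd.trans (Finset.sum_le_sum fun k _ => ?_)
    refine mul_le_mul_of_nonneg_left ?_ (by positivity)
    refine smo_count_cells hB ω (smo_N_pos k) _ (fun C hC => ?_) (fun C hC => ?_)
    · exact (Finset.mem_filter.1 (Finset.mem_filter.1 hC).1).1
    · exact ((mass81Scale_eq_iff _ _).1 (Finset.mem_filter.1 hC).2).1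
  · have h1 : ∑ C ∈ I.filter (fun C => ¬ smoDiam C + 1 < 2 ^ (M + 1)), smoQ a ρ β ω C ^ 2
        ≤ (I.filter (fun C => ¬ smoDiam C + 1 < 2 ^ (M + 1))).card • K ^ 2 :=
      Finset.sum_le_card_nsmul _ _ _ (fun C hC => by
        obtain ⟨f0, hf0, rfl⟩ := hrep C (Finset.mem_filter.1 hC).1
        rw [← sq_abs]
        exact pow_le_pow_left₀ (abs_nonneg _) ((h.Q_le_total hf0 a ρ β hneu).trans hβ1) 2)
    rw [nsmul_eq_mul, mul_comm] at h1
    refine h1.trans (mul_le_mul_of_nonneg_left ?_ (sq_nonneg K))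
    refine smo_count_cells hB ω (smo_N_pos M) _ (fun C hC => (Finset.mem_filter.1 hC).1) (fun C hC => ?_)
    have := (Finset.mem_filter.1 hC).2
    have e : 2 ^ (M + 1) = 2 * 2 ^ M := by rw [pow_succ]; ring
    omega

/-- the literal shape of the contract `exit_mdl_trans` at one ratio `k`. -/
def SmoTransH (t : ℝ) (k : ℕ) : Prop :=
  ∃ C q : ℝ, 0 < C ∧ 0 < q ∧ q < 1 ∧ ∃ n0 : ℕ, ∀ n : ℕ, n0 ≤ n → ∀ (F : Finset (ℤ × ℤ)) (z : ℤ × ℤ) (b : Bool) (L : RswCfg → Prop) (j : ℕ),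
      RswJordan F → rswBox z ((k + 2) * n) ⊆ F → MdlExt (rswBox z ((k + 2) * n)) L →
      rswP t F b (fun ω => L ω ∧ MdlTrans (rswBox z (k * n)) (rswBox z ((k + 1) * n)) j ω) ≤ C * q ^ j * rswP t F b L

/-- **the core estimate in finite volume.** -/
theorem smo_core {t : ℝ} (ht0 : 0 < t) (ht1 : t ≤ 1) (hT : SmoTransH t 1) :
    ∃ Cq : ℝ, 0 ≤ Cq ∧ ∀ (F : Finset (ℤ × ℤ)) (a : ℤ × ℤ) (ρ M : ℕ) (L : RswCfg → Prop) (β : ℤ × ℤ → ℝ)
      (K δ : ℝ), RswJordan F → 3 ≤ M → rswBox a (ρ + 2 ^ M) ⊆ F → MdlExt (rswBox a (ρ + 2 ^ M)) L →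
      0 ≤ K → 0 ≤ δ → (∀ v, |β v| ≤ K * δ ^ 2) → ∑ v ∈ smoB a ρ, |β v| ≤ K → ∑ v ∈ smoB a ρ, β v = 0 →
      rswE t F true (fun ω => smoY a ρ β ω ^ 2 * smoInd L ω)
        ≤ (∑ k ∈ Finset.range (M + 1), K ^ 2 * (δ * 2 ^ (k + 1)) ^ 4 * ((smoJ a ρ (smoN k)).card : ℝ)
            + K ^ 2 * ((smoJ a ρ (smoN M)).card : ℝ)) * (Cq * rswP t F true L) := by
  obtain ⟨Ct, q, hCt, hq0, hq1, n0, hT⟩ := hT
  have hq' : 0 < 1 - q := by linarith
  refine ⟨(2 * ((n0 : ℝ) + 1)) ^ 2 + Ct / (1 - q), by positivity, ?_⟩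
  intro F a ρ M L β K δ hF hM hbox hL hK hδ hβ hβ1 hneu
  set Cq : ℝ := (2 * ((n0 : ℝ) + 1)) ^ 2 + Ct / (1 - q) with hCq
  have hP : 0 ≤ rswP t F true L := rsz_P_nonneg ht0.le ht1 F true L
  have hB : smoB a ρ ⊆ F := by
    intro f hf
    apply hbox
    rw [smo_mem_B] at hf
    rw [smo_mem_box]
    have : (1 : ℤ) ≤ 2 ^ M := one_le_pow₀ (by norm_num)
    push_cast
    omega
  -- one cell
  have cell : ∀ k ≤ M, ∀ z ∈ smoJ a ρ (smoN k),
      rswE t F true (fun ω => ((smoK F a ρ k (rswBox z (smoN k)) ω).card : ℝ) * smoInd L ω)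
        ≤ Cq * rswP t F true L := by
    intro k hk z hz
    by_cases hreg : 3 ≤ k ∧ n0 ≤ smoN k
    · have hloc := smo_J_loc hz
      have h8 := smo_N_le hk hM
      have hsub : rswBox z (3 * smoN k) ⊆ rswBox a (ρ + 2 ^ M) := by
        intro f hf
        rw [smo_mem_box] at hf ⊢
        have h8' : (8 : ℤ) * (smoN k : ℤ) ≤ 2 ^ M := by exact_mod_cast h8
        push_cast at hf ⊢
        omega
      have hsub2 : rswBox z (2 * smoN k) ⊆ rswBox z (3 * smoN k) := by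
        intro f hf
        rw [smo_mem_box] at hf ⊢
        push_cast at hf ⊢
        omega
      have hb : ∀ j, rswP t F true (fun ω => L ω ∧ MdlTrans (rswBox z (smoN k)) (rswBox z (2 * smoN k)) j ω)
          ≤ Ct * q ^ j * rswP t F true L := by
        intro j
        have := hT (smoN k) hreg.2 F z true L j hF (hsub.trans hbox) (smo_ext_mono hsub hL)
        simpa using this
      have hk4 : 4 * smoN k + 1 < 2 ^ k := by
        have := smo_N_eq hreg.1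
        have := smo_N_pos k
        omega
      refine (smo_K_exp ht0 ht1 hCt hq0 hq1 hb ((hsub2.trans hsub).trans hbox) a ρ hk4).trans ?_
      refine mul_le_mul_of_nonneg_right ?_ hP
      rw [hCq]
      have : 0 ≤ (2 * ((n0 : ℝ) + 1)) ^ 2 := by positivity
      linarith
    · refine (smo_K_exp_det ht0 ht1 F z (smoN k) L a ρ k).trans ?_
      refine mul_le_mul_of_nonneg_right ?_ hP
      have hn : smoN k ≤ n0 + 1 := by
        by_cases h3 : 3 ≤ k
        · have : ¬ n0 ≤ smoN k := fun h => hreg ⟨h3, h⟩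
          omega
        · have : smoN k = 1 := by
            unfold smoN
            rw [show k - 3 = 0 by omega, pow_zero]
          omega
      have hn' : (smoN k : ℝ) ≤ (n0 : ℝ) + 1 := by exact_mod_cast hn
      rw [hCq]
      have h1 : (2 * (smoN k : ℝ)) ^ 2 ≤ (2 * ((n0 : ℝ) + 1)) ^ 2 :=
        pow_le_pow_left₀ (by positivity) (by linarith) 2
      have h2 : 0 ≤ Ct / (1 - q) := by positivity
      linarith
  -- second moment identity
  have e1 : rswE t F true (fun ω => smoY a ρ β ω ^ 2 * smoInd L ω)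
      = rswE t F true (fun ω => smoV F a ρ β ω * smoInd L ω) := by
    unfold rswE
    rw [smo_second t hB β (smo_ext_blind hL)]
  rw [e1]
  -- pointwise bound
  have e2 : rswE t F true (fun ω => smoV F a ρ β ω * smoInd L ω)
      ≤ rswE t F true (fun ω => (∑ k ∈ Finset.range (M + 1), (K ^ 2 * (δ * 2 ^ (k + 1)) ^ 4) *
        ∑ z ∈ smoJ a ρ (smoN k), ((smoK F a ρ k (rswBox z (smoN k)) ω).card : ℝ) * smoInd L ω)
      + K ^ 2 * ∑ z ∈ smoJ a ρ (smoN M), ((smoK F a ρ M (rswBox z (smoN M)) ω).card : ℝ) * smoInd L ω) := by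
    refine rsz_E_mono' ht0.le ht1 F true fun ω hS hD hO hw => ?_
    have hok : SmoOk t F ω := ⟨hS, hD, hO, hw⟩
    have := mul_le_mul_of_nonneg_right (hok.V_le hB hK hδ hβ hβ1 hneu M) (smo_ind_nonneg L ω)
    refine this.trans (le_of_eq ?_)
    rw [add_mul, Finset.sum_mul, mul_assoc, Finset.sum_mul]
    congr 1
    refine Finset.sum_congr rfl fun k _ => ?_
    rw [mul_assoc, Finset.sum_mul]
  refine e2.trans ?_
  rw [rsz_E_add, rsz_E_fsum, rsz_E_smul, rsz_E_fsum, add_mul, Finset.sum_mul]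
  apply add_le_add
  · refine Finset.sum_le_sum fun k hk => ?_
    have hkM : k ≤ M := Nat.lt_succ_iff.1 (Finset.mem_range.1 hk)
    rw [rsz_E_smul, rsz_E_fsum, mul_assoc (K ^ 2 * (δ * 2 ^ (k + 1)) ^ 4) ((smoJ a ρ (smoN k)).card : ℝ)]
    refine mul_le_mul_of_nonneg_left ?_ (by positivity : (0 : ℝ) ≤ K ^ 2 * (δ * 2 ^ (k + 1)) ^ 4)
    calc ∑ z ∈ smoJ a ρ (smoN k),
          rswE t F true (fun ω => ((smoK F a ρ k (rswBox z (smoN k)) ω).card : ℝ) * smoInd L ω)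
        ≤ ∑ _z ∈ smoJ a ρ (smoN k), Cq * rswP t F true L := Finset.sum_le_sum fun z hz => cell k hkM z hz
      _ = ((smoJ a ρ (smoN k)).card : ℝ) * (Cq * rswP t F true L) := by
          rw [Finset.sum_const, nsmul_eq_mul]
  · rw [mul_assoc]
    refine mul_le_mul_of_nonneg_left ?_ (sq_nonneg K)
    calc ∑ z ∈ smoJ a ρ (smoN M),
          rswE t F true (fun ω => ((smoK F a ρ M (rswBox z (smoN M)) ω).card : ℝ) * smoInd L ω)
        ≤ ∑ _z ∈ smoJ a ρ (smoN M), Cq * rswP t F true L := Finset.sum_le_sum fun z hz => cell M le_rfl z hz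
      _ = ((smoJ a ρ (smoN M)).card : ℝ) * (Cq * rswP t F true L) := by
          rw [Finset.sum_const, nsmul_eq_mul]

/-! ## 8. numerics -/

theorem smo_J_card_le (a : ℤ × ℤ) (ρ k : ℕ) {δ : ℝ} (hδ : 0 < δ) :
    ((smoJ a ρ (smoN k)).card : ℝ)
      ≤ (((4 : ℕ) : ℝ) * (δ * ((2 * ρ : ℕ) : ℝ)) + δ * 2 ^ k) ^ 2 / (δ * 2 ^ k) ^ 2 := by
  have h1 := smo_J_card a ρ (smoN k)
  have hℓ : 2 ^ k ≤ 4 * (2 * smoN k) := by
    by_cases h3 : 3 ≤ k
    · have := smo_N_eq h3; omega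
    · have hp := smo_N_pos k
      have : k = 0 ∨ k = 1 ∨ k = 2 := by omega
      rcases this with rfl | rfl | rfl <;> norm_num <;> omega
  have h2 := mass81Cell_card_le (2 * smoN k) (2 * ρ) k 4 hℓ δ hδ
  have h3 : ((smoJ a ρ (smoN k)).card : ℝ) ≤ (((2 * ρ / (2 * smoN k) + 1) ^ 2 : ℕ) : ℝ) := by
    exact_mod_cast h1
  exact h3.trans h2

theorem smo_num {K δ A c0 : ℝ} (hδ : 0 < δ) (a : ℤ × ℤ) {ρ M : ℕ}
    (hA : δ * ((2 * ρ : ℕ) : ℝ) ≤ A) (h1 : δ * 2 ^ M ≤ c0) (h2 : c0 ≤ 2 * (δ * 2 ^ M)) (hc0 : 0 < c0) :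
    ∑ k ∈ Finset.range (M + 1), K ^ 2 * (δ * 2 ^ (k + 1)) ^ 4 * ((smoJ a ρ (smoN k)).card : ℝ)
        + K ^ 2 * ((smoJ a ρ (smoN M)).card : ℝ)
      ≤ K ^ 2 * (4 * A + c0) ^ 2 * (64 / 3 * c0 ^ 2 + 4 / c0 ^ 2) := by
  have hA0 : 0 ≤ δ * ((2 * ρ : ℕ) : ℝ) := by positivity
  set cb : ℝ := (4 * A + c0) ^ 2 with hcb
  have hcb0 : 0 ≤ cb := sq_nonneg _
  have hJ : ∀ k ≤ M, ((smoJ a ρ (smoN k)).card : ℝ) ≤ cb / (δ * 2 ^ k) ^ 2 := by
    intro k hk
    refine (smo_J_card_le a ρ k hδ).trans ?_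
    refine div_le_div_of_nonneg_right ?_ (by positivity)
    rw [hcb]
    refine pow_le_pow_left₀ (by positivity) ?_ 2
    have : δ * 2 ^ k ≤ δ * 2 ^ M :=
      mul_le_mul_of_nonneg_left (pow_le_pow_right₀ (by norm_num) hk) hδ.le
    push_cast at hA ⊢
    linarith
  have hterm : ∀ k ∈ Finset.range (M + 1),
      K ^ 2 * (δ * 2 ^ (k + 1)) ^ 4 * ((smoJ a ρ (smoN k)).card : ℝ) ≤ 16 * (K ^ 2 * cb) * δ ^ 2 * 4 ^ k := by
    intro k hk
    have hkM : k ≤ M := Nat.lt_succ_iff.1 (Finset.mem_range.1 hk)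
    calc K ^ 2 * (δ * 2 ^ (k + 1)) ^ 4 * ((smoJ a ρ (smoN k)).card : ℝ)
        ≤ K ^ 2 * (δ * 2 ^ (k + 1)) ^ 4 * (cb / (δ * 2 ^ k) ^ 2) :=
          mul_le_mul_of_nonneg_left (hJ k hkM) (by positivity)
      _ = 16 * (K ^ 2 * cb) * δ ^ 2 * 4 ^ k := by
          have e4 : (4 : ℝ) ^ k = (2 ^ k) ^ 2 := by rw [← pow_mul, mul_comm, pow_mul]; norm_num
          have h2k : (2 : ℝ) ^ k ≠ 0 := by positivity
          rw [e4, pow_succ]
          field_simp
          ring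
  have hsum : ∑ k ∈ Finset.range (M + 1), K ^ 2 * (δ * 2 ^ (k + 1)) ^ 4 * ((smoJ a ρ (smoN k)).card : ℝ)
      ≤ K ^ 2 * cb * (64 / 3 * c0 ^ 2) := by
    refine (Finset.sum_le_sum hterm).trans ?_
    rw [← Finset.mul_sum]
    have h5 := mass81_geom4 M
    have h6 : 0 ≤ 16 * (K ^ 2 * cb) * δ ^ 2 := by positivity
    have h7 : (δ * 2 ^ M) ^ 2 = δ ^ 2 * 4 ^ M := by
      have : (4 : ℝ) ^ M = (2 ^ M) ^ 2 := by rw [← pow_mul, mul_comm, pow_mul]; norm_num
      rw [this]; ring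
    have h8 : (δ * 2 ^ M) ^ 2 ≤ c0 ^ 2 := pow_le_pow_left₀ (by positivity) h1 2
    calc 16 * (K ^ 2 * cb) * δ ^ 2 * ∑ k ∈ Finset.range (M + 1), (4 : ℝ) ^ k
        ≤ 16 * (K ^ 2 * cb) * δ ^ 2 * (4 / 3 * 4 ^ M) := mul_le_mul_of_nonneg_left (by linarith) h6
      _ = K ^ 2 * cb * (64 / 3 * (δ * 2 ^ M) ^ 2) := by rw [h7]; ring
      _ ≤ K ^ 2 * cb * (64 / 3 * c0 ^ 2) := by
          refine mul_le_mul_of_nonneg_left ?_ (by positivity)
          linarith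
  have hlast : K ^ 2 * ((smoJ a ρ (smoN M)).card : ℝ) ≤ K ^ 2 * cb * (4 / c0 ^ 2) := by
    rw [mul_assoc]
    refine mul_le_mul_of_nonneg_left ?_ (sq_nonneg K)
    refine (hJ M le_rfl).trans ?_
    rw [div_eq_mul_inv]
    refine mul_le_mul_of_nonneg_left ?_ hcb0
    have hpos : 0 < δ * 2 ^ M := by positivity
    rw [inv_le_comm₀ (by positivity) (by positivity), inv_div]
    have : c0 ^ 2 ≤ (2 * (δ * 2 ^ M)) ^ 2 := pow_le_pow_left₀ hc0.le h2 2
    nlinarith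
  calc _ ≤ K ^ 2 * cb * (64 / 3 * c0 ^ 2) + K ^ 2 * cb * (4 / c0 ^ 2) := add_le_add hsum hlast
    _ = K ^ 2 * cb * (64 / 3 * c0 ^ 2 + 4 / c0 ^ 2) := by ring

/-! ## 9. the Laplace insertion as `smoY` -/

theorem smo_S_tr (a : ℤ × ℤ) (ω : RswCfg) (v : ℤ × ℤ) :
    scrS (scrAct (scrTr (-a)) ω) v = scrS ω (v + a) := by
  have : v ∈ (scrAct (scrTr (-a)) ω).S ↔ v + a ∈ ω.S := by
    simp only [scrAct, scrTr, Finset.mem_image]
    constructor
    · rintro ⟨u, hu, rfl⟩; simpa using hu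
    · intro h; exact ⟨v + a, h, by simp⟩
  unfold scrS
  simp only [this]

theorem smo_D_tr (a : ℤ × ℤ) (ω : RswCfg) (v : ℤ × ℤ) :
    scrD (scrAct (scrTr (-a)) ω) v = scrD ω (v + a) := by
  have : v ∈ (scrAct (scrTr (-a)) ω).D ↔ v + a ∈ ω.D := by
    simp only [scrAct, scrTr, Finset.mem_image]
    constructor
    · rintro ⟨u, hu, rfl⟩; simpa using hu
    · intro h; exact ⟨v + a, h, by simp⟩
  unfold scrD
  simp only [this]

theorem smo_end_add (e : (ℤ × ℤ) × Bool) (a : ℤ × ℤ) : rswEnd (e.1 + a, e.2) = rswEnd e + a := by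
  obtain ⟨⟨x, y⟩, b⟩ := e
  obtain ⟨a1, a2⟩ := a
  cases b
  · show ((x + a1 + 1, y + a2) : ℤ × ℤ) = (x + 1 + a1, y + a2)
    rw [add_right_comm]
  · show ((x + a1, y + a2 + 1) : ℤ × ℤ) = (x + a1, y + 1 + a2)
    rw [add_right_comm]

theorem smo_step_tr (a : ℤ × ℤ) (ω : RswCfg) (e : (ℤ × ℤ) × Bool) :
    scrStep (scrAct (scrTr (-a)) ω) e = scrStep ω (e.1 + a, e.2) := by
  unfold scrStep
  rw [smo_S_tr, smo_S_tr, smo_D_tr, smo_end_add]

theorem smo_inc_tr (a : ℤ × ℤ) (ω : RswCfg) (v : ℤ × ℤ) :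
    scrInc (scrAct (scrTr (-a)) ω) (0, 0) v = scrInc ω a (v + a) := by
  unfold scrInc
  have h1 := smo_osum_shift 0 v.1 a.1 (fun x => scrStep ω ((x, a.2), false))
  have h2 := smo_osum_shift 0 v.2 a.2 (fun y => scrStep ω (((v + a).1, y), true))
  rw [zero_add] at h1 h2
  rw [Prod.fst_add, Prod.snd_add, h1]
  rw [Prod.fst_add] at h2
  rw [h2]
  congr 1
  · refine smo_osum_congr fun x _ _ => ?_
    rw [smo_step_tr]
    have : (((x, (0 : ℤ)), false) : (ℤ × ℤ) × Bool).1 + a = (x + a.1, a.2) := by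
      ext <;> simp
    rw [this]
  · refine smo_osum_congr fun y _ _ => ?_
    rw [smo_step_tr]
    have : (((v.1, y), true) : (ℤ × ℤ) × Bool).1 + a = (v.1 + a.1, y + a.2) := by
      ext <;> simp
    rw [this]

theorem smo_arr_eq {δ : ℝ} (hδ : 0 < δ) {f : ℝ × ℝ → ℝ} {R : ℝ} (hf : AskSupp f R) (a : ℤ × ℤ)
    (ω : RswCfg) : scrArr (aspW δ f) (0, 0) (scrAct (scrTr (-a)) ω)
      = smoY a (askNum R δ) (fun v => aspW δ f (v - a)) ω := by
  unfold scrArr smoY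
  rw [Finsupp.sum_of_support_subset (aspW δ f) (ask_W_supp hf hδ) _ (fun _ _ => by rw [zero_mul])]
  refine Finset.sum_nbij' (fun v => v + a) (fun u => u - a) ?_ ?_ ?_ ?_ ?_
  · intro v hv
    obtain ⟨h1, h2⟩ := ask_mem_sq.1 hv
    rw [abs_le] at h1 h2
    rw [smo_mem_B]
    simp only [Prod.fst_add, Prod.snd_add]
    omega
  · intro u hu
    rw [smo_mem_B] at hu
    rw [ask_mem_sq, abs_le, abs_le]
    simp only [Prod.fst_sub, Prod.snd_sub]
    omega
  · intro v _; simp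
  · intro u _; simp
  · intro v _
    rw [smo_inc_tr]
    simp

theorem smo_ins_eq {δ : ℝ} (hδ : 0 < δ) {φ : ℝ × ℝ → ℝ} {R : ℝ} (hf : AskSupp (lap2 φ) R) (a : ℤ × ℤ)
    (ω : RswCfg) : scrSh a (scrIns δ 0 φ) ω
      = smoY a (askNum R δ) (fun v => aspW δ (lap2 φ) (v - a)) ω := by
  rw [← smo_arr_eq hδ hf a ω]
  unfold scrSh scrIns
  simp

theorem smo_B_card (a : ℤ × ℤ) (ρ : ℕ) : ((smoB a ρ).card : ℝ) = (2 * (ρ : ℝ) + 1) ^ 2 := by
  unfold smoB
  rw [Finset.card_product, Int.card_Icc, Int.card_Icc]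
  have e1 : (a.1 + ρ + 1 - (a.1 - ρ)).toNat = 2 * ρ + 1 := by omega
  have e2 : (a.2 + ρ + 1 - (a.2 - ρ)).toNat = 2 * ρ + 1 := by omega
  rw [e1, e2]; push_cast; ring

theorem smo_beta_sum {δ : ℝ} (hδ : 0 < δ) {f : ℝ × ℝ → ℝ} {R : ℝ} (hf : AskSupp f R) (a : ℤ × ℤ) :
    ∑ v ∈ smoB a (askNum R δ), aspW δ f (v - a) = aspTot (aspW δ f) := by
  rw [ask_tot_eq_sum (ask_W_supp hf hδ)]
  refine Finset.sum_nbij' (fun u => u - a) (fun v => v + a) ?_ ?_ ?_ ?_ ?_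
  · intro u hu
    rw [smo_mem_B] at hu
    rw [ask_mem_sq, abs_le, abs_le]
    simp only [Prod.fst_sub, Prod.snd_sub]
    omega
  · intro v hv
    obtain ⟨h1, h2⟩ := ask_mem_sq.1 hv
    rw [abs_le] at h1 h2
    rw [smo_mem_B]
    simp only [Prod.fst_add, Prod.snd_add]
    omega
  · intro u _; simp
  · intro v _; simp
  · intro u _; rfl

/-! ## 10. the pattern event -/

/-- the event "the patterns of `π i` are seen in all the windows `U i`". -/
def smoL (δ : ℝ) {m : ℕ} (U : Fin m → Set (ℝ × ℝ)) (π : Fin m → RswCfg) (ω : RswCfg) : Prop :=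
  ∀ i, scrPat δ (U i) ω = scrPat δ (U i) (π i)

theorem smo_prod_pat (δ : ℝ) {m : ℕ} (U : Fin m → Set (ℝ × ℝ)) (π : Fin m → RswCfg) (ω : RswCfg) :
    ∏ i, scrPatI δ (U i) (π i) ω = smoInd (smoL δ U π) ω := by
  unfold smoInd
  by_cases h : smoL δ U π ω
  · rw [if_pos h]
    refine Finset.prod_eq_one fun i _ => ?_
    unfold scrPatI
    rw [if_pos (h i)]
  · rw [if_neg h]
    unfold smoL at h
    push Not at h
    obtain ⟨i, hi⟩ := h
    refine Finset.prod_eq_zero (Finset.mem_univ i) ?_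
    unfold scrPatI
    rw [if_neg hi]

theorem smo_pat_congr {δ : ℝ} {U : Set (ℝ × ℝ)} {ω ω' : RswCfg}
    (hS : ∀ v, scr232P δ v ∈ U → (v ∈ ω.S ↔ v ∈ ω'.S))
    (hO : ∀ e : (ℤ × ℤ) × Bool, scr232P δ e.1 ∈ U → scr232P δ (rswEnd e) ∈ U → (e ∈ ω.O ↔ e ∈ ω'.O)) :
    scrPat δ U ω = scrPat δ U ω' := by
  unfold scrPat
  refine Prod.ext ?_ ?_
  · ext v
    simp only [Finset.mem_filter]
    constructor
    · rintro ⟨h1, h2⟩; exact ⟨(hS v h2).1 h1, h2⟩
    · rintro ⟨h1, h2⟩; exact ⟨(hS v h2).2 h1, h2⟩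
  · ext e
    simp only [Finset.mem_filter]
    constructor
    · rintro ⟨h1, h2⟩; exact ⟨(hO e h2.1 h2.2).1 h1, h2⟩
    · rintro ⟨h1, h2⟩; exact ⟨(hO e h2.1 h2.2).2 h1, h2⟩

theorem smo_far {δ : ℝ} (hδ : 0 < δ) {a v : ℤ × ℤ} {Rb : ℕ} {D0 : ℝ} (hD0 : δ * Rb ≤ D0)
    (h : D0 ≤ dist (scr232P δ v) (scr232P δ a)) :
    (Rb : ℤ) ≤ v.1 - a.1 ∨ (Rb : ℤ) ≤ a.1 - v.1 ∨ (Rb : ℤ) ≤ v.2 - a.2 ∨ (Rb : ℤ) ≤ a.2 - v.2 := by
  have key : ∀ x y : ℤ, δ * Rb ≤ dist (δ * (x : ℝ)) (δ * (y : ℝ)) → (Rb : ℤ) ≤ x - y ∨ (Rb : ℤ) ≤ y - x := by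
    intro x y hxy
    rw [Real.dist_eq, ← mul_sub, abs_mul, abs_of_pos hδ] at hxy
    have h1 : (Rb : ℝ) ≤ |(x : ℝ) - (y : ℝ)| := le_of_mul_le_mul_left hxy hδ
    rcases le_abs.1 h1 with h2 | h2
    · left
      have : ((Rb : ℤ) : ℝ) ≤ ((x - y : ℤ) : ℝ) := by push_cast; exact h2
      exact_mod_cast this
    · right
      have : ((Rb : ℤ) : ℝ) ≤ ((y - x : ℤ) : ℝ) := by push_cast; linarith
      exact_mod_cast this
  have h' := hD0.trans h
  rw [Prod.dist_eq] at h'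
  rcases le_max_iff.1 h' with h1 | h1
  · rcases key _ _ h1 with h2 | h2
    · exact Or.inl h2
    · exact Or.inr (Or.inl h2)
  · rcases key _ _ h1 with h2 | h2
    · exact Or.inr (Or.inr (Or.inl h2))
    · exact Or.inr (Or.inr (Or.inr h2))

/-- the pattern event is exterior `(s, W)` data of every box that stays away from the windows. -/
theorem smo_L_ext {δ : ℝ} (hδ : 0 < δ) {a : ℤ × ℤ} {Rb : ℕ} {m : ℕ}
    {U : Fin m → Set (ℝ × ℝ)} (π : Fin m → RswCfg) {D0 : ℝ} (hD0 : δ * Rb ≤ D0)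
    (hU : ∀ i, ∀ p ∈ U i, D0 ≤ dist p (scr232P δ a)) : MdlExt (rswBox a Rb) (smoL δ U π) := by
  intro ω ω' hS hO
  have hpat : ∀ i, scrPat δ (U i) ω = scrPat δ (U i) ω' := by
    intro i
    refine smo_pat_congr (fun v hv => hS v ?_) (fun e h1 h2 => hO e ?_)
    · have hf := smo_far hδ hD0 (hU i _ hv)
      intro hp
      have p1 := smo_mem_box.1 hp.1
      have p4 := smo_mem_box.1 hp.2.2.2
      simp only at p4
      omega
    · have f1 := smo_far hδ hD0 (hU i _ h1)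
      have f2 := smo_far hδ hD0 (hU i _ h2)
      intro he
      obtain ⟨q1, q2⟩ := rsz_mem_int.1 he
      rw [smo_mem_box] at q1 q2
      obtain ⟨⟨x, y⟩, bb⟩ := e
      cases bb
      · simp only [rswEnd, rswCo, Bool.false_eq_true, if_false] at f1 f2 q1 q2
        omega
      · simp only [rswEnd, rswCo, if_true] at f1 f2 q1 q2
        omega
  unfold smoL
  simp only [hpat]

/-! ## 11. locality, the plane limit, the contract -/

theorem smo_inter_iff {α : Type*} [DecidableEq α] {A A' R : Finset α} (h : A ∩ R = A' ∩ R) {v : α}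
    (hv : v ∈ R) : v ∈ A ↔ v ∈ A' := by
  have := Finset.ext_iff.1 h v
  simp only [Finset.mem_inter, hv, and_true] at this
  exact this

theorem smo_ind_congr {L : RswCfg → Prop} {ω ω' : RswCfg} (h : L ω ↔ L ω') :
    smoInd L ω = smoInd L ω' := by
  unfold smoInd
  by_cases h1 : L ω
  · rw [if_pos h1, if_pos (h.1 h1)]
  · rw [if_neg h1, if_neg fun h' => h1 (h.2 h')]

theorem smo_inc_loc {a : ℤ × ℤ} {ρ : ℕ} {v : ℤ × ℤ} (hv : v ∈ smoB a ρ) {ω ω' : RswCfg}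
    (hS : ∀ u ∈ smoB a (ρ + 1), scrS ω u = scrS ω' u) (hD : ∀ u ∈ smoB a (ρ + 1), scrD ω u = scrD ω' u) :
    scrInc ω a v = scrInc ω' a v := by
  rw [smo_mem_B] at hv
  unfold scrInc
  congr 1
  · refine smo_osum_congr fun x h1 h2 => ?_
    have hx : a.1 - ρ ≤ x ∧ x + 1 ≤ a.1 + ρ := by
      rcases le_total a.1 v.1 with h | h
      · rw [min_eq_left h] at h1; rw [max_eq_right h] at h2; omega
      · rw [min_eq_right h] at h1; rw [max_eq_left h] at h2; omega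
    unfold scrStep
    rw [hS (x, a.2) (by rw [smo_mem_B]; push_cast; omega),
      hS (rswEnd ((x, a.2), false)) (by rw [smo_mem_B]; push_cast; simp only [rswEnd, Bool.false_eq_true, if_false]; omega),
      hD (x, a.2) (by rw [smo_mem_B]; push_cast; omega)]
  · refine smo_osum_congr fun y h1 h2 => ?_
    have hy : a.2 - ρ ≤ y ∧ y + 1 ≤ a.2 + ρ := by
      rcases le_total a.2 v.2 with h | h
      · rw [min_eq_left h] at h1; rw [max_eq_right h] at h2; omega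
      · rw [min_eq_right h] at h1; rw [max_eq_left h] at h2; omega
    unfold scrStep
    rw [hS (v.1, y) (by rw [smo_mem_B]; push_cast; omega),
      hS (rswEnd ((v.1, y), true)) (by rw [smo_mem_B]; push_cast; simp only [rswEnd, if_true]; omega),
      hD (v.1, y) (by rw [smo_mem_B]; push_cast; omega)]

theorem smo_fin {δ : ℝ} (hδ : 0 < δ) (c : ℝ × ℝ) (Mr : ℝ) :
    ∃ R : Finset (ℤ × ℤ), ∀ v, scr232P δ v ∈ Metric.closedBall c Mr → v ∈ R := by
  refine ⟨Finset.Icc ⌊(c.1 - Mr) / δ⌋ ⌈(c.1 + Mr) / δ⌉ ×ˢ Finset.Icc ⌊(c.2 - Mr) / δ⌋ ⌈(c.2 + Mr) / δ⌉,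
    fun v hv => ?_⟩
  rw [Metric.mem_closedBall, Prod.dist_eq, max_le_iff, Real.dist_eq, Real.dist_eq, abs_le, abs_le] at hv
  obtain ⟨⟨h1, h2⟩, h3, h4⟩ := hv
  simp only [scr232P] at h1 h2 h3 h4
  have key : ∀ (x : ℤ) (lo hi : ℝ), lo ≤ δ * (x : ℝ) → δ * (x : ℝ) ≤ hi → ⌊lo / δ⌋ ≤ x ∧ x ≤ ⌈hi / δ⌉ := by
    intro x lo hi hlo hhi
    constructor
    · have : lo / δ ≤ (x : ℝ) := by rw [div_le_iff₀ hδ]; linarith
      exact Int.cast_le.1 ((Int.floor_le _).trans this)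
    · have : (x : ℝ) ≤ hi / δ := by rw [le_div_iff₀ hδ]; linarith
      exact Int.cast_le.1 (this.trans (Int.le_ceil _))
  rw [Finset.mem_product, Finset.mem_Icc, Finset.mem_Icc]
  exact ⟨key v.1 _ _ (by linarith) (by linarith), key v.2 _ _ (by linarith) (by linarith)⟩

theorem smo_loc {δ : ℝ} (hδ : 0 < δ) (a : ℤ × ℤ) (ρ : ℕ) (β : ℤ × ℤ → ℝ) {m : ℕ}
    {U : Fin m → Set (ℝ × ℝ)} (π : Fin m → RswCfg) {Mr : ℝ}
    (hU : ∀ i, ∃ c : ℝ × ℝ, U i ⊆ Metric.closedBall c Mr) :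
    ∃ (R : Finset (ℤ × ℤ)) (R' : Finset ((ℤ × ℤ) × Bool)),
      RswLoc R R' (fun ω => smoY a ρ β ω ^ 2 * smoInd (smoL δ U π) ω) ∧
      RswLoc R R' (smoInd (smoL δ U π)) := by
  classical
  choose c hc using hU
  choose Ri hRi using fun i => smo_fin hδ (c i) Mr
  set R : Finset (ℤ × ℤ) := smoB a (ρ + 1) ∪ Finset.univ.biUnion Ri with hR
  have hpatR : ∀ i v, scr232P δ v ∈ U i → v ∈ R := fun i v hv =>
    Finset.mem_union_right _ (Finset.mem_biUnion.2 ⟨i, Finset.mem_univ i, hRi i v (hc i hv)⟩)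
  have hind : RswLoc R (R ×ˢ Finset.univ) (smoInd (smoL δ U π)) := by
    intro ω ω' hS _ hO
    have hpat : ∀ i, scrPat δ (U i) ω = scrPat δ (U i) ω' := by
      intro i
      refine smo_pat_congr (fun v hv => smo_inter_iff hS (hpatR i v hv)) fun e h1 _ => ?_
      exact smo_inter_iff hO (Finset.mem_product.2 ⟨hpatR i _ h1, Finset.mem_univ _⟩)
    refine smo_ind_congr ?_
    unfold smoL
    simp only [hpat]
  refine ⟨R, R ×ˢ Finset.univ, ?_, hind⟩
  intro ω ω' hS hD hO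
  have e1 : smoY a ρ β ω = smoY a ρ β ω' := by
    unfold smoY
    refine Finset.sum_congr rfl fun v hv => ?_
    rw [smo_inc_loc hv (ω := ω) (ω' := ω')]
    · intro u hu
      exact smo_S_eq_of_iff (ω := ω) (u := u) (v := u) Iff.rfl |>.trans (by
        unfold scrS
        simp only [smo_inter_iff hS (Finset.mem_union_left _ hu)])
    · intro u hu
      unfold scrD
      simp only [smo_inter_iff hD (Finset.mem_union_left _ hu)]
  show smoY a ρ β ω ^ 2 * smoInd (smoL δ U π) ω = smoY a ρ β ω' ^ 2 * smoInd (smoL δ U π) ω'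
  rw [e1, hind ω ω' hS hD hO]

/-- the literal shape of the contract `exit_rsw_plane`. -/
def SmoPlaneH (t : ℝ) : Prop :=
  ∀ (R : Finset (ℤ × ℤ)) (R' : Finset ((ℤ × ℤ) × Bool)) (X : RswCfg → ℝ), RswLoc R R' X →
    ∃ ℓ : ℝ, ∀ ε : ℝ, 0 < ε → ∃ n0 : ℕ, ∀ (F : Finset (ℤ × ℤ)) (b : Bool),
      RswJordan F → rswBox 0 n0 ⊆ F → |rswE t F b X - ℓ| < ε

theorem smo_box_mono (z : ℤ × ℤ) {n n' : ℕ} (h : n ≤ n') : rswBox z n ⊆ rswBox z n' := by
  intro f hf
  rw [smo_mem_box] at hf ⊢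
  have : (n : ℤ) ≤ n' := by exact_mod_cast h
  omega

theorem smo_tendsto {t : ℝ} (hP : SmoPlaneH t) (hJ : ∀ n : ℕ, 1 ≤ n → RswJordan (rswBox 0 n))
    {R : Finset (ℤ × ℤ)} {R' : Finset ((ℤ × ℤ) × Bool)} {X : RswCfg → ℝ} (hX : RswLoc R R' X) :
    Tendsto (fun n : ℕ => rswE t (rswBox 0 n) true X) atTop (𝓝 (scrPl t X)) := by
  obtain ⟨ℓ, hℓ⟩ := hP R R' X hX
  have ht : Tendsto (fun n : ℕ => rswE t (rswBox 0 n) true X) atTop (𝓝 ℓ) := by
    rw [Metric.tendsto_atTop]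
    intro ε hε
    obtain ⟨n0, h⟩ := hℓ ε hε
    refine ⟨max n0 1, fun n hn => ?_⟩
    rw [Real.dist_eq]
    exact h _ true (hJ n ((le_max_right _ _).trans hn)) (smo_box_mono 0 ((le_max_left _ _).trans hn))
  unfold scrPl
  rw [ht.limUnder_eq]
  exact ht

theorem smo_test_of_ball {φ : ℝ × ℝ → ℝ} (hφ : ContDiff ℝ ((⊤ : ℕ∞) : WithTop ℕ∞) φ) {z : ℝ × ℝ} {r : ℝ}
    (hφs : tsupport φ ⊆ Metric.ball z r) : AspTest φ :=
  ⟨hφ, Metric.isCompact_of_isClosed_isBounded (isClosed_tsupport φ) (Metric.isBounded_ball.subset hφs)⟩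

theorem smo_supp_lap {φ : ℝ × ℝ → ℝ} {r : ℝ} (hφs : tsupport φ ⊆ Metric.ball (0 : ℝ × ℝ) r) :
    AskSupp (lap2 φ) r := by
  intro z hz
  have h1 : z ∈ tsupport (lap2 φ) := subset_tsupport _ hz
  have h2 : z ∈ tsupport φ := by
    rw [ask_lap2_eq] at h1
    exact Claimed.Agent.R291.wkg_lap_tsupport φ h1
  have h3 := hφs h2
  rw [mem_ball_zero_iff, Prod.norm_def] at h3
  have a1 := (le_max_left ‖z.1‖ ‖z.2‖).trans_lt h3
  have a2 := (le_max_right ‖z.1‖ ‖z.2‖).trans_lt h3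
  rw [Real.norm_eq_abs] at a1 a2
  exact ⟨a1.le, a2.le⟩

/-- **THE CONTRACT `scr_cut_mom`** (Screen/Cut229b), word for word, from the literal statements of `exit_mdl_trans` (at `k = 1`),
of `exit_rsw_plane`, and "the boxes are Jordan domains". -/
theorem smo_cut_mom (t : ℝ) (ht1 : 1 / 2 ≤ t) (ht2 : t < 1) (hT : SmoTransH t 1) (hP : SmoPlaneH t)
    (hJ : ∀ n : ℕ, 1 ≤ n → RswJordan (rswBox 0 n))
    (r c0 M : ℝ) (hr : 0 < r) (hc0 : 0 < c0) (m : ℕ)
    (φ : ℝ × ℝ → ℝ) (hφ : ContDiff ℝ ((⊤ : ℕ∞) : WithTop ℕ∞) φ) (hφs : tsupport φ ⊆ Metric.ball (0 : ℝ × ℝ) (r / 2)) :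
    ∃ C δ₀ : ℝ, 0 < δ₀ ∧ ∀ δ : ℝ, 0 < δ → δ < δ₀ → ∀ (a : ℤ × ℤ) (U : Fin m → Set (ℝ × ℝ)) (π : Fin m → RswCfg),
      (∀ i, ∃ c : ℝ × ℝ, U i ⊆ Metric.closedBall c M) →
      (∀ i j, i ≠ j → ∀ p ∈ U i, ∀ p' ∈ U j, c0 ≤ dist p p') →
      (∀ i, ∀ p ∈ U i, r + c0 ≤ dist p (scr232P δ a)) →
      scrPl t (fun ω => (scrSh a (scrIns δ 0 φ) ω) ^ 2 * ∏ i, scrPatI δ (U i) (π i) ω)
        ≤ C * scrPl t (fun ω => ∏ i, scrPatI δ (U i) (π i) ω) := by
  have ht0 : 0 < t := by linarith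
  obtain ⟨Cq, hCq0, core⟩ := smo_core ht0 ht2.le hT
  have hφt : AspTest φ := smo_test_of_ball hφ hφs
  have hft : AspTest (lap2 φ) := ask_lap_test hφt
  have hf0 : ∫ z, lap2 φ z = 0 := ask_lap_int hφt
  obtain ⟨Mf, hMf0, hMf⟩ := ask_bdd hft
  have hsupp : AskSupp (lap2 φ) (r / 2) := smo_supp_lap hφs
  set K : ℝ := Mf * (1 + (2 * r + 1) ^ 2) with hK
  have hK0 : 0 ≤ K := by positivity
  have hMK : Mf ≤ K := by
    rw [hK]
    have : 0 ≤ (2 * r + 1) ^ 2 := sq_nonneg _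
    nlinarith
  refine ⟨K ^ 2 * (4 * (2 * r) + c0) ^ 2 * (64 / 3 * c0 ^ 2 + 4 / c0 ^ 2) * Cq,
    min (r / 8) (min (c0 / 8) 1), by positivity, ?_⟩
  intro δ hδ hδ0 a U π hUb _ hUfar
  have hδr : δ < r / 8 := hδ0.trans_le (min_le_left _ _)
  have hδc : δ < c0 / 8 := hδ0.trans_le ((min_le_right _ _).trans (min_le_left _ _))
  have hδ1 : δ < 1 := hδ0.trans_le ((min_le_right _ _).trans (min_le_right _ _))
  set ρ : ℕ := askNum (r / 2) δ with hρ
  have hρle : δ * (ρ : ℝ) ≤ r / 2 + 2 * δ := ask_num_le (by positivity) hδ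
  set N1 : ℕ := ⌊c0 / δ⌋₊ with hN1
  have hN1a : (N1 : ℝ) ≤ c0 / δ := Nat.floor_le (by positivity)
  have hN1b : c0 / δ < (N1 : ℝ) + 1 := Nat.lt_floor_add_one _
  have h8 : 8 ≤ N1 := by
    apply Nat.le_floor
    rw [le_div_iff₀ hδ]
    push_cast
    linarith
  set Md : ℕ := Nat.log 2 N1 with hMd
  have hM3 : 3 ≤ Md := Nat.le_log_of_pow_le (by norm_num) (by norm_num; exact h8)
  have hpa : 2 ^ Md ≤ N1 := Nat.pow_log_le_self 2 (by omega)
  have hpb : N1 < 2 ^ (Md + 1) := Nat.lt_pow_succ_log_self (by norm_num) N1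
  have hpa' : δ * 2 ^ Md ≤ c0 := by
    have : ((2 : ℝ) ^ Md) ≤ (N1 : ℝ) := by exact_mod_cast hpa
    have h2 : (2 : ℝ) ^ Md ≤ c0 / δ := this.trans hN1a
    rw [le_div_iff₀ hδ] at h2
    linarith
  have hpb' : c0 ≤ 2 * (δ * 2 ^ Md) := by
    have : (N1 : ℝ) + 1 ≤ (2 : ℝ) ^ (Md + 1) := by exact_mod_cast hpb
    have h2 : c0 / δ < (2 : ℝ) ^ (Md + 1) := hN1b.trans_le this
    rw [div_lt_iff₀ hδ, pow_succ] at h2
    linarith
  set L := smoL δ U π with hL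
  set β : ℤ × ℤ → ℝ := fun v => aspW δ (lap2 φ) (v - a) with hβdef
  have hD0 : δ * ((ρ + 2 ^ Md : ℕ) : ℝ) ≤ r + c0 := by
    push_cast
    rw [mul_add]
    linarith
  have hLext : MdlExt (rswBox a (ρ + 2 ^ Md)) L := smo_L_ext hδ π hD0 hUfar
  have hβ : ∀ v, |β v| ≤ K * δ ^ 2 := by
    intro v
    simp only [hβdef]
    rw [ask_W_apply hsupp hδ]
    exact (ask_wt_le hMf hδ _).trans (mul_le_mul_of_nonneg_right hMK (by positivity))
  have hβM : ∀ v, |β v| ≤ Mf * δ ^ 2 := by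
    intro v
    simp only [hβdef]
    rw [ask_W_apply hsupp hδ]
    exact ask_wt_le hMf hδ _
  have hβ1 : ∑ v ∈ smoB a ρ, |β v| ≤ K := by
    calc ∑ v ∈ smoB a ρ, |β v| ≤ ∑ _v ∈ smoB a ρ, Mf * δ ^ 2 := Finset.sum_le_sum fun v _ => hβM v
      _ = Mf * (δ * (2 * (ρ : ℝ) + 1)) ^ 2 := by
          rw [Finset.sum_const, nsmul_eq_mul, smo_B_card]; ring
      _ ≤ Mf * (2 * r + 1) ^ 2 := by
          refine mul_le_mul_of_nonneg_left ?_ hMf0
          refine pow_le_pow_left₀ (by positivity) ?_ 2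
          nlinarith
      _ ≤ K := by rw [hK]; nlinarith
  have hneu : ∑ v ∈ smoB a ρ, β v = 0 := by
    simp only [hβdef]
    rw [smo_beta_sum hδ hsupp a, ask_W_tot hft hδ, hf0]
  have hA : δ * ((2 * ρ : ℕ) : ℝ) ≤ 2 * r := by
    push_cast
    nlinarith
  have hnum := smo_num (K := K) hδ a hA hpa' hpb' hc0
  -- the two observables
  have eX1 : (fun ω => (scrSh a (scrIns δ 0 φ) ω) ^ 2 * ∏ i, scrPatI δ (U i) (π i) ω)
      = fun ω => smoY a ρ β ω ^ 2 * smoInd L ω := by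
    funext ω
    rw [smo_ins_eq hδ hsupp a ω, smo_prod_pat]
  have eX0 : (fun ω => ∏ i, scrPatI δ (U i) (π i) ω) = smoInd L := by
    funext ω
    rw [smo_prod_pat]
  rw [eX1, eX0]
  obtain ⟨R, R', hloc1, hloc0⟩ := smo_loc hδ a ρ β π hUb
  have l1 := smo_tendsto hP hJ hloc1
  have l0 := (smo_tendsto hP hJ hloc0).const_mul
    (K ^ 2 * (4 * (2 * r) + c0) ^ 2 * (64 / 3 * c0 ^ 2 + 4 / c0 ^ 2) * Cq)
  refine le_of_tendsto_of_tendsto l1 l0 ?_
  refine eventually_atTop.2 ⟨a.1.natAbs + a.2.natAbs + (ρ + 2 ^ Md) + 1, fun n hn => ?_⟩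
  have hbox : rswBox a (ρ + 2 ^ Md) ⊆ rswBox 0 n := by
    intro f hf
    rw [smo_mem_box] at hf ⊢
    have hn' : ((a.1.natAbs + a.2.natAbs + (ρ + 2 ^ Md) + 1 : ℕ) : ℤ) ≤ (n : ℤ) := by exact_mod_cast hn
    push_cast at hn' hf
    simp only [Prod.fst_zero, Prod.snd_zero]
    have b1 := abs_le.1 (le_refl |a.1|)
    have b2 := abs_le.1 (le_refl |a.2|)
    have c1 := abs_nonneg a.1
    have c2 := abs_nonneg a.2
    constructor <;> constructor <;> linarith [hf.1.1, hf.1.2, hf.2.1, hf.2.2]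
  have hc := core (rswBox 0 n) a ρ Md L β K δ (hJ n (by omega)) hM3 hbox hLext hK0 hδ.le hβ hβ1 hneu
  have hPn : 0 ≤ rswP t (rswBox 0 n) true L := rsz_P_nonneg ht0.le ht2.le _ true L
  show rswE t (rswBox 0 n) true (fun ω => smoY a ρ β ω ^ 2 * smoInd L ω) ≤ _ * rswE t (rswBox 0 n) true (smoInd L)
  rw [← smo_P_eq]
  refine hc.trans ?_
  rw [mul_assoc (K ^ 2 * (4 * (2 * r) + c0) ^ 2 * (64 / 3 * c0 ^ 2 + 4 / c0 ^ 2)) Cq]
  exact mul_le_mul_of_nonneg_right hnum (mul_nonneg hCq0 hPn)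

end Claimed.Agent.R292
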