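import Claimed.Agent.R292.Screen.Mass81
import Claimed.Agent.R292.Model.Jump61

/-!
# Row 292 (S0540), Screen/Odd81 : ODD HOLES = THE LINK BETWEEN `Model/Jump61` (S6, colours and jumps) AND `Screen/Mass81` (Lemma 5.2)      (pen helper81; unit SCREEN, head helper229; prefix `odd81`)

0 sorry.  On the frozen Def_0468 through `Defs/RSW`, `AtHeight`, `Model/Jump61`.   AT paper: Lemma 3.1 (3)-(4) (odd / even holes), eq. (5.3) `eq:screen-signed-mass`.
NO PLANARITY IS USED.  Let `g = mdl61Q F S O K` be the coefficient of the sign of the component `K` of `N` in the wall-anchored height and `s` the primal spin. Face by face: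
`g + s/2` is constant on the four corners of a face of `K`, `g` is constant on the four corners of a face of `F \ K`, `g = 0` on the polygon (`Odd81Sys`).
`K` is connected, so `g = c - s/2` on the corners of `K`; walking to the left along a row from any corner one meets the polygon or a corner of `K` (`odd81_walk`), and
from a leftmost corner of `K` one meets the polygon (`odd81_anchor`), so `c = ± 1/2` and `g` takes the two values `0, ε` (`odd81_two_values`).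
* sec. 1  `Odd81Sys`, `odd81V K` (trace = corners of the faces of `K`), `odd81Set F g` (odd set), `odd81_two_values`, `odd81_holes : Mass81Holes (odd81V K) (odd81Set F g)`
* sec. 2  `odd81_Q_face`, `odd81_Q_wall`, `odd81_sys`, **`odd81_main`** : `mdl61Q F S O K = ε 1_{Odd}` on `cornersOf F`, `ε = ± 1`, `Mass81Holes (odd81V K) Odd`
* sec. 3  `odd81Charge` (`q_K = ∑_{v ∈ Odd_K} b_v`), **`odd81_signed_mass`** = eq. (5.3) : `∑_v b_v H(v) = ∑_K σ_K ε_K q_K`;
          `odd81_charge_le`, `odd81_charge_le_total`, `odd81_charge_zero` (the three bounds of Lemma 5.2 for the frozen model, from Mass81)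
* sec. 4  `odd81_khintchine_powerset`, **`odd81_cond_moment`** : for every `(s, W)`-measurable weight `G ≥ 0` (patterns!)
          `rswSum ((∑ b_v H v)^{2m} G) ≤ 4 (2m)! rswSum ((∑_K q_K²)^m G)`, and the same for `rswE`
-/

set_option autoImplicit false

namespace Claimed.Agent.R292

open Claims Claims.C0468

/-! ## 1. the face-wise core (no planarity) -/

/-- the hypotheses on the coefficient `g` of one cluster `K ⊆ F`, with the spin field `s`. -/
structure Odd81Sys (F K : Finset (ℤ × ℤ)) (g s : ℤ × ℤ → ℝ) : Prop where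
  sub : K ⊆ F
  ne : K.Nonempty
  spin : ∀ v, s v = 1 ∨ s v = -1
  inK : ∃ c : ℝ, ∀ f ∈ K, ∀ v ∈ at2hC4 f, g v + s v / 2 = c
  offK : ∀ f ∈ F, f ∉ K → ∀ v ∈ at2hC4 f, ∀ v' ∈ at2hC4 f, g v = g v'
  wall : ∀ v ∈ cornersOf F, OnPolygon F v → g v = 0

/-- the corners of the faces of `K`. -/
def odd81V (K : Finset (ℤ × ℤ)) : Finset (ℤ × ℤ) := K.biUnion at2hC4

theorem odd81_mem_V {K : Finset (ℤ × ℤ)} {v : ℤ × ℤ} : v ∈ odd81V K ↔ ∃ f ∈ K, v ∈ at2hC4 f := by
  unfold odd81V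
  rw [Finset.mem_biUnion]

/-- an interior corner: its left neighbour is a corner of the face on its left. -/
theorem odd81_left {F : Finset (ℤ × ℤ)} {v : ℤ × ℤ} (hv : ¬ OnPolygon F v) :
    (v.1 - 1, v.2) ∈ F ∧ v ∈ at2hC4 (v.1 - 1, v.2) ∧ ((v.1 - 1, v.2) : ℤ × ℤ) ∈ at2hC4 (v.1 - 1, v.2) := by
  unfold OnPolygon at hv
  rw [not_not] at hv
  refine ⟨hv.2.1, ?_, at2h_self_mem_C4 _⟩
  rw [at2h_mem_C4]
  simp

/-- walking to the left along a row, as long as the sites satisfy `¬ P`, until the polygon. -/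
theorem odd81_walk {F K : Finset (ℤ × ℤ)} {g s : ℤ × ℤ → ℝ} (h : Odd81Sys F K g s) :
    ∀ v ∈ cornersOf F, g v = 0 ∨ ∃ u ∈ odd81V K, u.1 ≤ v.1 ∧ g v = g u := by
  obtain ⟨m', hm⟩ := Finset.exists_le ((cornersOf F).image fun v => -v.1)
  obtain ⟨m, rfl⟩ : ∃ m, m' = -m := ⟨-m', by ring⟩
  have hm' : ∀ v ∈ cornersOf F, m ≤ v.1 := fun v hv => by
    have := hm _ (Finset.mem_image_of_mem (fun v : ℤ × ℤ => -v.1) hv)
    omega
  have key : ∀ n : ℕ, ∀ v ∈ cornersOf F, v.1 - m < n → (g v = 0 ∨ ∃ u ∈ odd81V K, u.1 ≤ v.1 ∧ g v = g u) := by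
    intro n
    induction n with
    | zero =>
      intro v hv hlt
      have := hm' v hv
      simp at hlt
      omega
    | succ n ih =>
      intro v hv hlt
      by_cases hvK : v ∈ odd81V K
      · exact Or.inr ⟨v, hvK, le_rfl, rfl⟩
      by_cases hp : OnPolygon F v
      · exact Or.inl (h.wall v hv hp)
      obtain ⟨hf, hv1, hv2⟩ := odd81_left hp
      have hfK : ((v.1 - 1, v.2) : ℤ × ℤ) ∉ K := fun hk => hvK (odd81_mem_V.2 ⟨_, hk, hv1⟩)
      have e : g v = g (v.1 - 1, v.2) := h.offK _ hf hfK _ hv1 _ hv2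
      have hc : ((v.1 - 1, v.2) : ℤ × ℤ) ∈ cornersOf F := at2h_C4_subset_corners hf hv2
      rcases ih _ hc (by push_cast at hlt ⊢; omega) with h0 | ⟨u, hu, hle, hgu⟩
      · exact Or.inl (e.trans h0)
      · exact Or.inr ⟨u, hu, by simp only at hle; omega, e.trans hgu⟩
  intro v hv
  exact key (v.1 - m).toNat.succ v hv (by have := hm' v hv; push_cast; omega)

/-- the constant is `± 1/2` : the leftmost corner of `K` sees the polygon. -/
theorem odd81_anchor {F K : Finset (ℤ × ℤ)} {g s : ℤ × ℤ → ℝ} (h : Odd81Sys F K g s) :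
    ∃ w ∈ odd81V K, g w = 0 := by
  have hne : (odd81V K).Nonempty := by
    obtain ⟨f, hf⟩ := h.ne
    exact ⟨f, odd81_mem_V.2 ⟨f, hf, at2h_self_mem_C4 f⟩⟩
  obtain ⟨w, hw, hmin⟩ := Finset.exists_min_image (odd81V K) Prod.fst hne
  refine ⟨w, hw, ?_⟩
  have hwc : w ∈ cornersOf F := by
    obtain ⟨f, hf, hwf⟩ := odd81_mem_V.1 hw
    exact at2h_C4_subset_corners (h.sub hf) hwf
  by_cases hp : OnPolygon F w
  · exact h.wall w hwc hp
  obtain ⟨hf, hv1, hv2⟩ := odd81_left hp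
  have hnot : ((w.1 - 1, w.2) : ℤ × ℤ) ∉ odd81V K := fun hk => by
    have := hmin _ hk
    simp only at this
    omega
  have hfK : ((w.1 - 1, w.2) : ℤ × ℤ) ∉ K := fun hk => hnot (odd81_mem_V.2 ⟨_, hk, hv2⟩)
  have e : g w = g (w.1 - 1, w.2) := h.offK _ hf hfK _ hv1 _ hv2
  rcases odd81_walk h _ (at2h_C4_subset_corners hf hv2) with h0 | ⟨u, hu, hle, -⟩
  · exact e.trans h0
  · have := hmin u hu
    simp only at hle
    omega

/-- **two values** : `g ∈ {0, ε}` on the corners of `F`. -/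
theorem odd81_two_values {F K : Finset (ℤ × ℤ)} {g s : ℤ × ℤ → ℝ} (h : Odd81Sys F K g s) :
    ∃ ε : ℝ, (ε = 1 ∨ ε = -1) ∧ ∀ v ∈ cornersOf F, g v = 0 ∨ g v = ε := by
  obtain ⟨w, hw, hw0⟩ := odd81_anchor h
  obtain ⟨c, hc⟩ := h.inK
  have hcV : ∀ u ∈ odd81V K, g u + s u / 2 = c := by
    intro u hu
    obtain ⟨f, hf, huf⟩ := odd81_mem_V.1 hu
    exact hc f hf u huf
  have hcw := hcV w hw
  rw [hw0, zero_add] at hcw
  refine ⟨s w, h.spin w, fun v hv => ?_⟩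
  have onV : ∀ u ∈ odd81V K, g u = 0 ∨ g u = s w := by
    intro u hu
    have := hcV u hu
    rcases h.spin u with h1 | h1 <;> rcases h.spin w with h2 | h2
    · left; rw [h1] at this; rw [h2] at hcw; linarith
    · right; rw [h1] at this; rw [h2] at hcw ⊢; linarith
    · right; rw [h1] at this; rw [h2] at hcw ⊢; linarith
    · left; rw [h1] at this; rw [h2] at hcw; linarith
  rcases odd81_walk h v hv with h0 | ⟨u, hu, -, hgu⟩
  · exact Or.inl h0
  · rw [hgu]; exact onV u hu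

open Classical in
/-- the union of the odd holes (and of the odd sites of the cluster). -/
noncomputable def odd81Set (F : Finset (ℤ × ℤ)) (g : ℤ × ℤ → ℝ) : Finset (ℤ × ℤ) := (cornersOf F).filter fun v => g v ≠ 0

theorem odd81_mem_set {F : Finset (ℤ × ℤ)} {g : ℤ × ℤ → ℝ} {v : ℤ × ℤ} :
    v ∈ odd81Set F g ↔ v ∈ cornersOf F ∧ g v ≠ 0 := by
  classical
  unfold odd81Set
  rw [Finset.mem_filter]

/-- one step to the right or upwards. -/
theorem odd81_holes_step {F K : Finset (ℤ × ℤ)} {g s : ℤ × ℤ → ℝ} (h : Odd81Sys F K g s) (u v : ℤ × ℤ)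
    (huv : v = (u.1 + 1, u.2) ∨ v = (u.1, u.2 + 1)) (hT : u ∉ odd81V K ∨ v ∉ odd81V K) :
    u ∈ odd81Set F g ↔ v ∈ odd81Set F g := by
  -- the two faces of the edge
  obtain ⟨f₂, hu1, hv1, hu2, hv2, hpu, hpv⟩ : ∃ f₂ : ℤ × ℤ, u ∈ at2hC4 u ∧ v ∈ at2hC4 u ∧ u ∈ at2hC4 f₂ ∧ v ∈ at2hC4 f₂ ∧
      (u ∉ F → f₂ ∉ F → OnPolygon F u) ∧ (u ∉ F → f₂ ∉ F → OnPolygon F v) := by
    rcases huv with rfl | rfl
    · refine ⟨(u.1, u.2 - 1), at2h_self_mem_C4 u, by rw [at2h_mem_C4]; simp, by rw [at2h_mem_C4]; simp,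
        by rw [at2h_mem_C4]; simp, fun h1 _ => at2h_onPolygon_iff.2 ⟨u, h1, at2h_self_mem_C4 u⟩,
        fun h1 _ => at2h_onPolygon_iff.2 ⟨u, h1, by rw [at2h_mem_C4]; simp⟩⟩
    · refine ⟨(u.1 - 1, u.2), at2h_self_mem_C4 u, by rw [at2h_mem_C4]; simp, by rw [at2h_mem_C4]; simp,
        by rw [at2h_mem_C4]; simp, fun h1 _ => at2h_onPolygon_iff.2 ⟨u, h1, at2h_self_mem_C4 u⟩,
        fun h1 _ => at2h_onPolygon_iff.2 ⟨u, h1, by rw [at2h_mem_C4]; simp⟩⟩
  have face : ∀ f ∈ F, u ∈ at2hC4 f → v ∈ at2hC4 f → (u ∈ odd81Set F g ↔ v ∈ odd81Set F g) := by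
    intro f hf hu hv
    have hfK : f ∉ K := by
      intro hk
      rcases hT with hT | hT
      · exact hT (odd81_mem_V.2 ⟨f, hk, hu⟩)
      · exact hT (odd81_mem_V.2 ⟨f, hk, hv⟩)
    have e := h.offK f hf hfK u hu v hv
    rw [odd81_mem_set, odd81_mem_set, e]
    exact ⟨fun hh => ⟨at2h_C4_subset_corners hf hv, hh.2⟩, fun hh => ⟨at2h_C4_subset_corners hf hu, hh.2⟩⟩
  by_cases h1 : u ∈ F
  · exact face u h1 hu1 hv1
  by_cases h2 : f₂ ∈ F
  · exact face f₂ h2 hu2 hv2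
  have nu : u ∉ odd81Set F g := fun hh => (odd81_mem_set.1 hh).2 (h.wall u (odd81_mem_set.1 hh).1 (hpu h1 h2))
  have nv : v ∉ odd81Set F g := fun hh => (odd81_mem_set.1 hh).2 (h.wall v (odd81_mem_set.1 hh).1 (hpv h1 h2))
  exact ⟨fun hh => absurd hh nu, fun hh => absurd hh nv⟩

/-- **holes** : the indicator of the odd set is constant along every step that is not inside the corners of `K`. -/
theorem odd81_holes {F K : Finset (ℤ × ℤ)} {g s : ℤ × ℤ → ℝ} (h : Odd81Sys F K g s) :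
    Mass81Holes (odd81V K : Set (ℤ × ℤ)) (odd81Set F g : Set (ℤ × ℤ)) := by
  intro u v hadj hT
  simp only [Finset.mem_coe] at hT ⊢
  rcases hadj with ⟨h1, h2⟩ | ⟨h1, h2⟩
  · rcases (abs_eq (by norm_num : (0 : ℤ) ≤ 1)).1 h2 with h3 | h3
    · -- u = v + (0,1)
      exact (odd81_holes_step h v u (Or.inr (by ext <;> simp <;> omega)) hT.symm).symm
    · exact odd81_holes_step h u v (Or.inr (by ext <;> simp <;> omega)) hT
  · rcases (abs_eq (by norm_num : (0 : ℤ) ≤ 1)).1 h2 with h3 | h3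
    · exact (odd81_holes_step h v u (Or.inl (by ext <;> simp <;> omega)) hT.symm).symm
    · exact odd81_holes_step h u v (Or.inl (by ext <;> simp <;> omega)) hT

/-! ## 2. the coefficient `mdl61Q` of a component -/

/-- the lower left corner of the first face of an edge is a corner of both faces of the edge. -/
theorem odd81_shared (e : (ℤ × ℤ) × Bool) : e.1 ∈ at2hC4 e.1 ∧ e.1 ∈ at2hC4 (rswCo e) := by
  refine ⟨at2h_self_mem_C4 _, ?_⟩
  rw [at2h_mem_C4]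
  unfold rswCo
  split_ifs <;> simp

theorem odd81_spin_pm {F : Finset (ℤ × ℤ)} (τ : cornersOf F → Bool) (v : ℤ × ℤ) :
    (atSpin τ v : ℝ) = 1 ∨ (atSpin τ v : ℝ) = -1 := by
  unfold atSpin
  split_ifs <;> simp

/-- the spin field. -/
noncomputable def odd81S (F S : Finset (ℤ × ℤ)) (v : ℤ × ℤ) : ℝ := (atSpin (rswTau F ⟨S, ∅, ∅⟩) v : ℝ)

/-- the increments of `mdl61Q` around a face. -/
theorem odd81_Q_face {t : ℝ} {F : Finset (ℤ × ℤ)} (hF : At2hConn F) {S : Finset (ℤ × ℤ)} {O : Finset ((ℤ × ℤ) × Bool)}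
    (hw : rswWt t F true ⟨S, ∅, O⟩ ≠ 0) {K : Finset (ℤ × ℤ)} (hK : Mdl61Cl F O K) {f : ℤ × ℤ} (hf : f ∈ F)
    {v v' : ℤ × ℤ} (hv : v ∈ at2hC4 f) (hv' : v' ∈ at2hC4 f) :
    mdl61Q F S O K v' - mdl61Q F S O K v = if f ∈ K then (odd81S F S v - odd81S F S v') / 2 else 0 := by
  obtain ⟨Hf0, h0⟩ := at2h_spec hF (mdl61_adm hw (mdl61_cl_univ F O).2)
  obtain ⟨Hf1, h1⟩ := at2h_spec hF (mdl61_adm hw (mdl61_cl_sdiff hK).2)
  have j0 := mdl61_jump h0 hf hv hv'
  have j1 := mdl61_jump h1 hf hv hv'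
  rw [mdl61_dual F _ hf] at j0 j1
  simp only [hf, if_true, Finset.mem_sdiff, true_and] at j0 j1
  unfold mdl61Q rswH odd81S
  have es : ∀ u, atSpin (rswTau F ⟨S, F, O⟩) u = atSpin (rswTau F ⟨S, ∅, ∅⟩) u := fun _ => rfl
  have es' : ∀ u, atSpin (rswTau F ⟨S, F \ K, O⟩) u = atSpin (rswTau F ⟨S, ∅, ∅⟩) u := fun _ => rfl
  simp only [es] at j0
  simp only [es'] at j1
  split_ifs with hk
  · rw [if_neg (not_not.2 hk)] at j1
    push_cast at j0 j1
    linarith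
  · rw [if_pos hk] at j1
    push_cast at j0 j1
    linarith

theorem odd81_Q_wall {t : ℝ} {F : Finset (ℤ × ℤ)} (hF : At2hConn F) {S : Finset (ℤ × ℤ)} {O : Finset ((ℤ × ℤ) × Bool)}
    (hw : rswWt t F true ⟨S, ∅, O⟩ ≠ 0) {K : Finset (ℤ × ℤ)} (hK : Mdl61Cl F O K) {v : ℤ × ℤ} (hv : v ∈ cornersOf F)
    (hp : OnPolygon F v) : mdl61Q F S O K v = 0 := by
  obtain ⟨Hf0, h0⟩ := at2h_spec hF (mdl61_adm hw (mdl61_cl_univ F O).2)
  obtain ⟨Hf1, h1⟩ := at2h_spec hF (mdl61_adm hw (mdl61_cl_sdiff hK).2)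
  unfold mdl61Q rswH
  rw [h0.1 v hv hp, h1.1 v hv hp]
  norm_num

/-- the coefficient of a component satisfies the face-wise hypotheses. -/
theorem odd81_sys {t : ℝ} {F : Finset (ℤ × ℤ)} (hF : At2hConn F) {S : Finset (ℤ × ℤ)} {O : Finset ((ℤ × ℤ) × Bool)}
    (hw : rswWt t F true ⟨S, ∅, O⟩ ≠ 0) {K : Finset (ℤ × ℤ)} (hK : K ∈ mdl61Comps F O) :
    Odd81Sys F K (mdl61Q F S O K) (odd81S F S) := by
  classical
  obtain ⟨f₀, hf₀, rfl⟩ := mdl61_mem_comps.1 hK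
  have hcl := mdl61_cl_comp F O f₀
  set K := mdl61Comp F O f₀ with hKdef
  have hf₀K : f₀ ∈ K := mdl61_self_mem_comp O hf₀
  have faceK : ∀ f ∈ K, ∀ v ∈ at2hC4 f, ∀ v' ∈ at2hC4 f,
      mdl61Q F S O K v + odd81S F S v / 2 = mdl61Q F S O K v' + odd81S F S v' / 2 := by
    intro f hf v hv v' hv'
    have := odd81_Q_face hF hw hcl (hcl.1 hf) hv hv'
    rw [if_pos hf] at this
    linarith
  refine ⟨hcl.1, ⟨f₀, hf₀K⟩, fun v => odd81_spin_pm _ v, ?_, ?_, fun v hv hp => odd81_Q_wall hF hw hcl hv hp⟩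
  · refine ⟨mdl61Q F S O K f₀ + odd81S F S f₀ / 2, ?_⟩
    set c := mdl61Q F S O K f₀ + odd81S F S f₀ / 2 with hc
    set C' : Finset (ℤ × ℤ) := K.filter (fun f => ∀ v ∈ at2hC4 f, mdl61Q F S O K v + odd81S F S v / 2 = c) with hC'
    have hC'cl : Mdl61Cl F O C' := by
      refine ⟨(Finset.filter_subset _ _).trans hcl.1, fun e he heO => ?_⟩
      have hiff := hcl.2 e he heO
      obtain ⟨s1, s2⟩ := odd81_shared e
      rw [hC', Finset.mem_filter, Finset.mem_filter]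
      constructor
      · rintro ⟨h1, h2⟩
        exact ⟨hiff.1 h1, fun v hv => (faceK _ (hiff.1 h1) v hv e.1 s2).trans (h2 e.1 s1)⟩
      · rintro ⟨h1, h2⟩
        exact ⟨hiff.2 h1, fun v hv => (faceK _ (hiff.2 h1) v hv e.1 s1).trans (h2 e.1 s2)⟩
    have hf₀C' : f₀ ∈ C' := by
      rw [hC', Finset.mem_filter]
      exact ⟨hf₀K, fun v hv => faceK f₀ hf₀K v hv f₀ (at2h_self_mem_C4 f₀)⟩
    intro f hf v hv
    have := mdl61_comp_subset hC'cl hf₀C' hf
    rw [hC', Finset.mem_filter] at this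
    exact this.2 v hv
  · intro f hf hfK v hv v' hv'
    have := odd81_Q_face hF hw hcl hf hv hv'
    rw [if_neg hfK] at this
    linarith

/-- **ODD HOLES** (AT Lemma 3.1 (3)-(4)): the coefficient of the sign of a component `K` in the wall-anchored height is `ε 1_{Odd}`, `ε = ± 1`, and
`Odd` is a union of holes of the trace `odd81V K` (the corners of the faces of `K`) in the sense of `Screen/Mass81`. -/
theorem odd81_main {t : ℝ} {F : Finset (ℤ × ℤ)} (hF : At2hConn F) {S : Finset (ℤ × ℤ)} {O : Finset ((ℤ × ℤ) × Bool)}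
    (hw : rswWt t F true ⟨S, ∅, O⟩ ≠ 0) {K : Finset (ℤ × ℤ)} (hK : K ∈ mdl61Comps F O) :
    ∃ ε : ℝ, (ε = 1 ∨ ε = -1) ∧
      (∀ v ∈ cornersOf F, mdl61Q F S O K v = if v ∈ odd81Set F (mdl61Q F S O K) then ε else 0) ∧
      Mass81Holes (odd81V K : Set (ℤ × ℤ)) (odd81Set F (mdl61Q F S O K) : Set (ℤ × ℤ)) := by
  have hsys := odd81_sys hF hw hK
  obtain ⟨ε, hε, hval⟩ := odd81_two_values hsys
  refine ⟨ε, hε, fun v hv => ?_, odd81_holes hsys⟩
  by_cases h0 : mdl61Q F S O K v = 0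
  · rw [if_neg (fun hh => (odd81_mem_set.1 hh).2 h0), h0]
  · rw [if_pos (odd81_mem_set.2 ⟨hv, h0⟩)]
    rcases hval v hv with h1 | h1
    · exact absurd h1 h0
    · exact h1

/-! ## 3. the signed mass identity (5.3) and the three bounds on the charges -/

/-- the charge `q_K = ∑_{v ∈ Odd_K} b_v` of a component. -/
noncomputable def odd81Charge (F S : Finset (ℤ × ℤ)) (O : Finset ((ℤ × ℤ) × Bool)) (b : ℤ × ℤ → ℝ) (K : Finset (ℤ × ℤ)) : ℝ :=
  ∑ v ∈ odd81Set F (mdl61Q F S O K), b v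

/-- **eq. (5.3)** : given `(S, O)`, the insertion is a linear form in the independent fair signs `σ_K ε_K`, with coefficients the charges. -/
theorem odd81_signed_mass {t : ℝ} {F : Finset (ℤ × ℤ)} (hF : At2hConn F) {S : Finset (ℤ × ℤ)} {O : Finset ((ℤ × ℤ) × Bool)}
    (hw : rswWt t F true ⟨S, ∅, O⟩ ≠ 0) (b : ℤ × ℤ → ℝ) (Sb : Finset (ℤ × ℤ)) (hSb : Sb ⊆ cornersOf F)
    (hb : ∀ v, v ∉ Sb → b v = 0) :
    ∃ ε : Finset (ℤ × ℤ) → ℝ, (∀ K, ε K = 1 ∨ ε K = -1) ∧ ∀ T, T ⊆ mdl61Comps F O →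
      ∑ v ∈ Sb, b v * rswH F ⟨S, T.biUnion id, O⟩ v =
        ∑ K ∈ mdl61Comps F O, (if K ∈ T then (1 : ℝ) else -1) * (ε K * odd81Charge F S O b K) := by
  classical
  have hex : ∀ K, ∃ ε : ℝ, (ε = 1 ∨ ε = -1) ∧ (K ∈ mdl61Comps F O →
      ∀ v ∈ cornersOf F, mdl61Q F S O K v = if v ∈ odd81Set F (mdl61Q F S O K) then ε else 0) := by
    intro K
    by_cases hK : K ∈ mdl61Comps F O
    · obtain ⟨ε, h1, h2, -⟩ := odd81_main hF hw hK
      exact ⟨ε, h1, fun _ => h2⟩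
    · exact ⟨1, Or.inl rfl, fun h => absurd h hK⟩
  choose ε hε hval using hex
  refine ⟨ε, hε, fun T hT => ?_⟩
  have h1 : ∀ v ∈ Sb, b v * rswH F ⟨S, T.biUnion id, O⟩ v =
      ∑ K ∈ mdl61Comps F O, (if K ∈ T then (1 : ℝ) else -1) * (b v * mdl61Q F S O K v) := by
    intro v hv
    rw [mdl61_H_signs hF hw hT (hSb hv), Finset.mul_sum]
    exact Finset.sum_congr rfl (fun K _ => by ring)
  rw [Finset.sum_congr rfl h1, Finset.sum_comm]
  refine Finset.sum_congr rfl (fun K hK => ?_)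
  rw [← Finset.mul_sum]
  congr 1
  have h2 : ∀ v ∈ Sb, b v * mdl61Q F S O K v = if v ∈ odd81Set F (mdl61Q F S O K) then ε K * b v else 0 := by
    intro v hv
    rw [hval K hK v (hSb hv)]
    split_ifs <;> ring
  rw [Finset.sum_congr rfl h2, Finset.sum_ite_mem, ← Finset.mul_sum]
  congr 1
  unfold odd81Charge
  refine Finset.sum_subset Finset.inter_subset_right (fun v hv hv' => hb v (fun hvS => hv' (Finset.mem_inter.2 ⟨hvS, hv⟩)))

/-- Lemma 5.2 (a) for the frozen model : a component whose corners have lattice diameter `≤ n`. -/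
theorem odd81_charge_le {t : ℝ} {F : Finset (ℤ × ℤ)} (hF : At2hConn F) {S : Finset (ℤ × ℤ)} {O : Finset ((ℤ × ℤ) × Bool)}
    (hw : rswWt t F true ⟨S, ∅, O⟩ ≠ 0) {K : Finset (ℤ × ℤ)} (hK : K ∈ mdl61Comps F O)
    (b : ℤ × ℤ → ℝ) (Kc δ : ℝ) (hb : ∀ v, |b v| ≤ Kc * δ ^ 2) (n : ℕ)
    (hn : ∀ u ∈ odd81V K, ∀ v ∈ odd81V K, |u.1 - v.1| ≤ n ∧ |u.2 - v.2| ≤ n) :
    |odd81Charge F S O b K| ≤ Kc * (δ * n + δ) ^ 2 := by
  obtain ⟨-, -, -, hh⟩ := odd81_main hF hw hK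
  exact mass81_charge_le b Kc δ hb _ _ hh n (fun u hu v hv => hn u (Finset.mem_coe.1 hu) v (Finset.mem_coe.1 hv))

/-- Lemma 5.2, the trivial bound. -/
theorem odd81_charge_le_total (F S : Finset (ℤ × ℤ)) (O : Finset ((ℤ × ℤ) × Bool)) (K : Finset (ℤ × ℤ))
    (b : ℤ × ℤ → ℝ) (Sb : Finset (ℤ × ℤ)) (hb : ∀ v, v ∉ Sb → b v = 0) :
    |odd81Charge F S O b K| ≤ ∑ v ∈ Sb, |b v| :=
  mass81_charge_le_total b Sb _ hb

/-- Lemma 5.2 (b) for the frozen model : a component that does not touch the connected neighbourhood `U` of the support of a neutral array. -/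
theorem odd81_charge_zero {t : ℝ} {F : Finset (ℤ × ℤ)} (hF : At2hConn F) {S : Finset (ℤ × ℤ)} {O : Finset ((ℤ × ℤ) × Bool)}
    (hw : rswWt t F true ⟨S, ∅, O⟩ ≠ 0) {K : Finset (ℤ × ℤ)} (hK : K ∈ mdl61Comps F O)
    (b : ℤ × ℤ → ℝ) (Sb : Finset (ℤ × ℤ)) (hb : ∀ v, v ∉ Sb → b v = 0) (hneu : ∑ v ∈ Sb, b v = 0)
    (U : Set (ℤ × ℤ)) (hSU : (Sb : Set (ℤ × ℤ)) ⊆ U) (hU : Mass81Conn U) (hKU : Disjoint (odd81V K : Set (ℤ × ℤ)) U) :
    odd81Charge F S O b K = 0 := by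
  obtain ⟨-, -, -, hh⟩ := odd81_main hF hw hK
  exact mass81_charge_zero b Sb hb hneu U hSU hU _ _ hh hKU

/-! ## 4. the conditional moments -/

/-- Khintchine, signs indexed by the subsets of a finite set. -/
theorem odd81_khintchine_powerset {ι : Type*} [DecidableEq ι] (I : Finset ι) (a : ι → ℝ) (m : ℕ) :
    ∑ T ∈ I.powerset, (∑ K ∈ I, (if K ∈ T then (1 : ℝ) else -1) * a K) ^ (2 * m) ≤
      2 ^ I.card * (4 * (2 * m).factorial * (∑ K ∈ I, a K ^ 2) ^ m) := by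
  classical
  have h := mass81_khintchine (fun K : ↥I => a K) m
  rw [Fintype.card_coe, Finset.sum_coe_sort I (fun K => a K ^ 2)] at h
  refine le_trans (le_of_eq ?_) h
  refine Finset.sum_nbij' (fun T (K : ↥I) => decide (K.1 ∈ T)) (fun ε => I.filter (fun K => ∃ hK : K ∈ I, ε ⟨K, hK⟩ = true))
    (fun _ _ => Finset.mem_univ _) (fun ε _ => Finset.mem_powerset.2 (Finset.filter_subset _ _)) ?_ ?_ ?_
  · intro T hT
    have hT' := Finset.mem_powerset.1 hT
    ext K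
    simp only [Finset.mem_filter, decide_eq_true_eq]
    constructor
    · rintro ⟨-, -, h2⟩; exact h2
    · intro hK; exact ⟨hT' hK, hT' hK, hK⟩
  · intro ε _
    funext K
    by_cases hε : ε K = true
    · rw [hε, decide_eq_true_eq, Finset.mem_filter]
      exact ⟨K.2, K.2, hε⟩
    · have hf : ε K = false := by simpa using hε
      rw [hf, decide_eq_false_iff_not, Finset.mem_filter]
      rintro ⟨-, hK', h2'⟩
      exact hε h2'
  · intro T _
    congr 1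
    rw [← Finset.sum_coe_sort I]
    refine Finset.sum_congr rfl (fun K _ => ?_)
    unfold mass81Sgn
    by_cases hK : K.1 ∈ T <;> simp [hK]

theorem odd81_wt_nonneg {t : ℝ} (h0 : 0 ≤ t) (h1 : t ≤ 1) (F : Finset (ℤ × ℤ)) (b : Bool) (ω : RswCfg) : 0 ≤ rswWt t F b ω := by
  classical
  unfold rswWt
  split_ifs
  · refine Finset.prod_nonneg (fun e _ => ?_)
    unfold rswFac
    split_ifs <;> linarith
  · exact le_rfl

/-- **conditional moments** : the `d`-colours are integrated out; `G ≥ 0` is ANY function of `(s, W)` (indicators of patterns, products of them). -/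
theorem odd81_cond_moment {t : ℝ} (h0 : 0 ≤ t) (h1 : t ≤ 1) {F : Finset (ℤ × ℤ)} (hF : At2hConn F)
    (b : ℤ × ℤ → ℝ) (Sb : Finset (ℤ × ℤ)) (hSb : Sb ⊆ cornersOf F) (hb : ∀ v, v ∉ Sb → b v = 0)
    (G : Finset (ℤ × ℤ) → Finset ((ℤ × ℤ) × Bool) → ℝ) (hG : ∀ S O, 0 ≤ G S O) (m : ℕ) :
    rswSum t F true (fun ω => (∑ v ∈ Sb, b v * rswH F ω v) ^ (2 * m) * G ω.S ω.O) ≤
      4 * (2 * m).factorial *
        rswSum t F true (fun ω => (∑ K ∈ mdl61Comps F ω.O, odd81Charge F ω.S ω.O b K ^ 2) ^ m * G ω.S ω.O) := by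
  classical
  rw [mdl61_sum_signs, mdl61_sum_signs, Finset.mul_sum]
  refine Finset.sum_le_sum (fun S _ => ?_)
  rw [Finset.mul_sum]
  refine Finset.sum_le_sum (fun O _ => ?_)
  by_cases hw : rswWt t F true ⟨S, ∅, O⟩ = 0
  · rw [hw]; simp
  have hwpos : 0 ≤ rswWt t F true ⟨S, ∅, O⟩ := odd81_wt_nonneg h0 h1 F true _
  obtain ⟨ε, hε, hid⟩ := odd81_signed_mass hF hw b Sb hSb hb
  have hk := odd81_khintchine_powerset (mdl61Comps F O) (fun K => ε K * odd81Charge F S O b K) m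
  have hsq : ∀ K, (ε K * odd81Charge F S O b K) ^ 2 = odd81Charge F S O b K ^ 2 := by
    intro K
    rcases hε K with h | h <;> rw [h] <;> ring
  simp only [hsq] at hk
  have e1 : ∑ T ∈ (mdl61Comps F O).powerset, (∑ v ∈ Sb, b v * rswH F ⟨S, T.biUnion id, O⟩ v) ^ (2 * m) * G S O =
      (∑ T ∈ (mdl61Comps F O).powerset,
        (∑ K ∈ mdl61Comps F O, (if K ∈ T then (1 : ℝ) else -1) * (ε K * odd81Charge F S O b K)) ^ (2 * m)) * G S O := by
    rw [Finset.sum_mul]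
    refine Finset.sum_congr rfl (fun T hT => ?_)
    rw [hid T (Finset.mem_powerset.1 hT)]
  have e2 : ∑ _T ∈ (mdl61Comps F O).powerset, (∑ K ∈ mdl61Comps F O, odd81Charge F S O b K ^ 2) ^ m * G S O =
      2 ^ (mdl61Comps F O).card * ((∑ K ∈ mdl61Comps F O, odd81Charge F S O b K ^ 2) ^ m * G S O) := by
    rw [Finset.sum_const, Finset.card_powerset, nsmul_eq_mul]
    push_cast
    rfl
  simp only []
  rw [e1, e2]
  calc rswWt t F true ⟨S, ∅, O⟩ * ((∑ T ∈ (mdl61Comps F O).powerset,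
        (∑ K ∈ mdl61Comps F O, (if K ∈ T then (1 : ℝ) else -1) * (ε K * odd81Charge F S O b K)) ^ (2 * m)) * G S O)
      ≤ rswWt t F true ⟨S, ∅, O⟩ * ((2 ^ (mdl61Comps F O).card * (4 * (2 * m).factorial *
          (∑ K ∈ mdl61Comps F O, odd81Charge F S O b K ^ 2) ^ m)) * G S O) :=
        mul_le_mul_of_nonneg_left (mul_le_mul_of_nonneg_right hk (hG S O)) hwpos
    _ = _ := by ring

/-- the same for the expectation. -/
theorem odd81_cond_moment_E {t : ℝ} (h0 : 0 ≤ t) (h1 : t ≤ 1) {F : Finset (ℤ × ℤ)} (hF : At2hConn F)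
    (b : ℤ × ℤ → ℝ) (Sb : Finset (ℤ × ℤ)) (hSb : Sb ⊆ cornersOf F) (hb : ∀ v, v ∉ Sb → b v = 0)
    (G : Finset (ℤ × ℤ) → Finset ((ℤ × ℤ) × Bool) → ℝ) (hG : ∀ S O, 0 ≤ G S O) (m : ℕ) :
    rswE t F true (fun ω => (∑ v ∈ Sb, b v * rswH F ω v) ^ (2 * m) * G ω.S ω.O) ≤
      4 * (2 * m).factorial *
        rswE t F true (fun ω => (∑ K ∈ mdl61Comps F ω.O, odd81Charge F ω.S ω.O b K ^ 2) ^ m * G ω.S ω.O) := by
  unfold rswE
  rw [← mul_div_assoc]
  refine div_le_div_of_nonneg_right (odd81_cond_moment h0 h1 hF b Sb hSb hb G hG m) ?_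
  unfold rswSum
  exact Finset.sum_nonneg (fun S _ => Finset.sum_nonneg (fun D _ => Finset.sum_nonneg (fun O _ => by
    rw [mul_one]; exact odd81_wt_nonneg h0 h1 F true _)))

/-- the equation lemmas of the definitions of this file are generated HERE (RULES.md, rule 6). -/
theorem odd81_eqns_cite : True := by
  have := @odd81V.eq_1; have := @odd81V.eq_def
  have := @odd81Set.eq_1; have := @odd81Set.eq_def
  have := @odd81S.eq_1; have := @odd81S.eq_def
  have := @odd81Charge.eq_1; have := @odd81Charge.eq_def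
  trivial

end Claimed.Agent.R292
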