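import Claimed.Agent.R292.Defs.Screen

/-!
# Row 292 (S0540), unit SCREEN : THE MODEL-FREE PROBABILITY LAYER OF AT PAPER SEC. 5      (helper142; prefix `scr142_`)

By the word of 229 (head of SCREEN): everything for a FINITE weighted space `(s : Finset Ω, w : Ω → ℝ)`, mean
`scr142_E s w A = (∑ p ∈ s, w p * A p) / ∑ p ∈ s, w p` = the shape of `scrE` (`scr142_scrE : scrE t F A = scr142_E .. := rfl`).
Nothing of the model is used.  0 sorry.   (The other half of the layer: trials, shielding, contiguity + UI, gluing = helper99.)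

* §1  **`scr142_khintchine_sharp`** (`E (∑ ε q)^(2m) ≤ (2m-1)!! (∑ q²)^m`), `_finset`, `_affine_sharp` (`eq:screen-signed-mass`), `_step` ;
      also `scr142_khintchine`, `_affine`, `_abs` (constant `2 (2p)!`, by the moment generating function).
* §2  API of `scr142_E`, `scr142_P` (linear, monotone, Cauchy-Schwarz, Markov) ; `scr142_N s w X Y = ∑_y |E[X ; Y = y]|` ;
      **`scr142_N_isGreatest`** (L¹ duality), `scr142_dualF_le`, `scr142_exists_dualF`, `scr142_N_le_of_dual`, `_mono`, `_le_abs`, `_le_add`.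
* §3  `eq:screen-bounded-coupling`: `scr142_coupling_le` (2 T ε), `scr142_ci_step` (T ζ), **`scr142_chain`** (4 T ε + 2 T ζ).
* §4  truncation: `scr142_trunc`, `scr142_rT` (r(T) ≤ C / T), **`scr142_master`** (… + 2 C / T + 4 T ε + 2 T ζ).
* §5  `scr142_cond_khintchine` : the law = image of `data × fair signs`, `Y = R + c ∑ ε q` given the data (end of Lemma 5.2).
* §6  **`scr142_core_colours`** (Lemma 5.6: `‖E[X | (S, C)]‖₁ ≤ K e + √(C τ)`), `scr142_core_limit` (first `δ`, then `M`).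
* §7  **`scr142_order`** : the order of the limits `T, q, M, layout, δ`, numbers only.
* §8  bridge to `scrE` : `scr142_scrE`, `scr142_law_flat`, `scr142_ext_le` (an exterior observable is a test of the exterior data).
* §9  (bonus, for a plane law) the same duality for `μ[X|m]`, any finite measure.
-/

set_option autoImplicit false

namespace Claimed.Agent.R292

open MeasureTheory ProbabilityTheory Filter Topology
open scoped BigOperators ENNReal NNReal

/-! ## §1 Khintchine -/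

/-- the sign of a Boolean. -/
def scr142_sg (b : Bool) : ℝ := if b then 1 else -1

@[simp] theorem scr142_sg_true : scr142_sg true = 1 := rfl
@[simp] theorem scr142_sg_false : scr142_sg false = -1 := rfl

theorem scr142_sg_abs (b : Bool) : |scr142_sg b| = 1 := by cases b <;> simp

theorem scr142_sg_sq (b : Bool) : scr142_sg b ^ 2 = 1 := by cases b <;> simp

/-- the signed sum `∑ ε_i a_i`. -/
def scr142_S {ι : Type*} [Fintype ι] (a : ι → ℝ) (ε : ι → Bool) : ℝ := ∑ i, scr142_sg (ε i) * a i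

/-- the moment generating function of a signed sum. -/
theorem scr142_mgf {ι : Type*} [Fintype ι] [DecidableEq ι] (a : ι → ℝ) (l : ℝ) :
    ∑ ε : ι → Bool, Real.exp (l * scr142_S a ε) = 2 ^ Fintype.card ι * ∏ i, Real.cosh (l * a i) := by
  have h1 : ∀ ε : ι → Bool, Real.exp (l * scr142_S a ε) = ∏ i, Real.exp (l * (scr142_sg (ε i) * a i)) := by
    intro ε
    rw [scr142_S, Finset.mul_sum, Real.exp_sum]
  simp_rw [h1]
  have h2 := (Finset.prod_univ_sum (fun _ : ι => (Finset.univ : Finset Bool))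
    (fun i b => Real.exp (l * (scr142_sg b * a i)))).symm
  rw [Fintype.piFinset_univ] at h2
  rw [h2]
  have h3 : ∀ i : ι, ∑ b : Bool, Real.exp (l * (scr142_sg b * a i)) = 2 * Real.cosh (l * a i) := by
    intro i
    rw [Fintype.sum_bool, Real.cosh_eq]
    simp only [scr142_sg_true, scr142_sg_false, one_mul, neg_mul, mul_neg]
    ring
  simp_rw [h3]
  rw [Finset.prod_mul_distrib, Finset.prod_const, Finset.card_univ]

/-- one term of the series of `cosh`. -/
theorem scr142_pow_le_cosh (x : ℝ) (p : ℕ) : x ^ (2 * p) / ((2 * p).factorial : ℝ) ≤ Real.cosh x := by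
  refine le_hasSum (Real.hasSum_cosh x) p (fun j _ => ?_)
  have : 0 ≤ x ^ (2 * j) := by rw [pow_mul]; positivity
  positivity

/-- the `cosh` transform of a signed sum. -/
theorem scr142_cosh_sum {ι : Type*} [Fintype ι] [DecidableEq ι] (a : ι → ℝ) (l : ℝ) :
    ∑ ε : ι → Bool, Real.cosh (l * scr142_S a ε) = 2 ^ Fintype.card ι * ∏ i, Real.cosh (l * a i) := by
  have h1 := scr142_mgf a l
  have h2 := scr142_mgf a (-l)
  have h3 : ∀ i, Real.cosh (-l * a i) = Real.cosh (l * a i) := fun i => by rw [neg_mul, Real.cosh_neg]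
  simp_rw [h3] at h2
  have h4 : ∀ ε : ι → Bool, Real.cosh (l * scr142_S a ε)
      = (Real.exp (l * scr142_S a ε) + Real.exp (-l * scr142_S a ε)) / 2 := by
    intro ε; rw [Real.cosh_eq, neg_mul]
  simp_rw [h4]
  rw [← Finset.sum_div, Finset.sum_add_distrib, h1, h2]
  ring

/-- **Khintchine's inequality, all even moments** (constant `2 (2p)!`). -/
theorem scr142_khintchine {ι : Type*} [Fintype ι] [DecidableEq ι] (a : ι → ℝ) (p : ℕ) :
    ∑ ε : ι → Bool, scr142_S a ε ^ (2 * p)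
      ≤ 2 ^ Fintype.card ι * (2 * ((2 * p).factorial : ℝ)) * (∑ i, a i ^ 2) ^ p := by
  set V := ∑ i, a i ^ 2 with hV
  have hV0 : 0 ≤ V := Finset.sum_nonneg fun i _ => sq_nonneg _
  rcases hV0.eq_or_lt with h0 | hpos
  · -- all coefficients vanish
    have ha : ∀ i, a i = 0 := by
      intro i
      have := (Finset.sum_eq_zero_iff_of_nonneg (fun i _ => sq_nonneg (a i))).1 h0.symm i (Finset.mem_univ i)
      exact pow_eq_zero_iff (two_ne_zero) |>.1 this
    have hS : ∀ ε : ι → Bool, scr142_S a ε = 0 := by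
      intro ε; simp [scr142_S, ha]
    simp_rw [hS]
    rcases Nat.eq_zero_or_pos p with rfl | hp
    · simp
    · have : (0 : ℝ) ^ (2 * p) = 0 := zero_pow (by omega)
      simp only [this, Finset.sum_const_zero]
      positivity
  · set s := Real.sqrt V with hs
    have hs0 : 0 < s := Real.sqrt_pos.2 hpos
    have hs2 : s ^ 2 = V := Real.sq_sqrt hV0
    have hfac : (0 : ℝ) < ((2 * p).factorial : ℝ) := by positivity
    have h1 : ∀ ε : ι → Bool, scr142_S a ε ^ (2 * p)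
        ≤ ((2 * p).factorial : ℝ) * V ^ p * Real.cosh (s⁻¹ * scr142_S a ε) := by
      intro ε
      have h := scr142_pow_le_cosh (s⁻¹ * scr142_S a ε) p
      rw [div_le_iff₀ hfac, mul_pow, inv_pow, pow_mul s, hs2] at h
      have hVp : 0 < V ^ p := by positivity
      have : scr142_S a ε ^ (2 * p) = V ^ p * ((V ^ p)⁻¹ * scr142_S a ε ^ (2 * p)) := by
        field_simp
      rw [this]
      calc V ^ p * ((V ^ p)⁻¹ * scr142_S a ε ^ (2 * p))
          ≤ V ^ p * (Real.cosh (s⁻¹ * scr142_S a ε) * ((2 * p).factorial : ℝ)) :=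
            mul_le_mul_of_nonneg_left h hVp.le
        _ = _ := by ring
    have h2 : ∏ i, Real.cosh (s⁻¹ * a i) ≤ 2 := by
      have h3 : ∏ i, Real.cosh (s⁻¹ * a i) ≤ ∏ i, Real.exp ((s⁻¹ * a i) ^ 2 / 2) :=
        Finset.prod_le_prod (fun i _ => (Real.cosh_pos _).le) (fun i _ => Real.cosh_le_exp_half_sq _)
      have h4 : ∏ i, Real.exp ((s⁻¹ * a i) ^ 2 / 2) = Real.exp (1 / 2) := by
        rw [← Real.exp_sum]
        congr 1
        have : ∀ i, (s⁻¹ * a i) ^ 2 / 2 = (V⁻¹ / 2) * a i ^ 2 := by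
          intro i; rw [mul_pow, inv_pow, hs2]; ring
        simp_rw [this]
        rw [← Finset.mul_sum, ← hV]
        field_simp
      have h5 : Real.exp (1 / 2) ≤ 2 := by
        have h6 : Real.exp (1 / 2) ^ 2 = Real.exp 1 := by
          rw [← Real.exp_nat_mul]; norm_num
        have h7 : Real.exp 1 < 4 := by
          have := Real.exp_one_lt_d9; linarith
        nlinarith [Real.exp_pos (1 / 2 : ℝ)]
      linarith [h3, h4.le, h5]
    calc ∑ ε : ι → Bool, scr142_S a ε ^ (2 * p)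
        ≤ ∑ ε : ι → Bool, ((2 * p).factorial : ℝ) * V ^ p * Real.cosh (s⁻¹ * scr142_S a ε) :=
          Finset.sum_le_sum fun ε _ => h1 ε
      _ = ((2 * p).factorial : ℝ) * V ^ p * (2 ^ Fintype.card ι * ∏ i, Real.cosh (s⁻¹ * a i)) := by
          rw [← Finset.mul_sum, scr142_cosh_sum]
      _ ≤ ((2 * p).factorial : ℝ) * V ^ p * (2 ^ Fintype.card ι * 2) := by
          have : 0 ≤ ((2 * p).factorial : ℝ) * V ^ p := by positivity
          exact mul_le_mul_of_nonneg_left (mul_le_mul_of_nonneg_left h2 (by positivity)) this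
      _ = _ := by ring

/-- elementary: `(x + y)^(2p) ≤ 4^p (x^(2p) + y^(2p))`. -/
theorem scr142_add_pow_le (x y : ℝ) (p : ℕ) : (x + y) ^ (2 * p) ≤ 4 ^ p * (x ^ (2 * p) + y ^ (2 * p)) := by
  have hx : 0 ≤ x ^ (2 * p) := by rw [pow_mul]; positivity
  have hy : 0 ≤ y ^ (2 * p) := by rw [pow_mul]; positivity
  have h1 : (x + y) ^ 2 ≤ 4 * max (x ^ 2) (y ^ 2) := by
    have := le_max_left (x ^ 2) (y ^ 2)
    have := le_max_right (x ^ 2) (y ^ 2)
    nlinarith [sq_nonneg (x - y)]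
  have h2 : max (x ^ 2) (y ^ 2) ^ p ≤ x ^ (2 * p) + y ^ (2 * p) := by
    rcases le_total (x ^ 2) (y ^ 2) with h | h
    · rw [max_eq_right h, ← pow_mul]; linarith
    · rw [max_eq_left h, ← pow_mul]; linarith
  calc (x + y) ^ (2 * p) = ((x + y) ^ 2) ^ p := by rw [pow_mul]
    _ ≤ (4 * max (x ^ 2) (y ^ 2)) ^ p := pow_le_pow_left₀ (sq_nonneg _) h1 p
    _ = 4 ^ p * max (x ^ 2) (y ^ 2) ^ p := by rw [mul_pow]
    _ ≤ _ := mul_le_mul_of_nonneg_left h2 (by positivity)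

/-- **the form of `eq:screen-signed-mass`**: `Y = R + c ∑ ε_C q_C` with fair signs. -/
theorem scr142_khintchine_affine {ι : Type*} [Fintype ι] [DecidableEq ι] (q : ι → ℝ) (R c : ℝ) (p : ℕ) :
    ∑ ε : ι → Bool, (R + c * scr142_S q ε) ^ (2 * p)
      ≤ 2 ^ Fintype.card ι *
        (4 ^ p * (R ^ (2 * p) + c ^ (2 * p) * ((2 * ((2 * p).factorial : ℝ)) * (∑ i, q i ^ 2) ^ p))) := by
  have hc : 0 ≤ c ^ (2 * p) := by rw [pow_mul]; positivity
  calc ∑ ε : ι → Bool, (R + c * scr142_S q ε) ^ (2 * p)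
      ≤ ∑ ε : ι → Bool, 4 ^ p * (R ^ (2 * p) + c ^ (2 * p) * scr142_S q ε ^ (2 * p)) := by
        refine Finset.sum_le_sum fun ε _ => ?_
        have := scr142_add_pow_le R (c * scr142_S q ε) p
        rwa [mul_pow] at this
    _ = 4 ^ p * (2 ^ Fintype.card ι * R ^ (2 * p) + c ^ (2 * p) * ∑ ε : ι → Bool, scr142_S q ε ^ (2 * p)) := by
        rw [← Finset.mul_sum, Finset.sum_add_distrib, ← Finset.mul_sum]
        simp [Finset.card_univ]
    _ ≤ 4 ^ p * (2 ^ Fintype.card ι * R ^ (2 * p) + c ^ (2 * p) *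
          (2 ^ Fintype.card ι * (2 * ((2 * p).factorial : ℝ)) * (∑ i, q i ^ 2) ^ p)) := by
        have := scr142_khintchine q p
        gcongr
    _ = _ := by ring

/-- all absolute moments, squared form (Cauchy-Schwarz). -/
theorem scr142_khintchine_abs {ι : Type*} [Fintype ι] [DecidableEq ι] (a : ι → ℝ) (k : ℕ) :
    (∑ ε : ι → Bool, |scr142_S a ε| ^ k) ^ 2
      ≤ (2 ^ Fintype.card ι) ^ 2 * ((2 * ((2 * k).factorial : ℝ)) * (∑ i, a i ^ 2) ^ k) := by
  have h1 : (∑ ε : ι → Bool, |scr142_S a ε| ^ k) ^ 2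
      ≤ (Fintype.card (ι → Bool) : ℝ) * ∑ ε : ι → Bool, (|scr142_S a ε| ^ k) ^ 2 := by
    have := sq_sum_le_card_mul_sum_sq (s := (Finset.univ : Finset (ι → Bool))) (f := fun ε => |scr142_S a ε| ^ k)
    simpa [Finset.card_univ] using this
  have h2 : ∀ ε : ι → Bool, (|scr142_S a ε| ^ k) ^ 2 = scr142_S a ε ^ (2 * k) := by
    intro ε
    rw [← pow_mul, mul_comm k 2, pow_mul, sq_abs, ← pow_mul]
  simp_rw [h2] at h1
  have h3 : (Fintype.card (ι → Bool) : ℝ) = 2 ^ Fintype.card ι := by simp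
  rw [h3] at h1
  calc _ ≤ _ := h1
    _ ≤ 2 ^ Fintype.card ι * (2 ^ Fintype.card ι * (2 * ((2 * k).factorial : ℝ)) * (∑ i, a i ^ 2) ^ k) :=
        mul_le_mul_of_nonneg_left (scr142_khintchine a k) (by positivity)
    _ = _ := by ring

/-! ### the sharp constant `(2m-1)!!` -/

/-- flip of the `i`-th sign. -/
def scr142_flip {ι : Type*} [DecidableEq ι] (i : ι) (ε : ι → Bool) : ι → Bool := Function.update ε i (!ε i)

theorem scr142_flip_flip {ι : Type*} [DecidableEq ι] (i : ι) (ε : ι → Bool) :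
    scr142_flip i (scr142_flip i ε) = ε := by
  ext k
  by_cases hk : k = i
  · subst hk; simp [scr142_flip]
  · simp [scr142_flip, Function.update_of_ne hk]

theorem scr142_sg_not (b : Bool) : scr142_sg (!b) = -scr142_sg b := by cases b <;> simp

theorem scr142_flip_same {ι : Type*} [DecidableEq ι] (i : ι) (ε : ι → Bool) : scr142_flip i ε i = !ε i := by
  simp [scr142_flip]

theorem scr142_S_flip {ι : Type*} [Fintype ι] [DecidableEq ι] (a : ι → ℝ) (i : ι) (ε : ι → Bool) :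
    scr142_S a (scr142_flip i ε) = scr142_S a ε - 2 * (scr142_sg (ε i) * a i) := by
  have : scr142_S a (scr142_flip i ε) - scr142_S a ε = -2 * (scr142_sg (ε i) * a i) := by
    unfold scr142_S
    rw [← Finset.sum_sub_distrib, Finset.sum_eq_single i]
    · rw [scr142_flip_same, scr142_sg_not]; ring
    · intro k _ hk
      simp [scr142_flip, Function.update_of_ne hk]
    · intro h; exact absurd (Finset.mem_univ i) h
  linarith

theorem scr142_sum_flip {ι : Type*} [Fintype ι] [DecidableEq ι] (i : ι) (f : (ι → Bool) → ℝ) :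
    ∑ ε : ι → Bool, f (scr142_flip i ε) = ∑ ε : ι → Bool, f ε :=
  Equiv.sum_comp (Function.Involutive.toPerm _ (scr142_flip_flip i)) f

theorem scr142_pair_le {x y : ℝ} (hx : 0 ≤ x) (hy : 0 ≤ y) (j k : ℕ) :
    x ^ j * y ^ k + x ^ k * y ^ j ≤ x ^ (j + k) + y ^ (j + k) := by
  rw [pow_add, pow_add]
  rcases le_total x y with h | h
  · nlinarith [mul_nonneg (sub_nonneg.2 (pow_le_pow_left₀ hx h j)) (sub_nonneg.2 (pow_le_pow_left₀ hx h k))]
  · nlinarith [mul_nonneg (sub_nonneg.2 (pow_le_pow_left₀ hy h j)) (sub_nonneg.2 (pow_le_pow_left₀ hy h k))]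

theorem scr142_pair_le' (u v : ℝ) {j k : ℕ} (hN : Even (j + k)) :
    u ^ j * v ^ k + u ^ k * v ^ j ≤ u ^ (j + k) + v ^ (j + k) := by
  have h1 := scr142_pair_le (abs_nonneg u) (abs_nonneg v) j k
  rw [hN.pow_abs, hN.pow_abs] at h1
  have h2 : u ^ j * v ^ k ≤ |u| ^ j * |v| ^ k := by
    rw [← abs_pow, ← abs_pow, ← abs_mul]; exact le_abs_self _
  have h3 : u ^ k * v ^ j ≤ |u| ^ k * |v| ^ j := by
    rw [← abs_pow, ← abs_pow, ← abs_mul]; exact le_abs_self _
  linarith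

/-- the geometric sum of even degree. -/
theorem scr142_geom_le (u v : ℝ) {N : ℕ} (hN : Even N) :
    2 * ∑ j ∈ Finset.range (N + 1), u ^ j * v ^ (N - j) ≤ (N + 1 : ℝ) * (u ^ N + v ^ N) := by
  have h1 : ∑ j ∈ Finset.range (N + 1), u ^ j * v ^ (N - j) = ∑ j ∈ Finset.range (N + 1), u ^ (N - j) * v ^ j := by
    rw [← Finset.sum_range_reflect]
    refine Finset.sum_congr rfl fun j hj => ?_
    have hj' : j ≤ N := Nat.lt_succ_iff.1 (Finset.mem_range.1 hj)
    have e1 : N + 1 - 1 - j = N - j := by omega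
    have e2 : N - (N - j) = j := by omega
    rw [e1, e2]
  have h2 : 2 * ∑ j ∈ Finset.range (N + 1), u ^ j * v ^ (N - j)
      = ∑ j ∈ Finset.range (N + 1), (u ^ j * v ^ (N - j) + u ^ (N - j) * v ^ j) := by
    rw [Finset.sum_add_distrib, ← h1]; ring
  rw [h2]
  calc ∑ j ∈ Finset.range (N + 1), (u ^ j * v ^ (N - j) + u ^ (N - j) * v ^ j)
      ≤ ∑ _j ∈ Finset.range (N + 1), (u ^ N + v ^ N) := by
        refine Finset.sum_le_sum fun j hj => ?_
        have hj' : j ≤ N := Nat.lt_succ_iff.1 (Finset.mem_range.1 hj)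
        have e : j + (N - j) = N := by omega
        have := scr142_pair_le' u v (j := j) (k := N - j) (by rw [e]; exact hN)
        rwa [e] at this
    _ = (N + 1 : ℝ) * (u ^ N + v ^ N) := by
        rw [Finset.sum_const, Finset.card_range, nsmul_eq_mul]; push_cast; ring

/-- discrete integration by parts, the convexity inequality. -/
theorem scr142_ibp_ineq (u v : ℝ) (m : ℕ) :
    2 * ((u - v) * (u ^ (2 * m + 1) - v ^ (2 * m + 1))) ≤ (2 * m + 1 : ℝ) * ((u - v) ^ 2 * (u ^ (2 * m) + v ^ (2 * m))) := by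
  have h1 := geom_sum₂_mul u v (2 * m + 1)
  have h2 := scr142_geom_le u v (N := 2 * m) (even_two_mul m)
  have e : ∀ i, 2 * m + 1 - 1 - i = 2 * m - i := fun i => by omega
  simp_rw [e] at h1
  rw [← h1]
  have h3 : 0 ≤ (u - v) ^ 2 := sq_nonneg _
  have h4 := mul_le_mul_of_nonneg_left h2 h3
  push_cast at h4
  nlinarith

/-- **the recursion** `E S^(2m+2) ≤ (2m+1) V E S^(2m)`. -/
theorem scr142_khintchine_step {ι : Type*} [Fintype ι] [DecidableEq ι] (a : ι → ℝ) (m : ℕ) :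
    ∑ ε : ι → Bool, scr142_S a ε ^ (2 * m + 2)
      ≤ (2 * m + 1 : ℝ) * (∑ i, a i ^ 2) * ∑ ε : ι → Bool, scr142_S a ε ^ (2 * m) := by
  have h1 : ∑ ε : ι → Bool, scr142_S a ε ^ (2 * m + 2)
      = ∑ i, ∑ ε : ι → Bool, scr142_sg (ε i) * a i * scr142_S a ε ^ (2 * m + 1) := by
    rw [Finset.sum_comm]
    refine Finset.sum_congr rfl fun ε _ => ?_
    rw [← Finset.sum_mul]
    have : ∑ i, scr142_sg (ε i) * a i = scr142_S a ε := rfl
    rw [this]; ring
  obtain ⟨W, hW⟩ : ∃ W, W = ∑ ε : ι → Bool, scr142_S a ε ^ (2 * m) := ⟨_, rfl⟩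
  rw [h1, ← hW, Finset.mul_sum, Finset.sum_mul]
  refine Finset.sum_le_sum fun i _ => ?_
  set T := ∑ ε : ι → Bool, scr142_sg (ε i) * a i * scr142_S a ε ^ (2 * m + 1) with hT
  have h2 : T = ∑ ε : ι → Bool, -(scr142_sg (ε i) * a i) * scr142_S a (scr142_flip i ε) ^ (2 * m + 1) := by
    rw [hT, ← scr142_sum_flip i]
    refine Finset.sum_congr rfl fun ε _ => ?_
    rw [scr142_flip_same, scr142_sg_not]; ring
  have h3 : 8 * T = ∑ ε : ι → Bool, 2 * ((scr142_S a ε - scr142_S a (scr142_flip i ε))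
      * (scr142_S a ε ^ (2 * m + 1) - scr142_S a (scr142_flip i ε) ^ (2 * m + 1))) := by
    have : 8 * T = 4 * (T + T) := by ring
    rw [this]
    nth_rewrite 2 [h2]
    rw [hT, ← Finset.sum_add_distrib, Finset.mul_sum]
    refine Finset.sum_congr rfl fun ε _ => ?_
    rw [scr142_S_flip]; ring
  have h4 : 8 * T ≤ ∑ ε : ι → Bool, (2 * m + 1 : ℝ) * (4 * a i ^ 2
      * (scr142_S a ε ^ (2 * m) + scr142_S a (scr142_flip i ε) ^ (2 * m))) := by
    rw [h3]
    refine Finset.sum_le_sum fun ε _ => ?_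
    have := scr142_ibp_ineq (scr142_S a ε) (scr142_S a (scr142_flip i ε)) m
    have e : (scr142_S a ε - scr142_S a (scr142_flip i ε)) ^ 2 = 4 * a i ^ 2 := by
      rw [scr142_S_flip]
      have := scr142_sg_sq (ε i)
      calc _ = 4 * (scr142_sg (ε i) ^ 2 * a i ^ 2) := by ring
        _ = _ := by rw [this, one_mul]
    rwa [e] at this
  have h5 : ∑ ε : ι → Bool, (2 * m + 1 : ℝ) * (4 * a i ^ 2
      * (scr142_S a ε ^ (2 * m) + scr142_S a (scr142_flip i ε) ^ (2 * m)))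
      = 8 * ((2 * m + 1 : ℝ) * a i ^ 2 * W) := by
    rw [← Finset.mul_sum, ← Finset.mul_sum, Finset.sum_add_distrib,
      scr142_sum_flip i (fun ε => scr142_S a ε ^ (2 * m)), ← hW]
    ring
  rw [h5] at h4
  linarith

/-- **Khintchine's inequality with the sharp constant** `E (∑ ε_C q_C)^(2m) ≤ (2m-1)!! (∑ q_C²)^m`. -/
theorem scr142_khintchine_sharp {ι : Type*} [Fintype ι] [DecidableEq ι] (a : ι → ℝ) (m : ℕ) :
    ∑ ε : ι → Bool, scr142_S a ε ^ (2 * m)
      ≤ 2 ^ Fintype.card ι * ((Nat.doubleFactorial (2 * m - 1) : ℕ) : ℝ) * (∑ i, a i ^ 2) ^ m := by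
  induction m with
  | zero => simp
  | succ m ih =>
    have hV : 0 ≤ ∑ i, a i ^ 2 := Finset.sum_nonneg fun i _ => sq_nonneg _
    have e1 : 2 * (m + 1) = 2 * m + 2 := by ring
    have e2 : ((Nat.doubleFactorial (2 * (m + 1) - 1) : ℕ) : ℝ)
        = (2 * m + 1 : ℝ) * ((Nat.doubleFactorial (2 * m - 1) : ℕ) : ℝ) := by
      rcases Nat.eq_zero_or_pos m with rfl | hm
      · simp
      · have : 2 * (m + 1) - 1 = (2 * m - 1) + 2 := by omega
        rw [this, Nat.doubleFactorial_add_two]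
        have h2 : 2 * m - 1 + 2 = 2 * m + 1 := by omega
        rw [h2]; push_cast; ring
    rw [e2, e1]
    calc _ ≤ _ := scr142_khintchine_step a m
      _ ≤ (2 * m + 1 : ℝ) * (∑ i, a i ^ 2)
          * (2 ^ Fintype.card ι * ((Nat.doubleFactorial (2 * m - 1) : ℕ) : ℝ) * (∑ i, a i ^ 2) ^ m) :=
          mul_le_mul_of_nonneg_left ih (mul_nonneg (by positivity) hV)
      _ = _ := by ring

/-- the form of `eq:screen-signed-mass` with the sharp constant. -/
theorem scr142_khintchine_affine_sharp {ι : Type*} [Fintype ι] [DecidableEq ι] (q : ι → ℝ) (R c : ℝ) (p : ℕ) :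
    ∑ ε : ι → Bool, (R + c * scr142_S q ε) ^ (2 * p)
      ≤ 2 ^ Fintype.card ι *
        (4 ^ p * (R ^ (2 * p) + c ^ (2 * p) * (((Nat.doubleFactorial (2 * p - 1) : ℕ) : ℝ) * (∑ i, q i ^ 2) ^ p))) := by
  have hc : 0 ≤ c ^ (2 * p) := by rw [pow_mul]; positivity
  calc ∑ ε : ι → Bool, (R + c * scr142_S q ε) ^ (2 * p)
      ≤ ∑ ε : ι → Bool, 4 ^ p * (R ^ (2 * p) + c ^ (2 * p) * scr142_S q ε ^ (2 * p)) := by
        refine Finset.sum_le_sum fun ε _ => ?_
        have := scr142_add_pow_le R (c * scr142_S q ε) p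
        rwa [mul_pow] at this
    _ = 4 ^ p * (2 ^ Fintype.card ι * R ^ (2 * p) + c ^ (2 * p) * ∑ ε : ι → Bool, scr142_S q ε ^ (2 * p)) := by
        rw [← Finset.mul_sum, Finset.sum_add_distrib, ← Finset.mul_sum]
        simp [Finset.card_univ]
    _ ≤ 4 ^ p * (2 ^ Fintype.card ι * R ^ (2 * p) + c ^ (2 * p) *
          (2 ^ Fintype.card ι * ((Nat.doubleFactorial (2 * p - 1) : ℕ) : ℝ) * (∑ i, q i ^ 2) ^ p)) := by
        have := scr142_khintchine_sharp q p
        gcongr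
    _ = _ := by ring

/-- signs indexed by a `Finset` of clusters. -/
theorem scr142_khintchine_finset {ι : Type*} [DecidableEq ι] (C : Finset ι) (q : ι → ℝ) (m : ℕ) :
    ∑ ε : (↥C → Bool), (∑ i : ↥C, scr142_sg (ε i) * q i) ^ (2 * m)
      ≤ 2 ^ C.card * ((Nat.doubleFactorial (2 * m - 1) : ℕ) : ℝ) * (∑ i ∈ C, q i ^ 2) ^ m := by
  have h := scr142_khintchine_sharp (fun i : ↥C => q i) m
  rw [Fintype.card_coe, Finset.sum_coe_sort C (fun i => q i ^ 2)] at h
  exact h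

/-! ## §2 finite weighted spaces: the mean `scr142_E s w A = (∑ p ∈ s, w p * A p) / ∑ p ∈ s, w p`  (shape of `scrE`) -/

section Fin

variable {Ω : Type*}

/-- weighted mean over a finite set (`scrE t F A = scr142_E (at92Adm F) (at92W t) A` by `rfl`). -/
noncomputable def scr142_E (s : Finset Ω) (w : Ω → ℝ) (A : Ω → ℝ) : ℝ :=
  (∑ p ∈ s, w p * A p) / ∑ p ∈ s, w p

/-- the weights are nonnegative with positive total mass. -/
def scr142_Law (s : Finset Ω) (w : Ω → ℝ) : Prop := (∀ p ∈ s, 0 ≤ w p) ∧ 0 < ∑ p ∈ s, w p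

/-- probability of an event. -/
noncomputable def scr142_P (s : Finset Ω) (w : Ω → ℝ) (S : Set Ω) : ℝ := scr142_E s w (S.indicator fun _ => 1)

variable {s : Finset Ω} {w : Ω → ℝ}

theorem scr142_E_congr {A B : Ω → ℝ} (h : ∀ p ∈ s, A p = B p) : scr142_E s w A = scr142_E s w B := by
  unfold scr142_E
  rw [Finset.sum_congr rfl fun p hp => by rw [h p hp]]

theorem scr142_E_add (A B : Ω → ℝ) :
    scr142_E s w (fun p => A p + B p) = scr142_E s w A + scr142_E s w B := by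
  unfold scr142_E
  rw [← add_div, ← Finset.sum_add_distrib]
  congr 1
  exact Finset.sum_congr rfl fun p _ => by ring

theorem scr142_E_smul (c : ℝ) (A : Ω → ℝ) : scr142_E s w (fun p => c * A p) = c * scr142_E s w A := by
  unfold scr142_E
  rw [← mul_div_assoc, Finset.mul_sum]
  congr 1
  exact Finset.sum_congr rfl fun p _ => by ring

theorem scr142_E_neg (A : Ω → ℝ) : scr142_E s w (fun p => -A p) = -scr142_E s w A := by
  have := scr142_E_smul (s := s) (w := w) (-1) A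
  simpa using this

theorem scr142_E_sub (A B : Ω → ℝ) :
    scr142_E s w (fun p => A p - B p) = scr142_E s w A - scr142_E s w B := by
  have := scr142_E_add (s := s) (w := w) A (fun p => -B p)
  rw [scr142_E_neg] at this
  simpa [sub_eq_add_neg] using this

theorem scr142_E_zero : scr142_E s w (fun _ => 0) = 0 := by simp [scr142_E]

theorem scr142_E_sum {κ : Type*} (t : Finset κ) (A : κ → Ω → ℝ) :
    scr142_E s w (fun p => ∑ k ∈ t, A k p) = ∑ k ∈ t, scr142_E s w (A k) := by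
  unfold scr142_E
  rw [← Finset.sum_div, Finset.sum_comm]
  congr 1
  exact Finset.sum_congr rfl fun p _ => by rw [Finset.mul_sum]

theorem scr142_E_const (h : scr142_Law s w) (c : ℝ) : scr142_E s w (fun _ => c) = c := by
  unfold scr142_E
  rw [← Finset.sum_mul, mul_comm, mul_div_assoc, div_self h.2.ne', mul_one]

theorem scr142_E_mono (h : scr142_Law s w) {A B : Ω → ℝ} (hAB : ∀ p ∈ s, A p ≤ B p) :
    scr142_E s w A ≤ scr142_E s w B := by
  unfold scr142_E
  exact div_le_div_of_nonneg_right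
    (Finset.sum_le_sum fun p hp => mul_le_mul_of_nonneg_left (hAB p hp) (h.1 p hp)) h.2.le

theorem scr142_E_nonneg (h : scr142_Law s w) {A : Ω → ℝ} (hA : ∀ p ∈ s, 0 ≤ A p) : 0 ≤ scr142_E s w A := by
  have := scr142_E_mono h (A := fun _ => 0) (B := A) hA
  rwa [scr142_E_zero] at this

theorem scr142_abs_E_le (h : scr142_Law s w) (A : Ω → ℝ) : |scr142_E s w A| ≤ scr142_E s w (fun p => |A p|) := by
  rw [abs_le]
  constructor
  · rw [← scr142_E_neg]
    exact scr142_E_mono h fun p _ => neg_abs_le _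
  · exact scr142_E_mono h fun p _ => le_abs_self _

theorem scr142_abs_E_le_of_bound (h : scr142_Law s w) {A : Ω → ℝ} {T : ℝ} (hA : ∀ p ∈ s, |A p| ≤ T) :
    |scr142_E s w A| ≤ T := by
  have := (scr142_abs_E_le h A).trans (scr142_E_mono h (B := fun _ => T) hA)
  rwa [scr142_E_const h] at this

theorem scr142_P_nonneg (h : scr142_Law s w) (S : Set Ω) : 0 ≤ scr142_P s w S :=
  scr142_E_nonneg h fun p _ => Set.indicator_nonneg (fun _ _ => zero_le_one) p

theorem scr142_P_le_one (h : scr142_Law s w) (S : Set Ω) : scr142_P s w S ≤ 1 := by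
  have := scr142_E_mono h (A := S.indicator fun _ => (1 : ℝ)) (B := fun _ => 1)
    (fun p _ => Set.indicator_le_self' (fun _ _ => zero_le_one) p)
  rwa [scr142_E_const h] at this

theorem scr142_P_mono (h : scr142_Law s w) {S S' : Set Ω} (hS : ∀ p ∈ s, p ∈ S → p ∈ S') :
    scr142_P s w S ≤ scr142_P s w S' := by
  refine scr142_E_mono h fun p hp => ?_
  by_cases h1 : p ∈ S
  · rw [Set.indicator_of_mem h1, Set.indicator_of_mem (hS p hp h1)]
  · rw [Set.indicator_of_notMem h1]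
    exact Set.indicator_nonneg (fun _ _ => zero_le_one) p

/-- a bounded observable on an event. -/
theorem scr142_abs_E_indicator_le (h : scr142_Law s w) {A : Ω → ℝ} {T : ℝ} (S : Set Ω)
    (hA : ∀ p ∈ s, p ∈ S → |A p| ≤ T) : |scr142_E s w (S.indicator A)| ≤ T * scr142_P s w S := by
  refine (scr142_abs_E_le h _).trans ?_
  rw [scr142_P, ← scr142_E_smul]
  refine scr142_E_mono h fun p hp => ?_
  by_cases h1 : p ∈ S
  · rw [Set.indicator_of_mem h1, Set.indicator_of_mem h1, mul_one]; exact hA p hp h1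
  · rw [Set.indicator_of_notMem h1, Set.indicator_of_notMem h1]; simp

/-- Cauchy-Schwarz. -/
theorem scr142_cauchy_schwarz (h : scr142_Law s w) (A B : Ω → ℝ) :
    scr142_E s w (fun p => A p * B p) ^ 2 ≤ scr142_E s w (fun p => A p ^ 2) * scr142_E s w (fun p => B p ^ 2) := by
  unfold scr142_E
  rw [div_pow, div_mul_div_comm, ← sq]
  refine div_le_div_of_nonneg_right ?_ (sq_nonneg _)
  have h1 := Finset.sum_mul_sq_le_sq_mul_sq s (fun p => Real.sqrt (w p) * A p) (fun p => Real.sqrt (w p) * B p)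
  have e1 : ∑ p ∈ s, Real.sqrt (w p) * A p * (Real.sqrt (w p) * B p) = ∑ p ∈ s, w p * (A p * B p) :=
    Finset.sum_congr rfl fun p hp => by
      have := Real.mul_self_sqrt (h.1 p hp)
      calc _ = (Real.sqrt (w p) * Real.sqrt (w p)) * (A p * B p) := by ring
        _ = _ := by rw [this]
  have e2 : ∀ C : Ω → ℝ, ∑ p ∈ s, (Real.sqrt (w p) * C p) ^ 2 = ∑ p ∈ s, w p * C p ^ 2 := fun C =>
    Finset.sum_congr rfl fun p hp => by rw [mul_pow, Real.sq_sqrt (h.1 p hp)]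
  rwa [e1, e2, e2] at h1

/-- Markov's inequality. -/
theorem scr142_markov (h : scr142_Law s w) {A : Ω → ℝ} (hA : ∀ p ∈ s, 0 ≤ A p) {a : ℝ} (ha : 0 < a) :
    scr142_P s w {p | a ≤ A p} ≤ scr142_E s w A / a := by
  rw [le_div_iff₀ ha, mul_comm, scr142_P, ← scr142_E_smul]
  refine scr142_E_mono h fun p hp => ?_
  by_cases h1 : p ∈ {p | a ≤ A p}
  · rw [Set.indicator_of_mem h1, mul_one]; exact h1
  · rw [Set.indicator_of_notMem h1, mul_zero]; exact hA p hp

/-! ### the conditional `L¹` norm given finite data -/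

variable {β : Type*}

open Classical in
/-- **`‖E[X | Y]‖₁ = ∑_y |E[X ; Y = y]|`**, the sum of the absolute unnormalised expectations over the data. -/
noncomputable def scr142_N (s : Finset Ω) (w : Ω → ℝ) (X : Ω → ℝ) (Y : Ω → β) : ℝ :=
  ∑ y ∈ s.image Y, |scr142_E s w ({p | Y p = y}.indicator X)|

open Classical in
/-- decomposition over the fibres of the data. -/
theorem scr142_E_fiber (Y : Ω → β) (A : Ω → ℝ) :
    scr142_E s w A = ∑ y ∈ s.image Y, scr142_E s w ({p | Y p = y}.indicator A) := by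
  rw [← scr142_E_sum]
  refine scr142_E_congr fun p hp => ?_
  rw [Finset.sum_eq_single (Y p)]
  · rw [Set.indicator_of_mem (by simp)]
  · intro y _ hy
    rw [Set.indicator_of_notMem (by simpa using fun h => hy h.symm)]
  · intro h
    exact absurd (Finset.mem_image_of_mem Y hp) h

theorem scr142_N_nonneg (X : Ω → ℝ) (Y : Ω → β) : 0 ≤ scr142_N s w X Y :=
  Finset.sum_nonneg fun _ _ => abs_nonneg _

/-- **duality, easy half**: a test bounded by one that is a function of the data. -/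
theorem scr142_dualF_le (X G : Ω → ℝ) (Y : Ω → β) (hG1 : ∀ p ∈ s, |G p| ≤ 1)
    (hGY : ∀ p ∈ s, ∀ p' ∈ s, Y p = Y p' → G p = G p') :
    |scr142_E s w (fun p => X p * G p)| ≤ scr142_N s w X Y := by
  classical
  rw [scr142_E_fiber Y, scr142_N]
  refine (Finset.abs_sum_le_sum_abs _ _).trans (Finset.sum_le_sum fun y hy => ?_)
  obtain ⟨q, hq, rfl⟩ := Finset.mem_image.1 hy
  have e : scr142_E s w ({p | Y p = Y q}.indicator fun p => X p * G p)
      = G q * scr142_E s w ({p | Y p = Y q}.indicator X) := by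
    rw [← scr142_E_smul]
    refine scr142_E_congr fun p hp => ?_
    by_cases h1 : p ∈ {p | Y p = Y q}
    · rw [Set.indicator_of_mem h1, Set.indicator_of_mem h1, hGY p hp q hq h1]; ring
    · rw [Set.indicator_of_notMem h1, Set.indicator_of_notMem h1, mul_zero]
  rw [e, abs_mul]
  exact mul_le_of_le_one_left (abs_nonneg _) (hG1 q hq)

/-- **duality, the optimal test**: a sign that is a function of the data. -/
theorem scr142_exists_dualF (s : Finset Ω) (w : Ω → ℝ) (X : Ω → ℝ) (Y : Ω → β) :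
    ∃ g : β → ℝ, (∀ y, |g y| ≤ 1) ∧ scr142_E s w (fun p => X p * g (Y p)) = scr142_N s w X Y := by
  classical
  let g : β → ℝ := fun y => if 0 ≤ scr142_E s w ({p | Y p = y}.indicator X) then 1 else -1
  refine ⟨g, fun y => ?_, ?_⟩
  · simp only [g]; split_ifs <;> simp
  rw [scr142_E_fiber Y, scr142_N]
  refine Finset.sum_congr rfl fun y _ => ?_
  have e : scr142_E s w ({p | Y p = y}.indicator fun p => X p * g (Y p))
      = g y * scr142_E s w ({p | Y p = y}.indicator X) := by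
    rw [← scr142_E_smul]
    refine scr142_E_congr fun p _ => ?_
    by_cases h1 : p ∈ {p | Y p = y}
    · rw [Set.indicator_of_mem h1, Set.indicator_of_mem h1, show Y p = y from h1]; ring
    · rw [Set.indicator_of_notMem h1, Set.indicator_of_notMem h1, mul_zero]
  rw [e]
  simp only [g]
  split_ifs with h
  · rw [one_mul, abs_of_nonneg h]
  · rw [abs_of_neg (not_le.1 h)]; ring

/-- **`L¹` duality on a finite weighted space**: `∑_y |E[X ; Y = y]|` is the greatest value of `|E[X G]|` over the tests `|G| ≤ 1`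
that are functions of the data `Y`. -/
theorem scr142_N_isGreatest (s : Finset Ω) (w : Ω → ℝ) (X : Ω → ℝ) (Y : Ω → β) :
    IsGreatest {c : ℝ | ∃ G : Ω → ℝ, (∀ p ∈ s, |G p| ≤ 1) ∧ (∀ p ∈ s, ∀ p' ∈ s, Y p = Y p' → G p = G p') ∧
      c = |scr142_E s w (fun p => X p * G p)|} (scr142_N s w X Y) := by
  constructor
  · obtain ⟨g, hg, e⟩ := scr142_exists_dualF s w X Y
    refine ⟨fun p => g (Y p), fun p _ => hg _, fun p _ p' _ h => by simp only [h], ?_⟩
    rw [e, abs_of_nonneg (scr142_N_nonneg X Y)]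
  · rintro c ⟨G, h1, h2, rfl⟩
    exact scr142_dualF_le X G Y h1 h2

/-- a bound on all tests bounds the norm. -/
theorem scr142_N_le_of_dual (X : Ω → ℝ) (Y : Ω → β) {c : ℝ}
    (h : ∀ g : β → ℝ, (∀ y, |g y| ≤ 1) → |scr142_E s w (fun p => X p * g (Y p))| ≤ c) :
    scr142_N s w X Y ≤ c := by
  obtain ⟨g, hg, e⟩ := scr142_exists_dualF s w X Y
  rw [← e]
  exact (le_abs_self _).trans (h g hg)

/-- conditional Jensen: coarser data give a smaller norm. -/
theorem scr142_N_mono {γ : Type*} (X : Ω → ℝ) (Y : Ω → β) (Y' : Ω → γ)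
    (hYY : ∀ p ∈ s, ∀ p' ∈ s, Y p = Y p' → Y' p = Y' p') :
    scr142_N s w X Y' ≤ scr142_N s w X Y := by
  refine scr142_N_le_of_dual X Y' fun g hg => ?_
  exact scr142_dualF_le X (fun p => g (Y' p)) Y (fun p _ => hg _) fun p hp p' hp' h => by rw [hYY p hp p' hp' h]

/-- the norm is at most `E|X|`. -/
theorem scr142_N_le_abs (h : scr142_Law s w) (X : Ω → ℝ) (Y : Ω → β) :
    scr142_N s w X Y ≤ scr142_E s w (fun p => |X p|) := by
  refine scr142_N_le_of_dual X Y fun g hg => ?_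
  refine (scr142_abs_E_le h _).trans (scr142_E_mono h fun p _ => ?_)
  rw [abs_mul]
  exact mul_le_of_le_one_right (abs_nonneg _) (hg _)

/-- triangle inequality. -/
theorem scr142_N_le_add (h : scr142_Law s w) (X X' : Ω → ℝ) (Y : Ω → β) :
    scr142_N s w X Y ≤ scr142_N s w X' Y + scr142_E s w (fun p => |X p - X' p|) := by
  refine scr142_N_le_of_dual X Y fun g hg => ?_
  have e : scr142_E s w (fun p => X p * g (Y p))
      = scr142_E s w (fun p => X' p * g (Y p)) + scr142_E s w (fun p => (X p - X' p) * g (Y p)) := by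
    rw [← scr142_E_add]
    exact scr142_E_congr fun p _ => by ring
  rw [e]
  refine (abs_add_le _ _).trans (add_le_add ?_ ?_)
  · exact scr142_dualF_le X' (fun p => g (Y p)) Y (fun p _ => hg _) fun p _ p' _ h => by rw [h]
  · refine (scr142_abs_E_le h _).trans (scr142_E_mono h fun p _ => ?_)
    rw [abs_mul]
    exact mul_le_of_le_one_right (abs_nonneg _) (hg _)

end Fin

/-! ## §3 the chain `eq:screen-bounded-coupling` -/

section Chain

variable {Ω Ω₁ Ω₂ Ω₃ β γ : Type*}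

/-- a coupling `(s₃, w₃, π₁, π₂)` of two finite weighted spaces. -/
def scr142_Coupling (s₁ : Finset Ω₁) (w₁ : Ω₁ → ℝ) (s₂ : Finset Ω₂) (w₂ : Ω₂ → ℝ)
    (s₃ : Finset Ω₃) (w₃ : Ω₃ → ℝ) (π₁ : Ω₃ → Ω₁) (π₂ : Ω₃ → Ω₂) : Prop :=
  scr142_Law s₃ w₃ ∧ (∀ A : Ω₁ → ℝ, scr142_E s₃ w₃ (fun p => A (π₁ p)) = scr142_E s₁ w₁ A) ∧
    ∀ A : Ω₂ → ℝ, scr142_E s₃ w₃ (fun p => A (π₂ p)) = scr142_E s₂ w₂ A

theorem scr142_Coupling_symm {s₁ : Finset Ω₁} {w₁ : Ω₁ → ℝ} {s₂ : Finset Ω₂} {w₂ : Ω₂ → ℝ}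
    {s₃ : Finset Ω₃} {w₃ : Ω₃ → ℝ} {π₁ : Ω₃ → Ω₁} {π₂ : Ω₃ → Ω₂}
    (h : scr142_Coupling s₁ w₁ s₂ w₂ s₃ w₃ π₁ π₂) : scr142_Coupling s₂ w₂ s₁ w₁ s₃ w₃ π₂ π₁ :=
  ⟨h.1, h.2.2, h.2.1⟩

/-- the identity coupling. -/
theorem scr142_Coupling_refl {s : Finset Ω} {w : Ω → ℝ} (h : scr142_Law s w) :
    scr142_Coupling s w s w s w id id := ⟨h, fun _ => rfl, fun _ => rfl⟩

/-- **outer inequalities of `eq:screen-bounded-coupling`**: agreement of the JOINT (insertion, data) off an event `B` of the coupling.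
The laws of the data need not be equal. -/
theorem scr142_coupling_le {s₁ : Finset Ω₁} {w₁ : Ω₁ → ℝ} {s₂ : Finset Ω₂} {w₂ : Ω₂ → ℝ}
    {s₃ : Finset Ω₃} {w₃ : Ω₃ → ℝ} {π₁ : Ω₃ → Ω₁} {π₂ : Ω₃ → Ω₂}
    (hc : scr142_Coupling s₁ w₁ s₂ w₂ s₃ w₃ π₁ π₂) {X₁ : Ω₁ → ℝ} {X₂ : Ω₂ → ℝ} {T : ℝ}
    (hX₁ : ∀ p, |X₁ p| ≤ T) (hX₂ : ∀ p, |X₂ p| ≤ T) (Y₁ : Ω₁ → β) (Y₂ : Ω₂ → β) (B : Set Ω₃)
    (hag : ∀ p ∈ s₃, p ∉ B → X₁ (π₁ p) = X₂ (π₂ p) ∧ Y₁ (π₁ p) = Y₂ (π₂ p)) :
    scr142_N s₁ w₁ X₁ Y₁ ≤ scr142_N s₂ w₂ X₂ Y₂ + 2 * T * scr142_P s₃ w₃ B := by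
  obtain ⟨h3, c1, c2⟩ := hc
  refine scr142_N_le_of_dual X₁ Y₁ fun g hg => ?_
  set D : Ω₃ → ℝ := fun p => X₁ (π₁ p) * g (Y₁ (π₁ p)) - X₂ (π₂ p) * g (Y₂ (π₂ p)) with hD
  have e1 : scr142_E s₁ w₁ (fun p => X₁ p * g (Y₁ p))
      = scr142_E s₂ w₂ (fun p => X₂ p * g (Y₂ p)) + scr142_E s₃ w₃ (B.indicator D) := by
    rw [← c1 (fun p => X₁ p * g (Y₁ p)), ← c2 (fun p => X₂ p * g (Y₂ p)), ← scr142_E_add]
    refine scr142_E_congr fun p hp => ?_
    by_cases hB : p ∈ B
    · rw [Set.indicator_of_mem hB, hD]; ring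
    · rw [Set.indicator_of_notMem hB, (hag p hp hB).1, (hag p hp hB).2, add_zero]
  rw [e1]
  refine (abs_add_le _ _).trans (add_le_add ?_ ?_)
  · exact scr142_dualF_le X₂ (fun p => g (Y₂ p)) Y₂ (fun p _ => hg _) fun p _ p' _ h => by simp only [h]
  · refine scr142_abs_E_indicator_le h3 B fun p _ _ => ?_
    have a1 : |X₁ (π₁ p) * g (Y₁ (π₁ p))| ≤ T := by
      rw [abs_mul]
      exact (mul_le_of_le_one_right (abs_nonneg _) (hg _)).trans (hX₁ _)
    have a2 : |X₂ (π₂ p) * g (Y₂ (π₂ p))| ≤ T := by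
      rw [abs_mul]
      exact (mul_le_of_le_one_right (abs_nonneg _) (hg _)).trans (hX₂ _)
    calc |D p| ≤ |X₁ (π₁ p) * g (Y₁ (π₁ p))| + |X₂ (π₂ p) * g (Y₂ (π₂ p))| := abs_sub _ _
      _ ≤ 2 * T := by linarith

open Classical in
/-- the probability of an event of the data, fibre by fibre. -/
theorem scr142_P_fiber {s : Finset Ω} {w : Ω → ℝ} (Y : Ω → γ) (H : Set γ) :
    scr142_P s w {p | Y p ∈ H} = ∑ y ∈ s.image Y, if y ∈ H then scr142_P s w {p | Y p = y} else 0 := by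
  rw [scr142_P, scr142_E_fiber Y]
  refine Finset.sum_congr rfl fun y _ => ?_
  split_ifs with hy
  · refine scr142_E_congr fun p _ => ?_
    by_cases h1 : p ∈ {p | Y p = y}
    · rw [Set.indicator_of_mem h1, Set.indicator_of_mem h1, Set.indicator_of_mem]
      show Y p ∈ H
      rw [show Y p = y from h1]; exact hy
    · rw [Set.indicator_of_notMem h1, Set.indicator_of_notMem h1]
  · rw [← scr142_E_zero (s := s) (w := w)]
    refine scr142_E_congr fun p _ => ?_
    by_cases h1 : p ∈ {p | Y p = y}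
    · rw [Set.indicator_of_mem h1, Set.indicator_of_notMem]
      show ¬ Y p ∈ H
      rw [show Y p = y from h1]; exact hy
    · rw [Set.indicator_of_notMem h1]

/-- **middle inequality of `eq:screen-bounded-coupling`**: on the success values `H` of the data `Y` the insertion and the exterior
data `Eo` are conditionally independent given `Y` (product form, fibre by fibre); the other fibres cost `T` times their probability. -/
theorem scr142_ci_step {s : Finset Ω} {w : Ω → ℝ} (h : scr142_Law s w) {X : Ω → ℝ} {T : ℝ}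
    (hX : ∀ p ∈ s, |X p| ≤ T) (Eo : Ω → β) (Y : Ω → γ) (H : Set γ)
    (hci : ∀ y ∈ H, ∀ g : β → ℝ,
      scr142_E s w ({p | Y p = y}.indicator fun p => X p * g (Eo p)) * scr142_P s w {p | Y p = y}
        = scr142_E s w ({p | Y p = y}.indicator X) * scr142_E s w ({p | Y p = y}.indicator fun p => g (Eo p))) :
    scr142_N s w X Eo ≤ scr142_N s w X Y + T * scr142_P s w {p | Y p ∈ Hᶜ} := by
  classical
  refine scr142_N_le_of_dual X Eo fun g hg => ?_
  rw [scr142_E_fiber Y, scr142_P_fiber Y, scr142_N, Finset.mul_sum, ← Finset.sum_add_distrib]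
  refine (Finset.abs_sum_le_sum_abs _ _).trans (Finset.sum_le_sum fun y _ => ?_)
  have hb : |scr142_E s w ({p | Y p = y}.indicator fun p => X p * g (Eo p))| ≤ T * scr142_P s w {p | Y p = y} := by
    refine scr142_abs_E_indicator_le h _ fun p hp _ => ?_
    rw [abs_mul]
    exact (mul_le_of_le_one_right (abs_nonneg _) (hg _)).trans (hX p hp)
  by_cases hy : y ∈ H
  · rw [if_neg (by simpa using hy), mul_zero, add_zero]
    have hP0 := scr142_P_nonneg h {p | Y p = y}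
    rcases hP0.eq_or_lt with h0 | hpos
    · rw [← h0, mul_zero] at hb
      exact hb.trans (abs_nonneg _)
    · have hg1 : |scr142_E s w ({p | Y p = y}.indicator fun p => g (Eo p))| ≤ 1 * scr142_P s w {p | Y p = y} :=
        scr142_abs_E_indicator_le h _ fun p _ _ => hg _
      rw [one_mul] at hg1
      have e := congrArg abs (hci y hy g)
      rw [abs_mul, abs_mul, abs_of_pos hpos] at e
      have : |scr142_E s w ({p | Y p = y}.indicator fun p => X p * g (Eo p))| * scr142_P s w {p | Y p = y}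
          ≤ |scr142_E s w ({p | Y p = y}.indicator X)| * scr142_P s w {p | Y p = y} := by
        rw [e]
        exact mul_le_mul_of_nonneg_left hg1 (abs_nonneg _)
      exact le_of_mul_le_mul_right this hpos
  · rw [if_pos (by simpa using hy)]
    have := abs_nonneg (scr142_E s w ({p | Y p = y}.indicator X))
    linarith

/-- **the whole chain `eq:screen-bounded-coupling`** for a bounded insertion:
`‖E_P[X | ext]‖₁ ≤ ‖E_P[X | Y]‖₁ + 4 T ε + 2 T ζ`. -/
theorem scr142_chain {s₁ : Finset Ω₁} {w₁ : Ω₁ → ℝ} {s₂ : Finset Ω₂} {w₂ : Ω₂ → ℝ}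
    {s₃ : Finset Ω₃} {w₃ : Ω₃ → ℝ} {π₁ : Ω₃ → Ω₁} {π₂ : Ω₃ → Ω₂}
    (h₂ : scr142_Law s₂ w₂) (hc : scr142_Coupling s₁ w₁ s₂ w₂ s₃ w₃ π₁ π₂)
    {X₁ : Ω₁ → ℝ} {X₂ : Ω₂ → ℝ} {T : ℝ} (hT : 0 ≤ T)
    (hX₁ : ∀ p, |X₁ p| ≤ T) (hX₂ : ∀ p, |X₂ p| ≤ T)
    (E₁ : Ω₁ → β) (E₂ : Ω₂ → β) (Y₁ : Ω₁ → γ) (Y₂ : Ω₂ → γ) (B : Set Ω₃)
    (hag : ∀ p ∈ s₃, p ∉ B → X₁ (π₁ p) = X₂ (π₂ p) ∧ E₁ (π₁ p) = E₂ (π₂ p) ∧ Y₁ (π₁ p) = Y₂ (π₂ p))
    (H : Set γ)
    (hci : ∀ y ∈ H, ∀ g : β → ℝ,
      scr142_E s₂ w₂ ({p | Y₂ p = y}.indicator fun p => X₂ p * g (E₂ p)) * scr142_P s₂ w₂ {p | Y₂ p = y}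
        = scr142_E s₂ w₂ ({p | Y₂ p = y}.indicator X₂) * scr142_E s₂ w₂ ({p | Y₂ p = y}.indicator fun p => g (E₂ p)))
    {ε ζ : ℝ} (hε : scr142_P s₃ w₃ B ≤ ε) (hζ : scr142_P s₂ w₂ {p | Y₂ p ∈ Hᶜ} ≤ ζ) :
    scr142_N s₁ w₁ X₁ E₁ ≤ scr142_N s₁ w₁ X₁ Y₁ + 4 * T * ε + 2 * T * ζ := by
  have a1 := scr142_coupling_le hc hX₁ hX₂ E₁ E₂ B fun p hp hB => ⟨(hag p hp hB).1, (hag p hp hB).2.1⟩
  have a2 := scr142_ci_step h₂ (fun p _ => hX₂ p) E₂ Y₂ H hci
  have a3 := scr142_coupling_le (scr142_Coupling_symm hc) hX₂ hX₁ Y₂ Y₁ B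
    fun p hp hB => ⟨(hag p hp hB).1.symm, (hag p hp hB).2.2.symm⟩
  have b1 : T * scr142_P s₃ w₃ B ≤ T * ε := mul_le_mul_of_nonneg_left hε hT
  have b2 : T * scr142_P s₂ w₂ {p | Y₂ p ∈ Hᶜ} ≤ T * ζ := mul_le_mul_of_nonneg_left hζ hT
  have b3 : 0 ≤ T * ζ := mul_nonneg hT ((scr142_P_nonneg h₂ _).trans hζ)
  nlinarith

end Chain

/-! ## §4 truncation -/

/-- truncation to `[-T, T]`. -/
def scr142_trunc (T x : ℝ) : ℝ := max (-T) (min T x)

theorem scr142_trunc_abs_le {T : ℝ} (hT : 0 ≤ T) (x : ℝ) : |scr142_trunc T x| ≤ T := by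
  unfold scr142_trunc
  rw [abs_le]
  exact ⟨le_max_left _ _, max_le (by linarith) (min_le_left _ _)⟩

theorem scr142_trunc_of_abs_le {T x : ℝ} (h : |x| ≤ T) : scr142_trunc T x = x := by
  unfold scr142_trunc
  rw [abs_le] at h
  rw [min_eq_right h.2, max_eq_right h.1]

/-- the truncation error is at most `x² / T`. -/
theorem scr142_sub_trunc_le {T : ℝ} (hT : 0 < T) (x : ℝ) : |x - scr142_trunc T x| ≤ x ^ 2 / T := by
  rw [le_div_iff₀ hT]
  by_cases h : |x| ≤ T
  · rw [scr142_trunc_of_abs_le h, sub_self, abs_zero, zero_mul]; positivity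
  · rw [not_le] at h
    rcases le_total 0 x with hx | hx
    · rw [abs_of_nonneg hx] at h
      have e : scr142_trunc T x = T := by
        unfold scr142_trunc
        rw [min_eq_left h.le, max_eq_right (by linarith)]
      rw [e, abs_of_nonneg (by linarith)]
      nlinarith
    · rw [abs_of_nonpos hx] at h
      have e : scr142_trunc T x = -T := by
        unfold scr142_trunc
        rw [min_eq_right (by linarith), max_eq_left (by linarith)]
      rw [e, abs_of_nonpos (by linarith)]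
      nlinarith

/-- **`r(T) ≤ E[X²] / T`**. -/
theorem scr142_rT {Ω : Type*} {s : Finset Ω} {w : Ω → ℝ} (h : scr142_Law s w) (X : Ω → ℝ) {T C : ℝ} (hT : 0 < T)
    (hC : scr142_E s w (fun p => X p ^ 2) ≤ C) :
    scr142_E s w (fun p => |X p - scr142_trunc T (X p)|) ≤ C / T := by
  have h1 : scr142_E s w (fun p => |X p - scr142_trunc T (X p)|) ≤ scr142_E s w (fun p => T⁻¹ * X p ^ 2) :=
    scr142_E_mono h fun p _ => by
      have := scr142_sub_trunc_le hT (X p)
      rwa [div_eq_inv_mul] at this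
  rw [scr142_E_smul] at h1
  calc _ ≤ _ := h1
    _ ≤ T⁻¹ * C := mul_le_mul_of_nonneg_left hC (inv_nonneg.2 hT.le)
    _ = C / T := by rw [div_eq_inv_mul]

/-- **the master inequality of the proof of Prop. 5.1**: unbounded insertion with a second moment under the ORIGINAL law only,
`‖E_P[X | ext]‖₁ ≤ ‖E_P[X | Y]‖₁ + 2 C / T + 4 T ε + 2 T ζ`. -/
theorem scr142_master {Ω₁ Ω₂ Ω₃ β γ : Type*} {s₁ : Finset Ω₁} {w₁ : Ω₁ → ℝ} {s₂ : Finset Ω₂} {w₂ : Ω₂ → ℝ}
    {s₃ : Finset Ω₃} {w₃ : Ω₃ → ℝ} {π₁ : Ω₃ → Ω₁} {π₂ : Ω₃ → Ω₂}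
    (h₁ : scr142_Law s₁ w₁) (h₂ : scr142_Law s₂ w₂) (hc : scr142_Coupling s₁ w₁ s₂ w₂ s₃ w₃ π₁ π₂)
    (X₁ : Ω₁ → ℝ) (X₂ : Ω₂ → ℝ) {T C : ℝ} (hT : 0 < T) (hC : scr142_E s₁ w₁ (fun p => X₁ p ^ 2) ≤ C)
    (E₁ : Ω₁ → β) (E₂ : Ω₂ → β) (Y₁ : Ω₁ → γ) (Y₂ : Ω₂ → γ) (B : Set Ω₃)
    (hag : ∀ p ∈ s₃, p ∉ B → X₁ (π₁ p) = X₂ (π₂ p) ∧ E₁ (π₁ p) = E₂ (π₂ p) ∧ Y₁ (π₁ p) = Y₂ (π₂ p))
    (H : Set γ)
    (hci : ∀ y ∈ H, ∀ g : β → ℝ,
      scr142_E s₂ w₂ ({p | Y₂ p = y}.indicator fun p => scr142_trunc T (X₂ p) * g (E₂ p)) * scr142_P s₂ w₂ {p | Y₂ p = y}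
        = scr142_E s₂ w₂ ({p | Y₂ p = y}.indicator fun p => scr142_trunc T (X₂ p))
          * scr142_E s₂ w₂ ({p | Y₂ p = y}.indicator fun p => g (E₂ p)))
    {ε ζ : ℝ} (hε : scr142_P s₃ w₃ B ≤ ε) (hζ : scr142_P s₂ w₂ {p | Y₂ p ∈ Hᶜ} ≤ ζ) :
    scr142_N s₁ w₁ X₁ E₁ ≤ scr142_N s₁ w₁ X₁ Y₁ + 2 * C / T + 4 * T * ε + 2 * T * ζ := by
  have r := scr142_rT h₁ X₁ hT hC
  have a1 := scr142_N_le_add h₁ X₁ (fun p => scr142_trunc T (X₁ p)) E₁
  have a2 := scr142_chain (X₁ := fun p => scr142_trunc T (X₁ p)) (X₂ := fun p => scr142_trunc T (X₂ p))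
    h₂ hc hT.le (fun p => scr142_trunc_abs_le hT.le _) (fun p => scr142_trunc_abs_le hT.le _) E₁ E₂ Y₁ Y₂ B
    (fun p hp hB => ⟨by simp only [(hag p hp hB).1], (hag p hp hB).2⟩) H hci hε hζ
  have a3 := scr142_N_le_add h₁ (fun p => scr142_trunc T (X₁ p)) X₁ Y₁
  have e : scr142_E s₁ w₁ (fun p => |scr142_trunc T (X₁ p) - X₁ p|)
      = scr142_E s₁ w₁ (fun p => |X₁ p - scr142_trunc T (X₁ p)|) :=
    scr142_E_congr fun p _ => abs_sub_comm _ _
  rw [e] at a3
  have : 2 * C / T = C / T + C / T := by ring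
  linarith

/-! ## §5 fair signs given the data (the use of Khintchine in Lemma 5.2) -/

section CondKh

variable {Ω 𝒟 ι : Type*}

/-- mean over `data × signs` with a weight that only depends on the data. -/
theorem scr142_E_prod [Fintype ι] [DecidableEq ι] (sD : Finset 𝒟) (v : 𝒟 → ℝ) (f : 𝒟 × (ι → Bool) → ℝ) :
    scr142_E (sD ×ˢ (Finset.univ : Finset (ι → Bool))) (fun x => v x.1) f
      = scr142_E sD v (fun d => (∑ ε : ι → Bool, f (d, ε)) / 2 ^ Fintype.card ι) := by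
  unfold scr142_E
  rw [Finset.sum_product, Finset.sum_product]
  have h2 : (0 : ℝ) < 2 ^ Fintype.card ι := by positivity
  have e1 : ∑ d ∈ sD, ∑ ε : ι → Bool, v (d, ε).1 = 2 ^ Fintype.card ι * ∑ d ∈ sD, v d := by
    rw [Finset.mul_sum]
    refine Finset.sum_congr rfl fun d _ => ?_
    simp [Finset.card_univ]
  have e2 : ∑ d ∈ sD, ∑ ε : ι → Bool, v (d, ε).1 * f (d, ε)
      = 2 ^ Fintype.card ι * ∑ d ∈ sD, v d * ((∑ ε : ι → Bool, f (d, ε)) / 2 ^ Fintype.card ι) := by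
    rw [Finset.mul_sum]
    refine Finset.sum_congr rfl fun d _ => ?_
    have : ∑ ε : ι → Bool, v (d, ε).1 * f (d, ε) = v d * ∑ ε : ι → Bool, f (d, ε) := by
      rw [Finset.mul_sum]
    rw [this]
    field_simp
  rw [e1, e2, mul_div_mul_left _ _ h2.ne']

/-- **conditional Khintchine**: the law is the image of `data × fair signs`, and given the data `Y = R + c ∑ ε_C q_C`
(`eq:screen-signed-mass`).  Then the even moments of `Y` are controlled by those of `R` and of `∑ q_C²`. -/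
theorem scr142_cond_khintchine [Fintype ι] [DecidableEq ι] {s : Finset Ω} {w : Ω → ℝ} {sD : Finset 𝒟} {v : 𝒟 → ℝ}
    (hv : scr142_Law sD v) (π : 𝒟 × (ι → Bool) → Ω)
    (hrep : ∀ A : Ω → ℝ, scr142_E s w A
      = scr142_E (sD ×ˢ (Finset.univ : Finset (ι → Bool))) (fun x => v x.1) (fun x => A (π x)))
    (Y : Ω → ℝ) (R : 𝒟 → ℝ) (c : ℝ) (q : 𝒟 → ι → ℝ)
    (hY : ∀ d ∈ sD, ∀ ε : ι → Bool, Y (π (d, ε)) = R d + c * scr142_S (q d) ε) (p : ℕ) :
    scr142_E s w (fun x => Y x ^ (2 * p))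
      ≤ 4 ^ p * (scr142_E sD v (fun d => R d ^ (2 * p))
        + c ^ (2 * p) * ((Nat.doubleFactorial (2 * p - 1) : ℕ) : ℝ) * scr142_E sD v (fun d => (∑ i, q d i ^ 2) ^ p)) := by
  rw [hrep, scr142_E_prod, ← scr142_E_smul, ← scr142_E_add, ← scr142_E_smul]
  refine scr142_E_mono hv fun d hd => ?_
  have h2 : (0 : ℝ) < 2 ^ Fintype.card ι := by positivity
  rw [div_le_iff₀ h2]
  have e : ∑ ε : ι → Bool, Y (π (d, ε)) ^ (2 * p) = ∑ ε : ι → Bool, (R d + c * scr142_S (q d) ε) ^ (2 * p) :=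
    Finset.sum_congr rfl fun ε _ => by rw [hY d hd ε]
  rw [e]
  refine (scr142_khintchine_affine_sharp (q d) (R d) c p).trans (le_of_eq ?_)
  ring

end CondKh

/-! ## §6 core colours (Lemma 5.6) -/

section Core

variable {Ω σ κ : Type*}

/-- **Lemma 5.6, model-free.**  `Sp` = the complete block patterns, `Co` = the observed colours.  On the good patterns (at most `M`
terminals) each unnormalised expectation is at most `e · π(P) · u(P,c)` (gapped identity; `π(P) = ∏ pᵢ`; `u` = the weight of the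
integrated sealed colours), `∑_c u(P,c) ≤ K = 2^M`, `∑_P π(P) ≤ 1`; the other patterns are paid by Cauchy-Schwarz. -/
theorem scr142_core_colours [Fintype σ] [Fintype κ] {s : Finset Ω} {w : Ω → ℝ} (h : scr142_Law s w) (X : Ω → ℝ)
    (Sp : Ω → σ) (Co : Ω → κ) (Good : Set σ) {e K C τ : ℝ} (π : σ → ℝ) (u : σ → κ → ℝ)
    (he : 0 ≤ e) (hK : 0 ≤ K) (hπ0 : ∀ P, 0 ≤ π P)
    (hb : ∀ P ∈ Good, ∀ c, |scr142_E s w ({p | Sp p = P ∧ Co p = c}.indicator X)| ≤ e * π P * u P c)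
    (hu : ∀ P ∈ Good, ∑ c, u P c ≤ K) (hπ : ∑ P, π P ≤ 1)
    (hC : scr142_E s w (fun p => X p ^ 2) ≤ C) (hτ : scr142_P s w {p | Sp p ∈ Goodᶜ} ≤ τ) :
    scr142_N s w X (fun p => (Sp p, Co p)) ≤ K * e + Real.sqrt (C * τ) := by
  classical
  refine scr142_N_le_of_dual X _ fun g hg => ?_
  -- split
  have e0 : scr142_E s w (fun p => X p * g (Sp p, Co p))
      = scr142_E s w (fun p => ∑ P, ∑ c, (if P ∈ Good then g (P, c) else 0) * {p | Sp p = P ∧ Co p = c}.indicator X p)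
        + scr142_E s w (fun p => X p * ({p | Sp p ∈ Goodᶜ}.indicator (fun _ => 1) p * g (Sp p, Co p))) := by
    rw [← scr142_E_add]
    refine scr142_E_congr fun p _ => ?_
    rw [Finset.sum_eq_single (Sp p), Finset.sum_eq_single (Co p)]
    · rw [Set.indicator_of_mem (by simp)]
      by_cases hG : Sp p ∈ Good
      · rw [if_pos hG, Set.indicator_of_notMem (by simpa using hG)]; ring
      · rw [if_neg hG, Set.indicator_of_mem (by simpa using hG)]; ring
    · intro c _ hc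
      rw [Set.indicator_of_notMem (by simpa using fun h => hc h.symm), mul_zero]
    · intro hc; exact absurd (Finset.mem_univ _) hc
    · intro P _ hP
      refine Finset.sum_eq_zero fun c _ => ?_
      rw [Set.indicator_of_notMem (by
        intro hmem
        exact hP hmem.1.symm), mul_zero]
    · intro hc; exact absurd (Finset.mem_univ _) hc
  rw [e0]
  refine (abs_add_le _ _).trans (add_le_add ?_ ?_)
  · -- retained part
    rw [scr142_E_sum]
    simp_rw [scr142_E_sum, scr142_E_smul]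
    have h1 : ∀ P, |∑ c, (if P ∈ Good then g (P, c) else 0) * scr142_E s w ({p | Sp p = P ∧ Co p = c}.indicator X)|
        ≤ K * e * π P := by
      intro P
      by_cases hG : P ∈ Good
      · simp only [if_pos hG]
        calc |∑ c, g (P, c) * scr142_E s w ({p | Sp p = P ∧ Co p = c}.indicator X)|
            ≤ ∑ c, |g (P, c) * scr142_E s w ({p | Sp p = P ∧ Co p = c}.indicator X)| :=
              Finset.abs_sum_le_sum_abs _ _
          _ ≤ ∑ c, e * π P * u P c := by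
              refine Finset.sum_le_sum fun c _ => ?_
              rw [abs_mul]
              exact (mul_le_of_le_one_left (abs_nonneg _) (hg _)).trans (hb P hG c)
          _ = e * π P * ∑ c, u P c := by rw [Finset.mul_sum]
          _ ≤ e * π P * K := mul_le_mul_of_nonneg_left (hu P hG) (mul_nonneg he (hπ0 P))
          _ = K * e * π P := by ring
      · simp only [if_neg hG, zero_mul, Finset.sum_const_zero, abs_zero]
        exact mul_nonneg (mul_nonneg hK he) (hπ0 P)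
    calc _ ≤ ∑ P, |∑ c, (if P ∈ Good then g (P, c) else 0) * scr142_E s w ({p | Sp p = P ∧ Co p = c}.indicator X)| :=
          Finset.abs_sum_le_sum_abs _ _
      _ ≤ ∑ P, K * e * π P := Finset.sum_le_sum fun P _ => h1 P
      _ = K * e * ∑ P, π P := by rw [Finset.mul_sum]
      _ ≤ K * e * 1 := mul_le_mul_of_nonneg_left hπ (mul_nonneg hK he)
      _ = K * e := mul_one _
  · -- discarded part
    refine Real.abs_le_sqrt ?_
    refine (scr142_cauchy_schwarz h X _).trans ?_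
    have hX0 : 0 ≤ scr142_E s w (fun p => X p ^ 2) := scr142_E_nonneg h fun p _ => sq_nonneg _
    have h2 : scr142_E s w (fun p => ({p | Sp p ∈ Goodᶜ}.indicator (fun _ => (1 : ℝ)) p * g (Sp p, Co p)) ^ 2)
        ≤ scr142_P s w {p | Sp p ∈ Goodᶜ} := by
      refine scr142_E_mono h fun p _ => ?_
      have hg2 : g (Sp p, Co p) ^ 2 ≤ 1 := by
        have := hg (Sp p, Co p)
        rw [abs_le] at this
        nlinarith
      by_cases hB : p ∈ {p | Sp p ∈ Goodᶜ}
      · rw [Set.indicator_of_mem hB, one_mul]; exact hg2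
      · rw [Set.indicator_of_notMem hB, zero_mul]; simp
    have h3 : 0 ≤ scr142_E s w (fun p => ({p | Sp p ∈ Goodᶜ}.indicator (fun _ => (1 : ℝ)) p * g (Sp p, Co p)) ^ 2) :=
      scr142_E_nonneg h fun p _ => sq_nonneg _
    exact mul_le_mul hC (h2.trans hτ) h3 (hX0.trans hC)

/-- **first `δ ↓ 0` at fixed `M`, then `M → ∞`** (end of the proof of Lemma 5.6), numbers only. -/
theorem scr142_core_limit {α : Type*} {l : Filter α} (a e : α → ℝ) (C : ℝ) (τ : ℕ → ℝ)
    (he : Tendsto e l (𝓝 0)) (hτ : Tendsto τ atTop (𝓝 0))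
    (Hyp : ∀ M : ℕ, ∀ᶠ x in l, a x ≤ 2 ^ M * e x + Real.sqrt (C * τ M)) :
    ∀ ε : ℝ, 0 < ε → ∀ᶠ x in l, a x ≤ ε := by
  intro ε hε
  have h1 : Tendsto (fun M => Real.sqrt (C * τ M)) atTop (𝓝 0) := by
    have : Tendsto (fun M => C * τ M) atTop (𝓝 (C * 0)) := hτ.const_mul C
    rw [mul_zero] at this
    have h0 := (Real.continuous_sqrt.tendsto 0).comp this
    rw [Real.sqrt_zero] at h0
    exact h0
  obtain ⟨M, hM⟩ := ((tendsto_order.1 h1).2 (ε / 2) (by positivity)).exists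
  have h2 : Tendsto (fun x => 2 ^ M * e x) l (𝓝 0) := by simpa using he.const_mul ((2 : ℝ) ^ M)
  filter_upwards [Hyp M, (tendsto_order.1 h2).2 (ε / 2) (by positivity)] with x hx1 hx2
  linarith

end Core

/-! ## §7 the order of the limits -/

/-- **numbers only**: first `T` large, then `q` small, then `M` large, then the layout, then the mesh.
`a` = the exterior norm along the filter `l` (mesh, domains, tests ...); `κ` = what Lemma 5.5 leaves at a fixed layout. -/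
theorem scr142_order {α : Type*} {l : Filter α} (a : α → ℝ) (C : ℝ) (η pr : ℝ → ℝ)
    (hη : Tendsto η (𝓝[>] 0) (𝓝 0)) (hp : ∀ q, 0 < q → 0 < pr q ∧ pr q ≤ 1)
    (Hyp : ∀ T q : ℝ, 0 < T → 0 < q → ∀ M : ℕ, ∀ κ : ℝ, 0 < κ →
      ∀ᶠ x in l, a x ≤ κ + 2 * C / T + 16 * T * η q + 8 * T * (1 - pr q) ^ M) :
    ∀ ε : ℝ, 0 < ε → ∀ᶠ x in l, a x ≤ ε := by
  intro ε hε
  -- T
  obtain ⟨T, hT, hT1⟩ : ∃ T : ℝ, 0 < T ∧ 2 * C / T ≤ ε / 4 := by
    refine ⟨8 * |C| / ε + 1, by positivity, ?_⟩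
    have hpos : 0 < 8 * |C| / ε + 1 := by positivity
    rw [div_le_iff₀ hpos]
    have h1 : ε / 4 * (8 * |C| / ε + 1) = 2 * |C| + ε / 4 := by field_simp; ring
    rw [h1]
    have := le_abs_self C
    linarith
  -- q
  obtain ⟨q, hq, hq1⟩ : ∃ q : ℝ, 0 < q ∧ 16 * T * η q ≤ ε / 4 := by
    have h1 : ∀ᶠ q in 𝓝[>] (0 : ℝ), η q < ε / (64 * T) :=
      (tendsto_order.1 hη).2 _ (by positivity)
    obtain ⟨q, h2, h3⟩ := (h1.and self_mem_nhdsWithin).exists
    refine ⟨q, h3, ?_⟩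
    have h4 : 16 * T * η q ≤ 16 * T * (ε / (64 * T)) := mul_le_mul_of_nonneg_left h2.le (by positivity)
    have h5 : 16 * T * (ε / (64 * T)) = ε / 4 := by field_simp; ring
    linarith
  -- M
  obtain ⟨M, hM⟩ : ∃ M : ℕ, 8 * T * (1 - pr q) ^ M ≤ ε / 4 := by
    obtain ⟨h0, h1⟩ := hp q hq
    have h2 : Tendsto (fun M : ℕ => (1 - pr q) ^ M) atTop (𝓝 0) :=
      tendsto_pow_atTop_nhds_zero_of_lt_one (by linarith) (by linarith)
    have h3 : ∀ᶠ M : ℕ in atTop, (1 - pr q) ^ M < ε / (32 * T) := (tendsto_order.1 h2).2 _ (by positivity)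
    obtain ⟨M, h4⟩ := h3.exists
    refine ⟨M, ?_⟩
    have h5 : 8 * T * (1 - pr q) ^ M ≤ 8 * T * (ε / (32 * T)) := mul_le_mul_of_nonneg_left h4.le (by positivity)
    have h6 : 8 * T * (ε / (32 * T)) = ε / 4 := by field_simp; ring
    linarith
  filter_upwards [Hyp T q hT hq M (ε / 4) (by positivity)] with x hx
  linarith

/-! ## §8 bridge to the flat law of `R292/Defs/Screen.lean` -/

section Bridge

open Claims Claims.C0468

theorem scr142_scrE (t : ℝ) (F : Finset (ℤ × ℤ)) (A : at92Cfg F → ℝ) :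
    scrE t F A = scr142_E (at92Adm F) (at92W t) A := rfl

theorem scr142_law_flat {t : ℝ} (ht : 0 < t) (F : Finset (ℤ × ℤ)) : scr142_Law (at92Adm F) (at92W t) :=
  ⟨fun _ _ => (pow_pos ht _).le, at92_Z_pos ht F⟩

/-- the exterior data of `Q`: the two spins with the sites in `Q` erased. -/
noncomputable def scr142_ext (δ : ℝ) (F : Finset (ℤ × ℤ)) (Q : Set (ℝ × ℝ)) (p : at92Cfg F) : at92Cfg F := by
  classical
  exact (fun v => if ((δ * (v.1.1 : ℝ), δ * (v.1.2 : ℝ)) : ℝ × ℝ) ∈ Q then true else p.1 v,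
    fun f => if ((δ * ((f.1.1 : ℝ) + 1 / 2), δ * ((f.1.2 : ℝ) + 1 / 2)) : ℝ × ℝ) ∈ Q then true else p.2 f)

/-- an exterior observable is a function of the exterior data. -/
theorem scr142_ext_factor {δ : ℝ} {F : Finset (ℤ × ℤ)} {Q : Set (ℝ × ℝ)} {G : at92Cfg F → ℝ} (hG : ScrExt δ F Q G)
    {p p' : at92Cfg F} (h : scr142_ext δ F Q p = scr142_ext δ F Q p') : G p = G p' := by
  classical
  refine hG p p' (fun v hv => ?_) (fun f hf => ?_)
  · have := congrFun (congrArg Prod.fst h) v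
    simp only [scr142_ext] at this
    rwa [if_neg hv, if_neg hv] at this
  · have := congrFun (congrArg Prod.snd h) f
    simp only [scr142_ext] at this
    rwa [if_neg hf, if_neg hf] at this

/-- **the contract `at_screen` follows from a bound on the exterior norm.** -/
theorem scr142_ext_le (t δ : ℝ) (F : Finset (ℤ × ℤ)) (Q : Set (ℝ × ℝ)) (X G : at92Cfg F → ℝ)
    (hG1 : ∀ p, |G p| ≤ 1) (hG : ScrExt δ F Q G) :
    |scrE t F (fun p => X p * G p)| ≤ scr142_N (at92Adm F) (at92W t) X (scr142_ext δ F Q) :=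
  scr142_dualF_le X G _ (fun p _ => hG1 p) fun _ _ _ _ h => scr142_ext_factor hG h

end Bridge

/-! ## §9 (bonus, for a plane law) the `L¹` norm of a conditional expectation, any finite measure -/

section CondL1

variable {Ω : Type*} {m0 : MeasurableSpace Ω} {μ : Measure Ω}

/-- **duality, easy half**: a bounded `m`-measurable test sees `X` only through `μ[X|m]`. -/
theorem scr142_dual_le [IsFiniteMeasure μ] {m : MeasurableSpace Ω} (hm : m ≤ m0) {X F : Ω → ℝ}
    (hX : Integrable X μ) (hF : StronglyMeasurable[m] F) (hF1 : ∀ ω, |F ω| ≤ 1) :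
    |∫ ω, F ω * X ω ∂μ| ≤ ∫ ω, |(μ[X|m]) ω| ∂μ := by
  have hFX : Integrable (F * X) μ := by
    refine hX.bdd_mul (c := 1) (hF.mono hm).aestronglyMeasurable (Eventually.of_forall fun ω => ?_)
    rw [Real.norm_eq_abs]; exact hF1 ω
  have h1 : ∫ ω, F ω * X ω ∂μ = ∫ ω, F ω * (μ[X|m]) ω ∂μ := by
    have h2 : ∫ ω, (μ[F * X|m]) ω ∂μ = ∫ ω, (F * X) ω ∂μ := integral_condExp hm
    have h3 : μ[F * X|m] =ᵐ[μ] F * μ[X|m] := condExp_mul_of_stronglyMeasurable_left hF hFX hX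
    have h4 : ∫ ω, (μ[F * X|m]) ω ∂μ = ∫ ω, (F * μ[X|m]) ω ∂μ := integral_congr_ae h3
    simpa [Pi.mul_apply] using h2.symm.trans h4
  rw [h1]
  calc |∫ ω, F ω * (μ[X|m]) ω ∂μ| ≤ ∫ ω, |F ω * (μ[X|m]) ω| ∂μ := abs_integral_le_integral_abs
    _ ≤ ∫ ω, |(μ[X|m]) ω| ∂μ := by
        refine integral_mono_of_nonneg (Eventually.of_forall fun ω => abs_nonneg _) integrable_condExp.abs
          (Eventually.of_forall fun ω => ?_)
        simp only [abs_mul]
        exact mul_le_of_le_one_left (abs_nonneg _) (hF1 ω)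

/-- the optimal test: the sign of the conditional expectation. -/
theorem scr142_exists_sign [IsFiniteMeasure μ] {m : MeasurableSpace Ω} (hm : m ≤ m0) {X : Ω → ℝ}
    (hX : Integrable X μ) :
    ∃ F : Ω → ℝ, StronglyMeasurable[m] F ∧ (∀ ω, |F ω| ≤ 1) ∧
      ∫ ω, F ω * X ω ∂μ = ∫ ω, |(μ[X|m]) ω| ∂μ := by
  classical
  set E := μ[X|m] with hE
  have hEm : StronglyMeasurable[m] E := stronglyMeasurable_condExp
  have hset : MeasurableSet[m] {ω | 0 ≤ E ω} := hEm.measurable measurableSet_Ici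
  let F : Ω → ℝ := fun ω => if 0 ≤ E ω then 1 else -1
  have hF : StronglyMeasurable[m] F :=
    StronglyMeasurable.ite hset stronglyMeasurable_const stronglyMeasurable_const
  have hF1 : ∀ ω, |F ω| ≤ 1 := by
    intro ω; simp only [F]; split_ifs <;> simp
  refine ⟨F, hF, hF1, ?_⟩
  have hFX : Integrable (F * X) μ := by
    refine hX.bdd_mul (c := 1) (hF.mono hm).aestronglyMeasurable (Eventually.of_forall fun ω => ?_)
    rw [Real.norm_eq_abs]; exact hF1 ω
  have h2 : ∫ ω, (μ[F * X|m]) ω ∂μ = ∫ ω, (F * X) ω ∂μ := integral_condExp hm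
  have h3 : μ[F * X|m] =ᵐ[μ] F * μ[X|m] := condExp_mul_of_stronglyMeasurable_left hF hFX hX
  have h4 : ∫ ω, (μ[F * X|m]) ω ∂μ = ∫ ω, (F * μ[X|m]) ω ∂μ := integral_congr_ae h3
  have h5 : ∀ ω, (F * μ[X|m]) ω = |E ω| := by
    intro ω
    simp only [Pi.mul_apply, F, ← hE]
    split_ifs with h
    · rw [one_mul, abs_of_nonneg h]
    · rw [abs_of_neg (not_le.1 h)]; ring
  simp_rw [h5] at h4
  rw [← h4, h2]
  rfl

/-- **duality, the half that is used**: a bound on all bounded `m`-measurable tests bounds `‖μ[X|m]‖₁`. -/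
theorem scr142_L1_le_of_dual [IsFiniteMeasure μ] {m : MeasurableSpace Ω} (hm : m ≤ m0) {X : Ω → ℝ}
    (hX : Integrable X μ) {c : ℝ}
    (h : ∀ F : Ω → ℝ, StronglyMeasurable[m] F → (∀ ω, |F ω| ≤ 1) → |∫ ω, F ω * X ω ∂μ| ≤ c) :
    ∫ ω, |(μ[X|m]) ω| ∂μ ≤ c := by
  obtain ⟨F, hF, hF1, e⟩ := scr142_exists_sign (μ := μ) hm hX
  rw [← e]
  exact (le_abs_self _).trans (h F hF hF1)

/-- **conditional Jensen / tower**: the norm grows with the sigma-field. -/
theorem scr142_L1_mono [IsFiniteMeasure μ] {m₁ m₂ : MeasurableSpace Ω} (h12 : m₁ ≤ m₂) (hm : m₂ ≤ m0) (X : Ω → ℝ) :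
    ∫ ω, |(μ[X|m₁]) ω| ∂μ ≤ ∫ ω, |(μ[X|m₂]) ω| ∂μ := by
  have h1 : μ[μ[X|m₂]|m₁] =ᵐ[μ] μ[X|m₁] := condExp_condExp_of_le h12 hm
  have h2 : ∫ ω, |(μ[X|m₁]) ω| ∂μ = ∫ ω, |(μ[μ[X|m₂]|m₁]) ω| ∂μ :=
    integral_congr_ae (h1.mono fun ω hω => by simp only [hω])
  rw [h2]
  exact integral_abs_condExp_le _

/-- the norm is at most `‖X‖₁`. -/
theorem scr142_L1_le (m : MeasurableSpace Ω) (X : Ω → ℝ) :
    ∫ ω, |(μ[X|m]) ω| ∂μ ≤ ∫ ω, |X ω| ∂μ := integral_abs_condExp_le _

/-- triangle inequality. -/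
theorem scr142_L1_add_le [IsFiniteMeasure μ] {m : MeasurableSpace Ω} {X Y : Ω → ℝ}
    (hX : Integrable X μ) (hY : Integrable Y μ) :
    ∫ ω, |(μ[X|m]) ω| ∂μ ≤ ∫ ω, |(μ[Y|m]) ω| ∂μ + ∫ ω, |X ω - Y ω| ∂μ := by
  have h1 : μ[X|m] =ᵐ[μ] μ[Y|m] + μ[X - Y|m] := by
    have := condExp_add hY (hX.sub hY) m
    have e : Y + (X - Y) = X := by ext ω; simp
    rw [e] at this
    exact this
  have h2 : ∫ ω, |(μ[X|m]) ω| ∂μ ≤ ∫ ω, (|(μ[Y|m]) ω| + |(μ[X - Y|m]) ω|) ∂μ := by
    refine integral_mono_ae integrable_condExp.abs (integrable_condExp.abs.add integrable_condExp.abs) ?_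
    filter_upwards [h1] with ω hω
    rw [hω]; exact abs_add_le _ _
  rw [integral_add integrable_condExp.abs integrable_condExp.abs] at h2
  have h3 : ∫ ω, |(μ[X - Y|m]) ω| ∂μ ≤ ∫ ω, |(X - Y) ω| ∂μ := integral_abs_condExp_le _
  simp only [Pi.sub_apply] at h3
  linarith

end CondL1

end Claimed.Agent.R292
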