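import Claimed.Agent.R292.Screen.Sym99
import Claimed.Agent.R292.Screen.RpAxis39
import Claimed.Agent.R292.Screen.RpDiag62
import Claimed.Agent.R292.Screen.Tr142
import Claimed.Agent.R292.Screen.Sep232
import Claimed.Agent.R292.Screen.Mom221
import Claimed.Agent.R292.Screen.Col176
import Claimed.Agent.R292.Screen.Asm129
import Claimed.Agent.R292.Screen.Plane262
import Claimed.Agent.R292.Screen.Flat32
import Claimed.Agent.R292.Screen.Ci239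
import Claimed.Agent.R292.Screen.Tv142
import Claimed.Agent.R292.Screen.Arm39
import Claimed.Agent.R292.Screen.Glue52

/-!
# Row 292 (S0540), Screen/Wire142 : THE UNIT "SCREEN" WIRED FROM ITS PRODUCERS      (helper142; prefix `scr142w_`)

Every typed leaf of `Screen/Cut229.lean`, `Cut229b.lean`, `Cut229c.lean` and the contract `at_screen` of `Exit/Screen.lean`, VERBATIM (the statements are machine copies of the texts on main),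
each closed by one line from the producers on main.   No sorry typed here; no Cut file imported.
THE ONLY HYPOTHESIS LEFT INSIDE THE UNIT: `hpat : Scr232gPat t` (pattern comparison for windows in separated rectangles; 232 + 176 + 100 + 287).
Owed to OTHER units (cited contracts): `exit_rsw_plane`, `exit_rsw_mom_plane`, `exit_rsw_mom_smear` (RSW), `exit_mdl_*` (MODEL), as the producers cite them.
* sec. 0  **`scr142w_mom : Scr232gMom t`** the SEAM 232 / 221: 232's proof `scr232g_mom` redone on the frozen shape (v2) of `mom221_pl` (strict support, `2 |b v| ≤ κ`, factor `8`)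
* sec. 1  `scr142w_cov _inv _rp _tr` (Cut229);  sec. 2  `scr142w_ci _pos _tv _shield` (Cut229c);  sec. 3  `scr142w_mom52 _sep _gap _col _plane _flat` (Cut229b);  sec. 4  `scr142w_screen` (= `at_screen`)
WIRING for 229: in each Cut file `import Claimed.Agent.R292.Screen.Wire142` and body `scr142w_<leaf> t ht1 ht2 [hpat] ..` (all binders in the order of the statement).
-/

set_option autoImplicit false

namespace Claimed.Agent.R292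

open Claims Claims.C0468 Filter Topology
open Claimed.Agent.R291

/-! ## 0. the seam 232 / 221 -/

theorem scr142w_tr_facts (a v₀ : ℤ × ℤ) (b : (ℤ × ℤ) →₀ ℝ) (ρ : ℕ) (κ : ℝ)
    (hb : ∀ v ∈ b.support, (v₀.1 - ρ < v.1 ∧ v.1 < v₀.1 + ρ) ∧ (v₀.2 - ρ < v.2 ∧ v.2 < v₀.2 + ρ))
    (hneu : b.sum (fun _ x => x) = 0) (hκ : ∀ v, 2 * |b v| ≤ κ) :
    (∀ v ∈ (aspTr a b).support, ((v₀ + a).1 - ρ < v.1 ∧ v.1 < (v₀ + a).1 + ρ) ∧ ((v₀ + a).2 - ρ < v.2 ∧ v.2 < (v₀ + a).2 + ρ)) ∧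
      (aspTr a b).sum (fun _ x => x) = 0 ∧ ∀ v, 2 * |aspTr a b v| ≤ κ := by
  classical
  refine ⟨fun v hv => ?_, ?_, fun v => ?_⟩
  · have := Finsupp.mapDomain_support hv
    obtain ⟨u, hu, rfl⟩ := Finset.mem_image.1 this
    have h2 := hb u hu
    simp only [Prod.fst_add, Prod.snd_add]
    omega
  · unfold aspTr
    rw [Finsupp.sum_mapDomain_index (fun _ => rfl) (fun _ _ _ => rfl)]
    exact hneu
  · have e : aspTr a b v = b (v - a) := by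
      have := Finsupp.mapDomain_apply (f := fun u : ℤ × ℤ => u + a) (add_left_injective a) b (v - a)
      simpa [aspTr] using this
    rw [e]
    exact hκ _

/-- **the record `Scr232gMom t` of 232 (Lemma 5.2 at an arbitrary centre), NO HYPOTHESIS**: 232's proof `scr232g_mom` on the frozen shape (v2) of `mom221_pl` of 221. -/
theorem scr142w_mom (t : ℝ) (ht1 : 1 / 2 ≤ t) (ht2 : t < 1) : Scr232gMom t := by
  obtain ⟨C₂, hC₂, hpl⟩ := mom221_pl t ht1 ht2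
  intro r c0 M hr hc0 ι _ z φ hφ hφs
  obtain ⟨Kc, hKc, harr⟩ := scr232g_array hφ hφs
  obtain ⟨C, hC⟩ := mom221_const (r + c0 / 2) (c0 / 4) (2 * Kc) C₂ (by positivity) (by positivity) (by positivity) hC₂
  refine ⟨max (8 * C) 0, min ((r + c0 / 2) / 4) (c0 / 4 / 4), le_max_right _ _, by positivity, fun δ hδ hδ0 a U H π hwin hfar => ?_⟩
  obtain ⟨hbd, hW⟩ := hC δ hδ hδ0
  obtain ⟨hκ, hneu, hsupp⟩ := harr δ hδ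
  have hδc : δ < c0 / 16 := by
    have := lt_of_lt_of_le hδ0 (min_le_right _ _)
    linarith
  have hfl : (r + c0 / 2) / (2 * δ) < (⌊(r + c0 / 2) / (2 * δ)⌋₊ : ℝ) + 1 := Nat.lt_floor_add_one _
  have hρ : r / 2 + 2 * δ < δ * ((⌊(r + c0 / 2) / (2 * δ)⌋₊ + 2 : ℕ) : ℝ) := by
    rw [div_lt_iff₀ (by positivity)] at hfl
    push_cast
    nlinarith
  generalize ⌊(r + c0 / 2) / (2 * δ)⌋₊ + 2 = ρ at hbd hW hρ
  generalize Nat.log 2 ⌊c0 / 4 / (4 * δ)⌋₊ = I at hbd hW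
  have hb0 : ∀ v ∈ (aspW δ (lap2 φ)).support, ((⌊z.1 / δ⌋, ⌊z.2 / δ⌋) : ℤ × ℤ).1 - (ρ : ℤ) < v.1 ∧ v.1 < ((⌊z.1 / δ⌋, ⌊z.2 / δ⌋) : ℤ × ℤ).1 + (ρ : ℤ) ∧
      ((⌊z.1 / δ⌋, ⌊z.2 / δ⌋) : ℤ × ℤ).2 - (ρ : ℤ) < v.2 ∧ v.2 < ((⌊z.1 / δ⌋, ⌊z.2 / δ⌋) : ℤ × ℤ).2 + (ρ : ℤ) := by
    intro v hv
    obtain ⟨h1, h2⟩ := hsupp v hv
    have key : ∀ (x : ℤ) (c : ℝ), |δ * (x : ℝ) - c| ≤ r / 2 + δ / 2 → ⌊c / δ⌋ - (ρ : ℤ) < x ∧ x < ⌊c / δ⌋ + (ρ : ℤ) := by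
      intro x c hx
      have hn := abs_le.1 (scr52_base_near hδ c)
      have hx' := abs_le.1 hx
      constructor
      · have : δ * ((⌊c / δ⌋ : ℝ) - (ρ : ℝ)) < δ * (x : ℝ) := by nlinarith [hn.1, hn.2, hx'.1, hx'.2]
        have := lt_of_mul_lt_mul_left this hδ.le
        have h3 : ((⌊c / δ⌋ - (ρ : ℤ) : ℤ) : ℝ) < (x : ℝ) := by push_cast; exact this
        exact Int.cast_lt.1 h3
      · have : δ * (x : ℝ) < δ * ((⌊c / δ⌋ : ℝ) + (ρ : ℝ)) := by nlinarith [hn.1, hn.2, hx'.1, hx'.2]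
        have := lt_of_mul_lt_mul_left this hδ.le
        have h3 : (x : ℝ) < ((⌊c / δ⌋ + (ρ : ℤ) : ℤ) : ℝ) := by push_cast; exact this
        exact Int.cast_lt.1 h3
    exact ⟨(key _ _ h1).1, (key _ _ h1).2, (key _ _ h2).1, (key _ _ h2).2⟩
  obtain ⟨h1, h2, h3⟩ := scr142w_tr_facts a (⌊z.1 / δ⌋, ⌊z.2 / δ⌋) (aspW δ (lap2 φ)) ρ (2 * Kc * δ ^ 2)
    (fun v hv => ⟨⟨(hb0 v hv).1, (hb0 v hv).2.1⟩, (hb0 v hv).2.2.1, (hb0 v hv).2.2.2⟩) hneu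
    (fun v => by have := hκ v; linarith)
  have hX : scrSh a (scrIns δ z φ) = scrArr (aspTr a (aspW δ (lap2 φ))) ((⌊z.1 / δ⌋, ⌊z.2 / δ⌋) + a) := by
    rw [← asd_sh_arr]
    rfl
  have hM : ∀ i, ∃ c : ℝ × ℝ, U i ⊆ Metric.closedBall c M := fun i => by
    obtain ⟨c, hc⟩ := scr232g_box_ball (hwin.box i)
    exact ⟨c, (hwin.sub i).trans hc⟩
  have hU : ∀ i, ∀ p ∈ U i, r + c0 / 2 + c0 / 4 ≤ dist p (scr232P δ ((⌊z.1 / δ⌋, ⌊z.2 / δ⌋) + a)) := by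
    intro i p hp
    have f1 := hfar i p (hwin.sub i hp)
    have f2 := dist_triangle p (scr232P δ ((⌊z.1 / δ⌋, ⌊z.2 / δ⌋) + a)) (z + scr232P δ a)
    have f3 : dist (scr232P δ ((⌊z.1 / δ⌋, ⌊z.2 / δ⌋) + a)) (z + scr232P δ a) ≤ δ := by
      rw [scr232_P_add, dist_add_right, Prod.dist_eq, max_le_iff, Real.dist_eq, Real.dist_eq]
      exact ⟨scr52_base_near hδ z.1, scr52_base_near hδ z.2⟩
    linarith
  have key := hpl (aspTr a (aspW δ (lap2 φ))) ((⌊z.1 / δ⌋, ⌊z.2 / δ⌋) + a) ρ I (2 * Kc * δ ^ 2) δ M (r + c0 / 2 + c0 / 4) (Fintype.card ι)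
    (fun j => U ((Fintype.equivFin ι).symm j)) (fun j => π ((Fintype.equivFin ι).symm j)) hδ hW (fun j => hM _) (fun j => hU _) h1 h2 h3
  have e : ∀ ω, ∏ j, scrPatI δ (U ((Fintype.equivFin ι).symm j)) (π ((Fintype.equivFin ι).symm j)) ω = ∏ i, scrPatI δ (U i) (π i) ω := fun ω =>
    Equiv.prod_comp (Fintype.equivFin ι).symm (fun i => scrPatI δ (U i) (π i) ω)
  simp only [e] at key
  have hP : 0 ≤ scrPl t (fun ω => ∏ i, scrPatI δ (U i) (π i) ω) :=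
    scr99_pl_nonneg ht1 ht2 (scr232g_loc_prod _ fun i _ => scr232g_pat_loc hδ (hM i) _) fun ω => Finset.prod_nonneg fun i _ => scr232g_pat_nonneg _ _ _ _
  rw [hX]
  refine key.trans (mul_le_mul_of_nonneg_right (le_trans ?_ (le_max_left _ _)) hP)
  linarith

/-! ## 1. Cut229 -/

/-- (P1) = `scr_cut_cov` (99). -/
theorem scr142w_cov (t : ℝ) (F : Finset (ℤ × ℤ)) (b : Bool) (X : RswCfg → ℝ) (g : ScrMapD)
    (hg : (∃ a, g = scrTr a) ∨ ∃ j, g = scrRe j) :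
    rswE t (F.image g.f) b X = rswE t F b fun ω => X (scrAct g ω) :=
  scr99_cov t F b X g hg

/-- (P1') = `scr_cut_inv` (99; twin 289). -/
theorem scr142w_inv (t : ℝ) (ht1 : 1 / 2 ≤ t) (ht2 : t < 1) (X : RswCfg → ℝ) (hX : ScrLoc X) (g : ScrMapD)
    (hg : (∃ a, g = scrTr a) ∨ ∃ j, g = scrRe j) :
    scrPl t (fun ω => X (scrAct g ω)) = scrPl t X :=
  scr99_inv t ht1 ht2 X hX g hg

/-- (P2) = `scr_cut_rp` (axis frames 39, diagonal frames 62). -/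
theorem scr142w_rp (t : ℝ) (ht1 : 1 / 2 ≤ t) (ht2 : t < 1) (j : Fin 4) (X : RswCfg → ℝ) (hX : ScrUp j X) :
    0 ≤ scrFm t j X X ∧ 0 ≤ scrFm t j X (scrSh (scrNor j) X) := by
  have h02 : (j = 0 ∨ j = 2) ∨ (j = 1 ∨ j = 3) := by fin_cases j <;> simp
  rcases h02 with h | h
  · exact scr39_cut_rp t ht1 ht2 j h X hX
  · exact scr62d_rp (by linarith) ht2.le (fun X hX => ⟨_, scr142t_pl_tendsto ht1 ht2 hX⟩)
      (fun X hX a => scr142w_inv t ht1 ht2 X hX _ (Or.inl ⟨a, rfl⟩)) j h X hX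

/-- (P3) = `scr_cut_tr` (142). -/
theorem scr142w_tr (t : ℝ) (ht1 : 1 / 2 ≤ t) (ht2 : t < 1) (j : Fin 4) (A B : RswCfg → ℝ) (hA : ScrUp j A) (hB : ScrUp j B)
    (N : ℕ) :
    PinTr ((scrFm t j A A + scrFm t j B B) / 2) N
      (fun m => ((scrFm t j A (scrSh (((m + N : ℕ) : ℤ) • scrNor j) B) : ℝ) : ℂ)) :=
  scr142t_cut_tr t ht1 ht2 (scr142w_inv t ht1 ht2) (scr142w_rp t ht1 ht2) j A B hA hB N

/-! ## 2. Cut229c -/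

open Classical in
/-- (CI) = `scr_cut_ci` (239, 199). -/
theorem scr142w_ci (t : ℝ) (ht1 : 1 / 2 ≤ t) (ht2 : t < 1) (Λ : ScrLay) (hΛ : Λ.Ok) :
    ∃ δ₀ : ℝ, 0 < δ₀ ∧ ∀ δ : ℝ, 0 < δ → δ < δ₀ → ∀ F : Finset (ℤ × ℤ), ScrFits Λ δ F → ∀ ω₀ : RswCfg, ScrSucc Λ δ ω₀ →
      ∀ X G : RswCfg → ℝ, ScrIn δ (Metric.closedBall Λ.z Λ.r) X → ScrIn δ (Metric.closedBall Λ.z Λ.s)ᶜ G →
      rswE t F true (fun ω => if scrYL Λ δ ω = scrYL Λ δ ω₀ ∧ ScrBr Λ δ ω₀ ω then X ω * G ω else 0) *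
          rswE t F true (fun ω => if scrYL Λ δ ω = scrYL Λ δ ω₀ ∧ ScrBr Λ δ ω₀ ω then 1 else 0)
        = rswE t F true (fun ω => if scrYL Λ δ ω = scrYL Λ δ ω₀ ∧ ScrBr Λ δ ω₀ ω then X ω else 0) *
          rswE t F true (fun ω => if scrYL Λ δ ω = scrYL Λ δ ω₀ ∧ ScrBr Λ δ ω₀ ω then G ω else 0) :=
  scr239_cut_ci t ht1 ht2 Λ hΛ

/-- (POS) = `scr_cut_pos` (260). -/
theorem scr142w_pos (t : ℝ) (ht1 : 1 / 2 ≤ t) (ht2 : t < 1) (Λ : ScrLay) (hΛ : Λ.Ok) :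
    ∃ δ₀ : ℝ, 0 < δ₀ ∧ ∀ δ : ℝ, 0 < δ → δ < δ₀ → ∀ F : Finset (ℤ × ℤ), ScrFits Λ δ F → ∀ ω₀ : RswCfg, ScrSucc Λ δ ω₀ →
      0 < rswP t F true (fun ω => scrPats δ Λ.blk ω = scrPats δ Λ.blk ω₀) →
      0 < rswP t F true (fun ω => scrPats δ Λ.blk ω = scrPats δ Λ.blk ω₀ ∧ ScrBr Λ δ ω₀ ω) :=
  scr260_cut_pos t ht1 ht2 Λ hΛ

/-- (TV) = `scr_cut_tv` (142, 91, 12). -/
theorem scr142w_tv (t : ℝ) (ht1 : 1 / 2 ≤ t) (ht2 : t < 1) (Λ : ScrLay) (hΛ : Λ.Ok) :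
    ∃ δ₀ : ℝ, 0 < δ₀ ∧ ∀ δ : ℝ, 0 < δ → δ < δ₀ → ∀ F : Finset (ℤ × ℤ), RswJordan F → ScrFits Λ δ F →
      ∀ A : RswCfg → ℝ, (∀ ω, |A ω| ≤ 1) → ScrOff Λ δ A →
      |rswE t F true A - scrQ t F Λ δ A| ≤ 2 * ∑ k : Fin 4, rswP t F true (fun ω => ScrSucc Λ δ ω ∧ ¬ ScrCirc F Λ δ k ω) :=
  scr142v_cut_tv_full t ht1 ht2 Λ hΛ

/-- (SHIELD) = `scr_cut_shield` (99, 39, 62). -/
theorem scr142w_shield (t : ℝ) (ht1 : 1 / 2 ≤ t) (ht2 : t < 1) :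
    ∃ p η : ℝ → ℝ, (∀ q, 0 < q → 0 < p q ∧ p q ≤ 1) ∧ Tendsto η (𝓝[>] 0) (𝓝 0) ∧ ∀ Λ : ScrLay, Λ.Ok →
      ∃ δ₀ : ℝ, 0 < δ₀ ∧ ∀ δ : ℝ, 0 < δ → δ < δ₀ → ∀ F : Finset (ℤ × ℤ), RswJordan F → ScrFits Λ δ F → ∀ k : Fin 4,
        rswP t F true (fun ω => ¬ ScrGapOk Λ δ k ω) ≤ (1 - p Λ.q) ^ Λ.M ∧
        rswP t F true (fun ω => ScrGapOk Λ δ k ω ∧ ¬ ScrCirc F Λ δ k ω) ≤ η Λ.q :=
  scr99s_shield' t ht1 ht2 (scr39_arm t ht1 ht2)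

/-! ## 3. Cut229b -/

/-- (M52) = `scr_cut_mom` (221 and his pens; twin 179).  Not consumed by (GAP) any more (which uses `scr142w_mom`). -/
theorem scr142w_mom52 (t : ℝ) (ht1 : 1 / 2 ≤ t) (ht2 : t < 1) (r c0 M : ℝ) (hr : 0 < r) (hc0 : 0 < c0) (m : ℕ)
    (φ : ℝ × ℝ → ℝ) (hφ : ContDiff ℝ ((⊤ : ℕ∞) : WithTop ℕ∞) φ) (hφs : tsupport φ ⊆ Metric.ball (0 : ℝ × ℝ) (r / 2)) :
    ∃ C δ₀ : ℝ, 0 < δ₀ ∧ ∀ δ : ℝ, 0 < δ → δ < δ₀ → ∀ (a : ℤ × ℤ) (U : Fin m → Set (ℝ × ℝ)) (π : Fin m → RswCfg),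
      (∀ i, ∃ c : ℝ × ℝ, U i ⊆ Metric.closedBall c M) →
      (∀ i j, i ≠ j → ∀ p ∈ U i, ∀ p' ∈ U j, c0 ≤ dist p p') →
      (∀ i, ∀ p ∈ U i, r + c0 ≤ dist p (scr232P δ a)) →
      scrPl t (fun ω => (scrSh a (scrIns δ 0 φ) ω) ^ 2 * ∏ i, scrPatI δ (U i) (π i) ω)
        ≤ C * scrPl t (fun ω => ∏ i, scrPatI δ (U i) (π i) ω) :=
  mom221_main t ht1 ht2 r c0 M hr hc0 m φ hφ hφs

/-- (SEP) = `scr_cut_sep` (129). -/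
theorem scr142w_sep (t : ℝ) (ht1 : 1 / 2 ≤ t) (ht2 : t < 1) (z : ℝ × ℝ) (r : ℝ) (hr : 0 < r) (η : ℝ) (hη : 0 < η) :
    ∃ (s w h g c0 : ℝ) (blk : Fin 4 → Set (ℝ × ℝ)), ScrScene s w h g (r / 400) ∧ s < r ∧ 0 < c0 ∧
      (∀ i, blk i ⊆ scrHull z.1 z.2 s w h g (r / 400) i) ∧
      ∀ δ : ℕ → ℝ, (∀ n, 0 < δ n) → Tendsto δ atTop (𝓝 0) → ∀ᶠ n in atTop, ∃ n0 : ℕ, ∀ F : Finset (ℤ × ℤ), RswJordan F →
        rswBox 0 n0 ⊆ F → ∀ X G : RswCfg → ℝ, (∀ ω, |X ω| ≤ 1) → (∀ ω, |G ω| ≤ 1) →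
        ScrIn (δ n) (Metric.closedBall z (r / 400)) X → ScrIn (δ n) (scrSq z r)ᶜ G →
        ∃ (sel : (Fin 4 → ScrPatT) → Finset (ℤ × ℤ)) (G' : (Fin 4 → ScrPatT) × Finset (ℤ × ℤ) → ℝ),
          ScrCore (δ n) c0 blk sel ∧ (∀ y, |G' y| ≤ 1) ∧
          |rswE t F true fun ω => X ω * G ω| ≤ |rswE t F true fun ω => X ω * G' (scrY (δ n) blk sel ω)| + η :=
  scs129_cut_sep t ht1 ht2 (scr142w_ci t ht1 ht2) (scr142w_tv t ht1 ht2) (scr142w_shield t ht1 ht2) z r hr η hη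

/-- (GAP) = `scr_cut_gap` (232, 99, 221, 62), from `hpat`. -/
theorem scr142w_gap (t : ℝ) (ht1 : 1 / 2 ≤ t) (ht2 : t < 1) (hpat : Scr232gPat t) (x0 y0 s w h g r : ℝ) (hsc : ScrScene s w h g r)
    (blk : Fin 4 → Set (ℝ × ℝ)) (hblk : ∀ i, blk i ⊆ scrHull x0 y0 s w h g r i)
    (φ : ℝ × ℝ → ℝ) (hφ : ContDiff ℝ ((⊤ : ℕ∞) : WithTop ℕ∞) φ) (hφs : tsupport φ ⊆ Metric.ball (x0, y0) (r / 2))
    (δ : ℕ → ℝ) (hδ : ∀ n, 0 < δ n) (hδ0 : Tendsto δ atTop (𝓝 0)) (ε : ℝ) (hε : 0 < ε) :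
    ∀ᶠ n in atTop, ∀ (π : Fin 4 → RswCfg) (Fc : Fin 4 → RswCfg → ℝ), (∀ i ω, |Fc i ω| ≤ 1) →
      (∀ i, ScrIn (δ n) (blk i) (Fc i)) →
      |scrPl t fun ω => scrIns (δ n) (x0, y0) φ ω * ∏ i, (scrPatI (δ n) (blk i) (π i) ω * Fc i ω)|
        ≤ ε * ∏ i, scrPl t (scrPatI (δ n) (blk i) (π i)) :=
  scr232g_cut_gap t ht1 ht2 (scr142w_rp t ht1 ht2) (scr142w_tr t ht1 ht2) hpat (scr142w_mom t ht1 ht2) x0 y0 s w h g r hsc blk hblk φ hφ hφs δ hδ hδ0 ε hε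

/-- (COL) = `scr_cut_col` (176, 32), from `hpat`. -/
theorem scr142w_col (t : ℝ) (ht1 : 1 / 2 ≤ t) (ht2 : t < 1) (hpat : Scr232gPat t) (x0 y0 s w h g r c0 : ℝ) (hsc : ScrScene s w h g r) (hc0 : 0 < c0)
    (blk : Fin 4 → Set (ℝ × ℝ)) (hblk : ∀ i, blk i ⊆ scrHull x0 y0 s w h g r i)
    (φ : ℝ × ℝ → ℝ) (hφ : ContDiff ℝ ((⊤ : ℕ∞) : WithTop ℕ∞) φ) (hφs : tsupport φ ⊆ Metric.ball (x0, y0) (r / 2))
    (δ : ℕ → ℝ) (hδ : ∀ n, 0 < δ n) (hδ0 : Tendsto δ atTop (𝓝 0)) (ε : ℝ) (hε : 0 < ε) :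
    ∀ᶠ n in atTop, ∀ (sel : (Fin 4 → ScrPatT) → Finset (ℤ × ℤ)), ScrCore (δ n) c0 blk sel →
      ∀ G : (Fin 4 → ScrPatT) × Finset (ℤ × ℤ) → ℝ, (∀ y, |G y| ≤ 1) →
      |scrPl t fun ω => scrIns (δ n) (x0, y0) φ ω * G (scrY (δ n) blk sel ω)| ≤ ε :=
  col176_cut_col t ht1 ht2 (scr142w_gap t ht1 ht2 hpat) x0 y0 s w h g r c0 hsc hc0 blk hblk φ hφ hφs δ hδ hδ0 ε hε

/-- (PL) = `scr_cut_plane` (262), from `hpat`. -/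
theorem scr142w_plane (t : ℝ) (ht1 : 1 / 2 ≤ t) (ht2 : t < 1) (hpat : Scr232gPat t) (z : ℝ × ℝ) (r : ℝ) (hr : 0 < r)
    (φ : ℝ × ℝ → ℝ) (hφ : ContDiff ℝ ((⊤ : ℕ∞) : WithTop ℕ∞) φ) (hφs : tsupport φ ⊆ Metric.ball z (r / 900))
    (δ : ℕ → ℝ) (hδ : ∀ n, 0 < δ n) (hδ0 : Tendsto δ atTop (𝓝 0)) (ε : ℝ) (hε : 0 < ε) :
    ∀ᶠ n in atTop, ∀ G : RswCfg → ℝ, ScrLoc G → (∀ ω, |G ω| ≤ 1) → ScrIn (δ n) (scrSq z r)ᶜ G →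
      |scrPl t fun ω => scrIns (δ n) z φ ω * G ω| ≤ ε :=
  scp262_cut_plane (by linarith) ht2.le (exit_rsw_plane t ht1 ht2) (exit_rsw_mom_plane t ht1 ht2) (scr142w_sep t ht1 ht2)
    (scr142w_col t ht1 ht2 hpat) z r hr φ hφ hφs δ hδ hδ0 ε hε

/-- (FLAT) = `scr_cut_flat` (32, 252, 262), from `hpat`. -/
theorem scr142w_flat (t : ℝ) (ht1 : 1 / 2 ≤ t) (ht2 : t < 1) (hpat : Scr232gPat t) (z : ℝ × ℝ) (r r' : ℝ) (hr : 0 < r) (hrr : r < r')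
    (φ : ℝ × ℝ → ℝ) (hφ : ContDiff ℝ ((⊤ : ℕ∞) : WithTop ℕ∞) φ) (hφs : tsupport φ ⊆ Metric.ball z (r / 900))
    (δ : ℕ → ℝ) (hδ : ∀ n, 0 < δ n) (hδ0 : Tendsto δ atTop (𝓝 0)) (ε : ℝ) (hε : 0 < ε) :
    ∀ᶠ n in atTop, ∀ F : Finset (ℤ × ℤ), ScrFlat (δ n) F → scrSq z r' ⊆ faceRegionSq (δ n) F →
      ∀ G : RswCfg → ℝ, (∀ ω, |G ω| ≤ 1) → ScrIn (δ n) (scrSq z r)ᶜ G →
      |rswE t F true fun ω => scrIns (δ n) z φ ω * G ω| ≤ ε :=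
  scr32f_cut_flat t ht1 ht2 (scr142w_plane t ht1 ht2 hpat) z r r' hr hrr φ hφ hφs δ hδ hδ0 ε hε

/-! ## 4. the contract of the unit -/

/-- **`at_screen`** (Exit/Screen) VERBATIM, from `hpat` alone (top glue: 52). -/
theorem scr142w_screen (hpat : ∀ t : ℝ, 1 / 2 ≤ t → t < 1 → Scr232gPat t) (t : ℝ) (ht1 : 1 / 2 ≤ t) (ht2 : t < 1) (z : ℝ × ℝ) (r r' R : ℝ) (hr : 0 < r) (hrr : r < r')
    (φ : ℝ × ℝ → ℝ) (hφ : ContDiff ℝ ((⊤ : ℕ∞) : WithTop ℕ∞) φ) (hφs : tsupport φ ⊆ Metric.ball z (r / 1000))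
    (ε : ℝ) (hε : 0 < ε) :
    ∃ δ₀ : ℝ, 0 < δ₀ ∧ ∀ δ : ℝ, 0 < δ → δ < δ₀ → ∀ F : Finset (ℤ × ℤ), ScrFlat δ F →
      scrSq z r' ⊆ faceRegionSq δ F → faceRegionSq δ F ⊆ scrSq z R →
      ∀ G : at92Cfg F → ℝ, (∀ p, |G p| ≤ 1) → ScrExt δ F (scrSq z r) G →
        |scrE t F (fun p => at92X δ (lap2 φ) p * G p)| ≤ ε :=
  scr52g_screen_of_flat (fun t ht1 ht2 => scr142w_flat t ht1 ht2 (hpat t ht1 ht2)) t ht1 ht2 z r r' R hr hrr φ hφ hφs ε hε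

end Claimed.Agent.R292
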